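import Vale.Agent.P347.Zero.TrajL2

/-!
All orders along the flow: the `n`-th derivative of the drift along the probability flow has squared
`L²` norm at most `C (d + 1 + ‖g 0‖²) (1 - r²)^(-2n)` under the exact law.
-/

noncomputable section

open MeasureTheory Filter Topology Set
open scoped RealInnerProductSpace ContDiff

namespace Vale.Agent.P347.Zero

variable {d : ℕ} {h : ℝ}
variable {I J A B G : Type} [Fintype I] [DecidableEq I] [Fintype J] [DecidableEq J]
  [Fintype A] [DecidableEq A] [Fintype B] [DecidableEq B] [Fintype G] [DecidableEq G]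

/-- The size of the problem. -/
def siz (P : Pot d h) : ℝ := (d : ℝ) + 1 + ‖P.g 0‖ ^ 2

theorem siz_pos (P : Pot d h) : 0 < siz P := by
  unfold siz; positivity

theorem le_siz (P : Pot d h) : (d : ℝ) ≤ siz P := by
  unfold siz; linarith [sq_nonneg ‖P.g 0‖]

/-- The weight `w` at correlation `r`. -/
def wgt (r : ℝ) (w : ℕ) : ℝ := ((Real.sqrt (1 - r ^ 2))⁻¹ ^ w) ^ 2

theorem wgt_nonneg (r : ℝ) (w : ℕ) : 0 ≤ wgt r w := sq_nonneg _

theorem wgt_zero (r : ℝ) : wgt r 0 = 1 := by simp [wgt]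

theorem wgt_mono {r : ℝ} (hr : r ∈ Ioo (-1 : ℝ) 1) {w w' : ℕ} (hw : w ≤ w') :
    wgt r w ≤ wgt r w' :=
  pow_le_pow_left₀ (by positivity)
    (inv_pow_mono (var_pos hr) (by linarith [sq_nonneg r]) hw) 2

/-- Bounded in square mean under the law of the channel, with weight `w`. -/
def Lb (w : ℕ) (F : Fam I) : Prop :=
  ∃ C : ℝ, 0 ≤ C ∧ ∀ d h (P : Pot d h), h ≤ 1 → ∀ r : ℝ, ∀ hr : r ∈ Ioo (-1 : ℝ) 1,
    (∀ i, Grow fun y => F d h P (r, y) i) ∧
      ∫ y, hsT (F d h P (r, y)) ∂mu (potR P r hr) ≤ C * siz P * wgt r w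

/-- The first `n` derivatives in the point bounded in square mean. -/
def LN : ℕ → ℕ → {I : Type} → [Fintype I] → [DecidableEq I] → Fam I → Prop
  | 0, w, _, _, _, F => Lb w F
  | n + 1, w, _, _, _, F => Lb w F ∧ LN n (w + 1) (dA F)

/-- Every derivative in the point bounded in square mean. -/
def Ll (w : ℕ) (F : Fam I) : Prop := ∀ n, LN n w F

/-- Smooth, bounded in square mean, and so are the first `n` derivatives along the flow. -/
def Reg : ℕ → ℕ → {I : Type} → [Fintype I] → [DecidableEq I] → Fam I → Prop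
  | 0, w, _, _, _, F => RSmF F ∧ Ll w F
  | n + 1, w, _, _, _, F => RSmF F ∧ Ll w F ∧ Reg n (w + 2) (drF F)

/-! ### Square means -/

theorem int_hsT {F : Fam I} (hs : RSmF F) (P : Pot d h) {r : ℝ} (hr : r ∈ Ioo (-1 : ℝ) 1)
    (hg : ∀ i, Grow fun y => F d h P (r, y) i) :
    Integrable (fun y => hsT (F d h P (r, y))) (mu (potR P r hr)) :=
  mu_int (Finset.measurable_fun_sum _ fun i _ => ((hs d h P i).meas hr).pow_const 2)
    (grow_finsum _ fun i => grow_pow (hg i) 2)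

theorem Lb.congr {w : ℕ} {F H : Fam I} (hF : Lb w F) (he : EqR F H) : Lb w H := by
  obtain ⟨C, hC, hb⟩ := hF
  refine ⟨C, hC, fun d h P hh r hr => ?_⟩
  have e : ∀ y, H d h P (r, y) = F d h P (r, y) := fun y => (he d h P (r, y) hr).symm
  simp only [e]
  exact hb d h P hh r hr

theorem Lb.mono {w w' : ℕ} {F : Fam I} (hF : Lb w F) (hw : w ≤ w') : Lb w' F := by
  obtain ⟨C, hC, hb⟩ := hF
  exact ⟨C, hC, fun d h P hh r hr => ⟨(hb d h P hh r hr).1, (hb d h P hh r hr).2.trans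
    (mul_le_mul_of_nonneg_left (wgt_mono hr hw) (mul_nonneg hC (siz_pos P).le))⟩⟩

theorem Lb.relabel {w : ℕ} {F : Fam I} (hF : Lb w F) (e : I ≃ J) : Lb w (reF e F) := by
  obtain ⟨C, hC, hb⟩ := hF
  refine ⟨C, hC, fun d h P hh r hr => ⟨fun j => (hb d h P hh r hr).1 (j ∘ e), ?_⟩⟩
  simp only [reF, hsT_re]
  exact (hb d h P hh r hr).2

theorem Lb.add {w : ℕ} {F H : Fam I} (hF : Lb w F) (hH : Lb w H) (sF : RSmF F) (sH : RSmF H) :
    Lb w (addFam F H) := by
  obtain ⟨C, hC, hb⟩ := hF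
  obtain ⟨D, hD, hb'⟩ := hH
  refine ⟨2 * C + 2 * D, by positivity, fun d h P hh r hr => ?_⟩
  obtain ⟨g1, b1⟩ := hb d h P hh r hr
  obtain ⟨g2, b2⟩ := hb' d h P hh r hr
  have i1 := (int_hsT sF P hr g1).const_mul 2
  have i2 := (int_hsT sH P hr g2).const_mul 2
  refine ⟨fun i => grow_add (g1 i) (g2 i), ?_⟩
  refine (integral_mono (int_hsT (sF.add sH) P hr fun i => grow_add (g1 i) (g2 i))
    (i1.add i2) fun y => ?_).trans ?_
  · simp only [hsT, Pi.add_apply, addFam, Finset.mul_sum, ← Finset.sum_add_distrib]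
    exact Finset.sum_le_sum fun i _ => by
      nlinarith [sq_nonneg (F d h P (r, y) i - H d h P (r, y) i)]
  · rw [integral_add' i1 i2, integral_const_mul, integral_const_mul]
    linarith

theorem Lb.rF {w : ℕ} {F : Fam I} (hF : Lb w F) : Lb w (Zero.rF F) := by
  obtain ⟨C, hC, hb⟩ := hF
  refine ⟨C, hC, fun d h P hh r hr => ?_⟩
  obtain ⟨g, b⟩ := hb d h P hh r hr
  refine ⟨fun i => grow_mul (grow_const r) (g i), ?_⟩
  have e : ∀ y, hsT (Zero.rF F d h P (r, y)) = r ^ 2 * hsT (F d h P (r, y)) := fun y => by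
    simp only [hsT, Zero.rF, Finset.mul_sum, mul_pow]
  simp only [e, integral_const_mul]
  refine le_trans (mul_le_of_le_one_left (integral_nonneg fun y => hsT_nonneg _) ?_) b
  nlinarith [hr.1, hr.2]

/-! ### Iterated derivatives in the point -/

theorem LN.lb {n w : ℕ} {F : Fam I} (h : LN n w F) : Lb w F := by
  cases n
  · exact h
  · exact h.1

theorem LN.congr : ∀ {n w : ℕ} {I : Type} [Fintype I] [DecidableEq I] {F H : Fam I},
    LN n w F → EqR F H → LN n w H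
  | 0, _, _, _, _, _, _, hF, he => Lb.congr hF he
  | _ + 1, _, _, _, _, _, _, hF, he => ⟨hF.1.congr he, LN.congr hF.2 he.dA⟩

theorem LN.mono : ∀ {n w w' : ℕ} {I : Type} [Fintype I] [DecidableEq I] {F : Fam I},
    LN n w F → w ≤ w' → LN n w' F
  | 0, _, _, _, _, _, _, hF, hw => Lb.mono hF hw
  | _ + 1, _, _, _, _, _, _, hF, hw => ⟨hF.1.mono hw, LN.mono hF.2 (Nat.add_le_add_right hw 1)⟩

theorem LN.pred : ∀ {n w : ℕ} {I : Type} [Fintype I] [DecidableEq I] {F : Fam I},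
    LN (n + 1) w F → LN n w F
  | 0, _, _, _, _, _, hF => hF.1
  | _ + 1, _, _, _, _, _, hF => ⟨hF.1, LN.pred hF.2⟩

theorem LN.relabel : ∀ {n w : ℕ} {I J : Type} [Fintype I] [DecidableEq I] [Fintype J]
    [DecidableEq J] {F : Fam I}, LN n w F → ∀ e : I ≃ J, LN n w (reF e F)
  | 0, _, _, _, _, _, _, _, _, hF, e => Lb.relabel hF e
  | _ + 1, _, _, _, _, _, _, _, _, hF, e => ⟨hF.1.relabel e, by
      rw [dA_reF]; exact LN.relabel hF.2 _⟩

theorem LN.add : ∀ {n w : ℕ} {I : Type} [Fintype I] [DecidableEq I] {F H : Fam I},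
    LN n w F → LN n w H → RSmF F → RSmF H → LN n w (addFam F H)
  | 0, _, _, _, _, _, _, hF, hH, sF, sH => Lb.add hF hH sF sH
  | _ + 1, _, _, _, _, _, _, hF, hH, sF, sH =>
    ⟨hF.1.add hH.1 sF sH, (LN.add hF.2 hH.2 sF.dA sH.dA).congr fun d h P q hq =>
      (dA_addR sF sH d h P q hq).symm⟩

theorem LN.rF : ∀ {n w : ℕ} {I : Type} [Fintype I] [DecidableEq I] {F : Fam I},
    LN n w F → RSmF F → LN n w (Zero.rF F)
  | 0, _, _, _, _, _, hF, _ => Lb.rF hF
  | _ + 1, _, _, _, _, _, hF, sF =>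
    ⟨hF.1.rF, (LN.rF hF.2 sF.dA).congr (dA_rF sF).symm⟩

/-! ### Contraction with a bounded family -/

theorem SplitB.abs_le [Nonempty A] [Nonempty B] {C : ℝ} {T : Ten d (A ⊕ B)} (hT : SplitB C T)
    (i : A ⊕ B → Fin d) : |T i| ≤ C := by
  classical
  have h := (hT A B (Equiv.refl _)).2 (Pi.single (i ∘ Sum.inl) 1) (Pi.single (i ∘ Sum.inr) 1)
  simp only [Pi.single_apply, mul_ite, mul_one, mul_zero, Finset.sum_ite_eq', Finset.mem_univ,
    if_true, ite_pow, one_pow, zero_pow two_ne_zero, Real.sqrt_one, glue] at h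
  simpa using h

theorem EqR.ctrL {F F' : Fam (A ⊕ G)} (he : EqR F F') (H : Fam (G ⊕ B)) :
    EqR (ctrF F H) (ctrF F' H) :=
  fun d h P q hq => by simp only [ctrF, he d h P q hq]

theorem lb_ctr [Nonempty A] [Nonempty G] {w w' : ℕ} {F : Fam (A ⊕ G)} {H : Fam (G ⊕ B)}
    (hF : BdF w F) (sF : SmF F) (hH : Lb w' H) (sH : RSmF H) :
    Lb (w + w') (ctrF (cmpF F) H) := by
  obtain ⟨C, hC, hb⟩ := hF
  obtain ⟨D, hD, hb'⟩ := hH
  refine ⟨C ^ 2 * D, by positivity, fun d h P hh r hr => ?_⟩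
  obtain ⟨g, b⟩ := hb' d h P hh r hr
  set K := C * (Real.sqrt (1 - r ^ 2))⁻¹ ^ w with hK
  have hT : ∀ y : Space d, SplitB K (cmpF F d h P (r, y)) := fun y =>
    hb d h P hh (chan (r, y)) (var_pos hr) (by simp [chan, sq_nonneg])
  have g' : ∀ i, Grow fun y => ctrF (cmpF F) H d h P (r, y) i := fun i =>
    grow_finsum _ fun c => grow_mul
      (grow_mono (grow_const K) fun y => by
        rw [Real.norm_eq_abs, Real.norm_eq_abs]
        exact ((hT y).abs_le _).trans (le_abs_self K))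
      (g _)
  refine ⟨g', ?_⟩
  refine (integral_mono (int_hsT (sF.cmpF.ctrF sH) P hr g')
    ((int_hsT sH P hr g).const_mul (K ^ 2)) fun y => hsT_ctr_le (hT y) _).trans ?_
  rw [integral_const_mul]
  refine (mul_le_mul_of_nonneg_left b (sq_nonneg K)).trans_eq ?_
  rw [hK, wgt, wgt, pow_add]
  ring

theorem ln_ctr : ∀ (n : ℕ) {w w' : ℕ} {A G B : Type} [Fintype A] [DecidableEq A] [Fintype G]
    [DecidableEq G] [Fintype B] [DecidableEq B] [Nonempty A] [Nonempty G] {F : Fam (A ⊕ G)}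
    {H : Fam (G ⊕ B)}, Fl w F → SmF F → LN n w' H → RSmF H → LN n (w + w') (ctrF (cmpF F) H)
  | 0, _, _, _, _, _, _, _, _, _, _, _, _, _, _, _, hF, sF, hH, sH => lb_ctr (hF 0) sF hH sH
  | n + 1, w, w', A, G, B, _, _, _, _, _, _, _, _, F, H, hF, sF, hH, sH => by
    refine ⟨lb_ctr (hF 0) sF hH.1 sH, ?_⟩
    have hF' : Fl (w + 1) (reF (optL A G) (dA F)) := fun k => ((hF (k + 1)).2).relabel _
    have s1 : RSmF (rF (ctrF (cmpF (reF (optL A G) (dA F))) H)) :=
      ((sF.dA.relabel _).cmpF.ctrF sH).rF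
    have l1 := ((ln_ctr n hF' (sF.dA.relabel _) hH.pred sH).rF
      ((sF.dA.relabel _).cmpF.ctrF sH)).relabel (optL A B).symm
    have l2 := (ln_ctr n hF sF (hH.2.relabel (optR G B)) (sH.dA.relabel _)).relabel (optR A B).symm
    refine ((l1.mono (show w + 1 + w' ≤ w + w' + 1 by omega)).add
      (l2.mono (show w + (w' + 1) ≤ w + w' + 1 by omega)) (s1.relabel _)
      ((sF.cmpF.ctrF (sH.dA.relabel _)).relabel _)).congr ?_
    intro d h P q hq
    rw [dA_ctrR sF.cmpF sH d h P q hq]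
    funext i
    simp only [addFam, reF, reT]
    congr 1
    rw [← ctrF_rF]
    simp only [ctrF, ctr]
    refine Finset.sum_congr rfl fun c _ => ?_
    congr 1
    exact (congrFun (dA_cmpF sF d h P q hq) _).symm

theorem ll_insK (hK : Fl 0 Kf) {w : ℕ} {S : Fam (Option I)} (hS : Ll w S) (sS : RSmF S) :
    Ll w (insK S) := fun n =>
  ((ln_ctr n (fun k => (hK k).relabel (optU Unit)) (sm_Kf.relabel _)
    ((hS n).relabel (optU I)) (sS.relabel _)).relabel (optU I).symm).mono (Nat.zero_add w).le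

/-! ### The divergence -/

theorem lb_dlF (hK : BdF 0 Kf) {w : ℕ} {S : Fam (Option I)} (hS : LN 2 w S) (sS : RSmF S) :
    Lb (w + 1) (dlF S) := by
  obtain ⟨K, hK0, hKb⟩ := hK
  obtain ⟨⟨C, hC, hb⟩, ⟨C', hC', hb'⟩, C'', -, hb''⟩ := hS
  refine ⟨C' + (1 + K) * C, by positivity, fun d h P hh r hr => ?_⟩
  obtain ⟨g0, b0⟩ := hb d h P hh r hr
  obtain ⟨g1, b1⟩ := hb' d h P hh r hr
  have g2 := (hb'' d h P hh r hr).1
  have k0 : ∀ (i : I → Fin d) a, Grow fun y => S d h P (r, y) fun o => o.elim a i :=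
    fun i a => g0 _
  have k1 : ∀ (i : I → Fin d) a c,
      Grow fun y => pD c (fun p => S d h P p fun o => o.elim a i) (r, y) := fun i a c =>
    g1 fun o => o.elim c fun o' => o'.elim a i
  have k2 : ∀ (i : I → Fin d) a b c,
      Grow fun y => pD c (pD b fun p => S d h P p fun o => o.elim a i) (r, y) := fun i a b c =>
    g2 fun o => o.elim c fun o' => o'.elim b fun o'' => o''.elim a i
  have hk : ∀ y : Space d, MatB K fun a c => kR P a c (r, y) := fun y => by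
    have h1 : SplitB (C := K * (Real.sqrt (chan (r, y)).1)⁻¹ ^ 0) (Kf d h P (chan (r, y))) :=
      hKb d h P hh (chan (r, y)) (var_pos hr) (by simp [chan, sq_nonneg])
    have h2 := (h1 Unit Unit (optU Unit).symm).equiv (Equiv.funUnique Unit (Fin d)).symm
      (Equiv.funUnique Unit (Fin d)).symm
    simpa [Kf, kR, glue, optU] using h2
  refine ⟨fun i => grow_dlS P hr (k0 i) (k1 i), ?_⟩
  set ν := mu (potR P r hr) with hν
  have e0 : ∀ y : Space d, hsT (S d h P (r, y))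
      = ∑ i : I → Fin d, ∑ a, (S d h P (r, y) fun o => o.elim a i) ^ 2 := fun y => by
    rw [hsT, ← (Equiv.piOptionEquivProd (β := fun _ : Option I => Fin d)).symm.sum_comp,
      Fintype.sum_prod_type, Finset.sum_comm]
    refine Finset.sum_congr rfl fun i _ => Finset.sum_congr rfl fun a _ => ?_
    congr 2
    funext o; rcases o with _ | o <;> rfl
  have e1 : ∀ y : Space d, hsT (dA S d h P (r, y)) = ∑ i : I → Fin d, ∑ a, ∑ b,
      pD b (fun p => S d h P p fun o => o.elim a i) (r, y) ^ 2 := fun y => by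
    rw [hsT, ← (Equiv.piOptionEquivProd (β := fun _ : Option (Option I) => Fin d)).symm.sum_comp,
      Fintype.sum_prod_type]
    conv_lhs => arg 2; ext b; rw [← (Equiv.piOptionEquivProd
      (β := fun _ : Option I => Fin d)).symm.sum_comp, Fintype.sum_prod_type, Finset.sum_comm]
    rw [Finset.sum_comm]
    refine Finset.sum_congr rfl fun i _ => ?_
    rw [Finset.sum_comm]
    refine Finset.sum_congr rfl fun a _ => Finset.sum_congr rfl fun b _ => ?_
    congr 1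
    show pD _ _ _ = pD b _ _
    congr 1
    funext p; congr 1; funext o; rcases o with _ | o <;> rfl
  have hT : ∀ (i : I → Fin d) (a : Fin d), RSm fun p => S d h P p fun o => o.elim a i :=
    fun i a => sS d h P _
  have iS : ∀ i : I → Fin d, Integrable
      (fun y => ∑ a, (S d h P (r, y) fun o => o.elim a i) ^ 2) ν := fun i =>
    mu_int (Finset.measurable_fun_sum _ fun a _ => ((hT i a).meas hr).pow_const 2)
      (grow_finsum _ fun a => grow_pow (k0 i a) 2)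
  have iD : ∀ i : I → Fin d, Integrable (fun y => ∑ a, ∑ b,
      pD b (fun p => S d h P p fun o => o.elim a i) (r, y) ^ 2) ν := fun i =>
    mu_int (Finset.measurable_fun_sum _ fun a _ => Finset.measurable_fun_sum _ fun b _ =>
        (((hT i a).pD b).meas hr).pow_const 2)
      (grow_finsum _ fun a => grow_finsum _ fun b => grow_pow (k1 i a b) 2)
  simp only [e0] at b0
  simp only [e1] at b1
  rw [integral_finsetSum _ fun i _ => iS i] at b0
  rw [integral_finsetSum _ fun i _ => iD i] at b1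
  have il : ∀ i : I → Fin d, Integrable (fun y => dlF S d h P (r, y) i ^ 2) ν := fun i =>
    mu_int (((sS.dlF d h P i).meas hr).pow_const 2)
      (grow_pow (grow_dlS P hr (k0 i) (k1 i)) 2)
  simp only [hsT]
  rw [integral_finsetSum _ fun i _ => il i]
  refine (Finset.sum_le_sum fun i _ =>
    dlS_sq_le P hr (hT i) (k0 i) (k1 i) (k2 i) hk).trans ?_
  rw [Finset.sum_add_distrib, ← Finset.mul_sum]
  refine (add_le_add b1 (mul_le_mul_of_nonneg_left b0 (by linarith))).trans ?_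
  have h1 := mul_le_mul_of_nonneg_left (wgt_mono hr (Nat.le_add_right w 1))
    (mul_nonneg (mul_nonneg (show (0 : ℝ) ≤ 1 + K by linarith) hC) (siz_pos P).le)
  linarith

theorem ln_dlF (hK : Fl 0 Kf) : ∀ (n : ℕ) {w : ℕ} {I : Type} [Fintype I] [DecidableEq I]
    {S : Fam (Option I)}, Ll w S → RSmF S → LN n (w + 1) (dlF S)
  | 0, _, _, _, _, _, hS, sS => lb_dlF (hK 0) (hS 2) sS
  | n + 1, w, I, _, _, S, hS, sS => by
    refine ⟨lb_dlF (hK 0) (hS 2) sS, ?_⟩
    have h1 : Ll (w + 1) (reF (swO I) (dA S)) := fun k => ((hS (k + 1)).2).relabel _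
    refine ((ln_dlF hK n h1 (sS.dA.relabel _)).add
      (((hS n).add (((ll_insK hK hS sS n).rF sS.insK).rF sS.insK.rF) sS sS.insK.rF.rF).mono
        (by omega)) (sS.dA.relabel _).dlF (sS.add sS.insK.rF.rF)).congr (dA_dlF sS).symm

/-! ### Square means of bounded families and of the drift -/

theorem lb_cmp [Nonempty I] {w : ℕ} {F : Fam (Option I)} (hF : BdF w F) (sF : SmF F) :
    Lb w (cmpF F) := by
  obtain ⟨C, hC, hb⟩ := hF
  refine ⟨C ^ 2, sq_nonneg C, fun d h P hh r hr => ?_⟩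
  have := mu_prob (potR P r hr)
  set K := C * (Real.sqrt (1 - r ^ 2))⁻¹ ^ w with hK
  have hT : ∀ y : Space d, SplitB K (cmpF F d h P (r, y)) := fun y =>
    hb d h P hh (chan (r, y)) (var_pos hr) (by simp [chan, sq_nonneg])
  have g : ∀ i, Grow fun y => cmpF F d h P (r, y) i := fun i =>
    grow_mono (grow_const K) fun y => by
      rw [Real.norm_eq_abs, Real.norm_eq_abs]
      have h1 := ((hT y).relabel (optU I)).abs_le (i ∘ (optU I).symm)
      simp only [reT, Function.comp_assoc, Equiv.symm_comp_self, Function.comp_id] at h1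
      exact h1.trans (le_abs_self K)
  refine ⟨g, ?_⟩
  refine (integral_mono (int_hsT sF.cmpF P hr g) (integrable_const ((d : ℝ) ^ 1 * K ^ 2))
    fun y => ?_).trans ?_
  · simpa using hsT_le_of_split (hT y) (optU I).symm
  · rw [integral_const, probReal_univ, one_smul, pow_one, hK, mul_pow]
    refine (mul_le_mul_of_nonneg_right (le_siz P) (mul_nonneg (sq_nonneg C) (sq_nonneg _))).trans_eq
      ?_
    rw [wgt]; ring

theorem ln_cmp : ∀ (n : ℕ) {w : ℕ} {I : Type} [Fintype I] [DecidableEq I] [Nonempty I]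
    {F : Fam (Option I)}, Fl w F → SmF F → LN n w (cmpF F)
  | 0, _, _, _, _, _, _, hF, sF => lb_cmp (hF 0) sF
  | n + 1, w, I, _, _, _, F, hF, sF =>
    ⟨lb_cmp (hF 0) sF, ((ln_cmp n (fun k => (hF (k + 1)).2) sF.dA).rF sF.dA.cmpF).congr
      (dA_cmpF sF).symm⟩

theorem norm_driftV_zero (P : Pot d h) (hh : h ≤ 1) {v : ℝ} (hv : 0 < v) (hv1 : v ≤ 1) :
    ‖driftV P (v, 0)‖ ^ 2 ≤ 4 * siz P := by
  set s := Real.sqrt v with hs
  have hs1 : s ^ 2 ≤ 1 := by rw [hs, Real.sq_sqrt hv.le]; exact hv1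
  set Q := P.aff 0 s with hQ
  have := mu_prob Q
  have hQh : h * s ^ 2 ≤ 1 := by nlinarith [P.h_nonneg, sq_nonneg s]
  set U := driftV P (v, 0) with hU
  have hm := (momentMu d _ Q hQh).1
  have hg0 : ‖Q.g 0‖ ^ 2 ≤ ‖P.g 0‖ ^ 2 := by
    show ‖s • P.g (0 + s • 0)‖ ^ 2 ≤ _
    rw [norm_smul, mul_pow, Real.norm_eq_abs, sq_abs]
    simpa using mul_le_of_le_one_left (sq_nonneg ‖P.g 0‖) hs1
  have ig : Integrable (fun x => ⟪U, P.g (0 + s • x)⟫) (mu Q) :=
    mu_int (by have := P.smooth.continuous; fun_prop)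
      (grow_comp (f := fun x => ⟪U, P.g x⟫) ⟨‖U‖ * (‖P.g 0‖ + h), 1, fun x => by
        rw [Real.norm_eq_abs, pow_one, mul_assoc]
        refine (abs_real_inner_le_norm _ _).trans (mul_le_mul_of_nonneg_left ?_ (norm_nonneg U))
        nlinarith [P.norm_g_le x, norm_nonneg (P.g 0), norm_nonneg x, P.h_nonneg]⟩ _ _)
  have i2 : Integrable (fun x : Space d => ‖x‖ ^ 2) (mu Q) :=
    mu_int (by fun_prop) (grow_pow (grow_norm grow_id) 2)
  have ib : Integrable (fun x : Space d => ‖U‖ ^ 2 / 2 + (‖P.g 0‖ ^ 2 + ‖x‖ ^ 2)) (mu Q) :=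
    (integrable_const _).add ((integrable_const _).add i2)
  have h1 : ‖U‖ ^ 2 = ∫ x, ⟪U, P.g (0 + s • x)⟫ ∂mu Q := by
    rw [← real_inner_self_eq_norm_sq]
    exact inner_driftV P U 0
  have h2 : ‖U‖ ^ 2 ≤ ∫ x, (‖U‖ ^ 2 / 2 + (‖P.g 0‖ ^ 2 + ‖x‖ ^ 2)) ∂mu Q := by
    refine h1.trans_le (integral_mono ig ib fun x => ?_)
    refine (real_inner_le_norm _ _).trans ?_
    have h3 : ‖P.g (0 + s • x)‖ ≤ ‖P.g 0‖ + ‖x‖ := by
      refine (P.norm_g_le _).trans (add_le_add le_rfl ?_)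
      rw [zero_add, norm_smul, Real.norm_eq_abs, abs_of_nonneg (Real.sqrt_nonneg v)]
      refine (mul_le_of_le_one_left (by positivity) hh).trans
        (mul_le_of_le_one_left (norm_nonneg x) ?_)
      exact Real.sqrt_le_one.2 hv1
    nlinarith [sq_nonneg (‖U‖ - ‖P.g (0 + s • x)‖), sq_nonneg (‖P.g 0‖ - ‖x‖),
      norm_nonneg (P.g (0 + s • x)), norm_nonneg U, norm_nonneg x, norm_nonneg (P.g 0)]
  rw [integral_add (integrable_const _)
      (show Integrable (fun x : Space d => ‖P.g 0‖ ^ 2 + ‖x‖ ^ 2) (mu Q) from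
        (integrable_const _).add i2),
    integral_add (integrable_const _) i2, integral_const, integral_const, probReal_univ, one_smul,
    one_smul] at h2
  unfold siz
  linarith [sq_nonneg ‖P.g 0‖, Nat.cast_nonneg (α := ℝ) d]

theorem lb_Uf : Lb 0 (cmpF Uf) := by
  refine ⟨40, by norm_num, fun d h P hh r hr => ?_⟩
  have := mu_prob (potR P r hr)
  have g : ∀ i, Grow fun y => cmpF Uf d h P (r, y) i := fun i => grow_uR P hr (i ())
  refine ⟨g, ?_⟩
  have hv1 : (1 : ℝ) - r ^ 2 ≤ 1 := by linarith [sq_nonneg r]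
  have hr2 : r ^ 2 ≤ 1 := by linarith [var_pos hr]
  have h0 := norm_driftV_zero P hh (var_pos hr) hv1
  have hm := (momentMu d h (potR P r hr) hh).1
  have hg : ‖(potR P r hr).g 0‖ ^ 2 ≤ 4 * siz P := by
    show ‖r • driftV P (1 - r ^ 2, r • 0)‖ ^ 2 ≤ _
    rw [smul_zero, norm_smul, mul_pow, Real.norm_eq_abs, sq_abs]
    exact (mul_le_of_le_one_left (sq_nonneg _) hr2).trans h0
  have i2 : Integrable (fun y : Space d => ‖y‖ ^ 2) (mu (potR P r hr)) :=
    mu_int (by fun_prop) (grow_pow (grow_norm grow_id) 2)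
  refine (integral_mono (int_hsT sm_Uf.cmpF P hr g)
    ((integrable_const (8 * siz P)).add (i2.const_mul 2)) fun y => ?_).trans ?_
  · have e : hsT (cmpF Uf d h P (r, y)) = ‖driftV P (1 - r ^ 2, r • y)‖ ^ 2 := by
      rw [EuclideanSpace.real_norm_sq_eq, hsT, ← (Equiv.funUnique Unit (Fin d)).symm.sum_comp]
      rfl
    rw [e]
    have h3 : ‖driftV P (1 - r ^ 2, r • y) - driftV P (1 - r ^ 2, 0)‖ ≤ ‖y‖ := by
      refine (norm_driftV_sub P (var_pos hr) _ _).trans ?_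
      rw [sub_zero]
      refine (mul_le_of_le_one_left (norm_nonneg _) hh).trans ?_
      rw [norm_smul, Real.norm_eq_abs]
      exact mul_le_of_le_one_left (norm_nonneg y) (abs_le.2 ⟨hr.1.le, hr.2.le⟩)
    have h4 := (norm_le_norm_add_norm_sub' (driftV P (1 - r ^ 2, r • y))
      (driftV P (1 - r ^ 2, 0))).trans (add_le_add le_rfl h3)
    have h5 := pow_le_pow_left₀ (norm_nonneg _) h4 2
    simp only [Pi.add_apply]
    nlinarith [sq_nonneg (‖driftV P (1 - r ^ 2, 0)‖ - ‖y‖)]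
  · rw [integral_add' (integrable_const _) (i2.const_mul 2), integral_const, probReal_univ, one_smul,
      integral_const_mul, wgt_zero]
    linarith [le_siz P, siz_pos P]

theorem ll_Uf (hK : Fl 0 Kf) : Ll 0 (cmpF Uf)
  | 0 => lb_Uf
  | n + 1 => ⟨lb_Uf, ((((ln_cmp n hK sm_Kf).rF sm_Kf.cmpF).mono (Nat.le_succ 0)).congr
      (by rw [← dA_Uf]; exact (dA_cmpF sm_Uf).symm))⟩

/-! ### Iterated derivatives along the flow -/

theorem Reg.sm {n w : ℕ} {F : Fam I} (h : Reg n w F) : RSmF F := by cases n <;> exact h.1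

theorem Reg.ll {n w : ℕ} {F : Fam I} (h : Reg n w F) : Ll w F := by
  cases n
  · exact h.2
  · exact h.2.1

theorem Reg.pred : ∀ {n w : ℕ} {F : Fam I}, Reg (n + 1) w F → Reg n w F
  | 0, _, _, h => ⟨h.1, h.2.1⟩
  | _ + 1, _, _, h => ⟨h.1, h.2.1, Reg.pred h.2.2⟩

theorem Reg.congr : ∀ {n w : ℕ} {I : Type} [Fintype I] [DecidableEq I] {F H : Fam I},
    Reg n w F → EqR F H → Reg n w H
  | 0, _, _, _, _, _, _, hF, he => ⟨hF.1.congr he, fun k => (hF.2 k).congr he⟩
  | _ + 1, _, _, _, _, _, _, hF, he =>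
    ⟨hF.1.congr he, fun k => (hF.2.1 k).congr he, Reg.congr hF.2.2 he.drF⟩

theorem Reg.mono : ∀ {n w w' : ℕ} {I : Type} [Fintype I] [DecidableEq I] {F : Fam I},
    Reg n w F → w ≤ w' → Reg n w' F
  | 0, _, _, _, _, _, _, hF, hw => ⟨hF.1, fun k => (hF.2 k).mono hw⟩
  | _ + 1, _, _, _, _, _, _, hF, hw =>
    ⟨hF.1, fun k => (hF.2.1 k).mono hw, Reg.mono hF.2.2 (Nat.add_le_add_right hw 2)⟩

theorem Reg.relabel : ∀ {n w : ℕ} {I J : Type} [Fintype I] [DecidableEq I] [Fintype J]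
    [DecidableEq J] {F : Fam I}, Reg n w F → ∀ e : I ≃ J, Reg n w (reF e F)
  | 0, _, _, _, _, _, _, _, _, hF, e => ⟨hF.1.relabel e, fun k => (hF.2 k).relabel e⟩
  | _ + 1, _, _, _, _, _, _, _, _, hF, e =>
    ⟨hF.1.relabel e, fun k => (hF.2.1 k).relabel e, by rw [drF_reF]; exact Reg.relabel hF.2.2 e⟩

theorem Reg.add : ∀ {n w : ℕ} {I : Type} [Fintype I] [DecidableEq I] {F H : Fam I},
    Reg n w F → Reg n w H → Reg n w (addFam F H)
  | 0, _, _, _, _, _, _, hF, hH => ⟨hF.1.add hH.1, fun k => (hF.2 k).add (hH.2 k) hF.1 hH.1⟩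
  | _ + 1, _, _, _, _, _, _, hF, hH =>
    ⟨hF.1.add hH.1, fun k => (hF.2.1 k).add (hH.2.1 k) hF.1 hH.1,
      (Reg.add hF.2.2 hH.2.2).congr fun d h P q hq => (drF_addF hF.1 hH.1 d h P q hq).symm⟩

theorem Reg.rF : ∀ {n w : ℕ} {I : Type} [Fintype I] [DecidableEq I] {F : Fam I},
    Reg n w F → Reg n w (Zero.rF F)
  | 0, _, _, _, _, _, hF => ⟨hF.1.rF, fun k => (hF.2 k).rF hF.1⟩
  | _ + 1, w, _, _, _, _, hF =>
    ⟨hF.1.rF, fun k => (hF.2.1 k).rF hF.1,
      ((hF.pred.mono (show w ≤ w + 2 by omega)).add (Reg.rF hF.2.2)).congr (drF_rF hF.1).symm⟩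

theorem reg_insK {n w : ℕ} {S : Fam (Option I)} (hK : Good n 0 Kf)
    (iC : ∀ (F : Fam (Unit ⊕ Unit)) (H : Fam (Unit ⊕ I)), Good n 0 F → Reg n w H →
      Reg n (0 + w) (ctrF (cmpF F) H))
    (hS : Reg n w S) : Reg n w (insK S) :=
  ((iC _ _ (hK.relabel _) (hS.relabel (optU I))).relabel (optU I).symm).mono (Nat.zero_add w).le

theorem reg_closure (hK : Fl 0 Kf) : ∀ n : ℕ,
    (∀ {I : Type} [Fintype I] [DecidableEq I] (w : ℕ) (F : Fam I),
      Reg n w F → Reg n (w + 1) (dA F)) ∧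
    (∀ {I : Type} [Fintype I] [DecidableEq I] (w : ℕ) (S : Fam (Option I)),
      Reg n w S → Reg n (w + 1) (dlF S)) ∧
    (∀ {A G B : Type} [Fintype A] [DecidableEq A] [Fintype G] [DecidableEq G] [Fintype B]
      [DecidableEq B] [Nonempty A] [Nonempty G] (w w' : ℕ) (F : Fam (A ⊕ G)) (H : Fam (G ⊕ B)),
      Good n w F → Reg n w' H → Reg n (w + w') (ctrF (cmpF F) H)) ∧
    (∀ {I : Type} [Fintype I] [DecidableEq I] [Nonempty I] (w : ℕ) (F : Fam (Option I)),
      Good n w F → Reg n w (cmpF F)) := by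
  intro n
  induction n with
  | zero =>
    exact ⟨fun w F hF => ⟨hF.1.dA, fun k => (hF.2 (k + 1)).2⟩,
      fun w S hS => ⟨hS.1.dlF, fun k => ln_dlF hK k hS.2 hS.1⟩,
      fun w w' F H hF hH => ⟨hF.1.cmpF.ctrF hH.1, fun k => ln_ctr k hF.2 hF.1 (hH.2 k) hH.1⟩,
      fun w F hF => ⟨hF.1.cmpF, fun k => ln_cmp k hF.2 hF.1⟩⟩
  | succ n ih =>
    obtain ⟨iD, iL, iC, iE⟩ := ih
    obtain ⟨gK, gD, -⟩ := good_closure hK n
    refine ⟨fun w F hF => ⟨hF.1.dA, fun k => (hF.2.1 (k + 1)).2, ?_⟩,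
      fun w S hS => ⟨hS.1.dlF, fun k => ln_dlF hK k hS.2.1 hS.1, ?_⟩,
      fun w w' F H hF hH =>
        ⟨hF.1.cmpF.ctrF hH.1, fun k => ln_ctr k hF.2.1 hF.1 (hH.2.1 k) hH.1, ?_⟩,
      fun w F hF => ⟨hF.1.cmpF, fun k => ln_cmp k hF.2.1 hF.1, ?_⟩⟩
    · exact (((iD _ _ hF.2.2).mono (show w + 2 + 1 ≤ w + 1 + 2 by omega)).add
        ((reg_insK gK (fun F H => iC _ _ F H) (iD _ _ hF.pred)).rF.mono
          (show w + 1 ≤ w + 1 + 2 by omega))).congr (drF_dA hF.1).symm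
    · exact ((iL _ _ (hS.2.2.add ((reg_insK gK (fun F H => iC _ _ F H) hS.pred).rF.mono
        (show w ≤ w + 2 by omega)))).mono (show w + 2 + 1 ≤ w + 1 + 2 by omega)).congr
          (drF_dlF hS.1).symm
    · rename_i A G B _ _ _ _ _ _ _ _
      have sH := hH.sm
      have sA := hF.1.dA.cmpF
      have l1 := ((iL _ _ ((iC _ _ _ _ ((gD _ _ hF.pred).relabel (optL A G)) hH.pred).relabel
        (optL A B).symm)).mono (show w + 1 + w' + 1 ≤ w + w' + 2 by omega)).add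
        ((iC _ _ _ _ ((gD _ _ hF.pred).relabel (optR A G))
          ((iD _ _ hH.pred).relabel (optL G B))).mono
            (show w + 1 + (w' + 1) ≤ w + w' + 2 by omega))
      have l2 := ((iC _ _ _ _ (hF.2.2.add hF.2.2) hH.pred).rF).mono
        (show w + 2 + w' ≤ w + w' + 2 by omega)
      have l3 := (iC _ _ _ _ hF.pred hH.2.2).mono (show w + (w' + 2) ≤ w + w' + 2 by omega)
      refine ((l1.congr (ctrF_dlF sA sH).symm).add l2 |>.add l3).congr ?_
      intro d h P q hq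
      rw [drF_ctrF hF.1.cmpF sH d h P q hq]
      show addFam (addFam _ _) _ d h P q = _
      funext i
      simp only [addFam]
      congr 1
      rw [← EqR.ctrL (drF_cmpF hF.1).symm H d h P q hq, ctrF_addF, ctrF_rF]
      rfl
    · exact (((iL _ _ (iE _ _ (gD _ _ hF.pred))).mono (show w + 1 + 1 ≤ w + 2 by omega)).add
        ((iE _ _ (hF.2.2.add hF.2.2)).rF)).congr (drF_cmpF hF.1).symm

/-- Every order along the flow. -/
theorem reg_Uf (hK : Fl 0 Kf) : ∀ n : ℕ, Reg n 0 (cmpF Uf)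
  | 0 => ⟨sm_Uf.cmpF, ll_Uf hK⟩
  | n + 1 => ⟨sm_Uf.cmpF, ll_Uf hK,
      ((((reg_closure hK n).2.1 _ _ ((reg_closure hK n).2.2.2 _ _ (good_closure hK n).1))).mono
        (by omega)).congr drF_cmp_Uf.symm⟩

/-- The derivative along the flow, repeated. -/
def drN : ℕ → Fam I → Fam I
  | 0, F => F
  | n + 1, F => drN n (drF F)

theorem Reg.drN : ∀ {n w : ℕ} {F : Fam I}, Reg n w F → RSmF (Zero.drN n F) ∧ Lb (w + 2 * n) (Zero.drN n F)
  | 0, _, _, h => ⟨h.1, h.2 0⟩
  | n + 1, w, _, h => by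
    rw [show w + 2 * (n + 1) = w + 2 + 2 * n by ring]
    exact Reg.drN h.2.2

/-- The `n`-th derivative of the drift along the flow in square mean. -/
theorem drift_flow_bound (hK : Fl 0 Kf) (n : ℕ) :
    RSmF (drN n (cmpF Uf)) ∧ Lb (2 * n) (drN n (cmpF Uf)) := by
  simpa using (reg_Uf hK n).drN

end Vale.Agent.P347.Zero
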