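import Vale.Agent.P347.Zero.DriftFl
import Vale.Agent.P347.Zero.TrajReg

/-!
Polynomials in the variance, the centre and the derivatives of the drift: closed under all
derivatives, of polynomial growth locally uniformly in the variance. The generator of the time
matched channel on them and its square mean bounds.
-/

noncomputable section

open MeasureTheory Filter Topology Set
open scoped RealInnerProductSpace ContDiff

namespace Vale.Agent.P347.Zero

variable {d : ℕ} {h : ℝ}

/-- Repeated derivatives in the centre. -/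
def pDs : List (Fin d) → (ℝ × Space d → ℝ) → ℝ × Space d → ℝ
  | [], f => f
  | c :: l, f => pD c (pDs l f)

/-- Polynomials in the variance, the centre and the derivatives of the drift. -/
inductive Alg (P : Pot d h) : (ℝ × Space d → ℝ) → Prop
  | drift (l : List (Fin d)) (i : Fin d) : Alg P (pDs l (Zero.drift P i))
  | var : Alg P fun q => q.1
  | coord (c : Fin d) : Alg P fun q => q.2 c
  | const (a : ℝ) : Alg P fun _ => a
  | add {f g : ℝ × Space d → ℝ} : Alg P f → Alg P g → Alg P fun q => f q + g q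
  | mul {f g : ℝ × Space d → ℝ} : Alg P f → Alg P g → Alg P fun q => f q * g q
  | congr {f g : ℝ × Space d → ℝ} : Alg P f → (∀ q : ℝ × Space d, 0 < q.1 → g q = f q) → Alg P g

variable {P : Pot d h} {f g : ℝ × Space d → ℝ}

theorem Alg.csm (hf : Alg P f) : CSm f := by
  induction hf with
  | drift l i =>
    induction l with
    | nil => exact csm_drift P i
    | cons c l ih => exact ih.pD c
  | var => exact fun k => contDiff_fst.contDiffOn
  | coord c => exact fun k => (by fun_prop : ContDiff ℝ k fun q : ℝ × Space d => q.2 c).contDiffOn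
  | const a => exact fun k => contDiffOn_const
  | add _ _ ih ih' => exact ih.add ih'
  | mul _ _ ih ih' => exact ih.mul ih'
  | congr _ he ih => exact ih.congr he

theorem Alg.neg (hf : Alg P f) : Alg P fun q => -f q :=
  ((Alg.const (P := P) (-1)).mul hf).congr fun q _ => by ring

theorem Alg.sub (hf : Alg P f) (hg : Alg P g) : Alg P fun q => f q - g q :=
  (hf.add hg.neg).congr fun q _ => by ring

theorem Alg.sum {ι : Type} [Fintype ι] {F : ι → ℝ × Space d → ℝ} (hF : ∀ i, Alg P (F i)) :
    Alg P fun q => ∑ i, F i q := by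
  classical
  suffices h : ∀ s : Finset ι, Alg P fun q => ∑ i ∈ s, F i q from h _
  intro s
  induction s using Finset.induction_on with
  | empty => simpa using Alg.const (P := P) 0
  | insert a s ha ih => simpa [Finset.sum_insert ha] using (hF a).add ih

theorem Alg.pD (hf : Alg P f) (c : Fin d) : Alg P (Zero.pD c f) := by
  induction hf with
  | drift l i => exact Alg.drift (c :: l) i
  | var => exact (Alg.const 0).congr fun q _ => pD_fst c q
  | coord a => exact (Alg.const (if a = c then 1 else 0)).congr fun q _ => pD_coord c a q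
  | const a => exact (Alg.const 0).congr fun q _ => by simp [Zero.pD]
  | add hf hg ih ih' => exact (ih.add ih').congr fun q hq => wD_add hf.csm hg.csm hq _
  | mul hf hg ih ih' =>
    exact ((ih.mul hg).add (hf.mul ih')).congr fun q hq => wD_mul hf.csm hg.csm hq _
  | congr _ he ih => exact ih.congr fun q hq => wD_congr he hq _

theorem Alg.tD (hf : Alg P f) : Alg P (Zero.tD f) := by
  induction hf with
  | drift l i =>
    induction l with
    | nil =>
      refine ((((Alg.sum fun c => ((Alg.drift [] i).pD c).pD c).mul (Alg.const (1 / 2))).sub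
        (Alg.sum fun c => (Alg.drift [] c).mul ((Alg.drift [] i).pD c))).congr fun q hq => ?_)
      show Zero.tD (Zero.drift P i) q = _
      rw [burgers P i hq, lapA, mul_one_div]
      rfl
    | cons c l ih => exact (ih.pD c).congr fun q hq => wD_comm (Alg.drift l i).csm hq _ _
  | var =>
    refine (Alg.const 1).congr fun q _ => ?_
    rw [Zero.tD, (hasFDerivAt_fst (𝕜 := ℝ) (p := q)).fderiv]
    rfl
  | coord a =>
    refine (Alg.const 0).congr fun q _ => ?_
    have h1 : HasFDerivAt (fun p : ℝ × Space d => p.2 a)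
        ((EuclideanSpace.proj (𝕜 := ℝ) a).comp (ContinuousLinearMap.snd ℝ ℝ (Space d))) q :=
      ((EuclideanSpace.proj (𝕜 := ℝ) a).comp (ContinuousLinearMap.snd ℝ ℝ (Space d))).hasFDerivAt
    rw [Zero.tD, h1.fderiv]
    simp
  | const a => exact (Alg.const 0).congr fun q _ => by simp [Zero.tD]
  | add hf hg ih ih' => exact (ih.add ih').congr fun q hq => wD_add hf.csm hg.csm hq _
  | mul hf hg ih ih' =>
    exact ((ih.mul hg).add (hf.mul ih')).congr fun q hq => wD_mul hf.csm hg.csm hq _
  | congr _ he ih => exact ih.congr fun q hq => wD_congr he hq _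

/-! ### Growth -/

theorem pDs_driftT (P : Pot d h) (i : Fin d) : ∀ l : List (Fin d),
    ∃ idx : Option (Fin l.length) → Fin d, ∀ q : ℝ × Space d, 0 < q.1 →
      pDs l (Zero.drift P i) q = driftT P q.1 l.length q.2 idx
  | [] => ⟨fun _ => i, fun q _ => by
      show _ = iteratedFDeriv ℝ 0 _ q.2 _
      rw [iteratedFDeriv_zero_apply]
      rfl⟩
  | c :: l => by
    obtain ⟨idx, he⟩ := pDs_driftT P i l
    refine ⟨fun o => o.elim (idx none) (Fin.cons c fun j => idx (some j)), fun q hq => ?_⟩
    show wD (0, ev c) (pDs l (Zero.drift P i)) q = _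
    rw [wD_congr he hq]
    exact dA_Dk_entry P (sm_Dk l.length d h P idx) hq c

/-- Polynomial growth, locally uniformly in the variance. -/
theorem Alg.grow (hh : h ≤ 1) (hf : Alg P f) {v₀ : ℝ} (h0 : 0 < v₀) :
    ∃ (C : ℝ) (k : ℕ), 0 ≤ C ∧ ∀ q : ℝ × Space d, v₀ ≤ q.1 → q.1 ≤ 1 →
      |f q| ≤ C * (1 + ‖q.2‖) ^ k := by
  induction hf with
  | drift l i =>
    obtain ⟨idx, he⟩ := pDs_driftT P i l
    cases hl : l.length with
    | zero =>
      obtain rfl := List.eq_nil_of_length_eq_zero hl
      refine ⟨2 * Real.sqrt (siz P) + 1, 1, by positivity, fun q hq hq1 => ?_⟩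
      have hv : 0 < q.1 := h0.trans_le hq
      have h1 : |Zero.drift P i q| ≤ ‖driftV P q‖ := P245.abs_coord_le (driftV P q) i
      have h2 := norm_driftV_zero P hh hv hq1
      have h3 : ‖driftV P (q.1, 0)‖ ≤ 2 * Real.sqrt (siz P) := by
        rw [show (2 : ℝ) = Real.sqrt 4 by norm_num, ← Real.sqrt_mul (by norm_num)]
        exact Real.le_sqrt_of_sq_le h2
      have h4 := norm_driftV_sub P hv q.2 0
      rw [sub_zero] at h4
      have h5 : ‖driftV P (q.1, q.2) - driftV P (q.1, 0)‖ ≤ ‖q.2‖ :=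
        h4.trans (mul_le_of_le_one_left (norm_nonneg _) hh)
      have h6 := norm_le_norm_add_norm_sub' (driftV P (q.1, q.2)) (driftV P (q.1, 0))
      show |Zero.drift P i q| ≤ _
      rw [pow_one, Prod.mk.eta] at *
      nlinarith [norm_nonneg q.2, Real.sqrt_nonneg (siz P),
        mul_nonneg (Real.sqrt_nonneg (siz P)) (norm_nonneg q.2)]
    | succ m =>
      obtain ⟨C, hC, hb⟩ := bd_Dk m
      refine ⟨C * (Real.sqrt v₀)⁻¹ ^ m, 0, by positivity, fun q hq hq1 => ?_⟩
      have hv : 0 < q.1 := h0.trans_le hq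
      rw [he q hv, pow_zero, mul_one]
      revert idx
      rw [hl]
      intro idx _
      have h1 := ((hb d h P hh q hv hq1).relabel (optU (Fin (m + 1)))).abs_le
        (idx ∘ (optU (Fin (m + 1))).symm)
      simp only [reT, Function.comp_assoc, Equiv.symm_comp_self, Function.comp_id] at h1
      refine h1.trans (mul_le_mul_of_nonneg_left ?_ hC)
      exact pow_le_pow_left₀ (by positivity)
        (inv_anti₀ (Real.sqrt_pos.2 h0) (Real.sqrt_le_sqrt hq)) _
  | var =>
    refine ⟨1, 0, zero_le_one, fun q hq hq1 => ?_⟩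
    rw [pow_zero, mul_one, abs_of_nonneg (h0.le.trans hq)]
    exact hq1
  | coord c =>
    refine ⟨1, 1, zero_le_one, fun q _ _ => ?_⟩
    rw [pow_one, one_mul]
    linarith [P245.abs_coord_le q.2 c]
  | const a => exact ⟨|a|, 0, abs_nonneg a, fun q _ _ => by simp⟩
  | add _ _ ih ih' =>
    obtain ⟨A, a, hA, ha⟩ := ih
    obtain ⟨B, b, hB, hb⟩ := ih'
    refine ⟨A + B, a + b, by positivity, fun q hq hq1 => (abs_add_le _ _).trans ?_⟩
    have h1 : (1 : ℝ) ≤ 1 + ‖q.2‖ := by linarith [norm_nonneg q.2]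
    rw [add_mul]
    exact add_le_add
      ((ha q hq hq1).trans (mul_le_mul_of_nonneg_left (pow_le_pow_right₀ h1 (by omega)) hA))
      ((hb q hq hq1).trans (mul_le_mul_of_nonneg_left (pow_le_pow_right₀ h1 (by omega)) hB))
  | mul _ _ ih ih' =>
    obtain ⟨A, a, hA, ha⟩ := ih
    obtain ⟨B, b, hB, hb⟩ := ih'
    refine ⟨A * B, a + b, by positivity, fun q hq hq1 => ?_⟩
    rw [abs_mul, pow_add]
    calc _ ≤ A * (1 + ‖q.2‖) ^ a * (B * (1 + ‖q.2‖) ^ b) :=
          mul_le_mul (ha q hq hq1) (hb q hq hq1) (abs_nonneg _) (by positivity)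
      _ = _ := by ring
  | congr _ he ih =>
    obtain ⟨A, a, hA, ha⟩ := ih
    exact ⟨A, a, hA, fun q hq hq1 => by rw [he q (h0.trans_le hq)]; exact ha q hq hq1⟩

/-! ### The generator of the matched channel -/

/-- The generator in (variance, centre). -/
def mgen (f : ℝ × Space d → ℝ) (q : ℝ × Space d) : ℝ :=
  -(2 * (1 - q.1)) * (tD f q + lapA f q / 2) + 2 * ∑ c, q.2 c * pD c f q

theorem Alg.mgen (hf : Alg P f) : Alg P (Zero.mgen f) :=
  (((Alg.const (-2)).mul ((Alg.const 1).sub Alg.var)).mul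
      (hf.tD.add ((Alg.sum fun c => (hf.pD c).pD c).mul (Alg.const (1 / 2))))).add
    ((Alg.const 2).mul (Alg.sum fun c => (Alg.coord c).mul (hf.pD c))) |>.congr
      fun q _ => by simp only [Zero.mgen, lapA]; ring

/-- The generator, repeated. -/
def mgenN : ℕ → (ℝ × Space d → ℝ) → ℝ × Space d → ℝ
  | 0, f => f
  | n + 1, f => mgenN n (mgen f)

/-- The generator in (correlation, point). -/
def mgenR (P : Pot d h) (f : ℝ × Space d → ℝ) (q : ℝ × Space d) : ℝ :=
  q.1 * drS P f q + dlS P (fun c p => pD c f p) q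

theorem mgenR_congr {f g : ℝ × Space d → ℝ} (he : ∀ q ∈ domR d, f q = g q) {q : ℝ × Space d}
    (hq : q ∈ domR d) : mgenR P f q = mgenR P g q := by
  have h1 : ∀ c, ∀ p ∈ domR d, pD c f p = pD c g p := fun c p hp => rwD_congr he hp _
  simp only [mgenR, dlS, drS_congr P he hq]
  congr 1
  exact Finset.sum_congr rfl fun c _ => by
    rw [show pD c (pD c f) q = pD c (pD c g) q from rwD_congr (h1 c) hq _, h1 c q hq]

/-- Through the channel the two generators agree. -/
theorem mgenR_chan (hf : CSm f) {q : ℝ × Space d} (hq : q ∈ domR d) :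
    mgenR P (fun p => f (chan p)) q = mgen f (chan q) := by
  have h1 : ∀ c, pD c (fun p => f (chan p)) q = q.1 * pD c f (chan q) := pD_chan hf hq
  have h2 : ∀ c, pD c (pD c fun p => f (chan p)) q = q.1 * (q.1 * pD c (pD c f) (chan q)) :=
    fun c => by
      show wD (0, ev c) (pD c fun p => f (chan p)) q = _
      rw [rwD_congr (fun p hp => pD_chan hf hp c) hq, rwD_mul rsm_fst ((hf.pD c).chan) hq,
        show wD (0, ev c) (fun p : ℝ × Space d => p.1) q = 0 from pD_fst c q,
        show wD (0, ev c) (fun p => pD c f (chan p)) q = q.1 * pD c (pD c f) (chan q) from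
          pD_chan (hf.pD c) hq c]
      ring
  have h3 : ∀ c, pD c (fun p => pD c f (chan p)) q = q.1 * pD c (pD c f) (chan q) := fun c =>
    pD_chan (hf.pD c) hq c
  have hc : ∀ c, (chan q).2 c = q.1 * q.2 c := fun c => rfl
  simp only [mgenR, drS_chan P hf hq, dlS, h1, h2, h3, bopS, mgen, lapA, hc, uR,
    show (1 : ℝ) - (chan q).1 = q.1 ^ 2 by simp [chan], add_mul, Finset.sum_add_distrib,
    Finset.sum_neg_distrib, ← Finset.mul_sum, mul_assoc, mul_left_comm (q.2 _) q.1,
    mul_left_comm (drift P _ (chan q)) q.1]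
  ring

/-- The generator on families. -/
def mgenF {I : Type} (F : Fam I) : Fam I := addFam (rF (drF F)) (dlF (dA F))

theorem mgenF_apply {I : Type} (F : Fam I) (q : ℝ × Space d) (i : I → Fin d) :
    mgenF F d h P q i = mgenR P (fun p => F d h P p i) q := rfl

/-- The generator, repeated. -/
def mgenFN {I : Type} : ℕ → Fam I → Fam I
  | 0, F => F
  | n + 1, F => mgenFN n (mgenF F)

theorem Reg.mgenF {I : Type} [Fintype I] [DecidableEq I] {n w : ℕ} {F : Fam I}
    (hF : Reg (n + 1) w F) : Reg n (w + 2) (Zero.mgenF F) := by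
  obtain ⟨iD, iL, -, -⟩ := reg_closure fl_Kf (n + 1)
  exact hF.2.2.rF.add (((iL _ _ (iD _ _ hF)).pred).mono (by omega))

theorem Reg.mgenFN {I : Type} [Fintype I] [DecidableEq I] : ∀ {n w : ℕ} {F : Fam I},
    Reg n w F → Reg 0 (w + 2 * n) (Zero.mgenFN n F)
  | 0, _, _, h => h
  | n + 1, w, _, h => by
    rw [show w + 2 * (n + 1) = w + 2 + 2 * n by ring]
    exact Reg.mgenFN h.mgenF

theorem mgenFN_chan : ∀ (n : ℕ) {I : Type} (F : Fam I) (i : I → Fin d) (g : ℝ × Space d → ℝ),
    Alg P g → (∀ q ∈ domR d, F d h P q i = g (chan q)) →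
      ∀ q ∈ domR d, mgenFN n F d h P q i = mgenN n g (chan q)
  | 0, _, _, _, _, _, he => he
  | n + 1, I, F, i, g, hg, he =>
    mgenFN_chan n (mgenF F) i (mgen g) hg.mgen fun q hq => by
      rw [mgenF_apply, mgenR_congr he hq, mgenR_chan hg.csm hq]

theorem Alg.mgenN : ∀ (n : ℕ) {f : ℝ × Space d → ℝ}, Alg P f → Alg P (Zero.mgenN n f)
  | 0, _, hf => hf
  | n + 1, _, hf => Alg.mgenN n hf.mgen

/-- The repeated generator of the drift in square mean. -/
theorem mgen_drift_bound (n : ℕ) : ∃ C : ℝ, 0 ≤ C ∧ ∀ d h (P : Pot d h), h ≤ 1 →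
    ∀ r : ℝ, ∀ hr : r ∈ Ioo (-1 : ℝ) 1,
      ∫ y, ∑ i, mgenN n (drift P i) (chan (r, y)) ^ 2 ∂mu (potR P r hr)
        ≤ C * siz P * wgt r (2 * n) := by
  obtain ⟨C, hC, hb⟩ := ((reg_Uf fl_Kf n).mgenFN.ll 0 : Lb (0 + 2 * n) _)
  refine ⟨C, hC, fun d h P hh r hr => ?_⟩
  have h1 := (hb d h P hh r hr).2
  rw [Nat.zero_add] at h1
  refine (le_of_eq ?_).trans h1
  refine integral_congr_ae (ae_of_all _ fun y => ?_)
  simp only [hsT]
  rw [← (Equiv.funUnique Unit (Fin d)).symm.sum_comp]
  refine Finset.sum_congr rfl fun i _ => ?_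
  rw [mgenFN_chan n (cmpF Uf) _ (drift P i) (Alg.drift [] i) (fun q _ => rfl) (r, y) hr]

end Vale.Agent.P347.Zero
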