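import Vale.Agent.P347.Zero.Ser
import Vale.Agent.P347.Basics
import Vale.Agent.P347.Poincare

/-!
Appell fields of a tilted Gaussian law and the bound on every splitting of the joint cumulants of a
Lipschitz field with coordinates. Only the Poincare inequality is used.
-/

noncomputable section

open MeasureTheory ProbabilityTheory Finset
open scoped RealInnerProductSpace Nat

namespace Vale.Agent.P347.Zero.Ser


variable {d : ℕ} {h : ℝ}

/-! ### Fields of polynomial growth -/

/-- Once differentiable, with a derivative of polynomial growth. -/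
def Gd (f : Space d → ℝ) : Prop := ContDiff ℝ 1 f ∧ Grow fun x => fderiv ℝ f x

theorem grow_add' {f g : Space d → ℝ} (hf : Grow f) (hg : Grow g) : Grow fun x => f x + g x := by
  obtain ⟨A, a, hA⟩ := hf
  obtain ⟨B, b, hB⟩ := hg
  refine ⟨|A| + |B|, a + b, fun x => (norm_add_le _ _).trans ?_⟩
  have h1 : (1 : ℝ) ≤ 1 + ‖x‖ := by linarith [norm_nonneg x]
  rw [add_mul]
  refine add_le_add ((hA x).trans ?_) ((hB x).trans ?_) <;>
    refine mul_le_mul (le_abs_self _) (pow_le_pow_right₀ h1 ?_) (by positivity) (abs_nonneg _) <;>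
      omega

theorem grow_of_le {β γ : Type} [Norm β] [Norm γ] {f : Space d → β} {g : Space d → γ}
    (hg : Grow g) (hle : ∀ x, ‖f x‖ ≤ ‖g x‖) : Grow f := by
  obtain ⟨C, k, hC⟩ := hg
  exact ⟨C, k, fun x => (hle x).trans (hC x)⟩

theorem grow_norm {β : Type} [SeminormedAddCommGroup β] {f : Space d → β} (hf : Grow f) :
    Grow fun x => ‖f x‖ := grow_of_le hf fun x => by simp

theorem Gd.cont {f : Space d → ℝ} (hf : Gd f) : Continuous f := hf.1.continuous

theorem Gd.meas {f : Space d → ℝ} (hf : Gd f) : Measurable f := hf.cont.measurable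

theorem Gd.grow {f : Space d → ℝ} (hf : Gd f) : Grow f := grow_of_fderiv hf.1 hf.2

theorem Gd.diff {f : Space d → ℝ} (hf : Gd f) (x : Space d) : DifferentiableAt ℝ f x :=
  hf.1.differentiable one_ne_zero x

theorem Gd.int {f : Space d → ℝ} (hf : Gd f) (P : Pot d h) : Integrable f (mu P) :=
  mu_int hf.meas hf.grow

theorem Gd.const (c : ℝ) : Gd fun _ : Space d => c :=
  ⟨contDiff_const, ⟨0, 0, fun x => by simp⟩⟩

theorem Gd.add {f g : Space d → ℝ} (hf : Gd f) (hg : Gd g) : Gd fun x => f x + g x := by
  refine ⟨hf.1.add hg.1, grow_of_le (grow_add' (grow_norm hf.2) (grow_norm hg.2)) fun x => ?_⟩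
  rw [fderiv_fun_add (hf.diff x) (hg.diff x), Real.norm_eq_abs,
    abs_of_nonneg (add_nonneg (norm_nonneg _) (norm_nonneg _))]
  exact norm_add_le _ _

theorem Gd.mul {f g : Space d → ℝ} (hf : Gd f) (hg : Gd g) : Gd fun x => f x * g x := by
  refine ⟨hf.1.mul hg.1, grow_of_le (grow_add' (grow_mul (grow_norm hf.grow) (grow_norm hg.2))
    (grow_mul (grow_norm hg.grow) (grow_norm hf.2))) fun x => ?_⟩
  rw [fderiv_fun_mul (hf.diff x) (hg.diff x), Real.norm_eq_abs, abs_of_nonneg (add_nonneg
    (mul_nonneg (norm_nonneg _) (norm_nonneg _)) (mul_nonneg (norm_nonneg _) (norm_nonneg _)))]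
  refine (norm_add_le _ _).trans ?_
  rw [norm_smul, norm_smul]

theorem Gd.smul {f : Space d → ℝ} (c : ℝ) (hf : Gd f) : Gd fun x => c * f x :=
  (Gd.const c).mul hf

theorem Gd.sub {f g : Space d → ℝ} (hf : Gd f) (hg : Gd g) : Gd fun x => f x - g x := by
  simpa [sub_eq_add_neg] using hf.add (hg.smul (-1))

theorem Gd.sum {α : Type} (s : Finset α) {f : α → Space d → ℝ} (hf : ∀ a ∈ s, Gd (f a)) :
    Gd fun x => ∑ a ∈ s, f a x := by
  classical
  induction s using Finset.induction_on with
  | empty => simpa using Gd.const (d := d) 0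
  | insert a s ha ih =>
    simp only [Finset.sum_insert ha]
    exact (hf a (Finset.mem_insert_self _ _)).add
      (ih fun b hb => hf b (Finset.mem_insert_of_mem hb))

theorem Gd.coord (i : Fin d) : Gd fun x : Space d => x i := by
  refine ⟨by fun_prop, ⟨‖(EuclideanSpace.proj i : Space d →L[ℝ] ℝ)‖, 0, fun x => ?_⟩⟩
  show ‖fderiv ℝ (⇑(EuclideanSpace.proj i : Space d →L[ℝ] ℝ)) x‖ ≤ _
  rw [ContinuousLinearMap.fderiv]
  simp

/-! ### Series of fields -/

/-- A product with a fixed series commutes with derivatives and integrals. -/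
theorem cv_lin {κ : Type} (P : Pot d h) : ∀ (l : List κ) (f : List κ → ℝ)
    (F : Space d → List κ → ℝ), (∀ m, Gd fun x => F x m) →
      Gd (fun x => cv f (F x) l) ∧
      (∀ x v, fderiv ℝ (fun y => cv f (F y) l) x v
        = cv f (fun m => fderiv ℝ (fun y => F y m) x v) l) ∧
      ∫ x, cv f (F x) l ∂mu P = cv f (fun m => ∫ x, F x m ∂mu P) l
  | [], f, F, hF => by
    refine ⟨(hF []).smul (f []), fun x v => ?_, integral_const_mul _ _⟩
    simp only [cv_nil]
    rw [fderiv_const_mul ((hF []).diff x)]
    simp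
  | i :: l, f, F, hF => by
    obtain ⟨a1, a2, a3⟩ := cv_lin P l (sh f i) F hF
    obtain ⟨b1, b2, b3⟩ := cv_lin P l f (fun x => sh (F x) i) fun m => hF (i :: m)
    simp only [cv_cons]
    refine ⟨a1.add b1, fun x v => ?_, ?_⟩
    · rw [fderiv_fun_add (a1.diff x) (b1.diff x), add_apply, a2, b2]
      rfl
    · rw [integral_add (a1.int P) (b1.int P), a3, b3]
      rfl

/-- The monomials. -/
def mon (x : Space d) : List (Fin d) → ℝ := fun l => (l.map fun i => x i).prod

@[simp] theorem mon_nil (x : Space d) : mon x [] = 1 := rfl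

theorem mon_cons (x : Space d) (i : Fin d) (l : List (Fin d)) : mon x (i :: l) = x i * mon x l := by
  simp [mon]

theorem sh_mon (x : Space d) (i : Fin d) : sh (mon x) i = x i • mon x :=
  funext fun l => by simp [mon_cons]

theorem symm_mon (x : Space d) : Symm (mon x) := fun _ _ h => (h.map _).prod_eq

theorem gd_mon : ∀ l : List (Fin d), Gd fun x => mon x l
  | [] => Gd.const 1
  | i :: l => by simpa [mon_cons] using (Gd.coord i).mul (gd_mon l)

/-- The indicator of a single index. -/
def one {ι : Type} [DecidableEq ι] (j : ι) : List ι → ℝ := fun l => if l = [j] then 1 else 0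

theorem one_cons {ι : Type} [DecidableEq ι] (j i : ι) (F : List ι → ℝ) (l : List ι) :
    cv (one j) F (i :: l) = (if i = j then F l else 0) + cv (one j) (sh F i) l := by
  rw [cv_cons]
  congr 1
  have e : sh (one j) i = if i = j then unit else 0 := by
    funext m
    cases m <;> split_ifs with q <;> simp [one, q]
  rw [e]
  split_ifs
  · exact cv_unit_left l F
  · exact cv_zero_left l F

theorem fderiv_mon (j : Fin d) : ∀ (l : List (Fin d)) (x : Space d),
    fderiv ℝ (fun y => mon y l) x (ev j) = cv (one j) (mon x) l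
  | [], x => by simp [one]
  | i :: l, x => by
    simp only [mon_cons]
    rw [fderiv_fun_mul ((Gd.coord i).diff x) ((gd_mon l).diff x), add_apply, smul_apply,
      smul_apply, fderiv_mon j l x, one_cons, sh_mon, cv_smul_right,
      show (fun y : Space d => y i) = ⇑(EuclideanSpace.proj i : Space d →L[ℝ] ℝ) from rfl,
      ContinuousLinearMap.fderiv]
    by_cases hij : i = j <;> simp [hij, add_comm]

variable (P : Pot d h)

/-- The moments. -/
def mom (l : List (Fin d)) : ℝ := ∫ x, mon x l ∂mu P

theorem mom_nil : mom P [] = 1 := by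
  have := mu_prob P
  simp [mom]

theorem symm_mom : Symm (mom P) := fun l l' h => by
  simp only [mom, symm_mon _ l l' h]

/-- The Appell fields of the coordinates. -/
def app (x : Space d) : List (Fin d) → ℝ := cv (Ser.inv (mom P)) (mon x)

theorem app_nil (x : Space d) : app P x [] = 1 := by simp [app]

theorem gd_app (l : List (Fin d)) : Gd fun x => app P x l := (cv_lin P l _ mon gd_mon).1

theorem fderiv_app (j : Fin d) (l : List (Fin d)) (x : Space d) :
    fderiv ℝ (fun y => app P y l) x (ev j) = cv (one j) (app P x) l := by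
  refine ((cv_lin P l _ mon gd_mon).2.1 x (ev j)).trans ?_
  rw [show (fun m => fderiv ℝ (fun y => mon y m) x (ev j)) = cv (one j) (mon x) from
    funext fun m => fderiv_mon j m x, cv_left_comm]
  rfl

theorem integral_app (l : List (Fin d)) : ∫ x, app P x l ∂mu P = unit l := by
  refine ((cv_lin P l _ mon gd_mon).2.2).trans ?_
  rw [cv_comm, ← cv_inv (mom_nil P)]
  rfl

variable {L : ℝ} (g : Space d → Space d)

/-- The joint moments of a field and the coordinates. -/
def gmom (e : Fin d) (l : List (Fin d)) : ℝ := ∫ x, g x e * mon x l ∂mu P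

/-- The joint cumulants of a field and the coordinates. -/
def kap (e : Fin d) : List (Fin d) → ℝ := cv (Ser.inv (mom P)) (gmom P g e)

theorem kap_nil (e : Fin d) : kap P g e [] = ∫ x, g x e ∂mu P := by simp [kap, gmom]

theorem symm_kap (e : Fin d) : Symm (kap P g e) :=
  (symm_mom P).inv.cv fun l l' h => by simp only [gmom, symm_mon _ l l' h]

/-- The Appell fields of a field and the coordinates. -/
def appg (e : Fin d) (x : Space d) : List (Fin d) → ℝ :=
  g x e • app P x - cv (kap P g e) (app P x)

variable {g} (hg : ContDiff ℝ 1 g) (hL : ∀ x y, ‖g x - g y‖ ≤ L * ‖x - y‖)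

include hL in
theorem norm_fderiv_le_L (hL0 : 0 ≤ L) (x : Space d) : ‖fderiv ℝ g x‖ ≤ L :=
  norm_fderiv_le_of_lipschitz ℝ (C := ⟨L, hL0⟩)
    (LipschitzWith.of_dist_le_mul fun a b => by
      rw [dist_eq_norm, dist_eq_norm]; exact hL a b)

include hg in
theorem fderiv_coord (e : Fin d) (x v : Space d) :
    fderiv ℝ (fun y => g y e) x v = (fderiv ℝ g x v) e := by
  have h1 : HasFDerivAt (fun y => g y e)
      ((EuclideanSpace.proj e : Space d →L[ℝ] ℝ).comp (fderiv ℝ g x)) x :=
    (EuclideanSpace.proj e : Space d →L[ℝ] ℝ).hasFDerivAt.comp x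
      (hg.differentiable one_ne_zero x).hasFDerivAt
  rw [h1.fderiv]
  rfl

include hg hL in
theorem gd_coord (hL0 : 0 ≤ L) (e : Fin d) : Gd fun x => g x e := by
  refine ⟨(EuclideanSpace.proj e : Space d →L[ℝ] ℝ).contDiff.comp hg, L, 0, fun x => ?_⟩
  rw [pow_zero, mul_one]
  refine ContinuousLinearMap.opNorm_le_bound _ hL0 fun v => ?_
  rw [fderiv_coord hg]
  refine (Real.norm_eq_abs _ ▸ P245.abs_coord_le _ e).trans ?_
  exact ((fderiv ℝ g x).le_opNorm v).trans
    (mul_le_mul_of_nonneg_right (norm_fderiv_le_L hL hL0 x) (norm_nonneg v))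

variable (hL0 : 0 ≤ L)

include hg hL hL0

theorem gd_appg (e : Fin d) (l : List (Fin d)) : Gd fun x => appg P g e x l := by
  simp only [appg, Pi.sub_apply, Pi.smul_apply, smul_eq_mul]
  exact ((gd_coord hg hL hL0 e).mul (gd_app P l)).sub
    (cv_lin P l (kap P g e) (app P) (gd_app P)).1

theorem fderiv_appg (e j : Fin d) (l : List (Fin d)) (x : Space d) :
    fderiv ℝ (fun y => appg P g e y l) x (ev j)
      = (fderiv ℝ g x (ev j)) e * app P x l + cv (one j) (appg P g e x) l := by
  simp only [appg, Pi.sub_apply, Pi.smul_apply, smul_eq_mul]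
  have h1 := gd_coord hg hL hL0 e
  have h2 := (cv_lin P l (kap P g e) (app P) (gd_app P)).1
  rw [fderiv_fun_sub ((h1.mul (gd_app P l)).diff x) (h2.diff x), sub_apply,
    (cv_lin P l (kap P g e) (app P) (gd_app P)).2.1 x (ev j),
    fderiv_fun_mul (h1.diff x) ((gd_app P l).diff x), add_apply, smul_apply, smul_apply,
    fderiv_coord hg, fderiv_app, cv_sub_right, cv_smul_right,
    show (fun m => fderiv ℝ (fun y => app P y m) x (ev j)) = cv (one j) (app P x) from
      funext fun m => fderiv_app P j m x, cv_left_comm l (one j)]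
  simp only [smul_eq_mul]
  ring

theorem integral_appg (e : Fin d) (l : List (Fin d)) : ∫ x, appg P g e x l ∂mu P = 0 := by
  simp only [appg, Pi.sub_apply, Pi.smul_apply, smul_eq_mul]
  have h1 := gd_coord hg hL hL0 e
  obtain ⟨c1, -, c3⟩ := cv_lin P l (kap P g e) (app P) (gd_app P)
  rw [integral_sub ((h1.mul (gd_app P l)).int P) (c1.int P), c3,
    show (fun m => ∫ x, app P x m ∂mu P) = unit from funext (integral_app P), cv_unit_right]
  have h3 := (cv_lin P l (Ser.inv (mom P)) (fun x => g x e • mon x)
    fun m => h1.mul (gd_mon m)).2.2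
  simp only [cv_smul_right] at h3
  exact sub_eq_zero.2 h3

omit hg hL hL0

/-! ### Pairings with arrays -/

/-- The pairing of an array with a series at `n` legs. -/
def tp {ι : Type} [Fintype ι] {n : ℕ} (x : (Fin n → ι) → ℝ) (F : List ι → ℝ) : ℝ :=
  ∑ w, x w * F (List.ofFn w)

/-- The derivative inserts an index. -/
theorem tp_one {ι : Type} [Fintype ι] [DecidableEq ι] (j : ι) :
    ∀ (n : ℕ) (x : (Fin (n + 1) → ι) → ℝ) (F : List ι → ℝ),
      tp x (cv (one j) F) = ∑ k : Fin (n + 1), tp (fun w => x (k.insertNth j w)) F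
  | n, x, F => by
    rw [tp, ← (Fin.consEquiv fun _ => ι).sum_comp, Fintype.sum_prod_type, Fin.sum_univ_succ]
    simp only [Fin.consEquiv, Equiv.coe_fn_mk, List.ofFn_cons, one_cons, mul_add, Finset.sum_add_distrib]
    congr 1
    · rw [Finset.sum_eq_single j (fun i _ hi => by simp [hi]) (by simp)]
      simp [tp, Fin.insertNth_zero']
    · cases n with
      | zero =>
        simp [one]
      | succ n =>
        have e : ∀ i : ι, ∑ w : Fin (n + 1) → ι,
            x (Fin.cons i w) * cv (one j) (sh F i) (List.ofFn w)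
              = ∑ k : Fin (n + 1), tp (fun w => x (Fin.cons i (k.insertNth j w))) (sh F i) :=
          fun i => tp_one j n (fun w => x (Fin.cons i w)) (sh F i)
        simp only [e]
        rw [Finset.sum_comm]
        refine Finset.sum_congr rfl fun k _ => ?_
        conv_rhs => rw [tp, ← (Fin.consEquiv fun _ => ι).sum_comp, Fintype.sum_prod_type]
        simp [tp, Fin.consEquiv, Fin.insertNth_succ_cons]

theorem gd_tp {n : ℕ} (x : (Fin n → Fin d) → ℝ) {F : Space d → List (Fin d) → ℝ}
    (hF : ∀ m, Gd fun p => F p m) : Gd fun p => tp x (F p) :=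
  Gd.sum _ fun _ _ => (hF _).smul _

theorem fderiv_tp {n : ℕ} (x : (Fin n → Fin d) → ℝ) {F : Space d → List (Fin d) → ℝ}
    (hF : ∀ m, Gd fun p => F p m) (p v : Space d) :
    fderiv ℝ (fun q => tp x (F q)) p v = tp x fun m => fderiv ℝ (fun q => F q m) p v := by
  simp only [tp]
  rw [fderiv_fun_sum fun w _ => (((hF _).smul _).diff p), _root_.sum_apply]
  refine Finset.sum_congr rfl fun w _ => ?_
  rw [fderiv_const_mul ((hF _).diff p)]
  simp

theorem tp_add {ι : Type} [Fintype ι] {n : ℕ} (x : (Fin n → ι) → ℝ) (F G : List ι → ℝ) :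
    tp x (fun m => F m + G m) = tp x F + tp x G := by
  simp [tp, mul_add, Finset.sum_add_distrib]

/-- The squares of all insertions of one index. -/
theorem sum_insert_sq {ι : Type} [Fintype ι] {n : ℕ} (x : (Fin (n + 1) → ι) → ℝ) :
    ∑ j, ∑ k : Fin (n + 1), ∑ w, x (k.insertNth j w) ^ 2 = (n + 1) * ∑ w, x w ^ 2 := by
  rw [Finset.sum_comm]
  have e : ∀ k : Fin (n + 1), ∑ j, ∑ w, x (k.insertNth j w) ^ 2 = ∑ w, x w ^ 2 := fun k => by
    rw [← (Fin.insertNthEquiv (fun _ => ι) k).sum_comp (fun w => x w ^ 2), Fintype.sum_prod_type]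
    rfl
  simp [e]

/-- The square norm of a linear form in coordinates. -/
theorem norm_sq_form (T : Space d →L[ℝ] ℝ) : ‖T‖ ^ 2 = ∑ j, T (ev j) ^ 2 := by
  set w : Space d := WithLp.toLp 2 fun j => T (ev j) with hw
  have e : T = innerSL ℝ w := by
    ext v
    have hv : v = ∑ j, v j • ev j := by
      ext i; simp [Finset.sum_apply, Pi.single_apply]
    conv_lhs => rw [hv]
    simp [hw, PiLp.inner_apply]
  conv_lhs => rw [e]
  rw [innerSL_apply_norm, EuclideanSpace.real_norm_sq_eq]

/-- The Poincare inequality for a centred field. -/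
theorem poincare_sq {f : Space d → ℝ} (hf : Gd f) (h0 : ∫ x, f x ∂mu P = 0) :
    ∫ x, f x ^ 2 ∂mu P ≤ ∫ x, ∑ j, fderiv ℝ f x (ev j) ^ 2 ∂mu P := by
  have h1 := poincareMu d h P f hf.1 hf.2
  simp only [var, h0, sub_zero, norm_sq_form] at h1
  exact h1

/-- The second moments of the Appell fields of the coordinates. -/
theorem app_sq : ∀ (n : ℕ) (x : (Fin n → Fin d) → ℝ),
    ∫ p, tp x (app P p) ^ 2 ∂mu P ≤ (n ! : ℝ) ^ 2 * ∑ w, x w ^ 2
  | 0, x => by
    have := mu_prob P
    simp [tp, app_nil]
  | n + 1, x => by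
    have hF := gd_tp x (F := app P) (gd_app P)
    refine (poincare_sq P hF ?_).trans ?_
    · simp only [tp]
      rw [integral_finsetSum _ fun w _ => ((gd_app P _).smul _).int P]
      refine Finset.sum_eq_zero fun w _ => ?_
      rw [integral_const_mul, integral_app, List.ofFn_succ, unit_cons, mul_zero]
    · have hd : ∀ p j, fderiv ℝ (fun q => tp x (app P q)) p (ev j)
          = ∑ k : Fin (n + 1), tp (fun w => x (k.insertNth j w)) (app P p) := fun p j => by
        rw [fderiv_tp x (gd_app P), ← tp_one]
        simp only [fderiv_app]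
      simp only [hd]
      have hi : ∀ (j : Fin d) (k : Fin (n + 1)),
          Integrable (fun p => tp (fun w => x (k.insertNth j w)) (app P p) ^ 2) (mu P) := fun j k => by
        simp only [sq]; exact ((gd_tp _ (gd_app P)).mul (gd_tp _ (gd_app P))).int P
      refine (integral_mono_of_nonneg (ae_of_all _ fun p => Finset.sum_nonneg fun j _ => sq_nonneg _)
        ((integrable_finsetSum Finset.univ fun j _ => integrable_finsetSum Finset.univ fun k _ =>
          hi j k).const_mul ((n + 1 : ℕ) : ℝ)) (ae_of_all _ fun p => ?_)).trans ?_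
      · show ∑ j, _ ≤ ((n + 1 : ℕ) : ℝ) * ∑ j, _
        rw [Finset.mul_sum]
        exact Finset.sum_le_sum fun j _ => sq_sum_le_card_mul_sum_sq.trans_eq (by simp)
      rw [integral_const_mul, integral_finsetSum _ fun j _ => integrable_finsetSum _ fun k _ =>
        hi j k]
      simp only [fun j : Fin d => integral_finsetSum (μ := mu P) Finset.univ fun k _ => hi j k]
      refine (mul_le_mul_of_nonneg_left (Finset.sum_le_sum fun j _ => Finset.sum_le_sum fun k _ =>
        app_sq n _) (by positivity)).trans_eq ?_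
      simp only [← Finset.mul_sum]
      rw [sum_insert_sq, Nat.factorial_succ]
      push_cast
      ring

/-- The constants of the second moments of the Appell fields of a field. -/
def GC : ℕ → ℝ
  | 0 => 1
  | n + 1 => 2 * ((n + 1)! : ℝ) ^ 2 + 2 * ((n : ℝ) + 1) ^ 2 * GC n

theorem GC_nonneg : ∀ n, 0 ≤ GC n
  | 0 => by simp [GC]
  | n + 1 => by have := GC_nonneg n; rw [GC]; positivity

/-- The pairing with the Appell fields of a field. -/
def psi (g : Space d → Space d) {n : ℕ} (x : Fin d × (Fin n → Fin d) → ℝ) (p : Space d) : ℝ :=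
  ∑ e, tp (fun w => x (e, w)) (appg P g e p)

include hg hL hL0

theorem gd_psi {n : ℕ} (x : Fin d × (Fin n → Fin d) → ℝ) : Gd (psi P g x) :=
  Gd.sum _ fun e _ => gd_tp _ (gd_appg P hg hL hL0 e)

theorem integral_psi {n : ℕ} (x : Fin d × (Fin n → Fin d) → ℝ) :
    ∫ p, psi P g x p ∂mu P = 0 := by
  simp only [psi]
  rw [integral_finsetSum _ fun e _ => (gd_tp _ (gd_appg P hg hL hL0 e)).int P]
  refine Finset.sum_eq_zero fun e _ => ?_
  simp only [tp]
  rw [integral_finsetSum _ fun w _ => ((gd_appg P hg hL hL0 e _).smul _).int P]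
  refine Finset.sum_eq_zero fun w _ => ?_
  rw [integral_const_mul, integral_appg P hg hL hL0, mul_zero]

theorem fderiv_psi {n : ℕ} (x : Fin d × (Fin n → Fin d) → ℝ) (p : Space d) (j : Fin d) :
    fderiv ℝ (psi P g x) p (ev j)
      = (∑ e, (fderiv ℝ g p (ev j)) e * tp (fun w => x (e, w)) (app P p))
        + ∑ e, tp (fun w => x (e, w)) (cv (one j) (appg P g e p)) := by
  have hd : HasFDerivAt (psi P g x) (∑ e, fderiv ℝ (fun q => tp (fun w => x (e, w))
      (appg P g e q)) p) p :=
    HasFDerivAt.fun_sum fun e _ => ((gd_tp _ (gd_appg P hg hL hL0 e)).diff p).hasFDerivAt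
  rw [hd.fderiv, _root_.sum_apply, ← Finset.sum_add_distrib]
  refine Finset.sum_congr rfl fun e _ => ?_
  rw [fderiv_tp _ (gd_appg P hg hL hL0 e)]
  simp only [fderiv_appg P hg hL hL0, tp_add]
  congr 1
  simp only [tp, Finset.mul_sum]
  exact Finset.sum_congr rfl fun w _ => by ring

omit hg in
/-- The transposed derivative of the field shrinks vectors by at most `L`. -/
theorem sum_sq_form_le (V : Fin d → ℝ) (p : Space d) :
    ∑ j, (∑ e, (fderiv ℝ g p (ev j)) e * V e) ^ 2 ≤ L ^ 2 * ∑ e, V e ^ 2 := by
  set T : Space d →L[ℝ] ℝ := (innerSL ℝ (WithLp.toLp 2 V : Space d)).comp (fderiv ℝ g p)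
  have e1 : ∀ j, ∑ e, (fderiv ℝ g p (ev j)) e * V e = T (ev j) := fun j => by
    simp [T, PiLp.inner_apply]
  simp only [e1, ← norm_sq_form]
  have hn : ‖T‖ ≤ L * ‖(WithLp.toLp 2 V : Space d)‖ := by
    refine (ContinuousLinearMap.opNorm_comp_le _ _).trans ?_
    rw [innerSL_apply_norm, mul_comm]
    exact mul_le_mul_of_nonneg_right (norm_fderiv_le_L hL hL0 p) (norm_nonneg _)
  refine (pow_le_pow_left₀ (norm_nonneg _) hn 2).trans_eq ?_
  rw [mul_pow, EuclideanSpace.real_norm_sq_eq]

/-- The second moments of the Appell fields of a field. -/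
theorem appg_sq : ∀ (n : ℕ) (x : Fin d × (Fin n → Fin d) → ℝ),
    ∫ p, psi P g x p ^ 2 ∂mu P ≤ GC n * L ^ 2 * ∑ a, x a ^ 2
  | n, x => by
    refine (poincare_sq P (gd_psi P hg hL hL0 x) (integral_psi P hg hL hL0 x)).trans ?_
    simp only [fderiv_psi P hg hL hL0]
    set V : Fin d → Space d → ℝ := fun e p => tp (fun w => x (e, w)) (app P p)
    have hV : ∀ e, Integrable (fun p => V e p ^ 2) (mu P) := fun e => by
      simp only [sq]; exact ((gd_tp _ (gd_app P)).mul (gd_tp _ (gd_app P))).int P
    have hV2 : ∫ p, ∑ e, V e p ^ 2 ∂mu P ≤ (n ! : ℝ) ^ 2 * ∑ a, x a ^ 2 := by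
      rw [integral_finsetSum _ fun e _ => hV e, Fintype.sum_prod_type, Finset.mul_sum]
      exact Finset.sum_le_sum fun e _ => app_sq P n _
    cases n with
    | zero =>
      have := mu_prob P
      refine (integral_mono_of_nonneg (ae_of_all _ fun p => Finset.sum_nonneg fun j _ => sq_nonneg _)
        ((integrable_finsetSum Finset.univ fun e _ => hV e).const_mul (L ^ 2))
        (ae_of_all _ fun p => ?_)).trans ?_
      · have e0 : ∀ j e, tp (fun w : Fin 0 → Fin d => x (e, w))
            (cv (one j) (appg P g e p)) = 0 := fun j e => by simp [tp, one]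
        simp only [e0, Finset.sum_const_zero, add_zero]
        exact sum_sq_form_le hL hL0 (fun e => V e p) p
      · rw [integral_const_mul]
        simpa [GC] using mul_le_mul_of_nonneg_left hV2 (sq_nonneg L)
    | succ n =>
      set y : Fin d → Fin (n + 1) → Fin d × (Fin n → Fin d) → ℝ :=
        fun j k a => x (a.1, k.insertNth j a.2)
      have e0 : ∀ p j, ∑ e, tp (fun w => x (e, w)) (cv (one j) (appg P g e p))
          = ∑ k, psi P g (y j k) p := fun p j => by
        simp only [tp_one, psi, y]
        rw [Finset.sum_comm]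
      simp only [e0]
      have hy : ∀ j k, Integrable (fun p => psi P g (y j k) p ^ 2) (mu P) := fun j k => by
        simp only [sq]; exact ((gd_psi P hg hL hL0 _).mul (gd_psi P hg hL hL0 _)).int P
      have i1 := ((integrable_finsetSum Finset.univ fun e _ => hV e).const_mul (2 * L ^ 2))
      have i2 := ((integrable_finsetSum Finset.univ fun j _ => integrable_finsetSum Finset.univ
        fun k _ => hy j k).const_mul (2 * ((n : ℝ) + 1)))
      refine (integral_mono_of_nonneg (ae_of_all _ fun p => Finset.sum_nonneg fun j _ => sq_nonneg _)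
        (i1.add i2) (ae_of_all _ fun p => ?_)).trans ?_
      · simp only [Pi.add_apply]
        refine (Finset.sum_le_sum fun j _ => add_sq_le).trans ?_
        rw [← Finset.mul_sum, Finset.sum_add_distrib, mul_add, mul_assoc (2 : ℝ), mul_assoc (2 : ℝ)]
        refine add_le_add (mul_le_mul_of_nonneg_left (sum_sq_form_le hL hL0 (fun e => V e p) p)
          zero_le_two) (mul_le_mul_of_nonneg_left ?_ zero_le_two)
        rw [Finset.mul_sum]
        exact Finset.sum_le_sum fun j _ => sq_sum_le_card_mul_sum_sq.trans_eq (by simp)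
      simp only [Pi.add_apply]
      rw [integral_add i1 i2, integral_const_mul, integral_const_mul,
        integral_finsetSum _ fun j _ => integrable_finsetSum _ fun k _ => hy j k]
      simp only [fun j : Fin d => integral_finsetSum (μ := mu P) Finset.univ fun k _ => hy j k]
      have h2 : ∑ j, ∑ k, ∫ p, psi P g (y j k) p ^ 2 ∂mu P
          ≤ GC n * L ^ 2 * (((n : ℝ) + 1) * ∑ a, x a ^ 2) := by
        refine (Finset.sum_le_sum fun j _ => Finset.sum_le_sum fun k _ =>
          appg_sq n (y j k)).trans_eq ?_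
        simp only [← Finset.mul_sum]
        congr 1
        simp only [y, Fintype.sum_prod_type]
        rw [Finset.mul_sum]
        refine Eq.trans ?_ (Finset.sum_congr rfl fun e _ => sum_insert_sq fun w => x (e, w))
        conv_rhs => rw [Finset.sum_comm]
        refine Finset.sum_congr rfl fun j _ => ?_
        rw [Finset.sum_comm]
      refine (add_le_add (mul_le_mul_of_nonneg_left hV2 (by positivity))
        (mul_le_mul_of_nonneg_left h2 (by positivity))).trans_eq ?_
      rw [GC]
      ring

omit hg hL hL0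

/-! ### Two colours -/

theorem unc_unit {ι : Type} : unc (unit : List ι → ℝ) = unit := by
  funext l; cases l <;> rfl

theorem unc_cv {ι : Type} (f g : List ι → ℝ) : unc (cv f g) = cv (unc f) (unc g) :=
  funext fun l => cv_map _ l f g

theorem unc_mon (x : Space d) : unc (mon x) = cv (lft (mon x)) (rgt (mon x)) := by
  funext l
  induction l with
  | nil => simp [unc, lft, rgt]
  | cons i l ih =>
    rw [cv_cons]
    rcases i with i | i
    · rw [sh_rgt_inl, cv_zero_right, add_zero, sh_lft_inl, sh_mon,
        show lft (x i • mon x) = x i • lft (mon x) from funext fun m => lft_smul m _ _,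
        cv_smul_left, ← ih]
      simp [unc, mon_cons]
    · rw [sh_lft_inr, cv_zero_left, zero_add, sh_rgt_inr, sh_mon,
        show rgt (x i • mon x) = x i • rgt (mon x) from funext fun m => rgt_smul m _ _,
        cv_smul_right, ← ih]
      simp [unc, mon_cons]

/-- The product of the Appell fields in two colours, as a product with the monomials. -/
theorem two_app (x : Space d) : cv (lft (app P x)) (rgt (app P x))
    = cv (cv (lft (Ser.inv (mom P))) (rgt (Ser.inv (mom P)))) (unc (mon x)) := by
  have hl : lft (app P x) = cv (lft (Ser.inv (mom P))) (lft (mon x)) :=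
    funext fun l => lft_cv l _ _
  have hr : rgt (app P x) = cv (rgt (Ser.inv (mom P))) (rgt (mon x)) :=
    funext fun l => rgt_cv l _ _
  have A : ∀ a b c : List (Fin d ⊕ Fin d) → ℝ, cv (cv a b) c = cv a (cv b c) := fun a b c =>
    funext fun l => cv_assoc l a b c
  have B : ∀ a b c : List (Fin d ⊕ Fin d) → ℝ, cv a (cv b c) = cv b (cv a c) := fun a b c =>
    funext fun l => cv_left_comm l a b c
  rw [hl, hr, unc_mon, A, A, B (lft (mon x))]

/-- The product of two colours of the Appell fields, averaged. -/
def two (l : List (Fin d ⊕ Fin d)) : ℝ := ∫ x, cv (lft (app P x)) (rgt (app P x)) l ∂mu P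

/-- The two-coloured cumulant: all legs minus the left ones. -/
def kap2 (g : Space d → Space d) (e : Fin d) : List (Fin d ⊕ Fin d) → ℝ :=
  unc (kap P g e) - lft (kap P g e)

theorem gd_two (l : List (Fin d ⊕ Fin d)) :
    Gd fun x => cv (lft (app P x)) (rgt (app P x)) l := by
  simp only [two_app]
  exact (cv_lin P l _ (fun x => unc (mon x)) fun m => gd_mon _).1

theorem two_eq : two P
    = cv (cv (lft (Ser.inv (mom P))) (rgt (Ser.inv (mom P)))) (unc (mom P)) := by
  funext l
  simp only [two, two_app]
  exact (cv_lin P l _ (fun x => unc (mon x)) fun m => gd_mon _).2.2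

include hg hL hL0

theorem two_appg (e : Fin d) (l : List (Fin d ⊕ Fin d)) :
    ∫ x, cv (lft (appg P g e x)) (rgt (app P x)) l ∂mu P = cv (kap2 P g e) (two P) l := by
  set c2 := cv (lft (Ser.inv (mom P))) (rgt (Ser.inv (mom P))) with hc2
  have hl : ∀ x, lft (appg P g e x)
      = g x e • lft (app P x) - cv (lft (kap P g e)) (lft (app P x)) := fun x => funext fun m => by
    rw [appg, lft_sub, Pi.sub_apply, Pi.smul_apply, lft_smul, lft_cv, smul_eq_mul]
  have hG := gd_coord hg hL hL0 e
  have e1 : ∀ x, cv (lft (appg P g e x)) (rgt (app P x)) l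
      = cv c2 (g x e • unc (mon x)) l
        - cv (lft (kap P g e)) (cv (lft (app P x)) (rgt (app P x))) l := fun x => by
    rw [hl, cv_sub_left, cv_smul_left, cv_assoc, cv_smul_right, two_app P x]
  obtain ⟨a1, -, a3⟩ := cv_lin P l c2 (fun x => g x e • unc (mon x))
    fun m => hG.mul (gd_mon (m.map (Sum.elim id id)))
  obtain ⟨b1, -, b3⟩ := cv_lin P l (lft (kap P g e))
    (fun x => cv (lft (app P x)) (rgt (app P x))) (gd_two P)
  simp only [e1]
  rw [integral_sub (a1.int P) (b1.int P), a3, b3, kap2, cv_sub_left]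
  congr 1
  have hk : unc (kap P g e) = cv (unc (Ser.inv (mom P))) (unc (gmom P g e)) := unc_cv _ _
  have A : ∀ a b c : List (Fin d ⊕ Fin d) → ℝ, cv (cv a b) c = cv a (cv b c) := fun a b c =>
    funext fun l => cv_assoc l a b c
  have B : ∀ a b : List (Fin d ⊕ Fin d) → ℝ, cv a b = cv b a := fun a b =>
    funext fun l => cv_comm l a b
  rw [hk, two_eq, ← hc2, B _ (cv c2 _), A c2, ← A (unc (mom P)), ← unc_cv,
    cv_inv (mom_nil P), unc_unit,
    show cv unit (unc (gmom P g e)) = unc (gmom P g e) from funext fun l => cv_unit_left l _]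
  rfl

omit hg hL hL0

/-- The cumulants are bounded on every splitting. -/
theorem kap_split (p q : ℕ) : ∃ C : ℝ, 0 ≤ C ∧ ∀ (d : ℕ) (h : ℝ) (P : Pot d h)
    (g : Space d → Space d) (L : ℝ), ContDiff ℝ 1 g → (∀ x y, ‖g x - g y‖ ≤ L * ‖x - y‖) → 0 ≤ L →
      Bd (fun e (_ : Unit) => kap2 P g e) (C * L) p q := by
  suffices H : ∀ n, ∃ C : ℝ, 0 ≤ C ∧ ∀ p q, p + q < n → ∀ (d : ℕ) (h : ℝ) (P : Pot d h)
      (g : Space d → Space d) (L : ℝ), ContDiff ℝ 1 g → (∀ x y, ‖g x - g y‖ ≤ L * ‖x - y‖) →
        0 ≤ L → Bd (fun e (_ : Unit) => kap2 P g e) (C * L) p q by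
    obtain ⟨C, hC, hb⟩ := H (p + q + 1)
    exact ⟨C, hC, hb p q (Nat.lt_succ_self _)⟩
  intro n
  induction n with
  | zero => exact ⟨0, le_rfl, fun p q h => absurd h (Nat.not_lt_zero _)⟩
  | succ n ih =>
    obtain ⟨C, hC, hb⟩ := ih
    set G := ∑ i ∈ range (n + 1), Real.sqrt (GC i)
    set F : ℝ := (n ! : ℝ)
    have hG : 0 ≤ G := Finset.sum_nonneg fun _ _ => Real.sqrt_nonneg _
    have hF : 1 ≤ F := Nat.one_le_cast.2 n.factorial_pos
    refine ⟨C + (G * F + 2 ^ n * C * (F * F)), by positivity, fun p q hpq d h P g L hg hL hL0 => ?_⟩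
    rcases lt_or_eq_of_le (Nat.lt_succ_iff.1 hpq) with hlt | heq
    · intro x y
      refine (hb p q hlt d h P g L hg hL hL0 x y).trans ?_
      gcongr
      · exact nrm_nonneg _
      · exact nrm_nonneg _
      · exact le_add_of_nonneg_right (by positivity)
    · have hfac : ∀ a, a ≤ n → (a ! : ℝ) ≤ F := fun a ha => by
        show (a ! : ℝ) ≤ (n ! : ℝ)
        exact_mod_cast Nat.factorial_le ha
      set M' : Fin d → Unit → List (Fin d ⊕ Fin d) → ℝ :=
        fun e _ l => if l.length < n then kap2 P g e l else 0 with hM'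
      set E : Unit → Unit → List (Fin d ⊕ Fin d) → ℝ := fun _ _ => two P - unit with hE
      have hEv : ∀ (a b : ℕ) (u : Fin a → Fin d) (w : Fin b → Fin d), two P (srt u w)
          = ∫ z, app P z (List.ofFn u) * app P z (List.ofFn w) ∂mu P := fun a b u w => by
        simp only [two, srt, cv_lft_rgt]
      have hEb : ∀ a b, a ≤ p → b ≤ q → Bd E (F * F) a b := by
        intro a b ha hb' x y
        rcases Nat.eq_zero_or_pos a with ha0 | ha0
        · subst ha0
          have : pair E 0 b x y = 0 := Finset.sum_eq_zero fun i _ => Finset.sum_eq_zero fun j _ => by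
            have e : E i.1 j.1 (srt i.2 j.2) = 0 := by
              show two P _ - unit _ = 0
              rw [hEv, List.ofFn_zero]
              simp only [app_nil, one_mul, integral_app]
              cases b <;> simp [srt, List.ofFn_succ]
            rw [e, mul_zero]
          rw [this, abs_zero]
          exact mul_nonneg (mul_nonneg (by positivity) (nrm_nonneg _)) (nrm_nonneg _)
        obtain ⟨a, rfl⟩ := Nat.exists_eq_add_one_of_ne_zero ha0.ne'
        have e : ∀ (i : Unit × (Fin (a + 1) → Fin d)) (j : Unit × (Fin b → Fin d)),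
            E i.1 j.1 (srt i.2 j.2)
              = ∫ z, app P z (List.ofFn i.2) * app P z (List.ofFn j.2) ∂mu P := fun i j => by
          show two P _ - unit _ = _
          rw [hEv, srt, List.ofFn_succ (f := i.2)]
          simp
        have hu := gd_tp (fun w => x ((), w)) (F := app P) (gd_app P)
        have hv := gd_tp (fun w => y ((), w)) (F := app P) (gd_app P)
        have e2 : pair E (a + 1) b x y = ∫ z, tp (fun w => x ((), w)) (app P z)
            * tp (fun w => y ((), w)) (app P z) ∂mu P := by
          simp only [tp, Finset.sum_mul_sum]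
          rw [integral_finsetSum _ fun i _ => integrable_finsetSum _ fun j _ =>
            (((gd_app P _).smul _).mul ((gd_app P _).smul _)).int P]
          simp only [pair, e, Fintype.sum_prod_type, Fintype.sum_unique, PUnit.default_eq_unit]
          refine Finset.sum_congr rfl fun i _ => ?_
          rw [integral_finsetSum _ fun j _ =>
            (((gd_app P _).smul _).mul ((gd_app P _).smul _)).int P]
          refine Finset.sum_congr rfl fun j _ => ?_
          rw [← integral_const_mul]
          congr 1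
          funext z
          ring
        rw [e2]
        refine (Real.abs_le_sqrt (sq_integral_mul_le ((hu.mul hu).int P |>.congr
          (ae_of_all _ fun z => (sq _).symm)) ((hv.mul hv).int P |>.congr
          (ae_of_all _ fun z => (sq _).symm)) ((hu.mul hv).int P))).trans ?_
        refine (Real.sqrt_le_sqrt (mul_le_mul (app_sq P _ _) (app_sq P _ _)
          (integral_nonneg fun _ => sq_nonneg _) (by positivity))).trans ?_
        rw [Real.sqrt_mul (by positivity), Real.sqrt_mul (sq_nonneg _), Real.sqrt_mul (sq_nonneg _),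
          Real.sqrt_sq (by positivity), Real.sqrt_sq (by positivity)]
        simp only [nrm, Fintype.sum_prod_type, Fintype.sum_unique, PUnit.default_eq_unit]
        rw [show ∀ s t : ℝ, ((a + 1)! : ℝ) * s * ((b ! : ℝ) * t)
          = ((a + 1)! : ℝ) * (b ! : ℝ) * s * t from fun s t => by ring]
        gcongr <;> exact hfac _ (by omega)
      have hMb : ∀ a b, a ≤ p → b ≤ q → Bd M' (C * L) a b := by
        intro a b ha hb' x y
        by_cases hab : a + b < n
        · have : pair M' a b x y = pair (fun e (_ : Unit) => kap2 P g e) a b x y :=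
            Finset.sum_congr rfl fun i _ => Finset.sum_congr rfl fun j _ => by
              simp [hM', srt, hab]
          rw [this]
          exact hb a b hab d h P g L hg hL hL0 x y
        · have : pair M' a b x y = 0 := Finset.sum_eq_zero fun i _ => Finset.sum_eq_zero fun j _ => by
            simp [hM', srt, hab]
          rw [this, abs_zero]
          exact mul_nonneg (mul_nonneg (mul_nonneg hC hL0) (nrm_nonneg _)) (nrm_nonneg _)
      have key := Ser.Bd.cv p q M' E (C * L) (F * F) (mul_nonneg hC hL0) (by positivity) hMb hEb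
      intro x y
      have k1 := key (fun a => x (a.1.1, a.2)) fun b => y ((), b.2)
      have n1 : nrm (fun a : (Fin d × Unit) × (Fin p → Fin d) => x (a.1.1, a.2)) = nrm x :=
        nrm_equiv (Equiv.prodCongr (Equiv.prodPUnit _) (Equiv.refl _)) x
      have n2 : nrm (fun b : (Unit × Unit) × (Fin q → Fin d) => y ((), b.2)) = nrm y :=
        nrm_equiv (Equiv.prodCongr (Equiv.prodPUnit _) (Equiv.refl _)) y
      rw [n1, n2] at k1
      set u : Space d → ℝ := psi P g x
      set v : Space d → ℝ := fun z => tp (fun w => y ((), w)) (app P z)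
      have hu : Gd u := gd_psi P hg hL hL0 x
      have hv : Gd v := gd_tp _ (gd_app P)
      have e : pair (fun e (_ : Unit) => kap2 P g e) p q x y = (∫ z, u z * v z ∂mu P)
          - pair (fun (a : Fin d × Unit) (b : Unit × Unit) =>
              Ser.cv (M' a.1 b.1) (E a.2 b.2)) p q (fun a => x (a.1.1, a.2))
              (fun b => y ((), b.2)) := by
        have hint : ∫ z, u z * v z ∂mu P = ∑ a : Fin d × (Fin p → Fin d),
            ∑ b : Unit × (Fin q → Fin d), x a * y b * cv (kap2 P g a.1) (two P) (srt a.2 b.2) := by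
          simp only [u, v, psi, tp, Finset.sum_mul]
          simp only [Finset.mul_sum, Fintype.sum_prod_type, Fintype.sum_unique,
            PUnit.default_eq_unit]
          rw [integral_finsetSum _ fun i _ => integrable_finsetSum _ fun w _ =>
            integrable_finsetSum _ fun j _ =>
              (((gd_appg P hg hL hL0 i _).smul _).mul ((gd_app P _).smul _)).int P]
          refine Finset.sum_congr rfl fun i _ => ?_
          rw [integral_finsetSum _ fun w _ => integrable_finsetSum _ fun j _ =>
            (((gd_appg P hg hL hL0 i _).smul _).mul ((gd_app P _).smul _)).int P]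
          refine Finset.sum_congr rfl fun w _ => ?_
          rw [integral_finsetSum _ fun j _ =>
            (((gd_appg P hg hL hL0 i _).smul _).mul ((gd_app P _).smul _)).int P]
          refine Finset.sum_congr rfl fun j _ => ?_
          rw [← two_appg P hg hL hL0, ← integral_const_mul]
          congr 1
          funext z
          rw [srt, cv_lft_rgt]
          ring
        rw [hint, pair, pair, eq_sub_iff_add_eq,
          ← (Equiv.prodCongr (Equiv.prodPUnit (Fin d)) (Equiv.refl (Fin p → Fin d))).symm.sum_comp,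
          ← Finset.sum_add_distrib]
        refine Finset.sum_congr rfl fun a _ => ?_
        rw [← (Equiv.prodCongr (Equiv.prodPUnit Unit) (Equiv.refl (Fin q → Fin d))).symm.sum_comp,
          ← Finset.sum_add_distrib]
        refine Finset.sum_congr rfl fun b _ => ?_
        set m := srt a.2 b.2
        have hm : m.length = n := by simp [m, srt, heq]
        have e3 : cv (M' a.1 ()) (E () ()) m = cv (kap2 P g a.1) (E () ()) m := by
          rw [← sub_eq_zero, ← cv_sub_left, cv_comm]
          refine cv_eq_zero m _ _ (by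
            have := mu_prob P
            simp [hE, two, app_nil, lft, rgt]) fun l hl => ?_
          simp [hM', hm ▸ hl]
        have e4 : cv (kap2 P g a.1) (two P) m
            = kap2 P g a.1 m + cv (kap2 P g a.1) (E () ()) m := by
          show _ = _ + cv _ (two P - unit) m
          rw [cv_sub_right, cv_unit_right]
          ring
        simp [e3, e4, m, mul_add]
      rw [e]
      refine (abs_sub _ _).trans ?_
      have hux : |∫ z, u z * v z ∂mu P| ≤ G * F * L * nrm x * nrm y := by
        refine (Real.abs_le_sqrt (sq_integral_mul_le ((hu.mul hu).int P |>.congr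
          (ae_of_all _ fun z => (sq _).symm)) ((hv.mul hv).int P |>.congr
          (ae_of_all _ fun z => (sq _).symm)) ((hu.mul hv).int P))).trans ?_
        refine (Real.sqrt_le_sqrt (mul_le_mul (appg_sq P hg hL hL0 p x) (app_sq P q _)
          (integral_nonneg fun _ => sq_nonneg _) (by have := GC_nonneg p; positivity))).trans ?_
        have := GC_nonneg p
        rw [Real.sqrt_mul (by positivity), Real.sqrt_mul (by positivity),
          Real.sqrt_mul (GC_nonneg p), Real.sqrt_mul (sq_nonneg _), Real.sqrt_sq hL0,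
          Real.sqrt_sq (by positivity)]
        rw [show nrm y = Real.sqrt (∑ w, y ((), w) ^ 2) by
          simp [nrm, Fintype.sum_prod_type]]
        rw [show Real.sqrt (∑ a, x a ^ 2) = nrm x from rfl,
          show ∀ s : ℝ, Real.sqrt (GC p) * L * nrm x * ((q ! : ℝ) * s)
          = Real.sqrt (GC p) * (q ! : ℝ) * L * nrm x * s from fun s => by ring]
        gcongr
        · exact nrm_nonneg _
        · exact Finset.single_le_sum (f := fun i => Real.sqrt (GC i))
            (fun i _ => Real.sqrt_nonneg _) (Finset.mem_range.2 (by omega))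
        · exact hfac _ (by omega)
      refine (add_le_add hux k1).trans (le_of_sub_nonneg ?_)
      rw [heq]
      have : 0 ≤ C * L * nrm x * nrm y :=
        mul_nonneg (mul_nonneg (mul_nonneg hC hL0) (nrm_nonneg _)) (nrm_nonneg _)
      linarith

/-- The pairing of the cumulants across a splitting with a leg on the right. -/
theorem kap_bound (p q : ℕ) : ∃ C : ℝ, 0 ≤ C ∧ ∀ (d : ℕ) (h : ℝ) (P : Pot d h)
    (g : Space d → Space d) (L : ℝ), ContDiff ℝ 1 g → (∀ x y, ‖g x - g y‖ ≤ L * ‖x - y‖) → 0 ≤ L →
      ∀ (x : Fin d × (Fin p → Fin d) → ℝ) (y : (Fin (q + 1) → Fin d) → ℝ),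
        |∑ a, ∑ w, x a * y w * kap P g a.1 (List.ofFn a.2 ++ List.ofFn w)|
          ≤ C * L * nrm x * nrm y := by
  obtain ⟨C, hC, hb⟩ := kap_split p (q + 1)
  refine ⟨C, hC, fun d h P g L hg hL hL0 x y => ?_⟩
  have h1 := hb d h P g L hg hL hL0 x fun b => y b.2
  have n2 : nrm (fun b : Unit × (Fin (q + 1) → Fin d) => y b.2) = nrm y :=
    nrm_equiv (Equiv.punitProd _) y
  rw [n2] at h1
  refine (le_of_eq ?_).trans h1
  congr 1
  simp only [pair, kap2, Pi.sub_apply, srt, unc_sorted, lft_sorted, Fintype.sum_prod_type,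
    Fintype.sum_unique, List.ofFn_succ (n := q)]
  simp

end Vale.Agent.P347.Zero.Ser
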