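import Vale.Agent.P347.Zero.Class
import Vale.Agent.P347.Transfer

/-!
A tensor applied to one vector at each leg but one: linearity, relabelling, a leg read from a block,
continuity and the second moment over standard inputs. Changes of blocks and inputs that keep the
Gaussian law.
-/

noncomputable section

open MeasureTheory ProbabilityTheory
open scoped RealInnerProductSpace NNReal

namespace Vale.Agent.P347.Zero

variable {d : ℕ} {B B' I I' J : Type} [Fintype B] [Fintype B'] [Fintype I] [DecidableEq I]
  [Fintype I'] [Fintype J] [DecidableEq J]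

theorem apT_add (o : I) (T T' : Ten d I) (A : I → Space d) :
    apT o (T + T') A = apT o T A + apT o T' A := by
  simp only [apT, Pi.add_apply, add_mul, add_smul, Finset.sum_add_distrib]

theorem apT_smul (o : I) (c : ℝ) (T : Ten d I) (A : I → Space d) :
    apT o (c • T) A = c • apT o T A := by
  simp only [apT, Pi.smul_apply, smul_eq_mul, mul_assoc, Finset.smul_sum, smul_smul]

theorem apT_sum {α : Type} (o : I) (s : Finset α) (T : α → Ten d I) (A : I → Space d) :
    apT o (∑ a ∈ s, T a) A = ∑ a ∈ s, apT o (T a) A := by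
  classical
  induction s using Finset.induction_on with
  | empty => simp [apT]
  | insert a s ha ih => rw [Finset.sum_insert ha, Finset.sum_insert ha, apT_add, ih]

theorem apT_reT (e : I ≃ J) (o : I) (T : Ten d I) (A : J → Space d) :
    apT (e o) (reT e T) A = apT o T fun l => A (e l) := by
  simp only [apT]
  refine Fintype.sum_equiv (Equiv.arrowCongr e.symm (Equiv.refl (Fin d))) _ _ fun j => ?_
  have hs : Finset.univ.erase (e o) = (Finset.univ.erase o).map e.toEmbedding := by
    simp [Finset.map_erase]
  rw [hs, Finset.prod_map]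
  rfl

theorem continuous_apT (o : I) {Z : Type} [TopologicalSpace Z] {T : Z → Ten d I}
    {A : Z → I → Space d} (hT : Continuous T) (hA : Continuous A) :
    Continuous fun z => apT o (T z) (A z) := by
  unfold apT
  fun_prop

/-- The input at the leg `none` read from a block. -/
theorem apT_ctrV (o : I) (T : Ten d (Option I)) (v : Space d) (A : I → Space d) :
    apT (some o) T (fun j => j.elim v A) = apT o (ctrV T v) A := by
  simp only [apT, ctrV, Finset.sum_mul, Finset.sum_smul]
  rw [← (Equiv.piOptionEquivProd (β := fun _ : Option I => Fin d)).symm.sum_comp,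
    Fintype.sum_prod_type, Finset.sum_comm]
  refine Finset.sum_congr rfl fun idx _ => Finset.sum_congr rfl fun c _ => ?_
  have hs : (Finset.univ : Finset (Option I)).erase (some o)
      = insert none ((Finset.univ.erase o).map Function.Embedding.some) := by
    ext j; cases j <;> simp
  have he : ((Equiv.piOptionEquivProd (β := fun _ : Option I => Fin d)).symm (c, idx))
      = fun j => j.elim c idx := by
    funext j; cases j <;> rfl
  rw [he, hs, Finset.prod_insert (by simp), Finset.prod_map]
  simp only [Option.elim_none, Option.elim_some, Function.Embedding.some_apply]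
  rw [mul_assoc]

theorem gam_coord_prod (a b : Fin d) :
    Integrable (fun z : Space d => z a * z b) (gam d) ∧
      ∫ z, z a * z b ∂gam d = if a = b then 1 else 0 := by
  have hi : ∀ k : Space d, Integrable (fun z : Space d => ⟪k, z⟫ ^ 2) (gam d) := fun k =>
    gam_int (by fun_prop) (grow_pow (grow_inner k) 2)
  have e : ∀ z : Space d, z a * z b
      = (⟪ev a + ev b, z⟫ ^ 2 - ⟪ev a, z⟫ ^ 2 - ⟪ev b, z⟫ ^ 2) / 2 := fun z => by
    simp only [inner_add_left, coord_inner]; ring
  have h1 : Integrable (fun z : Space d => ⟪ev a + ev b, z⟫ ^ 2 - ⟪ev a, z⟫ ^ 2) (gam d) :=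
    (hi _).sub (hi _)
  have h2 : Integrable
      (fun z : Space d => ⟪ev a + ev b, z⟫ ^ 2 - ⟪ev a, z⟫ ^ 2 - ⟪ev b, z⟫ ^ 2) (gam d) :=
    h1.sub (hi _)
  simp only [e]
  refine ⟨h2.div_const 2, ?_⟩
  rw [integral_div, integral_sub h1 (hi _), integral_sub (hi _) (hi _), integral_inner_sq,
    integral_inner_sq, integral_inner_sq, norm_add_sq_real]
  by_cases h : a = b
  · subst h; simp
  · simp [h, coord_inner]

/-- The second moment over standard inputs is the Hilbert-Schmidt norm. -/
theorem apT_sq (o : I) (T : Ten d I) :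
    Integrable (fun A => ‖apT o T A‖ ^ 2) (gp I d) ∧
      ∫ A, ‖apT o T A‖ ^ 2 ∂gp I d = hsT T := by
  classical
  set W : (I → Fin d) → (I → Fin d) → (I → Space d) → ℝ := fun i j A =>
    ∏ l, if l = o then (if i o = j o then 1 else 0) else A l (i l) * A l (j l) with hW
  have e : ∀ A, ‖apT o T A‖ ^ 2 = ∑ i, ∑ j, T i * T j * W i j A := fun A => by
    rw [← real_inner_self_eq_norm_sq]
    simp only [apT, inner_sum, sum_inner, real_inner_smul_left, real_inner_smul_right]
    rw [Finset.sum_comm]
    refine Finset.sum_congr rfl fun i _ => Finset.sum_congr rfl fun j _ => ?_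
    have h1 : W i j A = (if i o = j o then 1 else 0)
        * ((∏ l ∈ Finset.univ.erase o, A l (i l)) * ∏ l ∈ Finset.univ.erase o, A l (j l)) := by
      simp only [hW]
      rw [← Finset.prod_mul_distrib, ← Finset.mul_prod_erase Finset.univ _ (Finset.mem_univ o)]
      simp only [if_pos]
      exact congrArg _ (Finset.prod_congr rfl fun l hl => if_neg (Finset.ne_of_mem_erase hl))
    have h2 : ⟪ev (i o), ev (j o)⟫ = if i o = j o then (1 : ℝ) else 0 := by
      simp [coord_inner, ev, Pi.single_apply]
    rw [h1, h2]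
    ring
  have hW1 : ∀ i j, Integrable (W i j) (gp I d) ∧
      ∫ A, W i j A ∂gp I d = ∏ l, if i l = j l then (1 : ℝ) else 0 := fun i j => by
    refine ⟨Integrable.fintype_prod (f := fun l (z : Space d) =>
      if l = o then (if i o = j o then (1 : ℝ) else 0) else z (i l) * z (j l)) fun l => ?_, ?_⟩
    · split_ifs
      exacts [integrable_const _, integrable_const _, (gam_coord_prod _ _).1]
    · rw [hW, integral_fintype_prod_eq_prod (𝕜 := ℝ) (E := fun _ : I => Space d)
        (fun l z => if l = o then (if i o = j o then (1 : ℝ) else 0) else z (i l) * z (j l))]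
      refine Finset.prod_congr rfl fun l _ => ?_
      by_cases hl : l = o
      · subst hl; simp
      · simp only [if_neg hl]
        exact (gam_coord_prod _ _).2
  simp only [e]
  refine ⟨integrable_finsetSum _ fun i _ => integrable_finsetSum _ fun j _ =>
    (hW1 i j).1.const_mul _, ?_⟩
  rw [integral_finsetSum _ fun i _ => integrable_finsetSum _ fun j _ => (hW1 i j).1.const_mul _,
    hsT]
  refine Finset.sum_congr rfl fun i _ => ?_
  rw [integral_finsetSum _ fun j _ => (hW1 i j).1.const_mul _, Finset.sum_eq_single i]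
  · rw [integral_const_mul, (hW1 i i).2]
    simp [sq]
  · intro j _ hj
    rw [integral_const_mul, (hW1 i j).2]
    obtain ⟨l, hl⟩ := Function.ne_iff.1 hj
    rw [Finset.prod_eq_zero (Finset.mem_univ l) (if_neg (Ne.symm hl)), mul_zero]
  · simp

theorem apT_norm_le (o : I) (T : Ten d I) :
    Integrable (fun A => ‖apT o T A‖) (gp I d) ∧
      ∫ A, ‖apT o T A‖ ∂gp I d ≤ Real.sqrt (hsT T) := by
  obtain ⟨h2, he⟩ := apT_sq o T
  have hc : Continuous fun A : I → Space d => apT o T A := continuous_apT o continuous_const continuous_id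
  have hi : Integrable (fun A => ‖apT o T A‖) (gp I d) :=
    ((integrable_const 1).add h2).mono' hc.norm.aestronglyMeasurable (ae_of_all _ fun A => by
      rw [Real.norm_of_nonneg (norm_nonneg _), Pi.add_apply]
      nlinarith [sq_nonneg (‖apT o T A‖ - 1), norm_nonneg (apT o T A)])
  refine ⟨hi, Real.le_sqrt_of_sq_le ?_⟩
  set m := ∫ A, ‖apT o T A‖ ∂gp I d
  have h0 : 0 ≤ ∫ A, (‖apT o T A‖ - m) ^ 2 ∂gp I d := integral_nonneg fun A => sq_nonneg _
  have e : (∫ A, (‖apT o T A‖ - m) ^ 2 ∂gp I d) = hsT T - m ^ 2 := by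
    simp only [show ∀ A, (‖apT o T A‖ - m) ^ 2 = ‖apT o T A‖ ^ 2 - 2 * m * ‖apT o T A‖ + m ^ 2
      from fun A => by ring]
    have h3 : Integrable (fun A => ‖apT o T A‖ ^ 2 - 2 * m * ‖apT o T A‖) (gp I d) :=
      h2.sub (hi.const_mul _)
    rw [integral_add h3 (integrable_const _), integral_sub h2 (hi.const_mul _), integral_const_mul,
      he, integral_const, probReal_univ, one_smul]
    ring
  linarith

/-! ### Changes of blocks and inputs -/

/-- Blocks and inputs permuted among themselves. -/
def permIO (σ : B ⊕ I ≃ B' ⊕ I') :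
    ((B' → Space d) × (I' → Space d)) →L[ℝ] ((B → Space d) × (I → Space d)) :=
  (ContinuousLinearMap.pi fun b => (σ (.inl b)).elim
      (fun b' => (ContinuousLinearMap.proj b').comp (ContinuousLinearMap.fst ℝ _ _))
      fun l' => (ContinuousLinearMap.proj l').comp (ContinuousLinearMap.snd ℝ _ _)).prod
    (ContinuousLinearMap.pi fun l => (σ (.inr l)).elim
      (fun b' => (ContinuousLinearMap.proj b').comp (ContinuousLinearMap.fst ℝ _ _))
      fun l' => (ContinuousLinearMap.proj l').comp (ContinuousLinearMap.snd ℝ _ _))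

omit [DecidableEq I] in
theorem permIO_apply (σ : B ⊕ I ≃ B' ⊕ I') (z : (B' → Space d) × (I' → Space d)) :
    permIO σ z = ((fun b => Sum.elim z.1 z.2 (σ (.inl b))), fun l => Sum.elim z.1 z.2 (σ (.inr l))) := by
  refine Prod.ext (funext fun b => ?_) (funext fun l => ?_)
  · simp only [permIO, ContinuousLinearMap.prod_apply, ContinuousLinearMap.pi_apply]
    rcases σ (.inl b) with a | a <;> rfl
  · simp only [permIO, ContinuousLinearMap.prod_apply, ContinuousLinearMap.pi_apply]
    rcases σ (.inr l) with a | a <;> rfl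

omit [DecidableEq I] in
theorem permIO_mp (σ : B ⊕ I ≃ B' ⊕ I') :
    MeasurePreserving (permIO (d := d) σ) ((gp B' d).prod (gp I' d)) ((gp B d).prod (gp I d)) := by
  have h1 := measurePreserving_sumPiEquivProdPi_symm (X := fun _ : B' ⊕ I' => Space d)
    (fun _ => gam d)
  have h2 := measurePreserving_piCongrLeft (α := fun _ : B ⊕ I => Space d) (fun _ => gam d) σ.symm
  have h3 := measurePreserving_sumPiEquivProdPi (X := fun _ : B ⊕ I => Space d) (fun _ => gam d)
  refine cast (congrArg (fun f => MeasurePreserving f _ _) (funext fun z => ?_))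
    ((h3.comp h2).comp h1)
  rw [permIO_apply]
  refine Prod.ext (funext fun b => ?_) (funext fun l => ?_) <;>
  · simp [MeasurableEquiv.sumPiEquivProdPi, MeasurableEquiv.piCongrLeft,
      Equiv.sumPiEquivProdPi, Equiv.piCongrLeft_apply_eq_cast]
    rfl

omit [DecidableEq I] in
theorem permIO_norm (σ : B ⊕ I ≃ B' ⊕ I') (z : (B' → Space d) × (I' → Space d)) :
    ∑ b, ‖(permIO σ z).1 b‖ + ∑ l, ‖(permIO σ z).2 l‖ = ∑ b, ‖z.1 b‖ + ∑ l, ‖z.2 l‖ := by
  rw [permIO_apply]
  simp only
  rw [← Fintype.sum_sum_type (fun r => ‖Sum.elim z.1 z.2 (σ r)‖),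
    σ.sum_comp (fun r => ‖Sum.elim z.1 z.2 r‖), Fintype.sum_sum_type]
  rfl

/-- A block combination by a matrix. -/
def mixB (d : ℕ) (M : B → B' → ℝ) : (B' → Space d) →L[ℝ] (B → Space d) :=
  ContinuousLinearMap.pi fun b => ∑ c, M b c • ContinuousLinearMap.proj c

omit [Fintype B] in
theorem mixB_apply (M : B → B' → ℝ) (x : B' → Space d) (b : B) :
    mixB d M x b = ∑ c, M b c • x c := by
  simp [mixB]

/-- Orthonormal rows keep the law. -/
theorem mixB_mp [DecidableEq B] {M : B → B' → ℝ}
    (hM : ∀ b b', ∑ c, M b c * M b' c = if b = b' then 1 else 0) :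
    MeasurePreserving (mixB d M) (gp B' d) (gp B d) := by
  refine ⟨(mixB d M).continuous.measurable, ?_⟩
  set e := MeasurableEquiv.toLp 2 (B → Space d) with he
  refine e.map_measurableEquiv_injective ?_
  simp only [he, MeasurableEquiv.coe_toLp]
  rw [Measure.map_map (by fun_prop) (mixB d M).continuous.measurable]
  apply Measure.ext_of_charFun
  funext t
  set t' : PiLp 2 fun _ : B' => Space d := WithLp.toLp 2 fun c => ∑ b, M b c • t b with ht'
  have h1 : charFun ((gp B' d).map (WithLp.toLp 2 ∘ mixB d M)) t
      = charFun ((gp B' d).map (WithLp.toLp 2)) t' := by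
    rw [charFun_apply, charFun_apply, integral_map (by fun_prop) (by fun_prop),
      integral_map (by fun_prop) (by fun_prop)]
    refine integral_congr_ae (ae_of_all _ fun x => ?_)
    have : ⟪(WithLp.toLp 2 (mixB d M x) : PiLp 2 fun _ : B => Space d), t⟫
        = ⟪(WithLp.toLp 2 x : PiLp 2 fun _ : B' => Space d), t'⟫ := by
      rw [PiLp.inner_apply, PiLp.inner_apply]
      simp only [ht', mixB_apply, sum_inner, inner_sum, real_inner_smul_left, real_inner_smul_right]
      rw [Finset.sum_comm]
    simp only [Function.comp_apply, this]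
  have h2 : ‖t'‖ ^ 2 = ‖t‖ ^ 2 := by
    rw [PiLp.norm_sq_eq_of_L2, PiLp.norm_sq_eq_of_L2]
    simp only [ht', WithLp.ofLp_toLp, ← real_inner_self_eq_norm_sq, sum_inner, inner_sum,
      real_inner_smul_left, real_inner_smul_right]
    rw [Finset.sum_comm]
    refine Finset.sum_congr rfl fun b _ => ?_
    rw [Finset.sum_comm]
    simp only [← mul_assoc, ← Finset.sum_mul, hM]
    simp
  rw [h1, gp_map_toLp, gp_map_toLp, charFun_stdGaussian, charFun_stdGaussian]
  rw [← Complex.ofReal_pow, h2, Complex.ofReal_pow]

end Vale.Agent.P347.Zero
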