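import Vale.Agent.P347.Zero.SamBd
import Vale.Agent.P347.Zero.Apply

/-!
The basic closure of realisability: monotonicity, parameters, changes of blocks and inputs that
keep the Gaussian law, weighted sums of few terms, small perturbations, and the level zero of pure
noise.
-/

noncomputable section

open MeasureTheory ProbabilityTheory
open scoped RealInnerProductSpace NNReal

namespace Vale.Agent.P347.Zero

variable {S : Sys} {B B' C I I' J : Type} [Fintype B] [DecidableEq B] [Fintype B'] [DecidableEq B']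
  [Fintype C] [Fintype I] [DecidableEq I] [Fintype I'] [DecidableEq I'] [Fintype J] [DecidableEq J]
  {κ κ' φ φ' θ θ' : ℝ} {o : I} {T T' : Fld S B I}

theorem Sys.Ev.slice {Q : Type} {P : (S.par Q).ι → Prop} (h : (S.par Q).Ev P) :
    S.Ev fun i => ∀ t, P (i, t) :=
  let ⟨d₀, hd⟩ := h
  ⟨d₀, fun i hi t => hd (i, t) hi⟩

theorem Sys.Ev.lift {Q : Type} {P : S.ι → Prop} (h : S.Ev P) :
    (S.par Q).Ev fun x => P x.1 :=
  let ⟨d₀, hd⟩ := h
  ⟨d₀, fun x hx => hd x.1 hx⟩

theorem Run.LipIn.mono {R : Run S B I} {g g' : ℝ} (h : R.LipIn g) (hg : g' ≤ g) : R.LipIn g' :=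
  Run.lipIn_of fun η hη => ((h.lip hη).and S.ev_one_le).mono fun _ ⟨hi, hd⟩ =>
    hi.mono (Real.rpow_le_rpow_of_exponent_le hd (by linarith))

theorem Run.Law.mono {R : Run S B I} {a : ℝ} (h : R.Law κ a o T) (hκ : κ' ≤ κ) :
    R.Law κ' a o T := fun η hη => ((h η hη).and S.ev_one_le).mono fun i ⟨hi, hd⟩ p => by
  obtain ⟨e, he, hb, hc⟩ := hi p
  exact ⟨e, he, hb.trans (mul_le_mul_of_nonneg_right
    (Real.rpow_le_rpow_of_exponent_le hd (by linarith)) (S.wt_nonneg i p)), hc⟩

theorem Sam.mono (h : Sam κ φ θ o T) (hκ : κ' ≤ κ) (hφ : φ ≤ φ') (hθ : θ' ≤ θ) :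
    Sam κ' φ' θ' o T := fun a ha ε hε => by
  obtain ⟨R, hq, hl, hin, hlaw⟩ := h a (by linarith) ε hε
  exact ⟨R, hq, hl, hin.mono (by linarith), hlaw.mono hκ⟩

/-- A parameter that is not used. -/
theorem Sam.par (h : Sam κ φ θ o T) (Q : Type) : Sam κ φ θ o (parF Q T) := fun a ha ε hε => by
  obtain ⟨R, hq, hl, hin, hlaw⟩ := h a ha ε hε
  exact ⟨Run.of fun x => R.atK x.1, hq.lift, fun x => hl x.1,
    Run.lipIn_of fun η hη => (hin.lip hη).lift,
    fun η hη => (hlaw η hη).lift⟩

/-- A value of the parameter for each index. -/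
theorem Sam.at_param {Q : Type} {T : Fld (S.par Q) B I} (h : Sam κ φ θ o T) (t : S.key → Q) :
    Sam κ φ θ o (fun i p => T (i, t (S.pub i)) p : Fld S B I) := fun a ha ε hε => by
  obtain ⟨R, hq, hl, hin, hlaw⟩ := h a ha ε hε
  exact ⟨Run.of fun k => R.atK (k, t k), hq.slice.mono fun i hi => hi (t (S.pub i)),
    fun i => hl (i, t (S.pub i)),
    Run.lipIn_of fun η hη => (hin.lip hη).slice.mono fun i hi => hi (t (S.pub i)),
    fun η hη => (hlaw η hη).slice.mono fun i hi => hi (t (S.pub i))⟩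

/-- A choice between two fields, made from the key. -/
theorem Sam.pick (h : Sam κ φ θ o T) (h' : Sam κ φ θ o T') (c : S.key → Prop) [DecidablePred c] :
    Sam κ φ θ o (fun i => if c (S.pub i) then T i else T' i : Fld S B I) := fun a ha ε hε => by
  obtain ⟨R, hq, hl, hin, hlaw⟩ := h a ha ε hε
  obtain ⟨R', hq', hl', hin', hlaw'⟩ := h' a ha ε hε
  have hl0 : ∀ i, (if c (S.pub i) then R.at i else R'.at i).LipW (S.og i) := fun i => by
    by_cases hc : c (S.pub i)
    · rw [if_pos hc]; exact hl.lipW i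
    · rw [if_neg hc]; exact hl'.lipW i
  refine ⟨Run.of fun k => if c k then R.atK k else R'.atK k, (hq.and hq').mono fun i ⟨h1, h2⟩ => ?_,
    hl0, Run.lipIn_of fun η hη => ((hin.lip hη).and (hin'.lip hη)).mono fun i ⟨h1, h2⟩ => ?_,
    Run.law_of_close fun η hη => ((hlaw.close hl hη).and (hlaw'.close hl' hη)).mono
      fun i ⟨h1, h2⟩ p => ?_⟩
  · show ((if c (S.pub i) then R.at i else R'.at i).q : ℝ) ≤ _
    by_cases hc : c (S.pub i)
    · rw [if_pos hc]; exact h1
    · rw [if_neg hc]; exact h2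
  · show (if c (S.pub i) then R.at i else R'.at i).Lip _ _
    by_cases hc : c (S.pub i)
    · rw [if_pos hc]; exact h1
    · rw [if_neg hc]; exact h2
  · by_cases hc : c (S.pub i)
    · obtain ⟨e, he, hb, hce⟩ := h1 p
      refine ⟨e, he, hb, fun x A => ?_⟩
      show (if c (S.pub i) then R.at i else R'.at i).CloseAt _ _ _ _ _ _ _
      rw [if_pos hc, if_pos hc]
      exact hce x A
    · obtain ⟨e, he, hb, hce⟩ := h2 p
      refine ⟨e, he, hb, fun x A => ?_⟩
      show (if c (S.pub i) then R.at i else R'.at i).CloseAt _ _ _ _ _ _ _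
      rw [if_neg hc, if_neg hc]
      exact hce x A

/-- The program at one value of the parameter. -/
def Run.slice {Q : Type} (R : Run (S.par Q) B I) (i : S.ι) (t : Q) : Prog (S.dm i) B I :=
  R.at (i, t)

theorem Run.Cheap.q_slice {Q : Type} {R : Run (S.par Q) B I} {ε : ℝ} (h : R.Cheap ε) :
    S.Ev fun i => ∀ t, ((R.slice i t).q : ℝ) ≤ S.dd i ^ ε := h.slice

theorem Run.LipAll.slice {Q : Type} {R : Run (S.par Q) B I} (h : R.LipAll) (i : S.ι) (t : Q) :
    (R.slice i t).LipW (S.og i) := h.lipW (i, t)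

theorem Run.LipIn.slice {Q : Type} {R : Run (S.par Q) B I} {g : ℝ} (h : R.LipIn g) {η : ℝ}
    (hη : 0 < η) : S.Ev fun i => ∀ t, (R.slice i t).Lip (S.og i) (S.dd i ^ (η - g)) :=
  (h.lip hη).slice

theorem Run.Law.slice {Q : Type} {T : Fld (S.par Q) B I} {R : Run (S.par Q) B I} {a : ℝ}
    (h : R.Law κ a o T) (hR : R.LipAll) {η : ℝ} (hη : 0 < η) :
    S.Ev fun i => ∀ t p, ∃ e : (B → Space (S.dm i)) × (I → Space (S.dm i)) → ℝ,
      Integrable e ((gp B (S.dm i)).prod (gp I (S.dm i))) ∧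
        ∫ z, e z ∂(gp B (S.dm i)).prod (gp I (S.dm i)) ≤ S.dd i ^ (η - κ) * S.wt i p ∧
        ∀ x A, (R.slice i t).CloseAt (S.og i) p x A (S.dd i ^ a • apT o (T (i, t) p x) A) 1
          (e (x, A)) :=
  (h.close hR hη).slice

/-- A change of blocks and inputs that keeps the Gaussian law. -/
theorem Sam.comap (h : Sam κ φ θ o T) {o' : I'} {U : Fld S B' I'}
    (f : ∀ k, ((B' → Space (S.kdm k)) × (I' → Space (S.kdm k))) →L[ℝ]
      ((B → Space (S.kdm k)) × (I → Space (S.kdm k))))
    {C₀ : ℝ} (hC : 1 ≤ C₀) (hf : ∀ k (z : (B' → Space (S.kdm k)) × (I' → Space (S.kdm k))),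
      ∑ b, ‖(f k z).1 b‖ + ∑ l, ‖(f k z).2 l‖ ≤ C₀ * (∑ b, ‖z.1 b‖ + ∑ l, ‖z.2 l‖))
    (hmp : ∀ k, MeasurePreserving (f k) ((gp B' (S.kdm k)).prod (gp I' (S.kdm k)))
      ((gp B (S.kdm k)).prod (gp I (S.kdm k))))
    (heq : ∀ i p x A, apT o' (U i p x) A
      = apT o (T i p (f (S.pub i) (x, A)).1) (f (S.pub i) (x, A)).2) :
    Sam κ φ θ o' U := fun a ha ε hε => by
  obtain ⟨R, hq, hl, hin, hlaw⟩ := h a ha ε hε
  refine ⟨Run.of fun k => (R.atK k).comap (f k), hq,
    fun i => Prog.comap_lipW (hl.lipW i) (f (S.pub i)),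
    Run.lipIn_of fun η hη => ((hin.lip (half_pos hη)).and
      (S.ev_one_le.and (S.ev_le_rpow C₀ (half_pos hη)))).mono fun i ⟨h1, hd, h2⟩ => ?_,
    Run.law_of_close fun η hη => (hlaw.close hl hη).mono fun i hi p => ?_⟩
  · refine (Prog.comap_lip (Real.rpow_nonneg (by linarith) _) h1 (f (S.pub i)) hC (hf (S.pub i))).mono ?_
    refine (mul_le_mul_of_nonneg_left h2 (Real.rpow_nonneg (by linarith) _)).trans_eq ?_
    rw [← Real.rpow_add (by linarith)]
    ring_nf
  · obtain ⟨e, he, hb, hc⟩ := hi p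
    refine ⟨fun z => e (f (S.pub i) z), (hmp _).integrable_comp_of_integrable he,
      (le_of_eq ?_).trans hb, fun x A => Prog.comap_close (f (S.pub i)) ?_⟩
    · conv_rhs => rw [← (hmp (S.pub i)).map_eq]
      rw [integral_map (hmp (S.pub i)).measurable.aemeasurable]
      rw [(hmp (S.pub i)).map_eq]
      exact he.1
    · rw [heq]
      exact hc _ _

theorem Sam.reL (h : Sam κ φ θ o T) (e : I ≃ J) : Sam κ φ θ (e o) (reL e T) := by
  refine h.comap (fun k => permIO (Equiv.sumCongr (Equiv.refl B) e)) le_rfl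
    (fun i z => by rw [permIO_norm, one_mul]) (fun i => permIO_mp _) fun i p x A => ?_
  simp only [permIO_apply, Equiv.sumCongr_apply, Sum.map_inl, Sum.map_inr, Equiv.refl_apply,
    Sum.elim_inl, Sum.elim_inr]
  exact apT_reT e o (T i p x) A

/-- The leg `none` moved to a new block. -/
def legB (T : Fld S B (Option I)) : Fld S (Option B) I :=
  fun i p x => ctrV (T i p fun b => x (some b)) (x none)

/-- The permutation behind `legB`. -/
def legPerm (B I : Type) : B ⊕ Option I ≃ Option B ⊕ I where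
  toFun := Sum.elim (fun b => .inl (some b)) fun o => o.elim (.inl none) Sum.inr
  invFun := Sum.elim (fun o => o.elim (.inr none) Sum.inl) fun l => .inr (some l)
  left_inv z := by rcases z with b | _ | l <;> rfl
  right_inv z := by rcases z with (_ | b) | l <;> rfl

theorem Sam.legB {T : Fld S B (Option I)} (h : Sam κ φ θ (some o) T) : Sam κ φ θ o (legB T) := by
  refine h.comap (fun i => permIO (legPerm B I)) le_rfl
    (fun i z => by rw [permIO_norm, one_mul]) (fun i => permIO_mp _) fun i p x A => ?_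
  rw [permIO_apply]
  simp only [Zero.legB, ← apT_ctrV]
  congr 1
  funext j
  cases j <;> rfl

/-- Substitution in the blocks that keeps the Gaussian law. -/
theorem Sam.subB (h : Sam κ φ θ o T) {M : B → B' → ℝ}
    (hM : ∀ b b', ∑ c, M b c * M b' c = if b = b' then 1 else 0) :
    Sam κ φ θ o (subB (fun i => mixB (S.dm i) M) T) := by
  refine h.comap (fun k => (mixB (S.kdm k) M).prodMap (ContinuousLinearMap.id ℝ _))
    (C₀ := 1 + ∑ b, ∑ c, |M b c|)
    (le_add_of_nonneg_right (Finset.sum_nonneg fun b _ => Finset.sum_nonneg fun c _ => abs_nonneg _))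
    (fun i z => ?_) (fun i => (mixB_mp hM).prod (MeasurePreserving.id _)) fun i p x A => rfl
  show ∑ b, ‖mixB (S.kdm i) M z.1 b‖ + ∑ l, ‖z.2 l‖ ≤ _
  simp only [mixB_apply]
  have hs : 0 ≤ ∑ l, ‖z.2 l‖ := Finset.sum_nonneg fun l _ => norm_nonneg _
  have hb : 0 ≤ ∑ c, ‖z.1 c‖ := Finset.sum_nonneg fun l _ => norm_nonneg _
  have hM0 : 0 ≤ ∑ b, ∑ c, |M b c| :=
    Finset.sum_nonneg fun b _ => Finset.sum_nonneg fun c _ => abs_nonneg _
  have h1 : ∑ b, ‖∑ c, M b c • z.1 c‖ ≤ (∑ b, ∑ c, |M b c|) * ∑ c, ‖z.1 c‖ := by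
    rw [Finset.sum_mul]
    refine Finset.sum_le_sum fun b _ => (norm_sum_le _ _).trans ?_
    rw [Finset.sum_mul]
    refine Finset.sum_le_sum fun c hc => ?_
    rw [norm_smul, Real.norm_eq_abs]
    exact mul_le_mul_of_nonneg_left
      (Finset.single_le_sum (fun l _ => norm_nonneg (z.1 l)) hc) (abs_nonneg _)
  nlinarith [mul_nonneg hM0 hs]

/-! ### Weighted sums -/

theorem sumF_apply (N : S.ι → ℕ) (w : S.ι → ℕ → ℝ) (T : Fld (S.par ℕ) B I) (i : S.ι)
    (p : Space (S.dm i)) (x : B → Space (S.dm i)) (idx : I → Fin (S.dm i)) :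
    sumF N w T i p x idx = ∑ l ∈ Finset.range (N i), w i l * T (i, l) p x idx :=
  Finset.sum_apply _ _ _

/-- A weighted sum of few terms. -/
theorem Sam.sum {T : Fld (S.par ℕ) B I} (h : Sam κ φ θ o T) {N : S.key → ℕ}
    {w : S.key → ℕ → ℝ}
    (hN : ∀ η : ℝ, 0 < η → S.Ev fun i => (N (S.pub i) : ℝ) ≤ S.dd i ^ η)
    (hw : ∀ η : ℝ, 0 < η →
      S.Ev fun i => ∑ l ∈ Finset.range (N (S.pub i)), |w (S.pub i) l| ≤ S.dd i ^ η) :
    Sam κ φ θ o (sumF (fun i => N (S.pub i)) (fun i => w (S.pub i)) T) := fun a ha ε hε => by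
  set η₀ := min ((θ - φ - a) / 2) (ε / 4) with hη₀def
  have hη₀ : 0 < η₀ := lt_min (by linarith) (by linarith)
  obtain ⟨R, hq, hl, hin, hlaw⟩ := h (a + η₀)
    (by linarith [min_le_left ((θ - φ - a) / 2) (ε / 4)]) (ε / 2) (half_pos hε)
  set u : S.key → ℕ → ℝ := fun k l => w k l * S.kdd k ^ (-η₀) with hu
  set top : S.key → ℝ := fun k =>
    Real.sqrt (max 0 (1 - ∑ l ∈ Finset.range (N k), u k l ^ 2)) with htop
  set P : ∀ k, Prog (S.kdm k) B I := fun k =>
    (Prog.sum (fun l => (R.atK (k, l)).smul (u k l)) (N k)).add (Prog.noise (S.kdm k) B I (top k))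
    with hP
  have hsmall : S.Ev fun i => 1 ≤ S.dd i ∧ ∑ l ∈ Finset.range (N (S.pub i)), |u (S.pub i) l| ≤ 1 :=
    ((hw η₀ hη₀).and S.ev_one_le).mono fun i ⟨h1, hd⟩ => ⟨hd, by
      simp only [hu, abs_mul, ← Finset.sum_mul, abs_of_nonneg
        (Real.rpow_nonneg (by linarith : (0 : ℝ) ≤ S.dd i) _)]
      rw [Real.rpow_neg (by linarith), ← div_eq_mul_inv,
        div_le_one (Real.rpow_pos_of_pos (by linarith) _)]
      exact h1⟩
  refine ⟨Run.of P, ?_, fun i => ?_, Run.lipIn_of fun η hη => ?_,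
    Run.law_of_close fun η hη => ?_⟩
  · refine ((hq.q_slice.and (hN (ε / 2) (half_pos hε))).and S.ev_one_le).mono
      fun i ⟨⟨h1, h2⟩, hd⟩ => ?_
    show ((Prog.sum (fun l => (R.slice i l).smul (u (S.pub i) l)) (N (S.pub i))).q + 0 : ℕ) ≤ S.dd i ^ ε
    rw [add_zero, Prog.sum_q, Nat.cast_sum]
    refine (Finset.sum_le_sum fun l _ => h1 l).trans ?_
    rw [Finset.sum_const, Finset.card_range, nsmul_eq_mul]
    refine (mul_le_mul_of_nonneg_right h2 (Real.rpow_nonneg (Nat.cast_nonneg _) _)).trans_eq ?_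
    show S.dd i ^ (ε / 2) * S.dd i ^ (ε / 2) = _
    rw [← Real.rpow_add (by linarith), add_halves]
  · exact Prog.add_lipW (Prog.sum_lipW _ fun l _ => Prog.smul_lipW (hl.slice i l) _)
      (Prog.noise_lipW _ _)
  · refine ((hin.slice hη).and hsmall).mono fun i ⟨h1, hd, h2⟩ => ?_
    refine (Prog.add_lip (Prog.sum_lip _ fun l _ => Prog.smul_lip (h1 l) (u (S.pub i) l))
      (Prog.noise_lip _ _)).mono ?_
    rw [add_zero, ← Finset.sum_mul]
    refine (mul_le_of_le_one_left (Real.rpow_nonneg (Nat.cast_nonneg _) _) h2).trans ?_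
    exact Real.rpow_le_rpow_of_exponent_le hd
      (by linarith [min_le_right ((θ - φ - a) / 2) (ε / 4)])
  · refine ((hlaw.slice hl hη).and hsmall).mono fun i ⟨h1, hd, h2⟩ p => ?_
    choose e he hb hc using fun l => h1 l p
    set μ := (gp B (S.dm i)).prod (gp I (S.dm i))
    refine ⟨fun z => ∑ l ∈ Finset.range (N (S.pub i)), |u (S.pub i) l| * e l z,
      integrable_finsetSum _ fun l _ => (he l).const_mul _, ?_, fun x A => ?_⟩
    · rw [integral_finsetSum _ fun l _ => (he l).const_mul _]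
      simp only [integral_const_mul]
      refine (Finset.sum_le_sum fun l _ => mul_le_mul_of_nonneg_left (hb l) (abs_nonneg _)).trans ?_
      rw [← Finset.sum_mul]
      exact mul_le_of_le_one_left
        (mul_nonneg (Real.rpow_nonneg (by linarith) _) (S.wt_nonneg i p)) h2
    · have hsum := Prog.sum_close (P := fun l => (R.slice i l).smul (u (S.pub i) l)) (N (S.pub i)) fun l _ =>
        Prog.smul_close (hc l x A) (u (S.pub i) l)
      have hall := Prog.add_close hsum (Prog.noise_close (top (S.pub i)) (S.og i) p x A)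
      have hu2 : ∑ l ∈ Finset.range (N (S.pub i)), u (S.pub i) l ^ 2 ≤ 1 := by
        refine le_trans ?_ h2
        refine Finset.sum_le_sum fun l hl' => ?_
        rw [← sq_abs, sq]
        exact mul_le_of_le_one_left (abs_nonneg _)
          ((Finset.single_le_sum (fun k _ => abs_nonneg (u (S.pub i) k)) hl').trans h2)
      have hs : Real.sqrt (Real.sqrt (∑ l ∈ Finset.range (N (S.pub i)), (u (S.pub i) l * 1) ^ 2) ^ 2 + top (S.pub i) ^ 2)
          = 1 := by
        simp only [mul_one, htop]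
        rw [Real.sq_sqrt (Finset.sum_nonneg fun l _ => sq_nonneg _),
          Real.sq_sqrt (le_max_left _ _), max_eq_right (by linarith), add_sub_cancel, Real.sqrt_one]
      have hv : (∑ l ∈ Finset.range (N (S.pub i)), u (S.pub i) l • S.dd i ^ (a + η₀) • apT o (T (i, l) p x) A) + 0
          = S.dd i ^ a • apT o (sumF (fun j => N (S.pub j)) (fun j => w (S.pub j)) T i p x) A := by
        set Tl : ℕ → Ten (S.dm i) I := fun l => T (i, l) p x
        have e0 : sumF (fun j => N (S.pub j)) (fun j => w (S.pub j)) T i p x = ∑ l ∈ Finset.range (N (S.pub i)), w (S.pub i) l • Tl l := rfl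
        show (∑ l ∈ Finset.range (N (S.pub i)), u (S.pub i) l • S.dd i ^ (a + η₀) • apT o (Tl l) A) + 0 = _
        rw [add_zero, e0, apT_sum, Finset.smul_sum]
        refine Finset.sum_congr rfl fun l _ => ?_
        rw [apT_smul, smul_smul, smul_smul]
        congr 1
        simp only [hu]
        rw [mul_assoc, ← Real.rpow_add (by linarith), mul_comm]
        ring_nf
      rw [hs] at hall
      rw [← hv]
      exact Close.mono hall (add_zero _).le

/-- Two terms. -/
theorem Sam.add (h : Sam κ φ θ o T) (h' : Sam κ φ θ o T') : Sam κ φ θ o (addT T T') := by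
  have hp := (h.par ℕ).pick (h'.par ℕ) fun x : (S.par ℕ).key => x.2 = 0
  have hs := hp.sum (N := fun _ => 2) (w := fun _ _ => 1)
    (fun η hη => (S.ev_le_rpow 2 hη).mono fun i hi => by simpa using hi)
    (fun η hη => (S.ev_le_rpow 2 hη).mono fun i hi => by simpa using hi)
  refine cast (congrArg (fun U => Sam κ φ θ o U) ?_) hs
  funext i p x idx
  refine (sumF_apply _ _ _ i p x idx).trans ?_
  rw [Finset.sum_range_succ, Finset.sum_range_one, one_mul, one_mul]
  rfl

/-- A multiple of at most `d ^ η`. -/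
theorem Sam.smul (h : Sam κ φ θ o T) {c : S.key → ℝ}
    (hc : ∀ η : ℝ, 0 < η → S.Ev fun i => |c (S.pub i)| ≤ S.dd i ^ η) :
    Sam κ φ θ o (smulF (fun i => c (S.pub i)) T) := by
  have hs := (h.par ℕ).sum (N := fun _ => 1) (w := fun k _ => c k)
    (fun η hη => (S.ev_le_rpow 1 hη).mono fun i hi => by simpa using hi)
    (fun η hη => (hc η hη).mono fun i hi => by simpa using hi)
  refine cast (congrArg (fun U => Sam κ φ θ o U) ?_) hs
  funext i p x idx
  refine (sumF_apply _ _ _ i p x idx).trans ?_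
  rw [Finset.sum_range_one]
  rfl

/-! ### Perturbations and the level zero -/

/-- A change of the field at most `d ^ (η - c)` in mean over the blocks. -/
theorem Sam.perturb (h : Sam κ φ θ o T) (hT : Sm T) (hT' : Sm T') {c : ℝ} (hc : κ + θ - φ ≤ c)
    (hd : ∀ η : ℝ, 0 < η → S.Ev fun i => ∀ p,
      Integrable (fun x => Real.sqrt (hsT (T i p x - T' i p x))) (gp B (S.dm i)) ∧
        ∫ x, Real.sqrt (hsT (T i p x - T' i p x)) ∂gp B (S.dm i) ≤ S.dd i ^ (η - c) * S.wt i p) :
    Sam κ φ θ o T' := fun a ha ε hε => by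
  obtain ⟨R, hq, hl, hin, hlaw⟩ := h a ha ε hε
  refine ⟨R, hq, hl, hin, Run.law_of_close fun η hη => (((hlaw.close hl (half_pos hη)).and
    (hd (η / 2) (half_pos hη))).and (S.ev_one_le.and (S.ev_le_rpow 2 (half_pos hη)))).mono
      fun i ⟨⟨h1, h2⟩, hdi, h2d⟩ p => ?_⟩
  obtain ⟨e, he, hb, hce⟩ := h1 p
  obtain ⟨hi2, hb2⟩ := h2 p
  set X := S.dd i ^ a with hX
  have hX0 : 0 ≤ X := Real.rpow_nonneg (by linarith) _
  set δ := fun z : (B → Space (S.dm i)) × (I → Space (S.dm i)) =>
    ‖apT o (T i p z.1 - T' i p z.1) z.2‖ with hδ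
  have hδc : Continuous δ := (continuous_apT o (((hT.cont i p).comp continuous_fst).sub
    ((hT'.cont i p).comp continuous_fst)) continuous_snd).norm
  have hδi : Integrable δ ((gp B (S.dm i)).prod (gp I (S.dm i))) := by
    refine (integrable_prod_iff hδc.aestronglyMeasurable).2
      ⟨ae_of_all _ fun x => (apT_norm_le o (T i p x - T' i p x)).1, ?_⟩
    refine hi2.mono' hδc.norm.aestronglyMeasurable.integral_prod_right' (ae_of_all _ fun x => ?_)
    rw [Real.norm_of_nonneg (integral_nonneg fun A => norm_nonneg _)]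
    simp only [δ, norm_norm]
    exact (apT_norm_le o (T i p x - T' i p x)).2
  refine ⟨fun z => e z + X * δ z, he.add (hδi.const_mul X), ?_, fun x A => ?_⟩
  · rw [integral_add he (hδi.const_mul X), integral_const_mul]
    have h3 : ∫ z, δ z ∂(gp B (S.dm i)).prod (gp I (S.dm i)) ≤ S.dd i ^ (η / 2 - c) * S.wt i p := by
      rw [integral_prod _ hδi]
      exact (integral_mono hδi.integral_prod_left hi2
        fun x => (apT_norm_le o (T i p x - T' i p x)).2).trans hb2
    refine (add_le_add hb (mul_le_mul_of_nonneg_left h3 hX0)).trans ?_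
    rw [← mul_assoc, hX, ← Real.rpow_add (show (0 : ℝ) < S.dd i by linarith), ← add_mul,
      show S.dd i ^ (η - κ) = S.dd i ^ (η / 2) * S.dd i ^ (η / 2 - κ) by
        rw [← Real.rpow_add (show (0 : ℝ) < S.dd i by linarith)]; ring_nf]
    refine mul_le_mul_of_nonneg_right (le_trans ?_ (mul_le_mul_of_nonneg_right h2d
      (Real.rpow_nonneg (Nat.cast_nonneg (S.dm i)) _))) (S.wt_nonneg i p)
    rw [two_mul]
    exact add_le_add le_rfl (Real.rpow_le_rpow_of_exponent_le hdi (by linarith))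
  · refine ((hce x A).trans (Close.gauss_shift _ (X • apT o (T' i p x) A) 1 1)).mono ?_
    simp only [sub_self, abs_zero, zero_mul, add_zero, ← smul_sub, norm_smul,
      Real.norm_of_nonneg hX0, δ]
    rw [show apT o (T i p x) A - apT o (T' i p x) A = apT o (T i p x - T' i p x) A from
      sub_eq_iff_eq_add.2 (by rw [← apT_add, sub_add_cancel])]

/-- A split with the leg `o` alone. -/
def soloEquiv (o : I) : Unit ⊕ {l : I // l ≠ o} ≃ I where
  toFun := Sum.elim (fun _ => o) Subtype.val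
  invFun l := if h : l = o then .inl () else .inr ⟨l, h⟩
  left_inv z := by rcases z with ⟨⟩ | ⟨l, hl⟩ <;> simp_all
  right_inv l := by by_cases h : l = o <;> simp [h]

/-- At the coarsest accuracy, and far above the accuracy: pure noise. -/
theorem sam_noise [Nontrivial I] (hT : Sm T) (h : Bd θ T) (hκ : κ + 1 / 2 ≤ φ) :
    Sam κ φ θ o T := fun a ha ε hε => by
  obtain ⟨o', ho'⟩ := exists_ne o
  have : Nonempty {l : I // l ≠ o} := ⟨⟨o', ho'⟩⟩
  refine ⟨Run.of fun k => Prog.noise (S.kdm k) B I 1,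
    (S.ev_one_le).mono fun i hd => ?_, fun i => Prog.noise_lipW 1 (S.og i),
    Run.lipIn_of fun η _ => S.ev_one_le.mono fun i hd => (Prog.noise_lip 1 _).mono
      (Real.rpow_nonneg (by linarith) _),
    Run.law_of_close fun η hη => ((h η hη 1).and S.ev_one_le).mono fun i ⟨hi, hd⟩ p => ?_⟩
  · show ((0 : ℕ) : ℝ) ≤ _
    simpa using Real.rpow_nonneg (show (0 : ℝ) ≤ S.dd i by linarith) ε
  obtain ⟨f, hf, hs, hint, hb⟩ := hi p
  simp only [pow_one] at hint hb
  set X := S.dd i ^ a
  have hX0 : 0 ≤ X := Real.rpow_nonneg (by linarith) _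
  set δ := fun z : (B → Space (S.dm i)) × (I → Space (S.dm i)) => ‖apT o (T i p z.1) z.2‖ with hδ
  have hδc : Continuous δ :=
    (continuous_apT o ((hT.cont i p).comp continuous_fst) continuous_snd).norm
  have hsq : ∀ x, Real.sqrt (hsT (T i p x)) ≤ Real.sqrt (S.dd i) * f x := fun x => by
    rw [← Real.sqrt_sq (hs x).1, ← Real.sqrt_mul (by linarith)]
    refine Real.sqrt_le_sqrt ((hsT_le_of_split (hs x).2 (soloEquiv o)).trans_eq ?_)
    simp
  have hδi : Integrable δ ((gp B (S.dm i)).prod (gp I (S.dm i))) := by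
    refine (integrable_prod_iff hδc.aestronglyMeasurable).2
      ⟨ae_of_all _ fun x => (apT_norm_le o (T i p x)).1, ?_⟩
    refine (hint.const_mul (Real.sqrt (S.dd i))).mono'
      hδc.norm.aestronglyMeasurable.integral_prod_right' (ae_of_all _ fun x => ?_)
    rw [Real.norm_of_nonneg (integral_nonneg fun A => norm_nonneg _)]
    simp only [δ, norm_norm]
    exact (apT_norm_le o (T i p x)).2.trans (hsq x)
  refine ⟨fun z => X * δ z, hδi.const_mul X, ?_, fun x A => ?_⟩
  · rw [integral_const_mul, integral_prod _ hδi]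
    have h1 : ∫ x, ∫ A, δ (x, A) ∂gp I (S.dm i) ∂gp B (S.dm i)
        ≤ Real.sqrt (S.dd i) * ∫ x, f x ∂gp B (S.dm i) := by
      rw [← integral_const_mul]
      exact integral_mono hδi.integral_prod_left (hint.const_mul _)
        fun x => (apT_norm_le o (T i p x)).2.trans (hsq x)
    refine (mul_le_mul_of_nonneg_left (h1.trans (mul_le_mul_of_nonneg_left hb
      (Real.sqrt_nonneg _))) hX0).trans ?_
    rw [Real.sqrt_eq_rpow, ← Real.rpow_add (by linarith), ← Real.rpow_add (by linarith)]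
    exact (Real.rpow_le_rpow_of_exponent_le hd (by linarith)).trans
      (le_mul_of_one_le_right (Real.rpow_nonneg (by linarith) _) (S.one_le_wt i p))
  · refine ((Prog.noise_close 1 (S.og i) p x A).trans
      (Close.gauss_shift 0 (X • apT o (T i p x) A) 1 1)).mono ?_
    simp only [zero_sub, norm_neg, sub_self, abs_zero, zero_mul, add_zero, zero_add, norm_smul,
      Real.norm_of_nonneg hX0, δ, le_refl]

/-- The level zero: pure noise. -/
theorem sam_zero [Nontrivial I] (hT : Sm T) (h : Bd θ T) (hκ : κ ≤ -1) (hφ : 0 ≤ φ) :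
    Sam κ φ θ o T :=
  sam_noise hT h (by linarith)

end Vale.Agent.P347.Zero
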