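import Vale.Agent.P347.Zero.StepPins
import Vale.Agent.P347.Zero.SamBasics

/-!
The choice of the levels and the two inductions: over the level, and downwards over the margin.
-/

noncomputable section

open MeasureTheory ProbabilityTheory Set Filter
open scoped RealInnerProductSpace NNReal

namespace Vale.Agent.P347.Zero

theorem Pts.mono {γ H B δv b S κ κ' α : ℝ} {J : Type} {f : J → NI γ H δv b S} {C : Type}
    [Fintype C] [DecidableEq C] {Y : Fld (NQ B f) C Unit} (h : Pts κ α Y) (hκ : κ' ≤ κ) :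
    Pts κ' α Y :=
  ⟨h.1, fun ε hε => by
    obtain ⟨R, h1, h2, h3, h4⟩ := h.2.1 ε hε
    exact ⟨R, h1, h2, h3, h4.mono hκ⟩, h.2.2⟩

/-- The levels for the exponents `g`, `φ₀` and the loss `w`. -/
def ladOf (g φ₀ w : ℝ) (hg : 0 < g) (hgφ : g < φ₀) (hw : 0 < w) : Lad where
  kap r := -1 + r * g
  phi r := φ₀ + 16 * w * r
  g := g
  w := w
  g_pos := hg
  w_pos := hw
  g_lt := by simpa using hgφ
  gap r := by push_cast; linarith
  kap_succ r := by push_cast; linarith
  kap_zero := by simp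

theorem ladOf_mono {g φ₀ w : ℝ} (hg : 0 < g) (hgφ : g < φ₀) (hw : 0 < w) :
    Monotone (ladOf g φ₀ w hg hgφ hw).kap := fun a b h => by
  simp only [ladOf]
  have : (a : ℝ) ≤ b := by exact_mod_cast h
  nlinarith

/-- Downwards in the margin at one level above the lower ones. -/
theorem level_step (hMS : MeanStepThm) (hMB : MeanBaseThm) (hVB : VtxBaseThm) (hV : VertexThm)
    (L : Lad) (r : ℕ) {γ δv S α : ℝ} (hγ : 0 < γ) (hγ1 : γ ≤ 1) (hδ : 0 < δv) (hS : δv < S)
    (hSw : S < 2 * L.w) (hSα : S < 2 * α) (hphi : L.phi r + 3 * L.w ≤ γ) (hmono : Monotone L.kap)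
    (hgap : L.phi r + 16 * L.w ≤ L.phi (r + 1)) (hpos : 0 < L.phi (r + 1))
    (hlow : ∀ r' ≤ r, VtxOK L r' γ δv S α (L.phi r'))
    (hpts : PtsAll γ δv S α (L.kap r)) :
    MeanOK γ (L.kap (r + 1)) (L.phi (r + 1)) ∧ VtxOK L (r + 1) γ δv S α (L.phi (r + 1)) := by
  have hw := L.w_pos
  have key : ∀ n : ℕ, ∀ φ : ℝ, L.phi (r + 1) ≤ φ → L.kap (r + 1) + 1 ≤ φ + n * (δv / 4) →
      MeanOK γ (L.kap (r + 1)) φ ∧ VtxOK L (r + 1) γ δv S α φ := by
    intro n
    induction n with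
    | zero =>
      intro φ h1 h2
      simp only [Nat.cast_zero, zero_mul, add_zero] at h2
      exact ⟨hMB γ _ φ hγ hγ1 (by linarith) (.inl h2), hVB L (r + 1) γ δv S α φ hγ hδ (by linarith)
        hS.le (by linarith) (.inl h2) hmono fun r' hr => hlow r' (by omega)⟩
    | succ n ih =>
      intro φ h1 h2
      obtain ⟨hM, hX⟩ := ih (φ + δv / 4) (by linarith) (by push_cast at h2; linarith)
      have hmean : MeanOK γ (L.kap (r + 1)) φ :=
        hMS L r γ δv S α φ (φ + δv / 4) hγ hγ1 hδ hS hSw hSα hphi hmono (by linarith) (by linarith)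
          le_rfl (by linarith) hM hX hlow hpts
      refine ⟨hmean, fun H B C _ _ J f Y hY k hk => ⟨(hX H B C J f Y hY k hk).1, fun o _ => ?_,
        fun r' hr o => ?_⟩⟩
      · exact hV L r γ H B δv S α φ (φ + δv / 4) hγ hδ hS.le hSw hSα (by linarith) (by linarith)
          (by linarith) hmean C J f Y hY (fun k' hk' => hX H B C J f Y hY k' hk') k hk o
      · exact (hlow r' (by omega) H B C J f Y (hY.mono (hmono (by omega))) k hk).2.1 o (mem_univ o)
  obtain ⟨n, hn⟩ := exists_nat_ge ((L.kap (r + 1) + 1 - L.phi (r + 1)) / (δv / 4))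
  exact key n _ le_rfl (by rw [div_le_iff₀ (by linarith)] at hn; linarith)

/-- All levels up to `R`. -/
theorem levels (hP : PtsThm) (hMS : MeanStepThm) (hMB : MeanBaseThm) (hVB : VtxBaseThm)
    (hV : VertexThm) {g φ₀ w γ δv S α : ℝ} (hg : 0 < g) (hgφ : g < φ₀) (hw : 0 < w) (hγ : 0 < γ)
    (hγ1 : γ ≤ 1) (hδ : 0 < δv) (hS : δv < S) (hSw : S < 2 * w) (hSα : S < 2 * α) (hα : 0 ≤ α)
    {R : ℕ} (hR : α + φ₀ + 16 * w * R + 3 * w ≤ γ) :
    ∀ r ≤ R, (∀ r' ≤ r, VtxOK (ladOf g φ₀ w hg hgφ hw) r' γ δv S α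
        ((ladOf g φ₀ w hg hgφ hw).phi r')) ∧
      PtsAll γ δv S α ((ladOf g φ₀ w hg hgφ hw).kap r) := by
  set L := ladOf g φ₀ w hg hgφ hw with hL
  have hmono : Monotone L.kap := ladOf_mono hg hgφ hw
  have hphi : ∀ r ≤ R, α + L.phi r + 3 * L.w ≤ γ := fun r hr => by
    have : (r : ℝ) ≤ R := by exact_mod_cast hr
    show α + (φ₀ + 16 * w * r) + 3 * w ≤ γ
    nlinarith
  intro r
  induction r with
  | zero =>
    intro h0
    have hphi0 : 0 < L.phi 0 := by show (0 : ℝ) < φ₀ + 16 * w * (0 : ℕ); simp; linarith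
    have hv : ∀ r' ≤ 0, VtxOK L r' γ δv S α (L.phi r') := fun r' hr => by
      obtain rfl : r' = 0 := by omega
      exact hVB L 0 γ δv S α _ hγ hδ (by show δv < 2 * w; linarith) hS.le hphi0
        (.inr L.kap_zero) hmono fun _ h => absurd h (by omega)
    refine ⟨hv, hP L 0 γ δv S α hγ hδ hS hSw hSα ?_ hmono
      (hMB γ _ _ hγ hγ1 hphi0 (.inr L.kap_zero)) hv⟩
    have := hphi 0 h0
    have := L.w_pos
    linarith
  | succ r ih =>
    intro hr
    obtain ⟨hv, hp⟩ := ih (by omega)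
    have h1 := hphi r (by omega)
    have h2 := hphi (r + 1) hr
    have hw' := L.w_pos
    obtain ⟨hM, hX⟩ := level_step hMS hMB hVB hV L r hγ hγ1 hδ hS hSw hSα (by linarith) hmono
      (le_of_eq (by show φ₀ + 16 * w * r + 16 * w = φ₀ + 16 * w * (r + 1 : ℕ); push_cast; ring))
      (by show (0 : ℝ) < φ₀ + 16 * w * (r + 1 : ℕ); push_cast; nlinarith [Nat.cast_nonneg (α := ℝ) r])
      hv hp
    have hv' : ∀ r' ≤ r + 1, VtxOK L r' γ δv S α (L.phi r') := fun r' hr' => by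
      rcases Nat.lt_or_ge r' (r + 1) with h | h
      · exact hv r' (by omega)
      · obtain rfl : r' = r + 1 := by omega
        exact hX
    exact ⟨hv', hP L (r + 1) γ δv S α hγ hδ hS hSw hSα (by linarith) hmono hM hv'⟩

/-- The local samplers of every accuracy. -/
theorem localAll_of (hV : VertexThm) (hP : PtsThm) (hMS : MeanStepThm) (hMB : MeanBaseThm)
    (hVB : VtxBaseThm) (hA : MeanAccThm) (hS : SamplerThm) : LocalAll := by
  intro γ hγ hγ4 κ hκ ε hε
  obtain ⟨R, hR⟩ := exists_nat_ge ((κ + 5) / (γ / 32))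
  rw [div_le_iff₀ (by linarith)] at hR
  set w := γ / (256 * (R + 1)) with hw
  have hR1 : (0 : ℝ) < R + 1 := by positivity
  have hw0 : 0 < w := by positivity
  have hwR : 256 * w * (R + 1) = γ := by rw [hw]; field_simp
  have hwγ : 256 * w ≤ γ := by nlinarith [Nat.cast_nonneg (α := ℝ) R]
  obtain ⟨-, hpts⟩ := levels (α := γ / 2) (δv := w) (S := 3 * w / 2) hP hMS hMB hVB hV
    (show 0 < γ / 32 by linarith) (show γ / 32 < γ / 16 by linarith) hw0 hγ (by linarith) hw0
    (by linarith) (by linarith) (by linarith) (by linarith) (R := R)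
    (by nlinarith [Nat.cast_nonneg (α := ℝ) R]) R le_rfl
  exact hS γ w (3 * w / 2) (γ / 2) _ κ ε hγ hγ4 hw0 (by linarith) (by linarith) hκ
    (show κ + 4 ≤ -1 + (R : ℝ) * (γ / 32) by linarith) hε hA hpts

end Vale.Agent.P347.Zero
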