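import Vale.Agent.P347.Zero.StepPins
import Vale.Agent.P347.Zero.SamBasics
import Vale.Agent.P347.ExactDev

/-!
The base of the recursion for the mean oracle: the gradient at a Picard iterate of the proximal
point, plus noise.
-/

noncomputable section

open MeasureTheory ProbabilityTheory Set
open scoped RealInnerProductSpace NNReal

namespace Vale.Agent.P347.Zero

variable {d : ℕ}

/-- A field with one leg applied to nothing is its vector. -/
theorem apT_unit (T : Ten d Unit) (A : Unit → Space d) :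
    apT () T A = ∑ c, T (fun _ => c) • ev c := by
  simp only [apT]
  refine Fintype.sum_equiv (Equiv.funUnique Unit (Fin d)) _ _ fun idx => ?_
  have : (Finset.univ : Finset Unit).erase () = ∅ := rfl
  rw [this, Finset.prod_empty, mul_one]
  rfl

/-- The mean of the gradient is almost a fixed point of the reflected gradient. -/
theorem mean_fix {h : ℝ} (Q : Pot d h) (hd : 0 < d) :
    Integrable Q.g (mu Q) ∧
      ‖Q.g (-∫ x, Q.g x ∂mu Q) - ∫ x, Q.g x ∂mu Q‖ ≤ h * Real.sqrt d := by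
  have := mu_prob Q
  have e : mu (Q.aff 0 (Real.sqrt 1)) = mu Q := by
    unfold mu
    congr 1
    funext x
    simp [Pot.aff]
  have hm : postMean Q 1 0 = ∫ x, Q.g x ∂mu Q := by
    rw [postMean, e]; simp
  have hi : Integrable Q.g (mu Q) := by
    have h1 := postMean_int Q 1 0
    rw [e] at h1
    simpa using h1
  refine ⟨hi, ?_⟩
  obtain ⟨hsq, hb⟩ := postMean_var Q 1 0
  rw [e, hm] at hsq hb
  simp only [Real.sqrt_one, one_smul] at hsq hb
  set m := ∫ x, Q.g x ∂mu Q with hmdef
  have hs : 0 < Real.sqrt d := Real.sqrt_pos.2 (by exact_mod_cast hd)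
  have h2 : Q.g (-m) - m = ∫ x, (Q.g (-m) - Q.g x) ∂mu Q := by
    rw [integral_sub (integrable_const _) hi, integral_const, probReal_univ, one_smul]
  rw [h2]
  have hb2 : Integrable (fun x : Space d => h * ((‖x + m‖ ^ 2 / Real.sqrt d + Real.sqrt d) / 2))
      (mu Q) := (((hsq.div_const _).add (integrable_const _)).div_const _).const_mul _
  refine (norm_integral_le_of_norm_le hb2 (ae_of_all _ fun x => ?_)).trans ?_
  · refine (Q.lip _ _).trans (mul_le_mul_of_nonneg_left ?_ Q.h_nonneg)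
    rw [norm_sub_rev, sub_neg_eq_add, le_div_iff₀ two_pos, div_add' _ _ _ hs.ne',
      le_div_iff₀ hs]
    nlinarith [sq_nonneg (‖x + m‖ - Real.sqrt d)]
  · rw [integral_const_mul, integral_div, integral_add (hsq.div_const _) (integrable_const _),
      integral_div, integral_const, probReal_univ, one_smul]
    refine mul_le_mul_of_nonneg_left ?_ Q.h_nonneg
    rw [div_le_iff₀ two_pos, mul_two]
    refine add_le_add ((div_le_div_of_nonneg_right hb hs.le).trans_eq ?_) le_rfl
    rw [Real.div_sqrt]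

/-- Picard iterates for the point minus the gradient, seen at the scale `σ` around `p`. -/
def proxX (σ : ℝ) (G : Space d → Space d) (p : Space d) : ℕ → Space d
  | 0 => 0
  | j + 1 => -(σ • G (σ • p + σ • proxX σ G p j))

theorem proxX_comp (σ : ℝ) {Ω : Type} [MeasurableSpace Ω] {f : Ω → Space d} (hf : Measurable f) :
    ∀ j, Computes j fun G a => proxX σ G (f a) j
  | 0 => Computes.of_measurable measurable_const
  | j + 1 => by
    have hK : Computes 1 fun (G : Space d → Space d) (x : Ω × Space d) =>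
        -(σ • G (σ • f x.1 + σ • x.2)) :=
      (Computes.query (by fun_prop : Measurable fun x : Ω × Space d => σ • f x.1 + σ • x.2)).map
        (f := fun x => -(σ • x.2)) (by fun_prop)
    exact (proxX_comp σ hf j).bind hK

variable {γ H : ℝ}

theorem QI.hs_le (i : QI γ H) : i.hs ≤ (i.d : ℝ) ^ (-γ) :=
  (mul_le_of_le_one_right i.P.h_nonneg (pow_le_one₀ i.σ_pos.le i.σ_le)).trans i.h_le

theorem QI.lip_proxX (i : QI γ H) (hh : i.hs ≤ 1) :
    ∀ j : ℕ, LipschitzWith (j : ℝ≥0) fun p => proxX i.σ i.P.g p j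
  | 0 => by rw [Nat.cast_zero]; exact LipschitzWith.const (α := Space i.d) (0 : Space i.d)
  | j + 1 => LipschitzWith.of_dist_le_mul fun p p' => by
    have ih := (i.lip_proxX hh j).dist_le_mul p p'
    rw [dist_eq_norm, dist_eq_norm, NNReal.coe_natCast] at ih
    rw [dist_eq_norm, dist_eq_norm, NNReal.coe_natCast, proxX, proxX, neg_sub_neg, norm_sub_rev,
      ← smul_sub, norm_smul, Real.norm_eq_abs, abs_of_pos i.σ_pos]
    refine (mul_le_mul_of_nonneg_left (i.P.lip _ _) i.σ_pos.le).trans ?_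
    rw [← smul_add, ← smul_add, ← smul_sub, norm_smul, Real.norm_eq_abs, abs_of_pos i.σ_pos,
      show i.σ * (i.h * (i.σ * ‖p + proxX i.σ i.P.g p j - (p' + proxX i.σ i.P.g p' j)‖))
        = i.hs * ‖p + proxX i.σ i.P.g p j - (p' + proxX i.σ i.P.g p' j)‖ by rw [QI.hs]; ring,
      add_sub_add_comm]
    refine (mul_le_of_le_one_left (norm_nonneg _) hh).trans ((norm_add_le _ _).trans ?_)
    push_cast
    linarith

/-- The gradient at the iterate is the mean to the order of the square root of the dimension. -/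
theorem QI.grad_proxX (i : QI γ H) (p : Space i.d) (hh : i.hs ≤ 1 / 2) (n : ℕ) :
    ‖(i.pot p).g (proxX i.σ i.P.g p n) - ∫ x, (i.pot p).g x ∂mu (i.pot p)‖
      ≤ i.hs * (2 * i.hs ^ n * ‖i.P.g (i.σ • p)‖ + 3 * Real.sqrt i.d) := by
  obtain ⟨-, h1⟩ := mean_fix (i.pot p) (by linarith [i.two_le])
  set Q := i.pot p with hQ
  set m := ∫ x, Q.g x ∂mu Q
  set s := Real.sqrt i.d
  have h0 : 0 ≤ i.hs := (i.pot p).h_nonneg
  have hs : 0 ≤ s := Real.sqrt_nonneg _
  have step : ∀ y, ‖Q.g y - m‖ ≤ i.hs * ‖y + m‖ + i.hs * s := fun y => by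
    refine (norm_sub_le_norm_sub_add_norm_sub _ (Q.g (-m)) _).trans (add_le_add ?_ h1)
    refine (Q.lip _ _).trans_eq ?_
    rw [sub_neg_eq_add]
  have hm : ‖m‖ ≤ 2 * ‖i.P.g (i.σ • p)‖ + s := by
    have h2 : ‖Q.g 0‖ ≤ ‖i.P.g (i.σ • p)‖ := by
      have e : Q.g 0 = i.σ • i.P.g (i.σ • p) := by
        show i.σ • i.P.g (i.σ • p + i.σ • (0 : Space i.d)) = _
        rw [smul_zero, add_zero]
      rw [e, norm_smul, Real.norm_eq_abs, abs_of_pos i.σ_pos]
      exact mul_le_of_le_one_left (norm_nonneg _) i.σ_le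
    have h3 := Q.norm_g_le (-m)
    rw [norm_neg] at h3
    have h4 := norm_sub_norm_le m (Q.g (-m))
    rw [norm_sub_rev] at h4
    nlinarith [norm_nonneg m, h1, mul_le_mul_of_nonneg_right hh (norm_nonneg m),
      mul_le_mul_of_nonneg_right hh hs]
  have hx : ∀ j, ‖proxX i.σ i.P.g p j + m‖ ≤ i.hs ^ j * ‖m‖ + 2 * i.hs * s := by
    intro j
    induction j with
    | zero => simp only [proxX, zero_add, pow_zero, one_mul]; nlinarith
    | succ j ih =>
      have e : proxX i.σ i.P.g p (j + 1) + m = -(Q.g (proxX i.σ i.P.g p j) - m) := by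
        rw [neg_sub, show proxX i.σ i.P.g p (j + 1) = -Q.g (proxX i.σ i.P.g p j) from rfl,
          neg_add_eq_sub]
      rw [e, norm_neg]
      refine (step _).trans ?_
      have := mul_le_mul_of_nonneg_left ih h0
      rw [pow_succ']
      nlinarith [mul_nonneg h0 hs, mul_le_mul_of_nonneg_left hh (mul_nonneg h0 hs)]
  refine (step _).trans ?_
  have h5 := mul_le_mul_of_nonneg_left (hx n) h0
  have h6 := mul_le_mul_of_nonneg_left hm (pow_nonneg h0 n)
  have h7 : i.hs ^ n * s ≤ s := mul_le_of_le_one_left hs (pow_le_one₀ h0 (by linarith))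
  nlinarith [mul_le_mul_of_nonneg_left h6 h0, mul_le_mul_of_nonneg_left h7 h0, mul_nonneg h0 hs,
    mul_le_mul_of_nonneg_left hh (mul_nonneg h0 hs)]

/-- The program of the base at a key. -/
def proxProg (k : QK γ H) (a : ℝ) (n : ℕ) : Prog k.d Empty Unit where
  sd := 1
  q := n + 1
  F := fun G x => ((k.d : ℝ) ^ a / (k.h * k.σ ^ 2)) •
      (k.σ • G (k.σ • x.1 + k.σ • proxX k.σ G x.1 n)) + x.2.2.2 0
  comp := by
    have hK : Computes 1 fun (G : Space k.d → Space k.d) (y : Inp k.d Empty Unit 1 × Space k.d) =>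
        ((k.d : ℝ) ^ a / (k.h * k.σ ^ 2)) • (k.σ • G (k.σ • y.1.1 + k.σ • y.2)) + y.1.2.2.2 0 :=
      (Computes.query (by fun_prop : Measurable fun y : Inp k.d Empty Unit 1 × Space k.d =>
          k.σ • y.1.1 + k.σ • y.2)).map
        (f := fun z => ((k.d : ℝ) ^ a / (k.h * k.σ ^ 2)) • (k.σ • z.2) + z.1.1.2.2.2 0) (by fun_prop)
    exact (proxX_comp k.σ measurable_fst n).bind hK

/-- Far above the accuracy, and at the coarsest accuracy, the mean oracle is the gradient at the
proximal point plus noise. -/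
theorem meanBaseThm : MeanBaseThm := by
  intro γ κ φ hγ _ hφ hbase H B a ha ε hε
  set n := ⌈B / γ⌉₊ with hn
  have hnB : B ≤ γ * n := by
    have := Nat.le_ceil (B / γ); rw [div_le_iff₀ hγ] at this; linarith
  set S := MQ γ H B
  have hpos : ∀ i : QI γ H, (0 : ℝ) < i.d := fun i => by
    exact_mod_cast (by linarith [i.two_le] : 0 < i.d)
  have hle1 : ∀ i : QI γ H, i.hs ≤ 1 := fun i => i.hs_le.trans
    (Real.rpow_le_one_of_one_le_of_nonpos (by exact_mod_cast (by linarith [i.two_le] : 1 ≤ i.d))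
      (by linarith))
  have hshift : ∀ (i : QI γ H) (p : Space i.d) (x : Empty → Space i.d) (A : Unit → Space i.d)
      (ω : Fin 1 → Space i.d), (proxProg i.toQK a n).F i.P.g (p, x, A, ω)
        = ((i.d : ℝ) ^ a / i.hs) • (i.pot p).g (proxX i.σ i.P.g p n) + ω 0 :=
    fun i p x A ω => rfl
  have hlip : ∀ (i : QI γ H), LipschitzWith ((i.d : ℝ) ^ a * (n + 1)).toNNReal
      fun p => ((i.d : ℝ) ^ a / i.hs) • (i.pot p).g (proxX i.σ i.P.g p n) := fun i =>
    LipschitzWith.of_dist_le' fun p p' => by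
      have h0 := i.le_h
      have hp : 0 < i.hs := (Real.rpow_pos_of_pos (hpos i) _).trans_le h0
      have hX := (i.lip_proxX (hle1 i) n).dist_le_mul p p'
      rw [dist_eq_norm, dist_eq_norm, NNReal.coe_natCast] at hX
      simp only [dist_eq_norm]
      rw [← smul_sub, norm_smul, Real.norm_eq_abs,
        abs_of_nonneg (by positivity)]
      have e : (i.d : ℝ) ^ a / i.hs * (i.hs * ((n + 1) * ‖p - p'‖))
          = (i.d : ℝ) ^ a * (n + 1) * ‖p - p'‖ := by
        rw [← mul_assoc, div_mul_cancel₀ _ hp.ne', mul_assoc]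
      refine le_of_le_of_eq (mul_le_mul_of_nonneg_left ?_
        (show (0 : ℝ) ≤ (i.d : ℝ) ^ a / i.hs by positivity)) e
      show ‖i.σ • _ - i.σ • _‖ ≤ _
      rw [← smul_sub, norm_smul, Real.norm_eq_abs, abs_of_pos i.σ_pos]
      refine (mul_le_mul_of_nonneg_left (i.P.lip _ _) i.σ_pos.le).trans ?_
      rw [← smul_add, ← smul_add, ← smul_sub, norm_smul, Real.norm_eq_abs, abs_of_pos i.σ_pos,
        add_sub_add_comm, show i.σ * (i.h * (i.σ * ‖p - p' + (proxX i.σ i.P.g p n -
          proxX i.σ i.P.g p' n)‖)) = i.hs * ‖p - p' + (proxX i.σ i.P.g p n -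
          proxX i.σ i.P.g p' n)‖ by rw [QI.hs]; ring]
      exact mul_le_mul_of_nonneg_left ((norm_add_le _ _).trans (by linarith)) hp.le
  refine ⟨Run.of fun k => proxProg k a n, ?_, fun (i : QI γ H) => ?_, ?_, ?_⟩
  · exact (S.ev_le_rpow (n + 1) hε).mono fun i hi => by
      show (((n + 1 : ℕ)) : ℝ) ≤ _
      exact_mod_cast hi
  · have h1 := ((hlip i).comp LipschitzWith.prod_fst).add
      ((LipschitzWith.eval (α := fun _ : Fin 1 => Space i.d) (0 : Fin 1)).comp
        (LipschitzWith.prod_snd.comp (LipschitzWith.prod_snd.comp (LipschitzWith.prod_snd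
          (α := Space i.d) (β := (Empty → Space i.d) × (Unit → Space i.d) × (Fin 1 → Space i.d))))))
    exact ⟨_, h1⟩
  · refine Run.lipIn_of fun η hη => ((S.ev_le_rpow (n + 1) (add_pos hη hε)).and S.ev_one_le).mono
      fun (i : QI γ H) ⟨hi, hd⟩ p p' x x' A A' ω => ?_
    have h1 := (hlip i).dist_le_mul p p'
    simp only [dist_eq_norm, Real.coe_toNNReal _ (show (0 : ℝ) ≤ (i.d : ℝ) ^ a * (n + 1) by positivity)] at h1
    show ‖(proxProg i.toQK a n).F i.P.g _ - (proxProg i.toQK a n).F i.P.g _‖ ≤ _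
    erw [hshift, hshift, add_sub_add_right_eq_sub]
    refine h1.trans (mul_le_mul ?_ ((dist_eq_norm p p').trans_le ?_) dist_nonneg (Real.rpow_nonneg (hpos i).le _))
    · refine (mul_le_mul_of_nonneg_left hi (Real.rpow_nonneg (hpos i).le _)).trans_eq ?_
      show (i.d : ℝ) ^ a * (i.d : ℝ) ^ (η + ε) = (i.d : ℝ) ^ (η - (0 - a - ε))
      rw [← Real.rpow_add (hpos i)]
      ring_nf
    · exact le_add_of_le_of_nonneg (le_add_of_nonneg_right
        (Finset.sum_nonneg fun b _ => norm_nonneg _)) (Finset.sum_nonneg fun b _ => norm_nonneg _)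
  · refine Run.law_of_close fun η hη => ((S.ev_le_rpow 3 hη).and
      ((S.ev_le_rpow 2 hγ).and S.ev_one_le)).mono fun (i : QI γ H) ⟨h3, h2, hd⟩ p => ?_
    have hp : 0 < i.hs := (Real.rpow_pos_of_pos (hpos i) _).trans_le i.le_h
    have hh : i.hs ≤ 1 / 2 := i.hs_le.trans (by
      rw [Real.rpow_neg (hpos i).le, one_div]; exact inv_anti₀ two_pos h2)
    have hb : 2 * i.hs ^ n * ‖i.P.g (i.σ • p)‖ + 3 * Real.sqrt i.d
        ≤ 3 * (i.d : ℝ) ^ (1 / 2 : ℝ) * S.wt i p := by
      have h4 : i.hs ^ n ≤ (i.d : ℝ) ^ (-B) := by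
        refine (pow_le_pow_left₀ hp.le i.hs_le n).trans ?_
        rw [← Real.rpow_natCast, ← Real.rpow_mul (hpos i).le]
        exact Real.rpow_le_rpow_of_exponent_le hd (by linarith)
      have hs1 : 1 ≤ (i.d : ℝ) ^ (1 / 2 : ℝ) := Real.one_le_rpow hd (by norm_num)
      rw [Real.sqrt_eq_rpow]
      show _ ≤ 3 * (i.d : ℝ) ^ (1 / 2 : ℝ) * (1 + (i.d : ℝ) ^ (-B) * ‖i.P.g (i.σ • p)‖)
      have h5 : 0 ≤ (i.d : ℝ) ^ (-B) * ‖i.P.g (i.σ • p)‖ := by positivity
      nlinarith [mul_le_mul_of_nonneg_right h4 (norm_nonneg (i.P.g (i.σ • p))),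
        mul_le_mul_of_nonneg_right hs1 h5]
    refine ⟨fun _ => (i.d : ℝ) ^ a * (3 * (i.d : ℝ) ^ (1 / 2 : ℝ) * S.wt i p),
      integrable_const _, ?_, fun x A => ?_⟩
    · rw [integral_const, probReal_univ, one_smul, ← mul_assoc]
      refine mul_le_mul_of_nonneg_right ?_ (S.wt_nonneg i p)
      calc (i.d : ℝ) ^ a * (3 * (i.d : ℝ) ^ (1 / 2 : ℝ))
          ≤ (i.d : ℝ) ^ a * ((i.d : ℝ) ^ η * (i.d : ℝ) ^ (1 / 2 : ℝ)) :=
            mul_le_mul_of_nonneg_left (mul_le_mul_of_nonneg_right h3 (by positivity)) (by positivity)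
        _ = (i.d : ℝ) ^ (a + (η + 1 / 2)) := by rw [← Real.rpow_add (hpos i), ← Real.rpow_add (hpos i)]
        _ ≤ _ := Real.rpow_le_rpow_of_exponent_le hd (by rcases hbase with h | h <;> linarith)
    · obtain ⟨hgi, -⟩ := mean_fix (i.pot p) (by linarith [i.two_le])
      have hT : apT () (meanFld γ H B i p x) A = i.hs⁻¹ • ∫ y, (i.pot p).g y ∂mu (i.pot p) := by
        rw [apT_unit]
        ext u
        simp only [WithLp.ofLp_sum, WithLp.ofLp_smul, Finset.sum_apply, Pi.smul_apply, smul_eq_mul,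
          meanFld, div_eq_inv_mul]
        rw [Finset.sum_eq_single u]
        · rw [show ev u u = 1 by simp, mul_one]
          congr 1
          exact (EuclideanSpace.proj (𝕜 := ℝ) u).integral_comp_comm hgi
        · intro c _ hc; simp [Ne.symm hc]
        · simp
      rw [hT]
      set v := ((i.d : ℝ) ^ a / i.hs) • (i.pot p).g (proxX i.σ i.P.g p n) with hv
      set t := (i.d : ℝ) ^ a • i.hs⁻¹ • ∫ y, (i.pot p).g y ∂mu (i.pot p) with ht
      have h0 : Close (gp (Fin 1) i.d) (fun ω : Fin 1 → Space i.d => v + (1 : ℝ) • ω 0) (gam i.d)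
          (fun z => v + (1 : ℝ) • z) 0 :=
        (Close.refl (integrable_gau v 1)).comp_left
          (measurePreserving_eval (fun _ : Fin 1 => gam i.d) (0 : Fin 1))
      have hX : ((Run.of fun k => proxProg k a n : Run S Empty Unit).at i).CloseAt (S.og i) p x A t 1
          (0 + (‖v - t‖ + |(1 : ℝ) - 1| * ∫ z, ‖z‖ ∂gam i.d)) := by
        refine cast (congrArg (fun Z => Close _ Z _ _ _) (funext fun ω => ?_))
          (h0.trans (Close.gauss_shift v t 1 1))
        show _ = (proxProg i.toQK a n).F i.P.g (p, x, A, ω)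
        erw [hshift, one_smul]
      refine hX.mono ?_
      · rw [zero_add, sub_self, abs_zero, zero_mul, add_zero, hv, ht, smul_smul, ← div_eq_mul_inv,
          ← smul_sub, norm_smul, Real.norm_of_nonneg (div_nonneg (Real.rpow_nonneg (hpos i).le _) hp.le)]
        refine (mul_le_mul_of_nonneg_left ((i.grad_proxX p hh n).trans
          (mul_le_mul_of_nonneg_left hb hp.le)) (by positivity)).trans_eq ?_
        rw [div_mul_eq_mul_div, mul_comm ((i.d : ℝ) ^ a), mul_assoc, mul_div_assoc]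
        field_simp

end Vale.Agent.P347.Zero
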