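import Vale.Agent.P347.Zero.FamCalc

/-!
The class of fields closed under differentiation, contraction and the Burgers operator, generated by
the derivative of the drift. Its members bound every time derivative along the flow.
-/

noncomputable section

open Filter Topology Set
open scoped RealInnerProductSpace ContDiff

namespace Vale.Agent.P347.Zero

/-- A family of tensor fields, one for each potential. -/
abbrev Fam (I : Type) := ∀ (d : ℕ) (h : ℝ), Pot d h → ℝ × Space d → Ten d I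

variable {I J A B G : Type} [Fintype I] [DecidableEq I] [Fintype J] [DecidableEq J]
  [Fintype A] [DecidableEq A] [Fintype B] [DecidableEq B] [Fintype G] [DecidableEq G]

/-- The derivative in the centre, as one more leg. -/
def dA (F : Fam I) : Fam (Option I) :=
  fun d h P q i => pD (i none) (fun p => F d h P p fun j => i (some j)) q

/-- The Burgers operator, entry by entry. -/
def bop (F : Fam I) : Fam I := fun d h P q i => bopS P (fun p => F d h P p i) q

/-- Relabelling. -/
def reF (e : I ≃ J) (F : Fam I) : Fam J := fun d h P q => reT e (F d h P q)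

/-- Contraction. -/
def ctrF (F : Fam (A ⊕ G)) (H : Fam (G ⊕ B)) : Fam (A ⊕ B) :=
  fun d h P q => ctr (F d h P q) (H d h P q)

/-- The sum of two families. -/
def addFam (F H : Fam I) : Fam I := fun d h P q i => F d h P q i + H d h P q i

/-- The derivative of the drift. -/
def Kf : Fam (Option Unit) := fun _ _ P q i => pD (i none) (drift P (i (some ()))) q

/-- Smooth, entry by entry. -/
def SmF (F : Fam I) : Prop := ∀ d h (P : Pot d h) (i : I → Fin d), CSm fun q => F d h P q i

/-- Every split bounded by the power `w` of the inverse standard deviation. -/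
def BdF (w : ℕ) (F : Fam I) : Prop :=
  ∃ C : ℝ, 0 ≤ C ∧ ∀ d h (P : Pot d h), h ≤ 1 → ∀ q : ℝ × Space d, 0 < q.1 → q.1 ≤ 1 →
    SplitB (C * (Real.sqrt q.1)⁻¹ ^ w) (F d h P q)

/-- Equality on positive variances. -/
def EqP (F H : Fam I) : Prop :=
  ∀ d h (P : Pot d h), ∀ q : ℝ × Space d, 0 < q.1 → F d h P q = H d h P q

/-- The first `n` derivatives in the centre bounded, each costing one power. -/
def FlN : ℕ → ℕ → {I : Type} → [Fintype I] → [DecidableEq I] → Fam I → Prop
  | 0, w, _, _, _, F => BdF w F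
  | n + 1, w, _, _, _, F => BdF w F ∧ FlN n (w + 1) (dA F)

/-- Every derivative in the centre bounded. -/
def Fl (w : ℕ) (F : Fam I) : Prop := ∀ n, FlN n w F

/-- Smooth and bounded, and so are the first `n` iterates of the Burgers operator, each costing
two powers. -/
def Good : ℕ → ℕ → {I : Type} → [Fintype I] → [DecidableEq I] → Fam I → Prop
  | 0, w, _, _, _, F => SmF F ∧ Fl w F
  | n + 1, w, _, _, _, F => SmF F ∧ Fl w F ∧ Good n (w + 2) (bop F)

theorem Good.sm {n w : ℕ} {F : Fam I} (h : Good n w F) : SmF F := by cases n <;> exact h.1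

theorem Good.fl {n w : ℕ} {F : Fam I} (h : Good n w F) : Fl w F := by
  cases n
  · exact h.2
  · exact h.2.1

theorem Good.pred : ∀ {n w : ℕ} {F : Fam I}, Good (n + 1) w F → Good n w F
  | 0, _, _, h => ⟨h.1, h.2.1⟩
  | _ + 1, _, _, h => ⟨h.1, h.2.1, Good.pred h.2.2⟩

/-! ### Bounds -/

theorem BdF.congr {w : ℕ} {F H : Fam I} (hF : BdF w F) (he : EqP F H) : BdF w H := by
  obtain ⟨C, hC, hb⟩ := hF
  exact ⟨C, hC, fun d h P hh q hq hq1 => he d h P q hq ▸ hb d h P hh q hq hq1⟩

theorem inv_pow_mono {v : ℝ} (hv : 0 < v) (hv1 : v ≤ 1) {m n : ℕ} (h : m ≤ n) :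
    (Real.sqrt v)⁻¹ ^ m ≤ (Real.sqrt v)⁻¹ ^ n :=
  pow_le_pow_right₀ (one_le_inv_iff₀.2 ⟨Real.sqrt_pos.2 hv, Real.sqrt_le_one.2 hv1⟩) h

theorem BdF.mono {w w' : ℕ} {F : Fam I} (hF : BdF w F) (hw : w ≤ w') : BdF w' F := by
  obtain ⟨C, hC, hb⟩ := hF
  exact ⟨C, hC, fun d h P hh q hq hq1 =>
    (hb d h P hh q hq hq1).mono (mul_le_mul_of_nonneg_left (inv_pow_mono hq hq1 hw) hC)⟩

theorem BdF.add {w : ℕ} {F H : Fam I} (hF : BdF w F) (hH : BdF w H) : BdF w (addFam F H) := by
  obtain ⟨C, hC, hb⟩ := hF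
  obtain ⟨D, hD, hb'⟩ := hH
  refine ⟨C + D, add_nonneg hC hD, fun d h P hh q hq hq1 => ?_⟩
  exact ((hb d h P hh q hq hq1).add (hb' d h P hh q hq hq1)).mono (le_of_eq (add_mul _ _ _).symm)

theorem BdF.relabel {w : ℕ} {F : Fam I} (hF : BdF w F) (e : I ≃ J) : BdF w (reF e F) := by
  obtain ⟨C, hC, hb⟩ := hF
  exact ⟨C, hC, fun d h P hh q hq hq1 => (hb d h P hh q hq hq1).relabel e⟩

theorem BdF.contract [Nonempty A] [Nonempty B] [Nonempty G] {w w' : ℕ} {F : Fam (A ⊕ G)}
    {H : Fam (G ⊕ B)} (hF : BdF w F) (hH : BdF w' H) : BdF (w + w') (ctrF F H) := by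
  obtain ⟨C, hC, hb⟩ := hF
  obtain ⟨D, hD, hb'⟩ := hH
  refine ⟨C * D, mul_nonneg hC hD, fun d h P hh q hq hq1 => ?_⟩
  refine ((hb d h P hh q hq hq1).contract (hb' d h P hh q hq hq1)).mono (le_of_eq ?_)
  rw [pow_add]; ring

/-! ### Smoothness and the rules -/

theorem SmF.congr {F H : Fam I} (hF : SmF F) (he : EqP F H) : SmF H :=
  fun d h P i => (hF d h P i).congr fun q hq => by rw [he d h P q hq]

theorem SmF.add {F H : Fam I} (hF : SmF F) (hH : SmF H) : SmF (addFam F H) :=
  fun d h P i => (hF d h P i).add (hH d h P i)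

theorem SmF.relabel {F : Fam I} (hF : SmF F) (e : I ≃ J) : SmF (reF e F) :=
  fun d h P _ => hF d h P _

theorem SmF.ctrF {F : Fam (A ⊕ G)} {H : Fam (G ⊕ B)} (hF : SmF F) (hH : SmF H) : SmF (Zero.ctrF F H) :=
  fun d h P _ => CSm.sum fun _ => (hF d h P _).mul (hH d h P _)

theorem SmF.dA {F : Fam I} (hF : SmF F) : SmF (Zero.dA F) := fun d h P _ => (hF d h P _).pD _

theorem SmF.bop {F : Fam I} (hF : SmF F) : SmF (Zero.bop F) := fun d h P _ => (hF d h P _).bopS P

theorem sm_Kf : SmF Kf := fun _ _ P _ => (csm_drift P _).pD _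

theorem EqP.dA {F H : Fam I} (he : EqP F H) : EqP (Zero.dA F) (Zero.dA H) :=
  fun d h P q hq => funext fun i => wD_congr (fun p hp => by rw [he d h P p hp]) hq _

theorem EqP.bop {F H : Fam I} (he : EqP F H) : EqP (Zero.bop F) (Zero.bop H) :=
  fun d h P q hq => funext fun i => bopS_congr P (fun p hp => by rw [he d h P p hp]) hq

theorem dA_addFam {F H : Fam I} (hF : SmF F) (hH : SmF H) :
    EqP (dA (addFam F H)) (addFam (dA F) (dA H)) :=
  fun d h P _ hq => funext fun _ => wD_add (hF d h P _) (hH d h P _) hq _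

theorem bop_addF {F H : Fam I} (hF : SmF F) (hH : SmF H) :
    EqP (bop (addFam F H)) (addFam (bop F) (bop H)) := by
  intro d h P q hq
  funext i
  have := bopS_sum P (f := fun b : Bool => fun p => bif b then F d h P p i else H d h P p i)
    (fun b => by cases b <;> simp <;> first | exact hF d h P i | exact hH d h P i) hq
  simp only [Fintype.sum_bool, cond_true, cond_false] at this
  exact this

theorem dA_reF (e : I ≃ J) (F : Fam I) : dA (reF e F) = reF (Equiv.optionCongr e) (dA F) := rfl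

theorem bop_reF (e : I ≃ J) (F : Fam I) : bop (reF e F) = reF e (bop F) := rfl

theorem dA_ctrF {F : Fam (A ⊕ G)} {H : Fam (G ⊕ B)} (hF : SmF F) (hH : SmF H) :
    EqP (dA (ctrF F H))
      (addFam (reF (optL A B).symm (ctrF (reF (optL A G) (dA F)) H))
        (reF (optR A B).symm (ctrF F (reF (optR G B) (dA H))))) := by
  intro d h P q hq
  funext i
  show wD (0, ev (i none)) (fun p => ∑ c : G → Fin d, F d h P p _ * H d h P p _) q = _
  rw [wD_sum (fun c => (hF d h P _).mul (hH d h P _)) hq]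
  simp only [addFam, reF, reT, ctrF, ctr, ← Finset.sum_add_distrib]
  refine Finset.sum_congr rfl fun c _ => ?_
  rw [wD_mul (hF d h P _) (hH d h P _) hq]
  congr 1
  · congr 1
    show pD _ _ q = pD _ _ q
    congr 1
    funext p; congr 1; funext j; rcases j with a | g <;> rfl
  · congr 1
    show pD _ _ q = pD _ _ q
    congr 1
    funext p; congr 1; funext j; rcases j with g | b <;> rfl

theorem bop_ctrF {F : Fam (A ⊕ G)} {H : Fam (G ⊕ B)} (hF : SmF F) (hH : SmF H) :
    EqP (bop (ctrF F H))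
      (addFam (addFam (ctrF (bop F) H) (ctrF F (bop H)))
        (ctrF (reF (optR A G) (dA F)) (reF (optL G B) (dA H)))) := by
  intro d h P q hq
  funext i
  show bopS P (fun p => ∑ c : G → Fin d, F d h P p _ * H d h P p _) q = _
  rw [bopS_sum P (fun c => (hF d h P _).mul (hH d h P _)) hq]
  have e : (ctrF (reF (optR A G) (dA F)) (reF (optL G B) (dA H))) d h P q i
      = ∑ c : G → Fin d, ∑ b, pD b (fun p => F d h P p (Sum.elim (i ∘ Sum.inl) c)) q
          * pD b (fun p => H d h P p (Sum.elim c (i ∘ Sum.inr))) q := by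
    simp only [ctrF, ctr]
    rw [Finset.sum_comm, ← Fintype.sum_prod_type' (f := fun b c => _ * _)]
    rw [← Equiv.sum_comp (Equiv.piOptionEquivProd (β := fun _ : Option G => Fin d)).symm]
    refine Finset.sum_congr rfl fun bc _ => ?_
    congr 1
    · show pD _ _ q = pD _ _ q
      congr 1
      funext p; congr 1; funext j; rcases j with a | g <;> rfl
    · show pD _ _ q = pD _ _ q
      congr 1
      funext p; congr 1; funext j; rcases j with g | b <;> rfl
  show _ = (ctrF (bop F) H d h P q i + ctrF F (bop H) d h P q i) + _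
  rw [e]
  simp only [ctrF, ctr, bop, ← Finset.sum_add_distrib]
  exact Finset.sum_congr rfl fun c _ => bopS_mul P (hF d h P _) (hH d h P _) hq

/-- The leg `none` alone on the left. -/
def optU (I : Type) : Option I ≃ Unit ⊕ I where
  toFun o := o.elim (.inl ()) Sum.inr
  invFun := Sum.elim (fun _ => none) some
  left_inv o := by rcases o with _ | i <;> rfl
  right_inv o := by rcases o with u | i <;> rfl

theorem bop_dA {F : Fam I} (hF : SmF F) :
    EqP (bop (dA F)) (addFam (dA (bop F))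
      (reF (optU I).symm (ctrF (reF (optU Unit) Kf) (reF (optU I) (dA F))))) := by
  intro d h P q hq
  funext i
  show bopS P (pD (i none) fun p => F d h P p fun j => i (some j)) q = _
  rw [bopS_pD P (hF d h P _) _ hq]
  show _ = dA (bop F) d h P q i + _
  congr 1
  simp only [reF, reT, ctrF, ctr]
  rw [← (Equiv.funUnique Unit (Fin d)).symm.sum_comp]
  rfl

theorem bop_Kf : EqP (bop Kf)
    (reF (optU Unit).symm (ctrF (reF (optU Unit) Kf) (reF (optU Unit) Kf))) := by
  intro d h P q hq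
  funext i
  show bopS P (pD (i none) (drift P (i (some ())))) q = _
  rw [bopS_pD P (csm_drift P _) _ hq]
  have z : ∀ p : ℝ × Space d, 0 < p.1 → bopS P (drift P (i (some ()))) p = 0 := fun p hp => by
    simp only [bopS, burgers P _ hp]; ring
  rw [show pD (i none) (bopS P (drift P (i (some ())))) q = 0 by
    rw [show pD (i none) (bopS P (drift P (i (some ())))) q
      = wD (0, ev (i none)) (fun _ => (0 : ℝ)) q from wD_congr z hq _]
    simp [wD], zero_add]
  simp only [reF, reT, ctrF, ctr]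
  rw [← (Equiv.funUnique Unit (Fin d)).symm.sum_comp]
  rfl

/-! ### Every derivative bounded -/

theorem FlN.bd {n w : ℕ} {F : Fam I} (h : FlN n w F) : BdF w F := by
  cases n
  · exact h
  · exact h.1

theorem FlN.congr : ∀ {n w : ℕ} {I : Type} [Fintype I] [DecidableEq I] {F H : Fam I},
    FlN n w F → EqP F H → FlN n w H
  | 0, _, _, _, _, _, _, hF, he => BdF.congr hF he
  | _ + 1, _, _, _, _, _, _, hF, he => ⟨hF.1.congr he, FlN.congr hF.2 he.dA⟩

theorem FlN.mono : ∀ {n w w' : ℕ} {I : Type} [Fintype I] [DecidableEq I] {F : Fam I},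
    FlN n w F → w ≤ w' → FlN n w' F
  | 0, _, _, _, _, _, _, hF, hw => BdF.mono hF hw
  | _ + 1, _, _, _, _, _, _, hF, hw => ⟨hF.1.mono hw, FlN.mono hF.2 (Nat.add_le_add_right hw 1)⟩

theorem FlN.pred : ∀ {n w : ℕ} {I : Type} [Fintype I] [DecidableEq I] {F : Fam I},
    FlN (n + 1) w F → FlN n w F
  | 0, _, _, _, _, _, hF => hF.1
  | _ + 1, _, _, _, _, _, hF => ⟨hF.1, FlN.pred hF.2⟩

theorem FlN.relabel : ∀ {n w : ℕ} {I J : Type} [Fintype I] [DecidableEq I] [Fintype J]
    [DecidableEq J] {F : Fam I}, FlN n w F → ∀ e : I ≃ J, FlN n w (reF e F)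
  | 0, _, _, _, _, _, _, _, _, hF, e => BdF.relabel hF e
  | _ + 1, _, _, _, _, _, _, _, _, hF, e => ⟨hF.1.relabel e, by
      rw [dA_reF]; exact FlN.relabel hF.2 _⟩

theorem FlN.add : ∀ {n w : ℕ} {I : Type} [Fintype I] [DecidableEq I] {F H : Fam I},
    FlN n w F → FlN n w H → SmF F → SmF H → FlN n w (addFam F H)
  | 0, _, _, _, _, _, _, hF, hH, _, _ => BdF.add hF hH
  | _ + 1, _, _, _, _, _, _, hF, hH, sF, sH =>
    ⟨hF.1.add hH.1, (FlN.add hF.2 hH.2 sF.dA sH.dA).congr fun d h P q hq =>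
      (dA_addFam sF sH d h P q hq).symm⟩

theorem FlN.contract : ∀ {n w w' : ℕ} {A G B : Type} [Fintype A] [DecidableEq A] [Fintype G]
    [DecidableEq G] [Fintype B] [DecidableEq B] [Nonempty A] [Nonempty G] [Nonempty B]
    {F : Fam (A ⊕ G)} {H : Fam (G ⊕ B)}, FlN n w F → FlN n w' H → SmF F → SmF H →
      FlN n (w + w') (ctrF F H)
  | 0, _, _, _, _, _, _, _, _, _, _, _, _, _, _, _, _, hF, hH, _, _ => BdF.contract hF hH
  | _ + 1, _, _, _, _, _, _, _, _, _, _, _, _, _, _, _, _, hF, hH, sF, sH =>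
    ⟨hF.1.contract hH.1,
      (FlN.add (((FlN.contract (hF.2.relabel _) hH.pred (sF.dA.relabel _) sH).relabel _).mono
          (by omega))
        (((FlN.contract hF.pred (hH.2.relabel _) sF (sH.dA.relabel _)).relabel _).mono (by omega))
        (((sF.dA.relabel _).ctrF sH).relabel _)
        ((sF.ctrF (sH.dA.relabel _)).relabel _)).congr
          fun d h P q hq => (dA_ctrF sF sH d h P q hq).symm⟩

/-! ### The class -/

theorem Good.congr : ∀ {n w : ℕ} {I : Type} [Fintype I] [DecidableEq I] {F H : Fam I},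
    Good n w F → EqP F H → Good n w H
  | 0, _, _, _, _, _, _, hF, he => ⟨hF.1.congr he, fun k => (hF.2 k).congr he⟩
  | _ + 1, _, _, _, _, _, _, hF, he =>
    ⟨hF.1.congr he, fun k => (hF.2.1 k).congr he, Good.congr hF.2.2 he.bop⟩

theorem Good.mono : ∀ {n w w' : ℕ} {I : Type} [Fintype I] [DecidableEq I] {F : Fam I},
    Good n w F → w ≤ w' → Good n w' F
  | 0, _, _, _, _, _, _, hF, hw => ⟨hF.1, fun k => (hF.2 k).mono hw⟩
  | _ + 1, _, _, _, _, _, _, hF, hw =>
    ⟨hF.1, fun k => (hF.2.1 k).mono hw, Good.mono hF.2.2 (Nat.add_le_add_right hw 2)⟩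

theorem Good.relabel : ∀ {n w : ℕ} {I J : Type} [Fintype I] [DecidableEq I] [Fintype J]
    [DecidableEq J] {F : Fam I}, Good n w F → ∀ e : I ≃ J, Good n w (reF e F)
  | 0, _, _, _, _, _, _, _, _, hF, e => ⟨hF.1.relabel e, fun k => (hF.2 k).relabel e⟩
  | _ + 1, _, _, _, _, _, _, _, _, hF, e =>
    ⟨hF.1.relabel e, fun k => (hF.2.1 k).relabel e, by rw [bop_reF]; exact Good.relabel hF.2.2 e⟩

theorem Good.add : ∀ {n w : ℕ} {I : Type} [Fintype I] [DecidableEq I] {F H : Fam I},
    Good n w F → Good n w H → Good n w (addFam F H)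
  | 0, _, _, _, _, _, _, hF, hH => ⟨hF.1.add hH.1, fun k => (hF.2 k).add (hH.2 k) hF.1 hH.1⟩
  | _ + 1, _, _, _, _, _, _, hF, hH =>
    ⟨hF.1.add hH.1, fun k => (hF.2.1 k).add (hH.2.1 k) hF.1 hH.1,
      (Good.add hF.2.2 hH.2.2).congr fun d h P q hq => (bop_addF hF.1 hH.1 d h P q hq).symm⟩

theorem good_closure (hK : Fl 0 Kf) : ∀ n : ℕ, Good n 0 Kf ∧
    (∀ {I : Type} [Fintype I] [DecidableEq I] [Nonempty I] (w : ℕ) (F : Fam I),
      Good n w F → Good n (w + 1) (dA F)) ∧
    (∀ {A G B : Type} [Fintype A] [DecidableEq A] [Fintype G] [DecidableEq G] [Fintype B]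
      [DecidableEq B] [Nonempty A] [Nonempty G] [Nonempty B] (w w' : ℕ) (F : Fam (A ⊕ G))
      (H : Fam (G ⊕ B)), Good n w F → Good n w' H → Good n (w + w') (ctrF F H)) := by
  intro n
  induction n with
  | zero =>
    exact ⟨⟨sm_Kf, hK⟩, fun w F hF => ⟨hF.1.dA, fun k => (hF.2 (k + 1)).2⟩,
      fun w w' F H hF hH => ⟨hF.1.ctrF hH.1, fun k => (hF.2 k).contract (hH.2 k) hF.1 hH.1⟩⟩
  | succ n ih =>
    obtain ⟨iK, iD, iC⟩ := ih
    refine ⟨⟨sm_Kf, hK, ?_⟩, fun w F hF => ⟨hF.1.dA, fun k => (hF.2.1 (k + 1)).2, ?_⟩,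
      fun w w' F H hF hH =>
        ⟨hF.1.ctrF hH.1, fun k => (hF.2.1 k).contract (hH.2.1 k) hF.1 hH.1, ?_⟩⟩
    · exact (((iC _ _ _ _ (iK.relabel _) (iK.relabel _)).relabel _).congr
        fun d h P q hq => (bop_Kf d h P q hq).symm).mono (by omega)
    · exact (((iD _ _ hF.2.2).mono (show w + 2 + 1 ≤ w + 1 + 2 by omega)).add
        (((iC _ _ _ _ (iK.relabel _) ((iD _ _ hF.pred).relabel _)).mono
          (show 0 + (w + 1) ≤ w + 1 + 2 by omega)).relabel _)).congr
            fun d h P q hq => (bop_dA hF.1 d h P q hq).symm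
    · exact ((((iC _ _ _ _ hF.2.2 hH.pred).mono (show w + 2 + w' ≤ w + w' + 2 by omega)).add
          ((iC _ _ _ _ hF.pred hH.2.2).mono (show w + (w' + 2) ≤ w + w' + 2 by omega))).add
        ((iC _ _ _ _ ((iD _ _ hF.pred).relabel _) ((iD _ _ hH.pred).relabel _)).mono
          (show w + 1 + (w' + 1) ≤ w + w' + 2 by omega))).congr
            fun d h P q hq => (bop_ctrF hF.1 hH.1 d h P q hq).symm

end Vale.Agent.P347.Zero
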