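import Vale.Agent.P347.Zero.Drift
import Vale.Agent.P347.Zero.Good

/-!
Every derivative in the centre of the derivative of the drift is bounded on every split: the base
case of the closure of the tensor class.
-/

noncomputable section

open Filter Topology Set
open scoped RealInnerProductSpace ContDiff

namespace Vale.Agent.P347.Zero

variable {d : ℕ} {h : ℝ}

/-- The derivative tensors, as families. -/
def Dk (k : ℕ) : Fam (Option (Fin k)) := fun _ _ P q => driftT P q.1 k q.2

/-- Moving the first derivative leg to the front. -/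
def shiftO (k : ℕ) : Option (Fin (k + 1)) ≃ Option (Option (Fin k)) where
  toFun o := o.elim (some none) (Fin.cases none fun j => some (some j))
  invFun o := o.elim (some 0) fun o' => o'.elim none fun j => some j.succ
  left_inv o := by
    rcases o with _ | j
    · rfl
    · induction j using Fin.cases <;> rfl
  right_inv o := by rcases o with _ | _ | j <;> rfl

/-- The derivative along a centre direction is the derivative of the slice. -/
theorem pD_slice {f : ℝ × Space d → ℝ} {q : ℝ × Space d} (hf : DifferentiableAt ℝ f q) (c : Fin d) :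
    pD c f q = fderiv ℝ (fun b => f (q.1, b)) q.2 (ev c) := by
  have h1 : HasFDerivAt (fun b : Space d => f (q.1, b))
      ((fderiv ℝ f q).comp ((0 : Space d →L[ℝ] ℝ).prod (ContinuousLinearMap.id ℝ (Space d)))) q.2 :=
    HasFDerivAt.comp q.2 (g := f) hf.hasFDerivAt
      ((hasFDerivAt_const q.1 q.2).prodMk (hasFDerivAt_id q.2))
  rw [h1.fderiv]
  rfl

/-- The step rule of the derivative tensors on positive variances. -/
theorem dA_Dk_entry (P : Pot d h) {k : ℕ} {idx : Option (Fin k) → Fin d}
    (hf : CSm fun q : ℝ × Space d => driftT P q.1 k q.2 idx) {q : ℝ × Space d} (hq : 0 < q.1)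
    (c : Fin d) :
    pD c (fun p => driftT P p.1 k p.2 idx) q
      = driftT P q.1 (k + 1) q.2 fun o => o.elim (idx none) (Fin.cons c fun j => idx (some j)) := by
  rw [pD_slice (hf.diff hq) c]
  exact fderiv_driftT P hq k q.2 idx c

theorem sm_Dk : ∀ k : ℕ, SmF (Dk k)
  | 0 => fun d h P idx => by
    refine (csm_drift P (idx none)).congr fun q _ => ?_
    show iteratedFDeriv ℝ 0 _ q.2 _ = drift P (idx none) q
    rw [iteratedFDeriv_zero_apply]
    rfl
  | k + 1 => fun d h P idx => by
    set idx' : Option (Fin k) → Fin d := fun o => o.elim (idx none) fun j => idx (some j.succ)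
    refine ((sm_Dk k d h P idx').pD (idx (some 0))).congr fun q hq => ?_
    refine ((dA_Dk_entry P (sm_Dk k d h P idx') hq (idx (some 0))).trans
      (congrArg (driftT P q.1 (k + 1) q.2) ?_)).symm
    funext o
    rcases o with _ | j
    · rfl
    · induction j using Fin.cases <;> rfl

theorem dA_Dk (k : ℕ) : EqP (dA (Dk k)) (reF (shiftO k) (Dk (k + 1))) := by
  intro d h P q hq
  funext i
  refine (dA_Dk_entry P (sm_Dk k d h P fun o => i (some o)) hq (i none)).trans
    (congrArg (driftT P q.1 (k + 1) q.2) ?_)
  funext o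
  rcases o with _ | j
  · rfl
  · induction j using Fin.cases <;> rfl

theorem bd_Dk (k : ℕ) : BdF k (Dk (k + 1)) := by
  obtain ⟨C, hC, hb⟩ := drift_splitB (k + 1)
  refine ⟨C, hC, fun d h P hh q hq _ => (hb d h P q.1 hq q.2).mono ?_⟩
  refine mul_le_mul (mul_le_of_le_one_right hC hh) (le_of_eq ?_) (Real.rpow_nonneg hq.le _) hC
  rw [Real.sqrt_eq_rpow, ← Real.rpow_natCast, ← Real.rpow_neg hq.le, ← Real.rpow_mul hq.le]
  congr 1
  push_cast
  ring

theorem fl_Dk : ∀ n k : ℕ, FlN n k (Dk (k + 1))
  | 0, k => bd_Dk k
  | n + 1, k => ⟨bd_Dk k, ((fl_Dk n (k + 1)).relabel (shiftO (k + 1))).congr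
      fun d h P q hq => (dA_Dk (k + 1) d h P q hq).symm⟩

/-- The one-leg index. -/
def oneO : Option (Fin 1) ≃ Option Unit where
  toFun o := o.elim (some ()) fun _ => none
  invFun o := o.elim (some 0) fun _ => none
  left_inv o := by 
    rcases o with _ | j
    · rfl
    · exact congrArg some (Subsingleton.elim _ _)
  right_inv o := by rcases o with _ | u <;> rfl

/-- Every derivative of the derivative of the drift is bounded. -/
theorem fl_Kf : Fl 0 Kf := fun n => ((fl_Dk n 0).relabel oneO).congr fun d h P q hq => by
  funext i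
  refine Eq.trans ?_ ((dA_Dk_entry P (sm_Dk 0 d h P fun _ => i (some ())) hq (i none)).symm.trans ?_)
  · show driftT P q.1 1 q.2 (i ∘ oneO) = _
    refine congrArg (driftT P q.1 1 q.2) ?_
    funext o
    rcases o with _ | j
    · rfl
    · induction j using Fin.cases with
      | zero => rfl
      | succ j => exact Fin.elim0 j
  · refine congrArg (fun f => pD (i none) f q) (funext fun p => ?_)
    show iteratedFDeriv ℝ 0 _ p.2 _ = _
    rw [iteratedFDeriv_zero_apply]
    rfl

end Vale.Agent.P347.Zero
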