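import Vale.Agent.P347.Zero.TrajFam

/-!
The divergence of the channel law in `L²`: its square is controlled by the field and one derivative
of it, whatever the dimension.
-/

noncomputable section

open MeasureTheory Filter Topology Set
open scoped RealInnerProductSpace ContDiff

namespace Vale.Agent.P347.Zero

variable {d : ℕ} {h : ℝ}

/-! ### Slices at a fixed correlation -/

theorem RSm.slice {f : ℝ × Space d → ℝ} (hf : RSm f) {r : ℝ} (hr : r ∈ Ioo (-1 : ℝ) 1) (k : ℕ) :
    ContDiff ℝ k fun y => f (r, y) :=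
  (hf k).comp_contDiff (contDiff_const.prodMk contDiff_id) fun _ => hr

theorem RSm.meas {f : ℝ × Space d → ℝ} (hf : RSm f) {r : ℝ} (hr : r ∈ Ioo (-1 : ℝ) 1) :
    Measurable fun y => f (r, y) :=
  (hf.slice hr 1).continuous.measurable

theorem fderiv_slice {f : ℝ × Space d → ℝ} (hf : RSm f) {r : ℝ} (hr : r ∈ Ioo (-1 : ℝ) 1)
    (y : Space d) (c : Fin d) : fderiv ℝ (fun z => f (r, z)) y (ev c) = pD c f (r, y) := by
  have h1 : HasFDerivAt (fun z => f (r, z)) _ y :=
    (hf.diff (show (r, y) ∈ domR d from hr)).hasFDerivAt.comp y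
      ((hasFDerivAt_const r y).prodMk (hasFDerivAt_id y))
  rw [h1.fderiv]
  rfl

theorem norm_clm_le (L : Space d →L[ℝ] ℝ) : ‖L‖ ≤ ∑ c, |L (ev c)| := by
  refine ContinuousLinearMap.opNorm_le_bound _ (Finset.sum_nonneg fun c _ => abs_nonneg _) fun e => ?_
  have he : e = ∑ c, e c • ev c := by
    simpa using ((EuclideanSpace.basisFun (Fin d) ℝ).sum_repr e).symm
  conv_lhs => rw [he]
  rw [map_sum, Real.norm_eq_abs, Finset.sum_mul]
  refine (Finset.abs_sum_le_sum_abs _ _).trans (Finset.sum_le_sum fun c _ => ?_)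
  rw [map_smul, smul_eq_mul, abs_mul, mul_comm]
  exact mul_le_mul_of_nonneg_left (P245.abs_coord_le e c) (abs_nonneg _)

theorem grow_abs {f : Space d → ℝ} (hf : Grow f) : Grow fun x => |f x| :=
  grow_mono hf fun x => by simp

theorem grow_slice_fderiv {f : ℝ × Space d → ℝ} (hf : RSm f) {r : ℝ} (hr : r ∈ Ioo (-1 : ℝ) 1)
    (h1 : ∀ c, Grow fun y => pD c f (r, y)) :
    Grow fun y => fderiv ℝ (fun z => f (r, z)) y := by
  refine grow_mono (g := fun y => ∑ c, |pD c f (r, y)|)
    (grow_finsum _ fun c => grow_abs (h1 c)) fun y => ?_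
  refine (norm_clm_le _).trans ?_
  simp only [fderiv_slice hf hr, Real.norm_eq_abs]
  exact le_abs_self _

/-! ### The drift -/

theorem chan_eq (r : ℝ) (y : Space d) : chan (r, y) = (1 - r ^ 2, r • y) := rfl

theorem norm_driftV_sub (P : Pot d h) {v : ℝ} (hv : 0 < v) (a b : Space d) :
    ‖driftV P (v, a) - driftV P (v, b)‖ ≤ h * ‖a - b‖ :=
  convex_univ.norm_image_sub_le_of_norm_fderiv_le (f := fun z => driftV P (v, z))
    (fun z _ => ((contDiff_driftV P hv 1).differentiable (by simp)) z)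
    (fun z _ => norm_fderiv_driftV P hv z) (mem_univ b) (mem_univ a)

theorem grow_uR (P : Pot d h) {r : ℝ} (hr : r ∈ Ioo (-1 : ℝ) 1) (c : Fin d) :
    Grow fun y => uR P c (r, y) := by
  refine grow_mono (g := fun y => ‖driftV P (1 - r ^ 2, 0)‖ + h * (|r| * ‖y‖))
    (grow_add (grow_const _) (grow_mul (grow_const h) (grow_mul (grow_const |r|)
      (grow_norm grow_id)))) fun y => ?_
  have h1 : ‖uR P c (r, y)‖ ≤ ‖driftV P (1 - r ^ 2, r • y)‖ :=
    (Real.norm_eq_abs _).trans_le (P245.abs_coord_le (driftV P (1 - r ^ 2, r • y)) c)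
  have h2 := norm_driftV_sub P (var_pos hr) (r • y) 0
  rw [sub_zero, norm_smul, Real.norm_eq_abs] at h2
  refine h1.trans ((norm_le_norm_add_norm_sub' _ (driftV P (1 - r ^ 2, 0))).trans
    ((add_le_add le_rfl h2).trans ?_))
  exact le_abs_self _

theorem grow_score (P : Pot d h) {r : ℝ} (hr : r ∈ Ioo (-1 : ℝ) 1) (a : Fin d) :
    Grow fun y : Space d => y a + r * uR P a (r, y) :=
  grow_add (grow_coord a) (grow_mul (grow_const r) (grow_uR P hr a))

/-! ### Stein's identity along the channel -/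

theorem stein_slice (P : Pot d h) {r : ℝ} (hr : r ∈ Ioo (-1 : ℝ) 1) {f : ℝ × Space d → ℝ}
    (hf : RSm f) (h1 : ∀ c, Grow fun y => pD c f (r, y)) (a : Fin d) :
    ∫ y, (y a + r * uR P a (r, y)) * f (r, y) ∂mu (potR P r hr)
      = ∫ y, pD a f (r, y) ∂mu (potR P r hr) := by
  have := steinMu d h (potR P r hr) (fun y => f (r, y)) (ev a) (hf.slice hr 1)
    (grow_slice_fderiv hf hr h1)
  simp only [fderiv_slice hf hr] at this
  rw [← this]
  refine integral_congr_ae (ae_of_all _ fun y => ?_)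
  simp [potR, uR, chan, driftV_apply, EuclideanSpace.inner_single_left]

theorem grow_dlS (P : Pot d h) {r : ℝ} (hr : r ∈ Ioo (-1 : ℝ) 1) {S : Fin d → ℝ × Space d → ℝ}
    (g0 : ∀ a, Grow fun y => S a (r, y)) (g1 : ∀ a c, Grow fun y => pD c (S a) (r, y)) :
    Grow fun y => dlS P S (r, y) :=
  grow_finsum _ fun a => grow_add (grow_mono (g1 a a) fun y => by simp)
    (grow_mul (grow_score P hr a) (g0 a))

theorem integral_dlS (P : Pot d h) {r : ℝ} (hr : r ∈ Ioo (-1 : ℝ) 1)
    {S : Fin d → ℝ × Space d → ℝ} (hS : ∀ a, RSm (S a))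
    (g0 : ∀ a, Grow fun y => S a (r, y)) (g1 : ∀ a c, Grow fun y => pD c (S a) (r, y)) :
    ∫ y, dlS P S (r, y) ∂mu (potR P r hr) = 0 := by
  have i1 : ∀ a, Integrable (fun y => pD a (S a) (r, y)) (mu (potR P r hr)) := fun a =>
    mu_int (((hS a).pD a).meas hr) (g1 a a)
  have i2 : ∀ a, Integrable (fun y => (y a + r * uR P a (r, y)) * S a (r, y))
      (mu (potR P r hr)) := fun a =>
    mu_int ((((rsm_coord a).add (rsm_fst.mul (rsm_uR P a))).mul (hS a)).meas hr)
      (grow_mul (grow_score P hr a) (g0 a))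
  simp only [dlS]
  rw [integral_finsetSum _ fun a _ => show Integrable (fun y => -pD a (S a) (r, y) +
      (y a + r * uR P a (r, y)) * S a (r, y)) (mu (potR P r hr)) from (i1 a).fun_neg.add (i2 a)]
  refine Finset.sum_eq_zero fun a _ => ?_
  rw [integral_add (i1 a).fun_neg (i2 a), integral_neg, stein_slice P hr (hS a) (g1 a) a,
    neg_add_cancel]

/-- The divergence is adjoint to the derivative. -/
theorem dlS_adjoint (P : Pot d h) {r : ℝ} (hr : r ∈ Ioo (-1 : ℝ) 1)
    {S : Fin d → ℝ × Space d → ℝ} (hS : ∀ a, RSm (S a))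
    (g0 : ∀ a, Grow fun y => S a (r, y)) (g1 : ∀ a c, Grow fun y => pD c (S a) (r, y))
    {g : ℝ × Space d → ℝ} (hg : RSm g) (k0 : Grow fun y => g (r, y))
    (k1 : ∀ c, Grow fun y => pD c g (r, y)) :
    ∫ y, dlS P S (r, y) * g (r, y) ∂mu (potR P r hr)
      = ∫ y, ∑ a, S a (r, y) * pD a g (r, y) ∂mu (potR P r hr) := by
  have hT : ∀ a, RSm fun p => S a p * g p := fun a => (hS a).mul hg
  have t0 : ∀ a, Grow fun y => S a (r, y) * g (r, y) := fun a => grow_mul (g0 a) k0
  have t1 : ∀ a c, Grow fun y => pD c (fun p => S a p * g p) (r, y) := fun a c => by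
    have e : ∀ y : Space d, pD c (fun p => S a p * g p) (r, y)
        = pD c (S a) (r, y) * g (r, y) + S a (r, y) * pD c g (r, y) :=
      fun y => rwD_mul (hS a) hg (show (r, y) ∈ domR d from hr) _
    simp only [e]
    exact grow_add (grow_mul (g1 a c) k0) (grow_mul (g0 a) (k1 c))
  have i1 : Integrable (fun y => dlS P (fun a p => S a p * g p) (r, y)) (mu (potR P r hr)) :=
    mu_int ((RSm.dlS hT P).meas hr) (grow_dlS P hr t0 t1)
  have i2 : Integrable (fun y => ∑ a, S a (r, y) * pD a g (r, y)) (mu (potR P r hr)) :=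
    mu_int ((RSm.sum fun a => (hS a).mul (hg.pD a)).meas hr)
      (grow_finsum _ fun a => grow_mul (g0 a) (k1 a))
  simp only [fun y => dlS_mul P hS hg (show (r, y) ∈ domR d from hr)]
  rw [integral_add i1 i2, integral_dlS P hr hT t0 t1, zero_add]

/-- The square of the divergence. -/
theorem dlS_sq_le (P : Pot d h) {r : ℝ} (hr : r ∈ Ioo (-1 : ℝ) 1)
    {S : Fin d → ℝ × Space d → ℝ} (hS : ∀ a, RSm (S a))
    (g0 : ∀ a, Grow fun y => S a (r, y)) (g1 : ∀ a c, Grow fun y => pD c (S a) (r, y))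
    (g2 : ∀ a b c, Grow fun y => pD c (pD b (S a)) (r, y))
    {K : ℝ} (hk : ∀ y, MatB K fun a c => kR P a c (r, y)) :
    ∫ y, dlS P S (r, y) ^ 2 ∂mu (potR P r hr)
      ≤ (∫ y, ∑ a, ∑ b, pD b (S a) (r, y) ^ 2 ∂mu (potR P r hr))
        + (1 + K) * ∫ y, ∑ a, S a (r, y) ^ 2 ∂mu (potR P r hr) := by
  set ν := mu (potR P r hr) with hν
  have hK : 0 ≤ K := (hk 0).1
  have hq : ∀ y : Space d, (r, y) ∈ domR d := fun _ => hr
  have hT : ∀ a b, RSm (pD a (S b)) := fun a b => (hS b).pD a
  have gk : ∀ a c, Grow fun y => kR P a c (r, y) := fun a c => by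
    refine grow_mono (grow_const K) fun y => ?_
    have := (hk y).2 (Pi.single a 1) (Pi.single c 1)
    simp only [Pi.single_apply, mul_ite, mul_one, mul_zero,
      Finset.sum_ite_eq', Finset.mem_univ, if_true, ite_pow, one_pow,
      zero_pow two_ne_zero, Real.sqrt_one, mul_one] at this
    rw [Real.norm_eq_abs, Real.norm_eq_abs]
    exact this.trans (le_abs_self K)
  have gd : Grow fun y => dlS P S (r, y) := grow_dlS P hr g0 g1
  have gd1 : ∀ c, Grow fun y => pD c (dlS P S) (r, y) := fun c => by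
    simp only [fun y => pD_dlS P hS c (hq y)]
    exact grow_add (grow_dlS P hr (fun a => g1 a c) fun a b => g2 a c b)
      (grow_add (g0 c) (grow_mul (grow_const _) (grow_finsum _ fun a =>
        grow_mul (gk c a) (g0 a))))
  have h1 : ∫ y, dlS P S (r, y) ^ 2 ∂ν = ∫ y, ∑ a, S a (r, y) * pD a (dlS P S) (r, y) ∂ν := by
    simp only [sq]
    exact dlS_adjoint P hr hS g0 g1 (RSm.dlS hS P) gd gd1
  have h2 : ∀ a, ∫ y, dlS P (fun b p => pD a (S b) p) (r, y) * S a (r, y) ∂ν
      = ∫ y, ∑ b, pD a (S b) (r, y) * pD b (S a) (r, y) ∂ν := fun a =>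
    dlS_adjoint P hr (hT a) (fun b => g1 b a) (fun b c => g2 b a c) (hS a) (g0 a) (g1 a)
  have i0 : ∀ a, Integrable
      (fun y => dlS P (fun b p => pD a (S b) p) (r, y) * S a (r, y)) ν := fun a =>
    mu_int (((RSm.dlS (hT a) P).mul (hS a)).meas hr)
      (grow_mul (grow_dlS P hr (fun b => g1 b a) fun b c => g2 b a c) (g0 a))
  have i1 : ∀ a, Integrable (fun y => ∑ b, pD a (S b) (r, y) * pD b (S a) (r, y)) ν := fun a =>
    mu_int ((RSm.sum fun b => (hT a b).mul (hT b a)).meas hr)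
      (grow_finsum _ fun b => grow_mul (g1 b a) (g1 a b))
  set R : Space d → ℝ := fun y =>
    ∑ a, S a (r, y) * (S a (r, y) + r * r * ∑ b, kR P a b (r, y) * S b (r, y))
  have iR : Integrable R ν := by
    refine mu_int ((RSm.sum fun a => (hS a).mul ((hS a).add ((rsm_const (r * r)).mul
      (RSm.sum fun b => (rsm_kR P a b).mul (hS b))))).meas hr) ?_
    exact grow_finsum _ fun a => grow_mul (g0 a) (grow_add (g0 a)
      (grow_mul (grow_const _) (grow_finsum _ fun b => grow_mul (gk a b) (g0 b))))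
  have h3 : ∫ y, ∑ a, S a (r, y) * pD a (dlS P S) (r, y) ∂ν
      = (∫ y, ∑ a, ∑ b, pD a (S b) (r, y) * pD b (S a) (r, y) ∂ν) + ∫ y, R y ∂ν := by
    rw [integral_finsetSum _ fun a _ => i1 a, ← Finset.sum_congr rfl fun a _ => h2 a,
      ← integral_finsetSum _ fun a _ => i0 a,
      ← integral_add (integrable_finsetSum _ fun a _ => i0 a) iR]
    refine integral_congr_ae (ae_of_all _ fun y => ?_)
    simp only [R, fun a => pD_dlS P hS a (hq y), ← Finset.sum_add_distrib]
    exact Finset.sum_congr rfl fun a _ => by ring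
  have iS : Integrable (fun y => ∑ a, S a (r, y) ^ 2) ν :=
    mu_int ((RSm.sum fun a => (hS a).mul (hS a)).congr (fun q _ =>
        Finset.sum_congr rfl fun a _ => sq (S a q)) |>.meas hr)
      (grow_finsum _ fun a => grow_pow (g0 a) 2)
  have iD : Integrable (fun y => ∑ a, ∑ b, pD b (S a) (r, y) ^ 2) ν :=
    mu_int ((RSm.sum fun a => RSm.sum fun b => (hT b a).mul (hT b a)).congr (fun q _ =>
        Finset.sum_congr rfl fun a _ => Finset.sum_congr rfl fun b _ => sq (pD b (S a) q))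
        |>.meas hr)
      (grow_finsum _ fun a => grow_finsum _ fun b => grow_pow (g1 a b) 2)
  rw [h1, h3, ← integral_const_mul]
  refine add_le_add (integral_mono (integrable_finsetSum _ fun a _ => i1 a) iD fun y => ?_)
    (integral_mono iR (iS.const_mul _) fun y => ?_)
  · have hc := Finset.sum_comm (s := (Finset.univ : Finset (Fin d))) (t := Finset.univ)
      (f := fun a b => pD a (S b) (r, y) ^ 2)
    have h4 : ∀ a b, pD a (S b) (r, y) * pD b (S a) (r, y)
        ≤ (pD a (S b) (r, y) ^ 2 + pD b (S a) (r, y) ^ 2) / 2 := fun a b => by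
      nlinarith [sq_nonneg (pD a (S b) (r, y) - pD b (S a) (r, y))]
    refine (Finset.sum_le_sum fun a _ => Finset.sum_le_sum fun b _ => h4 a b).trans ?_
    simp only [← Finset.sum_div, Finset.sum_add_distrib]
    rw [hc]
    linarith
  · show R y ≤ _
    have h5 := (hk y).2 (fun a => S a (r, y)) fun a => S a (r, y)
    set X := ∑ a, S a (r, y) ^ 2 with hX
    have hX0 : 0 ≤ X := Finset.sum_nonneg fun _ _ => sq_nonneg _
    rw [mul_assoc, Real.mul_self_sqrt hX0] at h5
    have e : R y = X + r * r * ∑ a, ∑ b, kR P a b (r, y) * S a (r, y) * S b (r, y) := by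
      simp only [R, hX, mul_add, Finset.sum_add_distrib, Finset.mul_sum, sq]
      congr 1
      exact Finset.sum_congr rfl fun a _ => Finset.sum_congr rfl fun b _ => by ring
    rw [e, one_add_mul]
    refine add_le_add le_rfl ?_
    calc r * r * ∑ a, ∑ b, kR P a b (r, y) * S a (r, y) * S b (r, y)
        ≤ r * r * (K * X) :=
          mul_le_mul_of_nonneg_left ((le_abs_self _).trans h5) (mul_self_nonneg r)
      _ ≤ 1 * (K * X) := mul_le_mul_of_nonneg_right (by nlinarith [hr.1, hr.2]) (mul_nonneg hK hX0)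
      _ = K * X := one_mul _

end Vale.Agent.P347.Zero
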