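import Vale.Agent.P347.Zero.MeanDefs
import Vale.Agent.P347.Zero.DriftFl
import Vale.Agent.P347.Zero.TrajL2
import Vale.Agent.P347.Zero.TrajReg

/-!
The derivatives of the drift at a node: the bound on every split, smoothness with derivatives of
polynomial growth, and the derivative in the noise block.
-/

noncomputable section

open MeasureTheory ProbabilityTheory Set Filter Topology
open scoped RealInnerProductSpace NNReal Nat

namespace Vale.Agent.P347.Zero

/-- Smooth, with every derivative of polynomial growth. -/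
def PGv {E F : Type} [NormedAddCommGroup E] [NormedSpace ℝ E] [NormedAddCommGroup F]
    [NormedSpace ℝ F] (f : E → F) : Prop :=
  ∀ k : ℕ, ContDiff ℝ k f ∧
    ∃ (c : ℝ) (n : ℕ), ∀ x, ‖iteratedFDeriv ℝ k f x‖ ≤ c * (1 + ‖x‖) ^ n

namespace PGv

variable {E F G : Type} [NormedAddCommGroup E] [NormedSpace ℝ E] [NormedAddCommGroup F]
  [NormedSpace ℝ F] [NormedAddCommGroup G] [NormedSpace ℝ G] {f g : E → F}

theorem bound_all (hf : PGv f) (n : ℕ) : ∃ (c : ℝ) (N : ℕ), 0 ≤ c ∧ ∀ k ≤ n, ∀ x,
    ‖iteratedFDeriv ℝ k f x‖ ≤ c * (1 + ‖x‖) ^ N := by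
  induction n with
  | zero =>
    obtain ⟨c, N, hc⟩ := (hf 0).2
    refine ⟨|c|, N, abs_nonneg c, fun k hk x => ?_⟩
    obtain rfl := Nat.le_zero.1 hk
    exact (hc x).trans (mul_le_mul_of_nonneg_right (le_abs_self c) (by positivity))
  | succ n ih =>
    obtain ⟨c, N, hc, hb⟩ := ih
    obtain ⟨c', N', hb'⟩ := (hf (n + 1)).2
    refine ⟨c + |c'|, N + N', by positivity, fun k hk x => ?_⟩
    have h1 : (1 : ℝ) ≤ 1 + ‖x‖ := by linarith [norm_nonneg x]
    rcases Nat.le_succ_iff.1 hk with hk' | rfl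
    · exact (hb k hk' x).trans (mul_le_mul (le_add_of_nonneg_right (abs_nonneg c'))
        (pow_le_pow_right₀ h1 (by omega)) (by positivity) (by positivity))
    · exact (hb' x).trans (mul_le_mul ((le_abs_self c').trans (le_add_of_nonneg_left hc))
        (pow_le_pow_right₀ h1 (by omega)) (by positivity) (by positivity))

theorem const (a : F) : PGv fun _ : E => a := fun k =>
  ⟨contDiff_const, ‖a‖, 0, fun x => by
    rcases k with _ | k
    · simp
    · simp [iteratedFDeriv_succ_const]⟩

theorem add (hf : PGv f) (hg : PGv g) : PGv fun x => f x + g x := fun k => by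
  obtain ⟨a, m, ha, hfb⟩ := bound_all hf k
  obtain ⟨b, n, hb, hgb⟩ := bound_all hg k
  refine ⟨(hf k).1.add (hg k).1, a + b, m + n, fun x => ?_⟩
  have h1 : (1 : ℝ) ≤ 1 + ‖x‖ := by linarith [norm_nonneg x]
  rw [show (fun x => f x + g x) = f + g from rfl,
    iteratedFDeriv_add_apply (hf k).1.contDiffAt (hg k).1.contDiffAt, add_mul]
  exact (norm_add_le _ _).trans (add_le_add
    ((hfb k le_rfl x).trans (mul_le_mul_of_nonneg_left (pow_le_pow_right₀ h1 (by omega)) ha))
    ((hgb k le_rfl x).trans (mul_le_mul_of_nonneg_left (pow_le_pow_right₀ h1 (by omega)) hb)))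

theorem clm (hf : PGv f) (L : F →L[ℝ] G) : PGv fun x => L (f x) := fun k => by
  obtain ⟨a, m, hfb⟩ := (hf k).2
  refine ⟨L.contDiff.comp (hf k).1, ‖L‖ * a, m, fun x => ?_⟩
  refine (L.norm_iteratedFDeriv_comp_left (hf k).1.contDiffAt le_rfl).trans ?_
  rw [mul_assoc]
  exact mul_le_mul_of_nonneg_left (hfb x) (norm_nonneg L)

theorem sum {ι : Type} (s : Finset ι) {F' : ι → E → F} (hf : ∀ i ∈ s, PGv (F' i)) :
    PGv fun x => ∑ i ∈ s, F' i x := by
  classical
  induction s using Finset.induction_on with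
  | empty => simpa using const (E := E) (0 : F)
  | insert a s ha ih =>
    simp only [Finset.sum_insert ha]
    exact (hf a (Finset.mem_insert_self _ _)).add
      (ih fun b hb => hf b (Finset.mem_insert_of_mem hb))

theorem linear (L : E →L[ℝ] F) : PGv fun x => L x := fun k => by
  refine ⟨L.contDiff, ‖L‖ * 2, 1, fun x => ?_⟩
  rw [pow_one]
  rcases k with _ | _ | k
  · rw [norm_iteratedFDeriv_zero]
    refine (L.le_opNorm x).trans ?_
    nlinarith [norm_nonneg L, norm_nonneg x, mul_nonneg (norm_nonneg L) (norm_nonneg x)]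
  · rw [← norm_iteratedFDeriv_fderiv, show fderiv ℝ (fun x => L x) = fun _ => L from
      funext fun _ => L.fderiv, norm_iteratedFDeriv_zero]
    nlinarith [norm_nonneg L, norm_nonneg x, mul_nonneg (norm_nonneg L) (norm_nonneg x)]
  · rw [← norm_iteratedFDeriv_fderiv, show fderiv ℝ (fun x => L x) = fun _ => L from
      funext fun _ => L.fderiv, iteratedFDeriv_succ_const, Pi.zero_apply, norm_zero]
    positivity

theorem comp_clm {H : Type} [NormedAddCommGroup H] [NormedSpace ℝ H] (hf : PGv f) (L : H →L[ℝ] E) :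
    PGv fun x => f (L x) := fun k => by
  obtain ⟨a, m, ha, hfb⟩ := bound_all hf k
  refine ⟨(hf k).1.comp L.contDiff, a * (1 + ‖L‖) ^ (m + k), m, fun x => ?_⟩
  rw [show (fun x => f (L x)) = f ∘ L from rfl, L.iteratedFDeriv_comp_right (hf k).1 x le_rfl]
  refine (ContinuousMultilinearMap.norm_compContinuousLinearMap_le _ _).trans ?_
  rw [Finset.prod_const, Finset.card_univ, Fintype.card_fin]
  refine (mul_le_mul (hfb k le_rfl (L x)) (pow_le_pow_left₀ (norm_nonneg L) (le_add_of_nonneg_left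
    zero_le_one) k) (by positivity) (by positivity)).trans ?_
  rw [pow_add, mul_assoc a, mul_assoc a]
  refine mul_le_mul_of_nonneg_left ?_ ha
  rw [mul_right_comm, ← mul_pow (1 + ‖L‖) (1 + ‖x‖)]
  refine mul_le_mul_of_nonneg_right (pow_le_pow_left₀ (by positivity) ?_ m) (by positivity)
  nlinarith [L.le_opNorm x, norm_nonneg L, norm_nonneg x]

theorem comp {h : F → G} (hh : PGv h) (hf : PGv f) : PGv fun x => h (f x) := fun k => by
  obtain ⟨a, m, ha, hhb⟩ := bound_all hh k
  obtain ⟨b, n, hb, hfb⟩ := bound_all hf k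
  refine ⟨(hh k).1.comp (hf k).1, (k ! : ℝ) * (a * (1 + b) ^ m) * (1 + b) ^ k, n * m + n * k,
    fun x => ?_⟩
  have hX : (1 : ℝ) ≤ (1 + ‖x‖) ^ n := one_le_pow₀ (by linarith [norm_nonneg x])
  have h0 : ‖f x‖ ≤ b * (1 + ‖x‖) ^ n := by
    have := hfb 0 (Nat.zero_le k) x
    rwa [norm_iteratedFDeriv_zero] at this
  have h1 : 1 + ‖f x‖ ≤ (1 + b) * (1 + ‖x‖) ^ n := by nlinarith
  refine (norm_iteratedFDeriv_comp_le (hh k).1 (hf k).1 le_rfl x
    (C := a * ((1 + b) ^ m * (1 + ‖x‖) ^ (n * m))) (D := (1 + b) * (1 + ‖x‖) ^ n)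
    (fun i hi => (hhb i hi (f x)).trans (mul_le_mul_of_nonneg_left ?_ ha))
    fun i hi1 hik => ?_).trans_eq ?_
  · rw [pow_mul, ← mul_pow]
    exact pow_le_pow_left₀ (by positivity) h1 m
  · refine (hfb i hik x).trans ((mul_le_mul_of_nonneg_right (le_add_of_nonneg_left zero_le_one)
      (by positivity)).trans ?_)
    exact le_self_pow₀ (one_le_mul_of_one_le_of_one_le (by linarith) hX) (by omega)
  · rw [mul_pow, ← pow_mul, pow_add]
    ring

end PGv

variable {d : ℕ} {h : ℝ}

/-- The entries of the derivative tensors grow at most linearly in the centre. -/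
theorem driftT_linear (P : Pot d h) {v : ℝ} (hv : 0 < v) (j : ℕ) (idx : Option (Fin j) → Fin d) :
    ∃ c : ℝ, 0 ≤ c ∧ ∀ a, |driftT P v j a idx| ≤ c * (1 + ‖a‖) := by
  rcases j with _ | j
  · refine ⟨‖driftV P (v, 0)‖ + h, add_nonneg (norm_nonneg _) P.h_nonneg, fun a => ?_⟩
    have e : driftT P v 0 a idx = driftV P (v, a) (idx none) := by
      show iteratedFDeriv ℝ 0 _ a _ = _
      rw [iteratedFDeriv_zero_apply]
      rfl
    rw [e]
    refine (P245.abs_coord_le _ _).trans ?_
    have h1 := norm_driftV_sub P hv a 0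
    rw [sub_zero] at h1
    have h2 := norm_le_norm_add_norm_sub' (driftV P (v, a)) (driftV P (v, 0))
    nlinarith [norm_nonneg a, norm_nonneg (driftV P (v, 0)), P.h_nonneg,
      mul_nonneg (norm_nonneg (driftV P (v, 0))) (norm_nonneg a)]
  · obtain ⟨C, hC, hb⟩ := drift_splitB (j + 1)
    refine ⟨C * h * v ^ (-(((j + 1 : ℕ) : ℝ) - 1) / 2),
      mul_nonneg (mul_nonneg hC P.h_nonneg) (Real.rpow_nonneg hv.le _), fun a => ?_⟩
    have h1 := ((hb d h P v hv a).relabel (optU (Fin (j + 1)))).abs_le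
      (idx ∘ (optU (Fin (j + 1))).symm)
    simp only [reT, Function.comp_assoc, Equiv.symm_comp_self, Function.comp_id] at h1
    exact h1.trans (le_mul_of_one_le_right
      (mul_nonneg (mul_nonneg hC P.h_nonneg) (Real.rpow_nonneg hv.le _))
      (by linarith [norm_nonneg a]))

/-- The entries of the derivative tensors are smooth with derivatives of polynomial growth. -/
theorem driftT_pg (P : Pot d h) {v : ℝ} (hv : 0 < v) (j : ℕ) (idx : Option (Fin j) → Fin d) :
    PGv fun a => driftT P v j a idx := by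
  suffices H : ∀ (k j : ℕ) (idx : Option (Fin j) → Fin d), ∃ c : ℝ, ∀ a,
      ‖iteratedFDeriv ℝ k (fun a => driftT P v j a idx) a‖ ≤ c * (1 + ‖a‖) from fun k => by
    obtain ⟨c, hc⟩ := H k j idx
    exact ⟨contDiff_driftT P hv k j idx, c, 1, fun a => by rw [pow_one]; exact hc a⟩
  intro k
  induction k with
  | zero =>
    intro j idx
    obtain ⟨c, -, hc⟩ := driftT_linear P hv j idx
    exact ⟨c, fun a => by rw [norm_iteratedFDeriv_zero, Real.norm_eq_abs]; exact hc a⟩
  | succ k ih =>
    intro j idx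
    choose c hc using fun i : Fin d =>
      ih (j + 1) fun o => o.elim (idx none) (Fin.cons i fun l => idx (some l))
    set T : Fin d → ℝ →L[ℝ] Space d →L[ℝ] ℝ := fun i =>
      (ContinuousLinearMap.id ℝ ℝ).smulRight (EuclideanSpace.proj i : Space d →L[ℝ] ℝ)
    refine ⟨∑ i, ‖T i‖ * c i, fun a => ?_⟩
    have e : fderiv ℝ (fun a => driftT P v j a idx) = fun b => ∑ i,
        T i (driftT P v (j + 1) b fun o => o.elim (idx none) (Fin.cons i fun l => idx (some l))) := by
      funext b
      ext w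
      have hw : w = ∑ i, w i • ev i := by
        ext i; simp [Finset.sum_apply, Pi.single_apply]
      conv_lhs => rw [hw]
      simp only [map_sum, map_smul, fderiv_driftT P hv, smul_eq_mul, _root_.sum_apply, T,
        ContinuousLinearMap.smulRight_apply, ContinuousLinearMap.id_apply, smul_apply,
        PiLp.proj_apply]
      exact Finset.sum_congr rfl fun i _ => mul_comm _ _
    rw [← norm_iteratedFDeriv_fderiv, e, iteratedFDeriv_sum
      (f := fun i b => T i (driftT P v (j + 1) b
        fun o => o.elim (idx none) (Fin.cons i fun l => idx (some l)))) fun i _ =>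
      (T i).contDiff.comp (contDiff_driftT P hv k (j + 1) _), Finset.sum_apply, Finset.sum_mul]
    refine (norm_sum_le _ _).trans (Finset.sum_le_sum fun i _ => ?_)
    refine ((T i).norm_iteratedFDeriv_comp_left
      (contDiff_driftT P hv k (j + 1) _).contDiffAt le_rfl).trans ?_
    rw [mul_assoc]
    exact mul_le_mul_of_nonneg_left (hc i a) (norm_nonneg _)

variable {γ H B δv b S : ℝ} {C : Type} [Fintype C] [DecidableEq C] {J : Type}
  {f : J → NI γ H δv b S}

theorem NI.var_pos (n : NI γ H δv b S) : 0 < 1 - (n.r * n.a) ^ 2 :=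
  (Real.rpow_pos_of_pos (by exact_mod_cast (by linarith [n.q.two_le] : 0 < n.q.d)) _).trans_le
    n.var_ge

theorem QI.hs_pos (i : QI γ H) : 0 < i.hs :=
  (Real.rpow_pos_of_pos (by exact_mod_cast (by linarith [i.two_le] : 0 < i.d)) _).trans_le i.le_h

omit [DecidableEq C] in
/-- The vector of a smooth field with one leg is smooth. -/
theorem pg_vecOf {S : Sys} {Y : Fld S C Unit} (hY : Sm Y) (i : S.ι) (p : Space (S.dm i)) :
    PGv fun x : C → Space (S.dm i) => vecOf Y i p x :=
  PGv.sum _ fun c _ => PGv.clm (hY i p fun _ => c)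
    ((ContinuousLinearMap.id ℝ ℝ).smulRight (ev c))

omit [DecidableEq C] in
/-- The centre of the drift at a node is smooth. -/
theorem pg_cen {S : Sys} {Y : Fld S C Unit} (hY : Sm Y) (i : S.ι) (p : Space (S.dm i))
    (r a s : ℝ) : PGv fun x : C ⊕ Unit → Space (S.dm i) =>
      r • (a • vecOf Y i p (fun c => x (.inl c)) + s • x (.inr ())) := by
  have h1 : PGv fun x : C ⊕ Unit → Space (S.dm i) => vecOf Y i p (fun c => x (.inl c)) :=
    PGv.comp_clm (pg_vecOf hY i p) (ContinuousLinearMap.pi fun c =>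
      (ContinuousLinearMap.proj (Sum.inl c) : (C ⊕ Unit → Space (S.dm i)) →L[ℝ] Space (S.dm i)))
  have h2 : PGv fun x : C ⊕ Unit → Space (S.dm i) => x (.inr ()) :=
    PGv.linear (ContinuousLinearMap.proj (Sum.inr ()) :
      (C ⊕ Unit → Space (S.dm i)) →L[ℝ] Space (S.dm i))
  exact PGv.clm (PGv.add (PGv.clm h1 (a • ContinuousLinearMap.id ℝ _))
    (PGv.clm h2 (s • ContinuousLinearMap.id ℝ _))) (r • ContinuousLinearMap.id ℝ _)

omit [DecidableEq C] in
/-- The derivatives of the drift at a node are smooth. -/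
theorem vtx_sm (j : ℕ) {Y : Fld (NQ B f) C Unit} (hY : Sm Y) : Sm (vtx j Y) := by
  intro (n : J) p idx
  have hc := pg_cen hY n p ((f n).r * (f n).a) (f n).a (Real.sqrt (1 - (f n).a ^ 2))
  have h1 := PGv.clm (PGv.comp (driftT_pg ((f n).q.pot p) (f n).var_pos j idx) hc)
    ((((f n).r * (f n).a) ^ j / (f n).q.hs) • ContinuousLinearMap.id ℝ ℝ)
  show PGv _
  convert h1 using 1
  funext x
  simp only [vtx, smul_apply, ContinuousLinearMap.id_apply, smul_eq_mul]
  ring

omit [DecidableEq C] in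
/-- Every split of a derivative of the drift at a node, surely. -/
theorem vtx_bd {j : ℕ} (hj : 1 ≤ j) (Y : Fld (NQ B f) C Unit) :
    Bd (-(((j : ℝ) - 1) * δv / 2)) (vtx j Y) := by
  obtain ⟨K, hK, hb⟩ := drift_splitB j
  intro η hη m
  obtain ⟨d₀, hd₀⟩ := Filter.eventually_atTop.1
    (((tendsto_rpow_atTop hη).comp tendsto_natCast_atTop_atTop).eventually
      (eventually_ge_atTop K))
  refine ⟨d₀, fun (n : J) hn p => ?_⟩
  have hd : (0 : ℝ) < (f n).q.d := by exact_mod_cast (by linarith [(f n).q.two_le] : 0 < (f n).q.d)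
  set v := 1 - ((f n).r * (f n).a) ^ 2 with hvdef
  have hv : 0 < v := (f n).var_pos
  set M := ((f n).q.d : ℝ) ^ (η - -(((j : ℝ) - 1) * δv / 2)) with hM
  have hM0 : 0 ≤ M := Real.rpow_nonneg hd.le _
  refine ⟨fun _ => M, measurable_const, fun x => ⟨hM0, ?_⟩, integrable_const _, le_of_eq ?_⟩
  · set c := ((f n).r * (f n).a) ^ j / (f n).q.hs with hc
    have h1 : ∀ a, SplitB M fun idx => c * driftT ((f n).q.pot p) v j a idx := fun a => by
      refine ((hb (f n).q.d (f n).q.hs ((f n).q.pot p) v hv a).smul c).mono ?_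
      have hra : |(f n).r * (f n).a| ≤ 1 := by
        rw [← sq_le_one_iff_abs_le_one]; linarith
      rw [hc, abs_div, abs_pow, abs_of_pos (f n).q.hs_pos, div_mul_eq_mul_div]
      refine (div_le_iff₀ (f n).q.hs_pos).2 ?_
      refine (mul_le_of_le_one_left (mul_nonneg (mul_nonneg hK (f n).q.hs_pos.le)
        (Real.rpow_nonneg hv.le _)) (pow_le_one₀ (abs_nonneg _) hra)).trans ?_
      rw [mul_comm K, mul_assoc, mul_comm M]
      refine mul_le_mul_of_nonneg_left ?_ (f n).q.hs_pos.le
      rw [hM, show η - -(((j : ℝ) - 1) * δv / 2) = η + δv * (((j : ℝ) - 1) / 2) by ring,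
        Real.rpow_add hd]
      refine mul_le_mul (hd₀ _ hn) ?_ (Real.rpow_nonneg hv.le _) (Real.rpow_nonneg hd.le _)
      rw [Real.rpow_mul hd.le, show -((j : ℝ) - 1) / 2 = -(((j : ℝ) - 1) / 2) by ring,
        Real.rpow_neg hv.le, ← Real.inv_rpow hv.le]
      refine Real.rpow_le_rpow (inv_nonneg.2 hv.le) ?_
        (div_nonneg (sub_nonneg.2 (by exact_mod_cast hj)) zero_le_two)
      rw [← inv_inv (((f n).q.d : ℝ) ^ δv)]
      refine inv_anti₀ (inv_pos.2 (Real.rpow_pos_of_pos hd _)) ?_
      rw [← Real.rpow_neg hd.le]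
      exact (f n).var_ge
    have h2 : ∀ a : Space ((NQ B f).dm n), SplitB M fun idx : Option (Fin j) → Fin ((NQ B f).dm n) =>
        c * driftT ((f n).q.pot p) v j a idx := h1
    have e : vtx j Y n p x = fun idx => c * driftT ((f n).q.pot p) v j
        (((f n).r * (f n).a) • ((f n).a • vecOf Y n p (fun l => x (.inl l))
          + Real.sqrt (1 - (f n).a ^ 2) • x (.inr ()))) idx := by
      funext idx
      simp only [vtx, hc, ← hvdef]
      ring
    rw [e]
    exact h2 _
  · rw [integral_const, probReal_univ, one_smul]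
    rfl

/-- The derivative in the noise block is the next derivative of the drift. -/
theorem dB_vtx (j : ℕ) {Y : Fld (NQ B f) C Unit} (hY : Sm Y) :
    dB (.inr ()) (vtx j Y) = fun (n : J) p x idx =>
      Real.sqrt (1 - (f n).a ^ 2) * reL (shiftO j) (vtx (j + 1) Y) n p x idx := by
  funext (n : J) p x idx
  set c := ((f n).r * (f n).a) ^ j / (f n).q.hs with hc
  set idx' : Option (Fin j) → Fin ((NQ B f).dm n) := fun o => idx (some o) with hi
  set cen : (C ⊕ Unit → Space ((NQ B f).dm n)) → Space ((NQ B f).dm n) := fun y => ((f n).r * (f n).a) •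
      ((f n).a • vecOf Y n p (fun l => y (.inl l)) + Real.sqrt (1 - (f n).a ^ 2) • y (.inr ())) with hcen
  set W : C ⊕ Unit → Space ((NQ B f).dm n) := Pi.single (Sum.inr ()) (ev (idx none)) with hW
  have hL : HasDerivAt (fun t : ℝ => cen (x + t • W))
      ((((f n).r * (f n).a) * Real.sqrt (1 - (f n).a ^ 2)) • ev (idx none)) 0 := by
    have e : (fun t : ℝ => cen (x + t • W))
        = fun t : ℝ => cen x + t • ((((f n).r * (f n).a) * Real.sqrt (1 - (f n).a ^ 2)) • ev (idx none)) := by
      funext t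
      simp only [hcen, hW, Pi.add_apply, Pi.smul_apply, Pi.single_eq_same,
        Pi.single_eq_of_ne (show (Sum.inl _ : C ⊕ Unit) ≠ Sum.inr () from Sum.inl_ne_inr),
        smul_zero, add_zero]
      module
    rw [e]
    simpa using ((hasDerivAt_id (0 : ℝ)).smul_const
      ((((f n).r * (f n).a) * Real.sqrt (1 - (f n).a ^ 2)) • ev (idx none))).const_add (cen x)
  have hd : DifferentiableAt ℝ (fun y => vtx j Y n p y idx') x :=
    ((vtx_sm j hY n p idx' 1).1.differentiable (by norm_num)) x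
  have hlin : HasDerivAt (fun t : ℝ => x + t • W)
      W 0 := by
    simpa using ((hasDerivAt_id (0 : ℝ)).smul_const W).const_add x
  have h1 : HasDerivAt (fun t : ℝ => vtx j Y n p
      (x + t • W) idx')
      (fderiv ℝ (fun y => vtx j Y n p y idx') x W) 0 :=
    hd.hasFDerivAt.comp_hasDerivAt_of_eq (0 : ℝ) hlin (by simp)
  have hD : HasFDerivAt (fun a => c * driftT ((f n).q.pot p) (1 - ((f n).r * (f n).a) ^ 2) j a idx') _
      (cen x) :=
    (((contDiff_driftT ((f n).q.pot p) (f n).var_pos 1 j idx').differentiable (by norm_num))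
      (cen x)).hasFDerivAt.const_mul c
  have h2 := hD.comp_hasDerivAt_of_eq (0 : ℝ) hL (by simp only [zero_smul, add_zero]; rfl)
  have e : (fun t : ℝ => vtx j Y n p (x + t • W) idx')
      = (fun a => c * driftT ((f n).q.pot p) (1 - ((f n).r * (f n).a) ^ 2) j a idx') ∘
        fun t : ℝ => cen (x + t • W) := by
    funext t
    show ((f n).r * (f n).a) ^ j * driftT ((f n).q.pot p) (1 - ((f n).r * (f n).a) ^ 2) j
      (cen (x + t • W)) idx' / (f n).q.hs = c * _
    rw [hc]
    exact (div_mul_eq_mul_div _ _ _).symm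
  rw [e] at h1
  refine (h1.unique h2).trans ?_
  erw [map_smul]
  show (f n).r * (f n).a * Real.sqrt (1 - (f n).a ^ 2) * (c * fderiv ℝ (fun a =>
    driftT ((f n).q.pot p) (1 - ((f n).r * (f n).a) ^ 2) j a idx') (cen x) (ev (idx none))) = _
  erw [fderiv_driftT ((f n).q.pot p) (f n).var_pos]
  show _ = Real.sqrt (1 - (f n).a ^ 2) * (((f n).r * (f n).a) ^ (j + 1) *
    driftT ((f n).q.pot p) (1 - ((f n).r * (f n).a) ^ 2) (j + 1) (cen x) (idx ∘ shiftO j) / (f n).q.hs)
  erw [show (idx ∘ shiftO j) = fun o => o.elim (idx' none) (Fin.cons (idx none) fun l =>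
      idx' (some l)) by
    funext o
    rcases o with _ | l
    · rfl
    · induction l using Fin.cases <;> rfl]
  have key : ∀ D : ℝ, (f n).r * (f n).a * Real.sqrt (1 - (f n).a ^ 2) * (c * D) =
      Real.sqrt (1 - (f n).a ^ 2) * (((f n).r * (f n).a) ^ (j + 1) * D / (f n).q.hs) := fun D => by
    simp only [hc, pow_succ]; ring
  exact key _

end Vale.Agent.P347.Zero
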