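import Vale.Agent.P347.Zero.StepPins
import Vale.Agent.P347.Zero.SamBasics
import Vale.Agent.P347.Zero.VtxBasic

/-!
The base of the recursion for the vertices: pure noise realises them.
-/

noncomputable section

open MeasureTheory ProbabilityTheory Set
open scoped RealInnerProductSpace NNReal

namespace Vale.Agent.P347.Zero

/-- Far above the accuracy, and at the coarsest accuracy, vertices are pure noise. -/
theorem vtxBaseThm : VtxBaseThm := by
  intro L r γ δv S α φ _ hδ hw _ hφ hbase hmono hlow H B C _ _ J f Y hY k hk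
  have hk1 : (1 : ℝ) ≤ k := by exact_mod_cast hk
  have : Nontrivial (Option (Fin k)) := ⟨⟨none, some ⟨0, hk⟩, by simp⟩⟩
  have hbd : Bd (-(k : ℝ) * L.w) (vtx k Y) := (vtx_bd hk Y).mono (by
    nlinarith [mul_le_mul_of_nonneg_left hw.le (show (0 : ℝ) ≤ k by linarith)])
  refine ⟨hbd, fun o _ => sam_noise (vtx_sm k hY.1) hbd (by rcases hbase with h | h <;> linarith),
    fun r' hr o => (hlow r' hr H B C J f Y ?_ k hk).2.1 o (mem_univ o)⟩
  obtain ⟨R1, R2, R3⟩ := hY
  exact ⟨R1, fun ε hε => by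
    obtain ⟨R, h1, h2, h3, h4⟩ := R2 ε hε
    exact ⟨R, h1, h2, h3, h4.mono (hmono (by omega))⟩, R3⟩

end Vale.Agent.P347.Zero
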