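import Vale.Agent.P347.Zero.Defs

/-!
The dimension exponent of the query complexity from the all-order bound.
-/

noncomputable section

open Filter Topology

namespace Vale.Agent.P347.Zero

/-- The least number of queries that suffices in dimension `d`. -/
def minQ (d : ℕ) : ℕ := sInf {q | CanSample d q}

/-- The all-order bound makes the exponent of the least number of queries zero. -/
theorem exponent_zero (h : ZeroBound) :
    (∀ᶠ d : ℕ in atTop, {q | CanSample d q}.Nonempty) ∧
      limsup (fun d : ℕ => Real.log (minQ d) / Real.log d) atTop = 0 := by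
  refine ⟨?_, Tendsto.limsup_eq ?_⟩
  · obtain ⟨d₀, hd⟩ := h 1 one_pos
    filter_upwards [eventually_ge_atTop d₀] with d hdd
    obtain ⟨q, -, hq⟩ := hd d hdd
    exact ⟨q, hq⟩
  rw [Metric.tendsto_atTop]
  intro ε hε
  obtain ⟨d₀, hd⟩ := h (ε / 2) (half_pos hε)
  refine ⟨max d₀ 2, fun d hdd => ?_⟩
  obtain ⟨q, hqd, hq⟩ := hd d (le_of_max_le_left hdd)
  have h2 : (2 : ℝ) ≤ d := by exact_mod_cast le_of_max_le_right hdd
  have hl : 0 < Real.log d := Real.log_pos (by linarith)
  have hle : (minQ d : ℝ) ≤ (d : ℝ) ^ (ε / 2) :=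
    le_trans (by exact_mod_cast Nat.sInf_le hq) hqd
  have h0 : 0 ≤ Real.log (minQ d) := Real.log_natCast_nonneg _
  have h1 : Real.log (minQ d) ≤ ε / 2 * Real.log d := by
    rcases Nat.eq_zero_or_pos (minQ d) with h | h
    · rw [h, Nat.cast_zero, Real.log_zero]; positivity
    · rw [← Real.log_rpow (by linarith)]
      exact Real.log_le_log (by exact_mod_cast h) hle
  rw [Real.dist_eq, sub_zero, abs_of_nonneg (div_nonneg h0 hl.le), div_lt_iff₀ hl]
  nlinarith

end Vale.Agent.P347.Zero
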