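import Vale.Agent.P347.Zero.GdTower

/-!
The derivative of the collocated trajectory is in the class at every round.
-/

noncomputable section

open MeasureTheory ProbabilityTheory Set
open scoped RealInnerProductSpace NNReal

namespace Vale.Agent.P347.Zero

variable {γ H B δv S : ℝ} {ν : ℕ} {G : Grid δv} {hδ : 0 < δv} {hS : δv ≤ S}
  {Bl I : Type} [Fintype Bl] [DecidableEq Bl] [Fintype I] [DecidableEq I]
  {κ φ θ : ℝ} {o : I} {L : Lad} {r n : ℕ} {w : Bl → ℝ} {D : Set Bl} {O : Set I}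

/-- A field of grid points read at the nodes. -/
def atNode (G : Grid δv) (hδ : 0 < δv) (hS : δv ≤ S) (T : Fld (GS γ H B) Bl I) :
    Fld (NQ B (gridNI (γ := γ) (H := H) G hδ hS)) Bl I :=
  fun (x : QI γ H × ℕ × ℕ) p => T (x.1, x.2.1) p

/-- A field of the nodes read at a grid point, for each grid point of the channel `l`. -/
def ofNode (l : ℕ) (T : Fld (NQ B (gridNI (γ := γ) (H := H) G hδ hS)) Bl I) :
    Fld ((GS γ H B).par ℕ) Bl I :=
  fun (x : (QI γ H × ℕ) × ℕ) p => T (x.1.1, x.2, l) p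

theorem Sys.Ev.atNode {P : (GS γ H B).ι → Prop} (h : (GS γ H B).Ev P) :
    (NQ B (gridNI (γ := γ) (H := H) G hδ hS)).Ev fun x : QI γ H × ℕ × ℕ => P (x.1, x.2.1) :=
  let ⟨d₀, hd⟩ := h
  ⟨d₀, fun (x : QI γ H × ℕ × ℕ) hx => hd (x.1, x.2.1) hx⟩

theorem Sys.Ev.ofNode (l : ℕ) {P : QI γ H × ℕ × ℕ → Prop}
    (h : (NQ B (gridNI (γ := γ) (H := H) G hδ hS)).Ev P) :
    ((GS γ H B).par ℕ).Ev fun x : (QI γ H × ℕ) × ℕ => P (x.1.1, x.2, l) :=
  let ⟨d₀, hd⟩ := h
  ⟨d₀, fun (x : (QI γ H × ℕ) × ℕ) hx => hd (x.1.1, x.2, l) hx⟩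

omit [DecidableEq Bl] [Fintype I] [DecidableEq I] in
theorem Bd.atNode {T : Fld (GS γ H B) Bl I} (h : Bd θ T) : Bd θ (atNode G hδ hS T) :=
  fun η hη m => (h η hη m).atNode

omit [DecidableEq Bl] in
theorem Sam.atNode {T : Fld (GS γ H B) Bl I} (h : Sam κ φ θ o T) :
    Sam κ φ θ o (atNode G hδ hS T) := fun a ha ε hε => by
  obtain ⟨R, hq, hl, hin, hlaw⟩ := h a ha ε hε
  exact ⟨Run.of fun k : NK γ H δv 0 S => R.atK (k.q, k.lab.1), hq.atNode,
    fun (x : QI γ H × ℕ × ℕ) => hl (x.1, x.2.1),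
    Run.lipIn_of fun η hη => (hin.lip hη).atNode, fun η hη => (hlaw η hη).atNode⟩

omit [DecidableEq Bl] in
theorem Gd.atNode {T : Fld (GS γ H B) Bl I} (h : Gd L r φ θ O T) :
    Gd L r φ θ O (atNode G hδ hS T) :=
  ⟨h.1.atNode, fun o ho => (h.2.1 o ho).atNode, fun r' hr o => (h.2.2 r' hr o).atNode⟩

theorem GdD.atNode {T : Fld (GS γ H B) Bl I} (h : GdD L r φ D w n θ O T) :
    GdD L r φ D w n θ O (atNode G hδ hS T) := by
  induction n generalizing θ I O with
  | zero => exact Gd.atNode h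
  | succ n ih => exact ⟨h.1.atNode, fun b hb => ih (h.2 b hb)⟩

omit [DecidableEq Bl] [Fintype I] [DecidableEq I] in
theorem Bd.ofNode (l : ℕ) {T : Fld (NQ B (gridNI (γ := γ) (H := H) G hδ hS)) Bl I} (h : Bd θ T) :
    Bd θ (ofNode l T) := fun η hη m => (h η hη m).ofNode l

omit [DecidableEq Bl] in
theorem Sam.ofNode (l : ℕ) {T : Fld (NQ B (gridNI (γ := γ) (H := H) G hδ hS)) Bl I}
    (h : Sam κ φ θ o T) : Sam κ φ θ o (ofNode l T) := fun a ha ε hε => by
  obtain ⟨R, hq, hl, hin, hlaw⟩ := h a ha ε hε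
  exact ⟨Run.of fun k : (QK γ H × ℕ) × ℕ => R.atK (gridNK G hδ hS (k.1.1, k.2, l)), hq.ofNode l,
    fun (x : (QI γ H × ℕ) × ℕ) => hl (x.1.1, x.2, l),
    Run.lipIn_of fun η hη => (hin.lip hη).ofNode l, fun η hη => (hlaw η hη).ofNode l⟩

omit [DecidableEq Bl] in
theorem Gd.ofNode (l : ℕ) {T : Fld (NQ B (gridNI (γ := γ) (H := H) G hδ hS)) Bl I}
    (h : Gd L r φ θ O T) : Gd L r φ θ O (ofNode l T) :=
  ⟨h.1.ofNode l, fun o ho => (h.2.1 o ho).ofNode l, fun r' hr o => (h.2.2 r' hr o).ofNode l⟩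

theorem GdD.ofNode (l : ℕ) {T : Fld (NQ B (gridNI (γ := γ) (H := H) G hδ hS)) Bl I}
    (h : GdD L r φ D w n θ O T) : GdD L r φ D w n θ O (ofNode l T) := by
  induction n generalizing θ I O with
  | zero => exact Gd.ofNode l h
  | succ n ih => exact ⟨h.1.ofNode l, fun b hb => ih (h.2 b hb)⟩

variable {c : Fin ν → ℝ}

theorem uBar_eq (k : ℕ) : uBar (γ := γ) (H := H) (B := B) G hδ hS c k
    = avDrift (toNodes G hδ hS (iter G hδ hS c k)) := by
  funext x p z idx
  exact (avDrift_apply _ x p z idx).symm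

theorem delB_toNodes (k : ℕ) :
    delB () (toNodes G hδ hS (iter (γ := γ) (H := H) (B := B) G hδ hS c k))
      = atNode G hδ hS (iterD G hδ hS c k) := rfl

theorem iterD_zero : iterD (γ := γ) (H := H) (B := B) G hδ hS c 0
    = zeroT (GS γ H B) Unit (Option Unit) := by
  funext x p z idx
  set P := (EuclideanSpace.proj (𝕜 := ℝ) (idx (some ()))).comp
    (ContinuousLinearMap.proj (φ := fun _ : Unit => Space ((GS γ H B).dm x)) ())
  show fderiv ℝ (fun y => P y) z (Pi.single () (ev (idx none)))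
    - (if idx none = idx (some ()) then 1 else 0) = 0
  rw [P.fderiv]
  simp [P, ev, eq_comm]

theorem iterD_succ (k : ℕ)
    (hY : Sm (toNodes G hδ hS (iter (γ := γ) (H := H) (B := B) G hδ hS c k))) :
    iterD (γ := γ) (H := H) (B := B) G hδ hS c (k + 1)
      = smulF (fun i => -((((GS γ H B).pub i).1).h * (((GS γ H B).pub i).1).σ ^ 2))
          (sumF (fun i => G.m (((GS γ H B).pub i).1).d)
            (fun i b => G.W (((GS γ H B).pub i).1).d ((GS γ H B).pub i).2 b)
            (fun i p x idx => ∑ l : Fin ν, c l *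
              ofNode (l : ℕ) (dB () (uBar G hδ hS c k)) i p x idx)) := by
  funext (x : QI γ H × ℕ) p z idx
  set m : Unit → Fin x.1.d := fun j => idx (some j)
  set U : ℕ → Fin ν → (Unit → Space x.1.d) → ℝ := fun b l y =>
    uBar G hδ hS c k (x.1, b, (l : ℕ)) p y m with hU
  have hu : ∀ b l, DifferentiableAt ℝ (U b l) z := fun b l => by
    have h := avDrift_sm hY
    rw [← uBar_eq] at h
    exact (h.pg (x.1, b, (l : ℕ)) p m).diff z
  set P : (Unit → Space x.1.d) →L[ℝ] ℝ := (EuclideanSpace.proj (𝕜 := ℝ) (m ())).comp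
    (ContinuousLinearMap.proj (φ := fun _ : Unit => Space x.1.d) ())
  have hd := (P.hasFDerivAt (x := z)).sub ((HasFDerivAt.fun_sum (u := Finset.range (G.m x.1.d))
    fun b _ => ((HasFDerivAt.fun_sum (u := (Finset.univ : Finset (Fin ν))) fun l _ =>
      ((hu b l).hasFDerivAt.const_mul (c l))).const_mul (G.W x.1.d x.2 b))).const_mul x.1.hs)
  show fderiv ℝ _ z (Pi.single () (ev (idx none)))
    - (if idx none = idx (some ()) then 1 else 0) = _
  refine (congrArg (fun Φ : (Unit → Space x.1.d) →L[ℝ] ℝ =>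
    Φ (Pi.single () (ev (idx none))) - (if idx none = idx (some ()) then (1 : ℝ) else 0))
      hd.fderiv).trans ?_
  have eP : P (Pi.single () (ev (idx none))) = if idx none = idx (some ()) then 1 else 0 := by
    simp only [P, m, ev, ContinuousLinearMap.comp_apply, ContinuousLinearMap.proj_apply,
      Pi.single_eq_same]
    refine (PiLp.single_apply 2 ℝ (idx none) (1 : ℝ) (idx (some ()))).trans ?_
    exact if_congr eq_comm rfl rfl
  simp only [_root_.sub_apply, smul_apply, sum_apply, eP, smul_eq_mul, smulF, Pi.smul_apply]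
  rw [sub_sub_cancel_left]
  erw [sumF_apply]
  rw [← neg_mul]
  rfl

theorem neg_hs_le {η : ℝ} (hη : 0 < η) :
    (GS γ H B).Ev fun i => |(-((((GS γ H B).pub i).1).h * (((GS γ H B).pub i).1).σ ^ 2) : ℝ)|
      ≤ (GS γ H B).dd i ^ (η - γ) :=
  (GS γ H B).ev_true fun (x : QI γ H × ℕ) => by
    have hd : (1 : ℝ) ≤ x.1.d := by exact_mod_cast (by linarith [x.1.two_le] : 1 ≤ x.1.d)
    have hh : 0 < x.1.h * x.1.σ ^ 2 := x.1.hs_pos
    show |-(x.1.h * x.1.σ ^ 2)| ≤ (x.1.d : ℝ) ^ (η - γ)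
    rw [abs_neg, abs_of_pos hh]
    refine (mul_le_of_le_one_right x.1.P.h_nonneg (pow_le_one₀ x.1.σ_pos.le x.1.σ_le)).trans
      (x.1.h_le.trans (Real.rpow_le_rpow_of_exponent_le hd (by linarith)))

/-- The derivative of the trajectory is in the class whenever the vertices are. -/
theorem iterGd (hA : AvgThm) (hP : ProductThm) : IterGdThm := by
  intro L r γ δv S α φ θ hδ hS _ _ _ hφ hθ1 hθ2 _ hv _ H B G ν c hY
  have hw := L.w_pos
  have hφ0 : L.phi r ≤ φ := by linarith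
  have hθ0 : L.phi r ≤ θ := by linarith
  have hB : ∀ k, (∀ n, GdD L (r + 1) φ univ (fun _ => L.w) n θ univ
      (iterD (γ := γ) (H := H) (B := B) G hδ hS c k)) → ∀ n,
      GdD L (r + 1) φ univ (fun _ => L.w) n (-L.w) univ
        (dB () (uBar (γ := γ) (H := H) (B := B) G hδ hS c k)) := by
    intro k hk
    set Y := toNodes G hδ hS (iter (γ := γ) (H := H) (B := B) G hδ hS c k)
    have hs : Sm Y := (hY k).1
    rw [uBar_eq, dB_avDrift hs]
    refine GdD.avg hA ((((vtx_sm 0 hs).dB _).reL _).subB _) hφ fun n => ?_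
    have h0 := (gdD_dB_vtx0 hP hφ0 hθ0 hv (hY k) n (fun _ => by
      rw [delB_toNodes]; exact (hk n).atNode) (Sum.inl ())).reL oneU.optionCongr
    refine (h0.subB (M := fun _ => swapM) (D' := univ) (v := fun _ => L.w)
      (((vtx_sm 0 hs).dB _).reL _) (fun _ b b' => ?_) fun _ _ _ _ => ⟨trivial, le_rfl⟩).mono
      le_rfl le_rfl (fun o _ => ⟨oneU.optionCongr.symm o, trivial, Equiv.apply_symm_apply _ _⟩)
      subset_rfl fun _ _ => le_rfl
    rcases b with b | b <;> rcases b' with b' | b' <;> simp [swapM, Fintype.sum_sum_type]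
  have hA' : ∀ k n, GdD L (r + 1) φ univ (fun _ => L.w) n θ univ
      (iterD (γ := γ) (H := H) (B := B) G hδ hS c k) := by
    intro k
    induction k with
    | zero => intro n; rw [iterD_zero]; exact GdD.zeroT n
    | succ k ih =>
      intro n
      have hs : Sm (toNodes G hδ hS (iter (γ := γ) (H := H) (B := B) G hδ hS c k)) := (hY k).1
      have su : Sm (dB () (uBar (γ := γ) (H := H) (B := B) G hδ hS c k)) := by
        rw [uBar_eq]; exact (avDrift_sm hs).dB ()
      have so : ∀ l : Fin ν, Sm (ofNode (l : ℕ) (dB () (uBar G hδ hS c k))) :=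
        fun l (x : (QI γ H × ℕ) × ℕ) p idx => su (x.1.1, x.2, (l : ℕ)) p idx
      have sT : Sm (fun i p x idx => ∑ l : Fin ν, c l * ofNode (l : ℕ) (dB () (uBar G hδ hS c k))
          i p x idx : Fld ((GS γ H B).par ℕ) Unit (Option Unit)) :=
        sm_iff.2 fun i p idx => PG.sum _ fun l _ => ((so l).pg i p idx).const_mul _
      have h1 := GdD.comb (c := c) Finset.univ (fun l _ => so l)
        fun l _ _ => (hB k ih n).ofNode (l : ℕ)
      have h2 := h1.sum sT (N := fun k => G.m k.1.d) (u := fun k b => G.W k.1.d k.2 b)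
        (fun η hη => let ⟨d₀, hd⟩ := G.count η hη
          ⟨d₀, fun (x : QI γ H × ℕ) hx => hd x.1.d hx⟩)
        (fun η hη => let ⟨d₀, hd⟩ := G.weight η hη
          ⟨d₀, fun (x : QI γ H × ℕ) hx => hd x.1.d hx x.2⟩)
      have h3 := h2.scale (sT.sum _ _) (c := fun k => -(k.1.h * k.1.σ ^ 2))
        fun η hη => neg_hs_le hη
      rw [iterD_succ k hs]
      exact h3.mono le_rfl (by linarith) subset_rfl subset_rfl fun _ _ => le_rfl
  exact fun k n => ⟨hA' k n, hB k (hA' k) n⟩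

end Vale.Agent.P347.Zero
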