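import Vale.Agent.P347.Zero.Defs

/-!
Block C interfaces: the Ornstein-Uhlenbeck averages of scalar fields in any dimension, their node rule,
the covariance identity and the one-direction gate.
-/

noncomputable section

open MeasureTheory ProbabilityTheory
open scoped RealInnerProductSpace

namespace Vale.Agent.P347.Zero

/-- The Gaussian average at correlation `t`. -/
def Pt {n : ℕ} (t : ℝ) (f : Space n → ℝ) (x : Space n) : ℝ :=
  ∫ z, f (t • x + Real.sqrt (1 - t ^ 2) • z) ∂gam n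

/-- Smooth, with every derivative of polynomial growth. -/
def Smooth {n : ℕ} (f : Space n → ℝ) : Prop :=
  ∀ k : ℕ, ContDiff ℝ k f ∧ Grow fun x => iteratedFDeriv ℝ k f x

/-- Few positive nodes replace the integral over the correlation, in every dimension. -/
def QuadGauss : Prop :=
  ∀ k : ℕ, 0 < k → ∃ C : ℝ, ∀ e : ℝ, 0 < e → e ≤ 1 / 2 → ∃ (m : ℕ) (N : Nodes m),
    (m : ℝ) ≤ C * e ^ (-(1 : ℝ) / k) * (1 + Real.log (1 / e)) ∧
      (∀ j, N.t j ∈ Set.Ioc (0 : ℝ) 1) ∧ ∑ j, |N.w j| ≤ C * (1 + Real.log (1 / e)) ∧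
      ∀ (n : ℕ) (f : Space n → ℝ), Continuous f → Grow f →
        ∫ x, ((∑ j, N.w j * Pt (N.t j) f x) - ∫ t in (0 : ℝ)..1, Pt t f x) ^ 2 ∂gam n
          ≤ e ^ 2 * ∫ x, f x ^ 2 ∂gam n

/-- The covariance identity. -/
def CovId : Prop :=
  ∀ (n : ℕ) (φ ψ : Space n → ℝ), Smooth φ → Smooth ψ →
    cov (gam n) φ ψ = ∑ i, ∫ x, (∫ t in (0 : ℝ)..1, Pt t (fun y => fderiv ℝ φ y (ev i)) x)
      * fderiv ℝ ψ x (ev i) ∂gam n

/-- A combination of values at shifted points extracts the linear part to any order. -/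
def GateRule : Prop :=
  ∀ N : ℕ, 1 ≤ N → ∃ (m : ℕ) (C : ℝ), ∀ ρ : ℝ, 0 < ρ → ρ ≤ 1 / 2 → ∃ b r : Fin m → ℝ,
    (∀ l, 0 < r l ∧ r l ≤ ρ) ∧ ∑ l, |b l| ≤ C / ρ ∧
      ∀ (n : ℕ) (f : Space n → ℝ), Smooth f →
        ∫ x, ((∑ l, b l * Pt (r l) f x) - ∫ z, fderiv ℝ f z x ∂gam n) ^ 2 ∂gam n
          ≤ (C * ρ ^ N) ^ 2 * ∫ x, f x ^ 2 ∂gam n

end Vale.Agent.P347.Zero
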