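import Vale.Agent.P347.Zero.Alg
import Vale.Agent.P347.Zero.PinsC
import Vale.Agent.P347.ExactGauss

/-!
Extrapolation along the time matched channel: averages of a field at noisier points, read at the
matching correlations, recover the field to every order in square mean.
-/

noncomputable section

open MeasureTheory ProbabilityTheory Filter Topology Set
open scoped RealInnerProductSpace ContDiff Nat

namespace Vale.Agent.P347.Zero

variable {d : ℕ} {h : ℝ}

/-- The correlation of the channel at time `t`. -/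
def eT (t : ℝ) : ℝ := Real.exp (-|t|)

/-- The noise of the channel at time `t`, times its correlation. -/
def wT (t : ℝ) : ℝ := eT t * Real.sqrt (1 - eT t ^ 2)

/-- The (variance, centre) met from `x` with noise `z` at time `t`. -/
def pT (r t : ℝ) (x z : Space d) : ℝ × Space d :=
  (1 - (r * eT t) ^ 2, (r * eT t ^ 2) • x + (r * wT t) • z)

/-- The average of `g` along the matched channel. -/
def avT (g : ℝ × Space d → ℝ) (r t : ℝ) (x : Space d) : ℝ := ∫ z, g (pT r t x z) ∂gam d

theorem eT_pos (t : ℝ) : 0 < eT t := Real.exp_pos _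

theorem eT_le_one (t : ℝ) : eT t ≤ 1 := Real.exp_le_one_iff.2 (neg_nonpos.2 (abs_nonneg t))

theorem eT_sq_le (t : ℝ) : eT t ^ 2 ≤ 1 := pow_le_one₀ (eT_pos t).le (eT_le_one t)

theorem wT_le (t : ℝ) : 0 ≤ wT t ∧ wT t ≤ 1 :=
  ⟨mul_nonneg (eT_pos t).le (Real.sqrt_nonneg _), mul_le_one₀ (eT_le_one t) (Real.sqrt_nonneg _)
    (Real.sqrt_le_one.2 (by linarith [sq_nonneg (eT t)]))⟩

theorem abs_rate_le (r t : ℝ) : |r * eT t| ≤ |r| := by
  rw [abs_mul, abs_of_pos (eT_pos t)]
  exact mul_le_of_le_one_right (abs_nonneg r) (eT_le_one t)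

theorem rate_mem {r : ℝ} (hr : r ∈ Ioo (-1 : ℝ) 1) (t : ℝ) : r * eT t ∈ Ioo (-1 : ℝ) 1 :=
  abs_lt.1 ((abs_rate_le r t).trans_lt (abs_lt.2 hr))

theorem pT_var (r t : ℝ) (x z : Space d) :
    1 - r ^ 2 ≤ (pT r t x z).1 ∧ (pT r t x z).1 ≤ 1 :=
  ⟨by show 1 - r ^ 2 ≤ 1 - (r * eT t) ^ 2
      linarith [sq_le_sq.2 (abs_rate_le r t)],
    by show 1 - (r * eT t) ^ 2 ≤ 1; linarith [sq_nonneg (r * eT t)]⟩

theorem pT_pos {r : ℝ} (hr : r ∈ Ioo (-1 : ℝ) 1) (t : ℝ) (x z : Space d) : 0 < (pT r t x z).1 :=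
  (var_pos hr).trans_le (pT_var r t x z).1

theorem pT_norm {r : ℝ} (hr : r ∈ Ioo (-1 : ℝ) 1) (t : ℝ) (x z : Space d) :
    ‖(pT r t x z).2‖ ≤ ‖x‖ + ‖z‖ := by
  have h1 : |r| ≤ 1 := (abs_lt.2 hr).le
  refine (norm_add_le _ _).trans (add_le_add ?_ ?_) <;> rw [norm_smul, Real.norm_eq_abs] <;>
    refine mul_le_of_le_one_left (norm_nonneg _) ?_ <;> rw [abs_mul] <;>
      refine mul_le_one₀ h1 (abs_nonneg _) ?_
  · rw [abs_of_nonneg (sq_nonneg _)]; exact eT_sq_le t
  · rw [abs_of_nonneg (wT_le t).1]; exact (wT_le t).2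

theorem continuous_pT (r : ℝ) :
    Continuous fun p : (ℝ × Space d) × Space d => pT r p.1.1 p.1.2 p.2 := by
  unfold pT wT eT; fun_prop

theorem pow_norm_int (k : ℕ) : Integrable (fun z : Space d => (1 + ‖z‖) ^ k) (gam d) :=
  tame_integrable (Continuous.measurable (by fun_prop))
    (tame_of_grow ⟨1, k, fun z => by rw [one_mul, Real.norm_eq_abs, abs_of_nonneg (by positivity)]⟩)

variable {P : Pot d h} {g : ℝ × Space d → ℝ} {r : ℝ}

theorem cont_comp (hg : Alg P g) (hr : r ∈ Ioo (-1 : ℝ) 1) {α : Type} [TopologicalSpace α]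
    {t : α → ℝ} {x z : α → Space d} (ht : Continuous t) (hx : Continuous x) (hz : Continuous z) :
    Continuous fun a => g (pT r (t a) (x a) (z a)) :=
  (hg.csm 0).continuousOn.comp_continuous
    ((continuous_pT r).comp ((ht.prodMk hx).prodMk hz)) fun _ => pT_pos hr _ _ _

theorem bound_comp (hh : h ≤ 1) (hg : Alg P g) (hr : r ∈ Ioo (-1 : ℝ) 1) :
    ∃ (C : ℝ) (k : ℕ), 0 ≤ C ∧ ∀ t (x z : Space d),
      |g (pT r t x z)| ≤ C * ((1 + ‖x‖) ^ k * (1 + ‖z‖) ^ k) := by
  obtain ⟨C, k, hC, hb⟩ := hg.grow hh (var_pos hr)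
  refine ⟨C, k, hC, fun t x z => (hb _ (pT_var r t x z).1 (pT_var r t x z).2).trans ?_⟩
  rw [← mul_pow]
  refine mul_le_mul_of_nonneg_left (pow_le_pow_left₀ (by positivity) ?_ k) hC
  nlinarith [pT_norm hr t x z, norm_nonneg x, norm_nonneg z,
    mul_nonneg (norm_nonneg x) (norm_nonneg z)]

theorem int_comp (hh : h ≤ 1) (hg : Alg P g) (hr : r ∈ Ioo (-1 : ℝ) 1) (t : ℝ) (x : Space d) :
    Integrable (fun z => g (pT r t x z)) (gam d) := by
  obtain ⟨C, k, hC, hb⟩ := bound_comp hh hg hr
  exact (((pow_norm_int k).const_mul ((1 + ‖x‖) ^ k)).const_mul C).mono'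
    (cont_comp hg hr continuous_const continuous_const continuous_id).aestronglyMeasurable
    (ae_of_all _ fun z => (Real.norm_eq_abs _).trans_le (hb t x z))

theorem int_coord_comp (hh : h ≤ 1) (hg : Alg P g) (hr : r ∈ Ioo (-1 : ℝ) 1) (t : ℝ) (x : Space d)
    (c : Fin d) : Integrable (fun z => z c * g (pT r t x z)) (gam d) := by
  obtain ⟨C, k, hC, hb⟩ := bound_comp hh hg hr
  refine (((pow_norm_int (k + 1)).const_mul ((1 + ‖x‖) ^ k)).const_mul C).mono'
    ((Continuous.mul (by fun_prop)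
      (cont_comp hg hr continuous_const continuous_const continuous_id)).aestronglyMeasurable)
    (ae_of_all _ fun z => ?_)
  rw [Real.norm_eq_abs, abs_mul]
  refine (mul_le_mul ((P245.abs_coord_le z c).trans (le_add_of_nonneg_left zero_le_one))
    (hb t x z) (abs_nonneg _) (by positivity)).trans_eq ?_
  rw [pow_succ]; ring

theorem abs_avT (hh : h ≤ 1) (hg : Alg P g) (hr : r ∈ Ioo (-1 : ℝ) 1) :
    ∃ (C : ℝ) (k : ℕ), 0 ≤ C ∧ ∀ t (x : Space d), |avT g r t x| ≤ C * (1 + ‖x‖) ^ k := by
  obtain ⟨C, k, hC, hb⟩ := bound_comp hh hg hr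
  refine ⟨C * ∫ z : Space d, (1 + ‖z‖) ^ k ∂gam d, k,
    mul_nonneg hC (integral_nonneg fun z => by positivity), fun t x => ?_⟩
  refine (norm_integral_le_of_norm_le (f := fun z => g (pT r t x z))
    (((pow_norm_int k).const_mul ((1 + ‖x‖) ^ k)).const_mul C)
    (ae_of_all _ fun z => hb t x z)).trans_eq ?_
  rw [integral_const_mul, integral_const_mul]
  ring

theorem continuous_avT (hh : h ≤ 1) (hg : Alg P g) (hr : r ∈ Ioo (-1 : ℝ) 1) :
    Continuous fun p : ℝ × Space d => avT g r p.1 p.2 := by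
  obtain ⟨C, k, hC, hb⟩ := bound_comp hh hg hr
  refine continuous_iff_continuousAt.2 fun p₀ => ?_
  refine continuousAt_of_dominated
    (F := fun (p : ℝ × Space d) (z : Space d) => g (pT r p.1 p.2 z))
    (bound := fun z => C * ((2 + ‖p₀.2‖) ^ k * (1 + ‖z‖) ^ k)) ?_ ?_ ?_ ?_
  · exact Eventually.of_forall fun p => (int_comp hh hg hr _ _).aestronglyMeasurable
  · have he : ∀ᶠ p : ℝ × Space d in 𝓝 p₀, ‖p.2‖ ≤ ‖p₀.2‖ + 1 :=
      ((continuous_snd.norm).tendsto p₀).eventually (eventually_le_nhds (lt_add_one _))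
    refine he.mono fun p hp => ae_of_all _ fun z => (hb _ _ z).trans ?_
    refine mul_le_mul_of_nonneg_left (mul_le_mul_of_nonneg_right
      (pow_le_pow_left₀ (by positivity) (by linarith) k) (by positivity)) hC
  · exact ((pow_norm_int k).const_mul _).const_mul C
  · exact ae_of_all _ fun z =>
      (cont_comp hg hr continuous_fst continuous_snd continuous_const).continuousAt

theorem avT_zero (g : ℝ × Space d → ℝ) (r : ℝ) (x : Space d) :
    avT g r 0 x = g (chan (r, x)) := by
  simp [avT, pT, wT, eT, chan]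

/-- The average at nonnegative times is the Ornstein-Uhlenbeck average at the matched correlation. -/
theorem pt_eq_avT (g : ℝ × Space d → ℝ) (r : ℝ) {t : ℝ} (ht : 0 ≤ t) (x : Space d) :
    Pt (Real.exp (-t)) (fun y => g (chan (r * Real.exp (-t), y))) x = avT g r t x := by
  rw [Pt, avT]
  refine integral_congr_ae (ae_of_all _ fun z => ?_)
  simp only [pT, chan, wT, eT, abs_of_nonneg ht, smul_add, smul_smul]
  congr 3 <;> ring_nf

/-! ### The derivative in time -/

theorem hasDerivAt_eT {t : ℝ} (ht : 0 < t) : HasDerivAt eT (-eT t) t := by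
  have h1 : HasDerivAt (fun s : ℝ => Real.exp (-s)) (-Real.exp (-t)) t := by
    simpa using (hasDerivAt_neg t).exp
  have e : eT =ᶠ[𝓝 t] fun s : ℝ => Real.exp (-s) := by
    filter_upwards [eventually_gt_nhds ht] with s hs
    rw [eT, abs_of_pos hs]
  rw [eT, abs_of_pos ht]
  exact h1.congr_of_eventuallyEq e

theorem eT_lt_one {t : ℝ} (ht : 0 < t) : eT t ^ 2 < 1 := by
  refine pow_lt_one₀ (eT_pos t).le ?_ two_ne_zero
  rw [eT, Real.exp_lt_one_iff, abs_of_pos ht]
  linarith

/-- The derivative of the noise factor. -/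
def wT' (t : ℝ) : ℝ := eT t * (2 * eT t ^ 2 - 1) / Real.sqrt (1 - eT t ^ 2)

theorem hasDerivAt_wT {t : ℝ} (ht : 0 < t) : HasDerivAt wT (wT' t) t := by
  have h1 := hasDerivAt_eT ht
  have hp : 0 < 1 - eT t ^ 2 := sub_pos.2 (eT_lt_one ht)
  have h2 := h1.fun_mul (((h1.fun_pow 2).const_sub 1).sqrt hp.ne')
  refine h2.congr_deriv ?_
  rw [wT']
  have hs := (Real.sqrt_pos.2 hp).ne'
  field_simp
  rw [Real.sq_sqrt hp.le]
  push_cast
  ring

theorem wT_mul (t : ℝ) : wT t ^ 2 = eT t ^ 2 * (1 - eT t ^ 2) := by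
  rw [wT, mul_pow, Real.sq_sqrt (sub_nonneg.2 (eT_sq_le t))]

theorem wT'_mul {t : ℝ} (ht : 0 < t) : wT' t * wT t = eT t ^ 2 * (2 * eT t ^ 2 - 1) := by
  have hs := (Real.sqrt_pos.2 (sub_pos.2 (eT_lt_one ht))).ne'
  rw [wT', wT]
  field_simp

/-- The derivative of the point met at time `t`. -/
def pT' (r t : ℝ) (x z : Space d) : ℝ × Space d :=
  (2 * r ^ 2 * eT t ^ 2, (-(2 * r) * eT t ^ 2) • x + (r * wT' t) • z)

theorem hasDerivAt_pT {t : ℝ} (ht : 0 < t) (x z : Space d) :
    HasDerivAt (fun s => pT r s x z) (pT' r t x z) t := by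
  have h1 := hasDerivAt_eT ht
  have a1 := ((h1.const_mul r).fun_pow 2).const_sub 1
  have a2 := (((h1.fun_pow 2).const_mul r).smul_const x).fun_add
    (((hasDerivAt_wT ht).const_mul r).smul_const z)
  refine (a1.prodMk a2).congr_deriv ?_
  simp only [pT', Prod.mk.injEq]
  refine ⟨by push_cast; ring, ?_⟩
  congr 2
  push_cast
  ring

theorem deriv_point (g : ℝ × Space d → ℝ) (t : ℝ) (x z : Space d) (q : ℝ × Space d) :
    fderiv ℝ g q (pT' r t x z) = 2 * r ^ 2 * eT t ^ 2 * tD g q
      + ∑ c, (-(2 * r) * eT t ^ 2 * x c + r * wT' t * z c) * pD c g q := by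
  refine (wD_expand (f := g) q _ _).trans ?_
  simp [mul_assoc]

/-- The time derivative of the average is minus the average of the generator. -/
theorem hasDerivAt_avT (hh : h ≤ 1) (hg : Alg P g) (hr : r ∈ Ioo (-1 : ℝ) 1) {t : ℝ} (ht : 0 < t)
    (x : Space d) : HasDerivAt (fun s => avT g r s x) (-avT (mgen g) r t x) t := by
  classical
  set G : ℝ × Space d → ℝ := fun q => 1 + tD g q * tD g q + ∑ c, pD c g q * pD c g q
  have hG : Alg P G :=
    ((Alg.const 1).add (hg.tD.mul hg.tD)).add (Alg.sum fun c => (hg.pD c).mul (hg.pD c))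
  obtain ⟨C, k, hC, hb⟩ := bound_comp hh hG hr
  have hGt : ∀ q, |tD g q| ≤ G q ∧ ∀ c, |pD c g q| ≤ G q := fun q => by
    have h0 : 0 ≤ ∑ c, pD c g q * pD c g q := Finset.sum_nonneg fun c _ => mul_self_nonneg _
    refine ⟨abs_le.2 ⟨?_, ?_⟩, fun c => ?_⟩
    · nlinarith [sq_nonneg (tD g q + 1)]
    · nlinarith [sq_nonneg (tD g q - 1)]
    · have h1 : pD c g q * pD c g q ≤ ∑ c, pD c g q * pD c g q :=
        Finset.single_le_sum (f := fun c => pD c g q * pD c g q)
          (fun c _ => mul_self_nonneg _) (Finset.mem_univ c)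
      refine abs_le.2 ⟨?_, ?_⟩
      · nlinarith [sq_nonneg (pD c g q + 1), mul_self_nonneg (tD g q)]
      · nlinarith [sq_nonneg (pD c g q - 1), mul_self_nonneg (tD g q)]
  set σ₀ := Real.sqrt (1 - eT (t / 2) ^ 2)
  have hσ₀ : 0 < σ₀ := Real.sqrt_pos.2 (sub_pos.2 (eT_lt_one (by linarith)))
  have hw : ∀ s ∈ Ioo (t / 2) (2 * t), |wT' s| ≤ σ₀⁻¹ := fun s hs => by
    have hs0 : 0 < s := (by linarith : (0 : ℝ) < t / 2).trans hs.1
    rw [wT', abs_div, div_eq_mul_inv, abs_of_nonneg (Real.sqrt_nonneg _)]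
    refine (mul_le_of_le_one_left (by positivity) ?_).trans ?_
    · rw [abs_mul, abs_of_pos (eT_pos s)]
      refine mul_le_one₀ (eT_le_one s) (abs_nonneg _) (abs_le.2 ⟨?_, ?_⟩)
      · linarith [sq_nonneg (eT s)]
      · linarith [eT_sq_le s]
    · refine inv_anti₀ hσ₀ (Real.sqrt_le_sqrt ?_)
      have h2 : eT s ≤ eT (t / 2) := by
        rw [eT, eT, abs_of_pos hs0, abs_of_pos (by linarith : (0 : ℝ) < t / 2)]
        exact Real.exp_le_exp.2 (by linarith [hs.1])
      linarith [pow_le_pow_left₀ (eT_pos s).le h2 2]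
  have hd := (hasDerivAt_integral_of_dominated_loc_of_deriv_le (μ := gam d)
    (F := fun s z => g (pT r s x z))
    (F' := fun s z => fderiv ℝ g (pT r s x z) (pT' r s x z))
    (bound := fun z => C * (1 + ‖x‖) ^ k * (2 + (d : ℝ) * (2 * ‖x‖ + σ₀⁻¹))
      * (1 + ‖z‖) ^ (k + 1))
    (x₀ := t) (Ioo_mem_nhds (show t / 2 < t by linarith) (show t < 2 * t by linarith))
    (Eventually.of_forall fun s => (int_comp hh hg hr s x).aestronglyMeasurable)
    (int_comp hh hg hr t x) ?_ (ae_of_all _ fun z s hs => ?_) ((pow_norm_int _).const_mul _)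
    (ae_of_all _ fun z s hs => ?_)).2
  rotate_left
  · simp only [deriv_point]
    exact (((cont_comp hg.tD hr continuous_const continuous_const continuous_id).const_mul _).add
      (continuous_finsetSum _ fun c _ => Continuous.mul (by fun_prop)
        (cont_comp (hg.pD c) hr continuous_const continuous_const
          continuous_id))).aestronglyMeasurable
  · rw [Real.norm_eq_abs, deriv_point]
    set q := pT r s x z
    have hGq : 0 ≤ G q := (abs_nonneg _).trans (hGt q).1
    have h1 : |r| ≤ 1 := (abs_lt.2 hr).le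
    have e1 : |2 * r ^ 2 * eT s ^ 2 * tD g q| ≤ 2 * G q := by
      rw [abs_mul, abs_of_nonneg (by positivity : (0 : ℝ) ≤ 2 * r ^ 2 * eT s ^ 2), mul_assoc 2]
      refine mul_le_mul ?_ (hGt q).1 (abs_nonneg _) zero_le_two
      refine mul_le_of_le_one_right zero_le_two (mul_le_one₀ ?_ (sq_nonneg _) (eT_sq_le s))
      rw [← sq_abs]; exact pow_le_one₀ (abs_nonneg r) h1
    have e2 : ∀ c, |(-(2 * r) * eT s ^ 2 * x c + r * wT' s * z c) * pD c g q|
        ≤ (2 * ‖x‖ + σ₀⁻¹ * ‖z‖) * G q := fun c => by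
      rw [abs_mul]
      refine mul_le_mul ((abs_add_le _ _).trans (add_le_add ?_ ?_)) ((hGt q).2 c) (abs_nonneg _)
        (by positivity)
      · rw [abs_mul, abs_mul, abs_neg, abs_mul, abs_two, abs_of_nonneg (sq_nonneg (eT s))]
        refine mul_le_mul ?_ (P245.abs_coord_le x c) (abs_nonneg _) zero_le_two
        rw [mul_assoc]
        exact mul_le_of_le_one_right zero_le_two (mul_le_one₀ h1 (sq_nonneg _) (eT_sq_le s))
      · rw [abs_mul, abs_mul]
        refine mul_le_mul ?_ (P245.abs_coord_le z c) (abs_nonneg _) (by positivity)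
        exact (mul_le_of_le_one_left (abs_nonneg _) h1).trans (hw s hs)
    refine ((abs_add_le _ _).trans (add_le_add e1 ((Finset.abs_sum_le_sum_abs _ _).trans
      (Finset.sum_le_sum fun c _ => e2 c)))).trans ?_
    rw [Finset.sum_const, Finset.card_univ, Fintype.card_fin, nsmul_eq_mul]
    have hGb := (le_abs_self (G q)).trans (hb s x z)
    have hσ : 0 ≤ σ₀⁻¹ := by positivity
    have h3 : 2 * G q + (d : ℝ) * ((2 * ‖x‖ + σ₀⁻¹ * ‖z‖) * G q)
        ≤ (2 + (d : ℝ) * (2 * ‖x‖ + σ₀⁻¹)) * (1 + ‖z‖) * G q := by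
      nlinarith [mul_nonneg hGq (norm_nonneg z), mul_nonneg (mul_nonneg (Nat.cast_nonneg (α := ℝ) d)
        hσ) hGq, mul_nonneg (mul_nonneg (Nat.cast_nonneg (α := ℝ) d) (norm_nonneg x))
          (mul_nonneg hGq (norm_nonneg z))]
    refine h3.trans ((mul_le_mul_of_nonneg_left hGb (by positivity)).trans_eq ?_)
    rw [pow_succ]; ring
  · exact (hg.csm.diff (pT_pos hr s x z)).hasFDerivAt.comp_hasDerivAt s
      (hasDerivAt_pT ((by linarith : (0 : ℝ) < t / 2).trans hs.1) x z)
  refine hd.congr_deriv ?_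
  have iT := int_comp hh hg.tD hr t x
  have ip := fun c => int_comp hh (hg.pD c) hr t x
  have iz := fun c => int_coord_comp hh (hg.pD c) hr t x c
  have iq := fun c => int_comp hh ((hg.pD c).pD c) hr t x
  have hstein : ∀ c, ∫ z, z c * pD c g (pT r t x z) ∂gam d
      = r * wT t * ∫ z, pD c (pD c g) (pT r t x z) ∂gam d := fun c => by
    have hinner : ∀ z : Space d, HasFDerivAt (fun z => pT r t x z)
        ((0 : Space d →L[ℝ] ℝ).prod ((r * wT t) • ContinuousLinearMap.id ℝ (Space d))) z :=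
      fun z => (hasFDerivAt_const _ z).prodMk
        (((hasFDerivAt_id z).const_smul (r * wT t)).const_add _)
    have hcd : ∀ z : Space d, HasDerivAt (fun s : ℝ => pD c g (pT r t x (z + s • ev c)))
        (r * wT t * pD c (pD c g) (pT r t x z)) 0 := fun z => by
      have hc : HasFDerivAt (fun z => pD c g (pT r t x z)) _ z :=
        ((hg.pD c).csm.diff (pT_pos hr t x z)).hasFDerivAt.comp z (hinner z)
      have hl : HasDerivAt (fun s : ℝ => z + s • ev c) (ev c) 0 := by
        simpa using ((hasDerivAt_id (0 : ℝ)).smul_const (ev c)).const_add z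
      refine (hc.comp_hasDerivAt_of_eq (0 : ℝ) hl (by simp)).congr_deriv ?_
      show fderiv ℝ (pD c g) (pT r t x z) (0, (r * wT t) • ev c) = _
      rw [show ((0 : ℝ), (r * wT t) • ev c) = (r * wT t) • ((0 : ℝ), ev c) by simp, map_smul]
      rfl
    obtain ⟨A, m, hA, hAb⟩ := bound_comp hh (hg.pD c) hr
    obtain ⟨B, n, hB, hBb⟩ := bound_comp hh ((hg.pD c).pD c) hr
    refine (P245.stein (F := fun z => pD c g (pT r t x z)) c
      (fun z => (((hg.pD c).csm.diff (pT_pos hr t x z)).hasFDerivAt.comp z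
        (hinner z)).differentiableAt) hcd
      ((cont_comp ((hg.pD c).pD c) hr continuous_const continuous_const
        continuous_id).const_mul _)
      (tame_of_grow ⟨A * (1 + ‖x‖) ^ m, m, fun z => (hAb t x z).trans_eq (by ring)⟩)
      (tame_of_grow ⟨|r * wT t| * (B * (1 + ‖x‖) ^ n), n, fun z => ?_⟩)).trans
      (integral_const_mul _ _)
    rw [Real.norm_eq_abs, abs_mul, mul_assoc]
    exact mul_le_mul_of_nonneg_left ((hBb t x z).trans_eq (by ring)) (abs_nonneg _)
  have e1 : ∫ z, fderiv ℝ g (pT r t x z) (pT' r t x z) ∂gam d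
      = 2 * r ^ 2 * eT t ^ 2 * (∫ z, tD g (pT r t x z) ∂gam d)
        + ∑ c, (-(2 * r) * eT t ^ 2 * x c * (∫ z, pD c g (pT r t x z) ∂gam d)
          + r * wT' t * ∫ z, z c * pD c g (pT r t x z) ∂gam d) := by
    simp only [deriv_point, add_mul, mul_assoc (r * wT' t)]
    rw [integral_add (iT.const_mul _) (integrable_finsetSum _ fun c _ =>
      show Integrable (fun z => -(2 * r) * eT t ^ 2 * x c * pD c g (pT r t x z)
        + r * wT' t * (z c * pD c g (pT r t x z))) (gam d) from
          ((ip c).const_mul _).add ((iz c).const_mul _)),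
      integral_const_mul, integral_finsetSum _ fun c _ =>
      show Integrable (fun z => -(2 * r) * eT t ^ 2 * x c * pD c g (pT r t x z)
        + r * wT' t * (z c * pD c g (pT r t x z))) (gam d) from
          ((ip c).const_mul _).add ((iz c).const_mul _)]
    congr 1
    refine Finset.sum_congr rfl fun c _ => ?_
    rw [integral_add ((ip c).const_mul _) ((iz c).const_mul _), integral_const_mul,
      integral_const_mul]
  have e2 : avT (mgen g) r t x
      = -(2 * (r * eT t) ^ 2) * (∫ z, tD g (pT r t x z) ∂gam d)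
        + ∑ c, (-((r * eT t) ^ 2) * (∫ z, pD c (pD c g) (pT r t x z) ∂gam d)
          + (2 * (r * eT t ^ 2) * x c * (∫ z, pD c g (pT r t x z) ∂gam d)
            + 2 * (r * wT t) * ∫ z, z c * pD c g (pT r t x z) ∂gam d)) := by
    have hm : ∀ z, mgen g (pT r t x z) = -(2 * (r * eT t) ^ 2) * tD g (pT r t x z)
        + ∑ c, (-((r * eT t) ^ 2) * pD c (pD c g) (pT r t x z)
          + (2 * (r * eT t ^ 2) * x c * pD c g (pT r t x z)
            + 2 * (r * wT t) * (z c * pD c g (pT r t x z)))) := fun z => by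
      have hc : ∀ c, (pT r t x z).2 c = r * eT t ^ 2 * x c + r * wT t * z c := fun c => rfl
      simp only [mgen, lapA, hc, show (1 : ℝ) - (pT r t x z).1 = (r * eT t) ^ 2 by simp [pT],
        Finset.sum_add_distrib, add_mul, ← Finset.mul_sum, mul_assoc]
      ring
    have i3 : ∀ c, Integrable (fun z => -((r * eT t) ^ 2) * pD c (pD c g) (pT r t x z)
          + (2 * (r * eT t ^ 2) * x c * pD c g (pT r t x z)
            + 2 * (r * wT t) * (z c * pD c g (pT r t x z)))) (gam d) := fun c =>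
      ((iq c).const_mul _).add (((ip c).const_mul _).add ((iz c).const_mul _))
    rw [avT]
    simp only [hm]
    rw [integral_add (iT.const_mul _) (integrable_finsetSum _ fun c _ => i3 c),
      integral_const_mul, integral_finsetSum _ fun c _ => i3 c]
    congr 1
    refine Finset.sum_congr rfl fun c _ => ?_
    rw [integral_add ((iq c).const_mul _) (show Integrable (fun z =>
        2 * (r * eT t ^ 2) * x c * pD c g (pT r t x z)
          + 2 * (r * wT t) * (z c * pD c g (pT r t x z))) (gam d) from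
        ((ip c).const_mul _).add ((iz c).const_mul _)),
      integral_add ((ip c).const_mul _) ((iz c).const_mul _), integral_const_mul,
      integral_const_mul, integral_const_mul]
  rw [e1, e2, neg_add, ← Finset.sum_neg_distrib]
  congr 1
  · ring
  refine Finset.sum_congr rfl fun c _ => ?_
  rw [hstein c]
  linear_combination r ^ 2 * (∫ z, pD c (pD c g) (pT r t x z) ∂gam d) * (wT'_mul ht)
    + 2 * r ^ 2 * (∫ z, pD c (pD c g) (pT r t x z) ∂gam d) * (wT_mul t)

/-! ### The Taylor remainder -/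

/-- The remainder of the expansion in time. -/
def remT : ℕ → (ℝ × Space d → ℝ) → ℝ → ℝ → Space d → ℝ
  | 0, g, r, t, x => avT g r t x
  | n + 1, g, r, t, x => remT n g r t x - (-t) ^ n / n ! * mgenN n g (chan (r, x))

theorem remT_eq : ∀ (n : ℕ) (g : ℝ × Space d → ℝ) (r t : ℝ) (x : Space d),
    remT n g r t x
      = avT g r t x - ∑ i ∈ Finset.range n, (-t) ^ i / i ! * mgenN i g (chan (r, x))
  | 0, g, r, t, x => by simp [remT]
  | n + 1, g, r, t, x => by rw [remT, remT_eq n, Finset.sum_range_succ]; ring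

theorem cont_chan (hg : Alg P g) (hr : r ∈ Ioo (-1 : ℝ) 1) :
    Continuous fun x : Space d => g (chan (r, x)) :=
  (hg.csm.chan.slice hr 0).continuous

theorem continuous_remT (hh : h ≤ 1) (hg : Alg P g) (hr : r ∈ Ioo (-1 : ℝ) 1) :
    ∀ n, Continuous fun p : ℝ × Space d => remT n g r p.1 p.2
  | 0 => continuous_avT hh hg hr
  | n + 1 => (continuous_remT hh hg hr n).sub
      ((((continuous_fst.neg).pow n).div_const _).mul
        ((cont_chan (Alg.mgenN n hg) hr).comp continuous_snd))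

theorem abs_remT (hh : h ≤ 1) (hg : Alg P g) (hr : r ∈ Ioo (-1 : ℝ) 1) : ∀ n,
    ∃ (C : ℝ) (k : ℕ), 0 ≤ C ∧ ∀ t (x : Space d),
      |remT n g r t x| ≤ C * (1 + |t|) ^ n * (1 + ‖x‖) ^ k
  | 0 => by
    obtain ⟨C, k, hC, hb⟩ := abs_avT hh hg hr
    exact ⟨C, k, hC, fun t x => by simpa [remT] using hb t x⟩
  | n + 1 => by
    obtain ⟨C, k, hC, hb⟩ := abs_remT hh hg hr n
    obtain ⟨D, m, hD, hb'⟩ := abs_avT hh (Alg.mgenN n hg) hr
    refine ⟨C + D, k + m, by positivity, fun t x => ?_⟩
    have hx : (1 : ℝ) ≤ 1 + ‖x‖ := by linarith [norm_nonneg x]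
    have ht : (1 : ℝ) ≤ 1 + |t| := by linarith [abs_nonneg t]
    have h2 := hb' 0 x
    rw [avT_zero] at h2
    refine (abs_sub _ _).trans ?_
    rw [add_mul, add_mul]
    refine add_le_add ((hb t x).trans ?_) ?_
    · gcongr <;> omega
    · rw [abs_mul, abs_div, abs_pow, abs_neg, Nat.abs_cast]
      calc |t| ^ n / n ! * |mgenN n g (chan (r, x))|
          ≤ (1 + |t|) ^ (n + 1) * (D * (1 + ‖x‖) ^ (k + m)) := by
            refine mul_le_mul ?_ (h2.trans ?_) (abs_nonneg _) (by positivity)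
            · refine (div_le_self (by positivity) (by exact_mod_cast n.factorial_pos)).trans ?_
              exact (pow_le_pow_left₀ (abs_nonneg t) (by linarith) n).trans
                (pow_le_pow_right₀ ht (Nat.le_succ n))
            · gcongr; omega
        _ = _ := by ring

theorem remT_zero : ∀ (n : ℕ) (g : ℝ × Space d → ℝ) (r : ℝ) (x : Space d),
    remT (n + 1) g r 0 x = 0
  | 0, g, r, x => by simp [remT, avT_zero, mgenN]
  | n + 1, g, r, x => by
    rw [remT, remT_zero n]
    simp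

theorem hasDerivAt_remT (hh : h ≤ 1) (hr : r ∈ Ioo (-1 : ℝ) 1) {t : ℝ} (ht : 0 < t)
    (x : Space d) : ∀ (n : ℕ) {g : ℝ × Space d → ℝ}, Alg P g →
      HasDerivAt (fun s => remT (n + 1) g r s x) (-remT n (mgen g) r t x) t
  | 0, g, hg => by
    simpa [remT] using (hasDerivAt_avT hh hg hr ht x).sub_const (mgenN 0 g (chan (r, x)))
  | n + 1, g, hg => by
    have h1 := hasDerivAt_remT hh hr ht x n hg
    have h2 := (((hasDerivAt_neg t).fun_pow (n + 1)).div_const
      (((n + 1)! : ℕ) : ℝ)).mul_const (mgenN (n + 1) g (chan (r, x)))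
    refine (h1.fun_sub h2).congr_deriv ?_
    show _ = -(remT n (mgen g) r t x - (-t) ^ n / n ! * mgenN n (mgen g) (chan (r, x)))
    rw [show mgenN (n + 1) g = mgenN n (mgen g) from rfl, Nat.factorial_succ, Nat.add_sub_cancel]
    push_cast
    field_simp
    ring

theorem remT_integral (hh : h ≤ 1) (hg : Alg P g) (hr : r ∈ Ioo (-1 : ℝ) 1) (n : ℕ) {t : ℝ}
    (ht : 0 ≤ t) (x : Space d) :
    remT (n + 1) g r t x = -∫ s in Ioc 0 t, remT n (mgen g) r s x := by
  have hc : Continuous fun s => remT n (mgen g) r s x :=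
    (continuous_remT hh hg.mgen hr n).comp (continuous_id.prodMk continuous_const)
  have h1 := intervalIntegral.integral_eq_sub_of_hasDerivAt_of_le ht
    (f := fun s => remT (n + 1) g r s x)
    ((continuous_remT hh hg hr (n + 1)).comp (continuous_id.prodMk continuous_const)).continuousOn
    (fun s hs => hasDerivAt_remT hh hr hs.1 x n hg) (hc.neg.intervalIntegrable _ _)
  rw [remT_zero, sub_zero, intervalIntegral.integral_of_le ht, integral_neg] at h1
  exact h1.symm

/-- The average contracts the square mean of the channel law. -/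
theorem avT_law (hh : h ≤ 1) (hg : Alg P g) (hr : r ∈ Ioo (-1 : ℝ) 1) (t : ℝ) :
    ∫ x, avT g r t x ^ 2 ∂mu (potR P r hr)
      ≤ ∫ y, g (chan (r * eT t, y)) ^ 2 ∂mu (potR P (r * eT t) (rate_mem hr t)) := by
  set e := eT t with he
  set σ := Real.sqrt (1 - e ^ 2) with hσ
  have hh2 : Alg P fun q => g q * g q := hg.mul hg
  have := mu_prob (potR P r hr)
  have hc : Continuous fun x : Space d => avT g r t x :=
    (continuous_avT hh hg hr).comp (continuous_const.prodMk continuous_id)
  have hc2 : Continuous fun x : Space d => avT (fun q => g q * g q) r t x :=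
    (continuous_avT hh hh2 hr).comp (continuous_const.prodMk continuous_id)
  have gro : ∀ {f : ℝ × Space d → ℝ}, Alg P f → Grow fun x : Space d => avT f r t x :=
    fun hf => by
      obtain ⟨C, k, hC, hb⟩ := abs_avT hh hf hr
      exact ⟨C, k, fun x => hb t x⟩
  refine (integral_mono (mu_int (hc.pow 2).measurable (grow_pow (gro hg) 2))
    (mu_int hc2.measurable (gro hh2)) fun x => ?_).trans_eq ?_
  · have i2 : Integrable (fun z => g (pT r t x z) ^ 2) (gam d) := by
      simp only [sq]; exact int_comp hh hh2 hr t x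
    have h1 := sq_integral_mul_le (μ := gam d) (u := fun z => g (pT r t x z))
      (v := fun _ => (1 : ℝ)) i2 (by simp) (by simpa using int_comp hh hg hr t x)
    simpa [avT, sq] using h1
  set G : Space d → ℝ := fun y => g (chan (r * e, y)) ^ 2 with hG
  have hGc : Continuous G := (cont_chan hg (rate_mem hr t)).pow 2
  have hGg : Grow G := by
    obtain ⟨C, k, hC, hb⟩ := abs_avT hh hg (rate_mem hr t)
    exact grow_pow ⟨C, k, fun y => by simpa [avT_zero] using hb 0 y⟩ 2
  have hH : ∀ y : Space d, avT (fun q => g q * g q) r t y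
      = ∫ w, G (e • y + σ • w) ∂gam d := fun y => by
    refine integral_congr_ae (ae_of_all _ fun w => ?_)
    simp only [hG, pT, chan, wT, hσ, he, smul_add, smul_smul, sq]
    ring_nf
  rw [← channel_law P hr hc2.measurable (gro hh2),
    ← channel_law P (rate_mem hr t) hGc.measurable hGg]
  refine integral_congr_ae (ae_of_all _ fun x => ?_)
  simp only [hH]
  set s := Real.sqrt (1 - r ^ 2) with hs
  have e1 : ∀ z w : Space d, e • (r • x + s • z) + σ • w
      = (r * e) • x + ((e * s) • z + σ • w) := fun z w => by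
    rw [smul_add, smul_smul, smul_smul, mul_comm e r, add_assoc]
  have hcomb : Real.sqrt ((e * s) ^ 2 + σ ^ 2) = Real.sqrt (1 - (r * e) ^ 2) := by
    congr 1
    rw [mul_pow, hs, hσ, Real.sq_sqrt (var_pos hr).le, Real.sq_sqrt (sub_nonneg.2 (eT_sq_le t))]
    ring
  simp only [e1]
  set F : Space d → ℝ := fun u => G ((r * e) • x + u) with hF
  have hFc : Continuous F := hGc.comp (by fun_prop)
  have iF : Integrable (fun p : Space d × Space d => F ((e * s) • p.1 + σ • p.2))
      ((gam d).prod (gam d)) := by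
    obtain ⟨C, k, hC⟩ := hGg
    refine (((pow_norm_int k).mul_prod (pow_norm_int k)).const_mul
      (|C| * (1 + ‖(r * e) • x‖ + |e * s| + |σ|) ^ k)).mono'
      (hFc.comp (by fun_prop)).aestronglyMeasurable (ae_of_all _ fun p => ?_)
    refine (hC _).trans ?_
    rw [mul_assoc |C|, ← mul_pow, ← mul_pow]
    refine mul_le_mul (le_abs_self C) (pow_le_pow_left₀ (by positivity) ?_ k) (by positivity)
      (abs_nonneg C)
    refine (add_le_add le_rfl ((norm_add_le _ _).trans
      (add_le_add le_rfl (norm_add_le _ _)))).trans ?_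
    rw [norm_smul (e * s), norm_smul σ, Real.norm_eq_abs, Real.norm_eq_abs]
    nlinarith [norm_nonneg ((r * e) • x), norm_nonneg p.1, norm_nonneg p.2, abs_nonneg (e * s),
      abs_nonneg σ, mul_nonneg (norm_nonneg p.1) (norm_nonneg p.2),
      mul_nonneg (abs_nonneg (e * s)) (norm_nonneg p.2), mul_nonneg (abs_nonneg σ) (norm_nonneg p.1),
      mul_nonneg (norm_nonneg ((r * e) • x))
        (add_nonneg (norm_nonneg p.1) (norm_nonneg p.2))]
  calc ∫ z, ∫ w, G ((r * e) • x + ((e * s) • z + σ • w)) ∂gam d ∂gam d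
      = ∫ p : Space d × Space d, F ((e * s) • p.1 + σ • p.2) ∂(gam d).prod (gam d) :=
        (integral_prod _ iF).symm
    _ = ∫ u, F u ∂((gam d).prod (gam d)).map fun p => (e * s) • p.1 + σ • p.2 :=
        (integral_map (by fun_prop) hFc.aestronglyMeasurable).symm
    _ = ∫ z, G ((r * e) • x + Real.sqrt (1 - (r * e) ^ 2) • z) ∂gam d := by
        rw [gam_combine, integral_map (by fun_prop) hFc.aestronglyMeasurable, hcomb]

/-- The remainder in square mean, for a finite family of fields. -/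
theorem remT_sq (hh : h ≤ 1) (hr : r ∈ Ioo (-1 : ℝ) 1) {ι : Type} [Fintype ι] :
    ∀ (n : ℕ) {g : ι → ℝ × Space d → ℝ}, (∀ i, Alg P (g i)) → ∀ M : ℝ,
      (∀ ρ : ℝ, ∀ hρ : ρ ∈ Ioo (-1 : ℝ) 1, |ρ| ≤ |r| →
        ∫ y, ∑ i, mgenN n (g i) (chan (ρ, y)) ^ 2 ∂mu (potR P ρ hρ) ≤ M) →
      ∀ t : ℝ, 0 ≤ t →
        ∫ x, ∑ i, remT n (g i) r t x ^ 2 ∂mu (potR P r hr) ≤ t ^ (2 * n) * M
  | 0, g, hg, M, hM, t, ht => by
    rw [mul_zero, pow_zero, one_mul]
    have hmem := rate_mem hr t
    refine le_trans (le_trans (le_of_eq ?_) (Finset.sum_le_sum (s := Finset.univ) fun i _ =>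
      avT_law hh (hg i) hr t)) ((le_of_eq ?_).trans (hM _ hmem (abs_rate_le r t)))
    · refine integral_finsetSum _ fun i _ => mu_int
        (((continuous_avT hh (hg i) hr).comp (continuous_const.prodMk continuous_id)).pow 2).measurable
        ?_
      obtain ⟨C, k, hC, hb⟩ := abs_avT hh (hg i) hr
      exact grow_pow ⟨C, k, fun x => hb t x⟩ 2
    · refine (integral_finsetSum _ fun i _ => mu_int
        ((cont_chan (hg i) hmem).pow 2).measurable ?_).symm
      obtain ⟨C, k, hC, hb⟩ := abs_avT hh (hg i) hmem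
      exact grow_pow ⟨C, k, fun x => by simpa [avT_zero] using hb 0 x⟩ 2
  | n + 1, g, hg, M, hM, t, ht => by
    set ν := mu (potR P r hr)
    have := mu_prob (potR P r hr)
    have : IsFiniteMeasure (volume.restrict (Ioc 0 t)) := ⟨by simp⟩
    have hg' : ∀ i, Alg P (mgen (g i)) := fun i => (hg i).mgen
    have ih := remT_sq hh hr n hg' M hM
    have hcU : Continuous fun p : Space d × ℝ => ∑ i, remT n (mgen (g i)) r p.2 p.1 ^ 2 :=
      continuous_finsetSum _ fun i _ =>
        ((continuous_remT hh (hg' i) hr n).comp (continuous_snd.prodMk continuous_fst)).pow 2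
    have iU : Integrable (fun p : Space d × ℝ => ∑ i, remT n (mgen (g i)) r p.2 p.1 ^ 2)
        (ν.prod (volume.restrict (Ioc 0 t))) := by
      refine integrable_finsetSum _ fun i _ => ?_
      obtain ⟨C, k, hC, hb⟩ := abs_remT hh (hg' i) hr n
      have hi : Integrable (fun s : ℝ => ((1 + |s|) ^ n) ^ 2) (volume.restrict (Ioc 0 t)) :=
        (Continuous.continuousOn (by fun_prop)).integrableOn_compact isCompact_Icc |>.mono_set
          Ioc_subset_Icc_self
      have hx : Integrable (fun x : Space d => (C * (1 + ‖x‖) ^ k) ^ 2) ν :=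
        mu_int (by fun_prop) (grow_pow ⟨C, k, fun x => by
          rw [Real.norm_eq_abs, abs_of_nonneg (by positivity)]⟩ 2)
      refine (hx.mul_prod hi).mono' (((continuous_remT hh (hg' i) hr n).comp
        (continuous_snd.prodMk continuous_fst)).pow 2).aestronglyMeasurable (ae_of_all _ fun p => ?_)
      rw [Real.norm_eq_abs, abs_pow, ← mul_pow]
      exact pow_le_pow_left₀ (abs_nonneg _) ((hb p.2 p.1).trans_eq (by ring)) 2
    have hpt : ∀ x, ∑ i, remT (n + 1) (g i) r t x ^ 2
        ≤ t * ∫ s in Ioc 0 t, ∑ i, remT n (mgen (g i)) r s x ^ 2 := fun x => by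
      have hc : ∀ i, Continuous fun s => remT n (mgen (g i)) r s x := fun i =>
        (continuous_remT hh (hg' i) hr n).comp (continuous_id.prodMk continuous_const)
      have hI : ∀ {f : ℝ → ℝ}, Continuous f → Integrable f (volume.restrict (Ioc 0 t)) :=
        fun hf => hf.continuousOn.integrableOn_compact isCompact_Icc |>.mono_set Ioc_subset_Icc_self
      rw [integral_finsetSum Finset.univ (f := fun i s => remT n (mgen (g i)) r s x ^ 2)
        fun i _ => hI ((hc i).pow 2), Finset.mul_sum]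
      refine Finset.sum_le_sum fun i _ => ?_
      rw [remT_integral hh (hg i) hr n ht x, neg_sq]
      have h1 := sq_integral_mul_le (μ := volume.restrict (Ioc 0 t))
        (u := fun s => remT n (mgen (g i)) r s x) (v := fun _ => (1 : ℝ))
        (hI ((hc i).pow 2)) (by simp) (by simpa using hI (hc i))
      refine le_trans (le_of_eq (by simp)) (h1.trans_eq ?_)
      simp [ht, mul_comm]
    have hL : Integrable (fun x => ∑ i, remT (n + 1) (g i) r t x ^ 2) ν :=
      integrable_finsetSum _ fun i _ => by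
        refine mu_int (((continuous_remT hh (hg i) hr (n + 1)).comp
          (continuous_const.prodMk continuous_id)).pow 2).measurable ?_
        obtain ⟨C, k, hC, hb⟩ := abs_remT hh (hg i) hr (n + 1)
        exact grow_pow ⟨C * (1 + |t|) ^ (n + 1), k, fun x => hb t x⟩ 2
    refine (integral_mono hL (iU.integral_prod_left.const_mul t) hpt).trans ?_
    rw [integral_const_mul, integral_integral_swap iU]
    refine (mul_le_mul_of_nonneg_left (setIntegral_mono_on iU.integral_prod_right
      (integrableOn_const (C := t ^ (2 * n) * M) measure_Ioc_lt_top.ne) measurableSet_Ioc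
      fun s hs => (ih s hs.1.le).trans ?_) ht).trans_eq ?_
    · exact mul_le_mul_of_nonneg_right (pow_le_pow_left₀ hs.1.le hs.2 _)
        ((integral_nonneg fun y => Finset.sum_nonneg fun i _ => sq_nonneg _).trans
          (hM r hr le_rfl))
    · rw [setIntegral_const, Real.volume_real_Ioc_of_le ht, smul_eq_mul]
      ring

/-! ### Extrapolation -/

/-- Weights at the nodes `1, …, n + 1` that kill the first `n` powers. -/
theorem exists_weights (n : ℕ) : ∃ c : Fin (n + 1) → ℝ, ∀ i ≤ n,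
    ∑ l, c l * ((l : ℝ) + 1) ^ i = if i = 0 then 1 else 0 := by
  classical
  let v : Fin (n + 1) → ℝ := fun l => (l : ℝ) + 1
  refine ⟨fun l => (Lagrange.basis Finset.univ v l).eval 0, fun i hi => ?_⟩
  have hv : Set.InjOn v (Finset.univ : Finset (Fin (n + 1))) := fun a _ b _ hab =>
    Fin.ext (Nat.cast_injective (R := ℝ) (add_right_cancel hab))
  have h1 := Lagrange.eq_interpolate (f := (Polynomial.X : Polynomial ℝ) ^ i) hv (by
    rw [Polynomial.degree_X_pow, Finset.card_univ, Fintype.card_fin]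
    exact_mod_cast Nat.lt_succ_of_le hi)
  have h2 := congrArg (Polynomial.eval (0 : ℝ)) h1
  simp only [Lagrange.interpolate_apply, Polynomial.eval_finsetSum, Polynomial.eval_mul,
    Polynomial.eval_C, Polynomial.eval_pow, Polynomial.eval_X, zero_pow_eq] at h2
  rw [h2]
  exact Finset.sum_congr rfl fun l _ => mul_comm _ _

/-- The drift is recovered from its averages at noisier matched points, to every order. -/
theorem matched_drift (n : ℕ) : ∃ (c : Fin (n + 1) → ℝ) (C : ℝ), 0 ≤ C ∧
    ∀ d h (P : Pot d h), h ≤ 1 → ∀ r : ℝ, ∀ hr : r ∈ Ioo (-1 : ℝ) 1, ∀ S : ℝ, 0 ≤ S →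
      ∫ x, ∑ i, ((∑ l : Fin (n + 1), c l * Pt (Real.exp (-(S * ((l : ℝ) + 1))))
          (fun y => uR P i (r * Real.exp (-(S * ((l : ℝ) + 1))), y)) x) - uR P i (r, x)) ^ 2
        ∂mu (potR P r hr) ≤ C * S ^ (2 * (n + 1)) * siz P * wgt r (2 * (n + 1)) := by
  obtain ⟨c, hc⟩ := exists_weights n
  obtain ⟨C, hC, hb⟩ := mgen_drift_bound (n + 1)
  refine ⟨c, (∑ l, c l ^ 2) * (∑ l : Fin (n + 1), ((l : ℝ) + 1) ^ (2 * (n + 1))) * C,
    by positivity, fun d h P hh r hr S hS => ?_⟩
  have := mu_prob (potR P r hr)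
  set M := C * siz P * wgt r (2 * (n + 1)) with hMdef
  have hA : ∀ i, Alg P (drift P i) := fun i => Alg.drift [] i
  have hM : ∀ ρ : ℝ, ∀ hρ : ρ ∈ Ioo (-1 : ℝ) 1, |ρ| ≤ |r| →
      ∫ y, ∑ i, mgenN (n + 1) (drift P i) (chan (ρ, y)) ^ 2 ∂mu (potR P ρ hρ) ≤ M := by
    intro ρ hρ hle
    refine (hb d h P hh ρ hρ).trans (mul_le_mul_of_nonneg_left ?_ (mul_nonneg hC (siz_pos P).le))
    rw [wgt, wgt]
    refine pow_le_pow_left₀ (by positivity) (pow_le_pow_left₀ (by positivity)
      (inv_anti₀ (Real.sqrt_pos.2 (var_pos hr)) (Real.sqrt_le_sqrt ?_)) _) 2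
    linarith [sq_le_sq.2 hle]
  set tt : Fin (n + 1) → ℝ := fun l => S * ((l : ℝ) + 1)
  have htt : ∀ l, 0 ≤ tt l := fun l => by positivity
  set R : Fin (n + 1) → Fin d → Space d → ℝ := fun l i x =>
    remT (n + 1) (drift P i) r (tt l) x
  have key : ∀ x i, (∑ l : Fin (n + 1), c l * Pt (Real.exp (-(S * ((l : ℝ) + 1))))
      (fun y => uR P i (r * Real.exp (-(S * ((l : ℝ) + 1))), y)) x) - uR P i (r, x)
        = ∑ l, c l * R l i x := fun x i => by
    have e1 : ∀ l, Pt (Real.exp (-(tt l))) (fun y => uR P i (r * Real.exp (-(tt l)), y)) x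
        = avT (drift P i) r (tt l) x := fun l => pt_eq_avT (drift P i) r (htt l) x
    show (∑ l, c l * Pt (Real.exp (-(tt l))) (fun y => uR P i (r * Real.exp (-(tt l)), y)) x)
      - _ = _
    simp only [e1, R, remT_eq, mul_sub, Finset.sum_sub_distrib]
    congr 1
    simp only [Finset.mul_sum]
    rw [Finset.sum_comm, Finset.sum_eq_single 0]
    · have h0 := hc 0 (Nat.zero_le n)
      simp only [pow_zero, mul_one, if_true] at h0
      simp [← Finset.sum_mul, h0, mgenN, uR]
    · intro j hj hj0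
      have hj1 := hc j (Nat.le_of_lt_succ (Finset.mem_range.1 hj))
      rw [if_neg hj0] at hj1
      have e2 : ∀ l : Fin (n + 1), c l * ((-tt l) ^ j / j ! * mgenN j (drift P i) (chan (r, x)))
          = (-S) ^ j / j ! * mgenN j (drift P i) (chan (r, x)) * (c l * ((l : ℝ) + 1) ^ j) :=
        fun l => by
          rw [show -tt l = -S * ((l : ℝ) + 1) by simp [tt], mul_pow]
          ring
      simp only [e2, ← Finset.mul_sum, hj1, mul_zero]
    · simp
  simp only [key]
  have iR : ∀ l, Integrable (fun x => ∑ i, R l i x ^ 2) (mu (potR P r hr)) := fun l =>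
    integrable_finsetSum _ fun i _ => by
      refine mu_int (((continuous_remT hh (hA i) hr (n + 1)).comp
        (continuous_const.prodMk continuous_id)).pow 2).measurable ?_
      obtain ⟨D, k, hD, hb⟩ := abs_remT hh (hA i) hr (n + 1)
      exact grow_pow ⟨D * (1 + |tt l|) ^ (n + 1), k, fun x => hb (tt l) x⟩ 2
  refine (integral_mono_of_nonneg (ae_of_all _ fun x => Finset.sum_nonneg fun i _ => sq_nonneg _)
    ((integrable_finsetSum Finset.univ fun l _ => iR l).const_mul (∑ l, c l ^ 2))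
    (ae_of_all _ fun x => ?_)).trans ?_
  · show _ ≤ (∑ l, c l ^ 2) * ∑ l, ∑ i, R l i x ^ 2
    rw [Finset.sum_comm (f := fun l i => R l i x ^ 2), Finset.mul_sum]
    exact Finset.sum_le_sum fun i _ => Finset.sum_mul_sq_le_sq_mul_sq _ _ _
  rw [integral_const_mul, integral_finsetSum _ fun l _ => iR l]
  refine (mul_le_mul_of_nonneg_left (Finset.sum_le_sum fun l _ =>
    remT_sq hh hr (n + 1) hA M hM (tt l) (htt l)) (by positivity)).trans_eq ?_
  simp only [tt, mul_pow, mul_assoc, ← Finset.sum_mul, ← Finset.mul_sum, hMdef]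
  ring

end Vale.Agent.P347.Zero
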