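import Vale.Agent.P347.Zero.FlowQuad
import Vale.Agent.P347.Zero.Matched

/-!
The flows of different domains agree, the channel composes, and the matched combination of channels
is a Lipschitz stand-in for the drift on the exact trajectory.
-/

noncomputable section

open MeasureTheory Filter Topology Set
open scoped RealInnerProductSpace NNReal

namespace Vale.Agent.P347.Zero

variable {d : ℕ} {h : ℝ}

theorem ode_eq {v : ℝ → Space d → Space d} {K : ℝ≥0} (hv : ∀ s, LipschitzWith K (v s)) {R : ℝ}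
    (hR : 0 ≤ R) {f g : ℝ → Space d} (hf : ContinuousOn f (Icc 0 R)) (hg : ContinuousOn g (Icc 0 R))
    (hf' : ∀ s ∈ Ico (0 : ℝ) R, HasDerivWithinAt f (v s (f s)) (Ici s) s)
    (hg' : ∀ s ∈ Ico (0 : ℝ) R, HasDerivWithinAt g (v s (g s)) (Ici s) s) (h0 : f 0 = g 0) :
    f R = g R := by
  have h1 := dist_le_of_trajectories_ODE (δ := 0) hv hf hf' hg hg' (by rw [h0, dist_self]) R
    ⟨hR, le_rfl⟩
  exact dist_le_zero.1 (by simpa using h1)

/-- The flow does not depend on its domain. -/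
theorem flow_eq {P : Pot d h} (hh : h ≤ 1) {R R' : ℝ} (hR : R ∈ Ioo (0 : ℝ) 1)
    (hR' : R' ∈ Ioo (0 : ℝ) 1) (hle : R ≤ R') (ξ : Space d) :
    flow P R ξ R = flow P R' ξ R := by
  have key : ∀ {T : ℝ}, T ∈ Ioo (0 : ℝ) 1 → R ≤ T → ∀ s ∈ Ico (0 : ℝ) R,
      HasDerivWithinAt (flow P T ξ) (fldR P R' s (flow P T ξ s)) (Ici s) s := fun hT hRT s hs => by
    rw [fldR, clamp_eq ⟨by linarith [hs.1, hR'.1], by linarith [hs.2]⟩]
    exact (flow_hasDerivAt hh hT ξ ⟨by linarith [hs.1, hT.1],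
      lt_of_lt_of_le hs.2 hRT⟩).hasDerivWithinAt
  exact ode_eq (fldR_lip P hh ⟨hR'.1.le, hR'.2⟩) hR.1.le
    ((flow_continuousOn hh hR ξ).mono (Icc_subset_Icc (by linarith [hR.1]) le_rfl))
    ((flow_continuousOn hh hR' ξ).mono (Icc_subset_Icc (by linarith [hR'.1]) hle))
    (key hR le_rfl) (key hR' hle) (by rw [(flow_spec hh hR ξ).1, (flow_spec hh hR' ξ).1])

/-- The channel composes. -/
theorem channel_comp (P : Pot d h) {r a : ℝ} (hr : r ∈ Ioo (-1 : ℝ) 1) (ha : a ∈ Icc (0 : ℝ) 1)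
    (hra : r * a ∈ Ioo (-1 : ℝ) 1) {f : Space d → ℝ} (hf : Continuous f) {C : ℝ}
    (hC : ∀ y, |f y| ≤ C * (1 + ‖y‖)) :
    ∫ x, ∫ e, f (a • x + Real.sqrt (1 - a ^ 2) • e) ∂gam d ∂mu (potR P r hr)
      = ∫ y, f y ∂mu (potR P (r * a) hra) := by
  have := mu_prob P
  have := mu_prob (potR P r hr)
  set σ := Real.sqrt (1 - a ^ 2) with hσ
  set s := Real.sqrt (1 - r ^ 2) with hs
  have hC0 : 0 ≤ C := by simpa using (abs_nonneg _).trans (hC 0)
  have hσ1 : σ ≤ 1 := Real.sqrt_le_one.2 (by linarith [sq_nonneg a])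
  have hn : ∀ x e : Space d, ‖a • x + σ • e‖ ≤ ‖x‖ + ‖e‖ := fun x e => by
    refine (norm_add_le _ _).trans (add_le_add ?_ ?_) <;> rw [norm_smul, Real.norm_eq_abs]
    · exact mul_le_of_le_one_left (norm_nonneg _) (by rw [abs_of_nonneg ha.1]; exact ha.2)
    · exact mul_le_of_le_one_left (norm_nonneg _)
        (by rw [abs_of_nonneg (Real.sqrt_nonneg _)]; exact hσ1)
  set I := ∫ e : Space d, ‖e‖ ∂gam d
  have hI : 0 ≤ I := integral_nonneg fun e => norm_nonneg e
  set G : Space d → ℝ := fun x => ∫ e, f (a • x + σ • e) ∂gam d with hG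
  have hGb : ∀ x, |G x| ≤ C * (1 + I) * (1 + ‖x‖) := fun x => by
    refine (norm_integral_le_of_norm_le (f := fun e => f (a • x + σ • e))
      (((integrable_const (1 + ‖x‖)).add integrable_norm_gam).const_mul C) (ae_of_all _ fun e =>
        (hC _).trans (mul_le_mul_of_nonneg_left ?_ hC0))).trans ?_
    · simp only [Pi.add_apply]; linarith [hn x e]
    · simp only [Pi.add_apply]
      rw [integral_const_mul, integral_add (integrable_const _) integrable_norm_gam, integral_const,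
        probReal_univ, one_smul, mul_assoc]
      refine mul_le_mul_of_nonneg_left ?_ hC0
      nlinarith [norm_nonneg x]
  have hGm : Measurable G := by
    refine (Continuous.stronglyMeasurable ?_).measurable
    refine continuous_iff_continuousAt.2 fun x₀ => continuousAt_of_dominated
      (F := fun x e => f (a • x + σ • e)) (bound := fun e => C * (2 + ‖x₀‖ + ‖e‖)) ?_ ?_ ?_ ?_
    · exact Eventually.of_forall fun x => (hf.comp (by fun_prop)).aestronglyMeasurable
    · refine ((continuous_norm.tendsto x₀).eventually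
        (eventually_le_nhds (lt_add_one ‖x₀‖))).mono fun x hx => ae_of_all _ fun e => ?_
      exact (hC _).trans (mul_le_mul_of_nonneg_left (by linarith [hn x e]) hC0)
    · exact ((integrable_const _).add integrable_norm_gam).const_mul C
    · exact ae_of_all _ fun e => (hf.comp (by fun_prop)).continuousAt
  rw [← channel_law P hr hGm ⟨C * (1 + I), 1, fun x => by simpa [Real.norm_eq_abs] using hGb x⟩,
    ← channel_law P hra hf.measurable ⟨C, 1, fun x => by simpa [Real.norm_eq_abs] using hC x⟩]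
  refine integral_congr_ae (ae_of_all _ fun x => ?_)
  show ∫ z, ∫ e, f (a • (r • x + s • z) + σ • e) ∂gam d ∂gam d = _
  have e1 : ∀ z e : Space d, a • (r • x + s • z) + σ • e
      = (r * a) • x + ((a * s) • z + σ • e) := fun z e => by
    rw [smul_add, smul_smul, smul_smul, mul_comm a r, add_assoc]
  have hcomb : Real.sqrt ((a * s) ^ 2 + σ ^ 2) = Real.sqrt (1 - (r * a) ^ 2) := by
    congr 1
    rw [mul_pow, hs, hσ, Real.sq_sqrt (var_pos hr).le,
      Real.sq_sqrt (sub_nonneg.2 (pow_le_one₀ ha.1 ha.2))]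
    ring
  simp only [e1]
  set F : Space d → ℝ := fun u => f ((r * a) • x + u) with hF
  have hFc : Continuous F := hf.comp (by fun_prop)
  have iF : Integrable (fun p : Space d × Space d => F ((a * s) • p.1 + σ • p.2))
      ((gam d).prod (gam d)) := by
    refine ((((integrable_const (1 + ‖(r * a) • x‖)).add ((integrable_norm_gam.comp_fst _).const_mul
      |a * s|)).add (integrable_norm_gam.comp_snd _)).const_mul C).mono'
      (hFc.comp (by fun_prop)).aestronglyMeasurable (ae_of_all _ fun p => ?_)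
    refine (hC _).trans (mul_le_mul_of_nonneg_left ?_ hC0)
    simp only [Pi.add_apply]
    have h1 := norm_add_le ((r * a) • x) ((a * s) • p.1 + σ • p.2)
    have h2 := norm_add_le ((a * s) • p.1) (σ • p.2)
    rw [norm_smul (a * s), norm_smul σ, Real.norm_eq_abs, Real.norm_eq_abs,
      abs_of_nonneg (Real.sqrt_nonneg _)] at h2
    have h3 : σ * ‖p.2‖ ≤ ‖p.2‖ := mul_le_of_le_one_left (norm_nonneg _) hσ1
    linarith
  calc ∫ z, ∫ e, f ((r * a) • x + ((a * s) • z + σ • e)) ∂gam d ∂gam d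
      = ∫ p : Space d × Space d, F ((a * s) • p.1 + σ • p.2) ∂(gam d).prod (gam d) :=
        (integral_prod _ iF).symm
    _ = ∫ u, F u ∂((gam d).prod (gam d)).map fun p => (a * s) • p.1 + σ • p.2 :=
        (integral_map (by fun_prop) hFc.aestronglyMeasurable).symm
    _ = ∫ z, f ((r * a) • x + Real.sqrt (1 - (r * a) ^ 2) • z) ∂gam d := by
        rw [gam_combine, integral_map (by fun_prop) hFc.aestronglyMeasurable, hcomb]

/-! ### The matched combination -/

/-- The combination `c` of the channels with factors `a`, read at the correlation `r`. -/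
def chVal {ν : ℕ} (c a : Fin ν → ℝ) (P : Pot d h) (r : ℝ) (y : Space d) : Space d :=
  ∑ l, c l • ∫ e, driftV P (chan (r * a l, a l • y + Real.sqrt (1 - a l ^ 2) • e)) ∂gam d

theorem drift_slice_lip (P : Pot d h) {r : ℝ} (hr : r ∈ Ioo (-1 : ℝ) 1) (x y : Space d) :
    ‖driftV P (chan (r, x)) - driftV P (chan (r, y))‖ ≤ h * ‖x - y‖ := by
  refine (norm_driftV_sub P (var_pos hr) (r • x) (r • y)).trans ?_
  rw [← smul_sub, norm_smul, Real.norm_eq_abs]
  exact mul_le_mul_of_nonneg_left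
    (mul_le_of_le_one_left (norm_nonneg _) (abs_le.2 ⟨hr.1.le, hr.2.le⟩)) P.h_nonneg

theorem chan_drift_int (P : Pot d h) {r a : ℝ} (hr : r ∈ Ioo (-1 : ℝ) 1) (y : Space d) :
    Integrable (fun e => driftV P (chan (r, a • y + Real.sqrt (1 - a ^ 2) • e))) (gam d) := by
  refine Integrable.mono' ((integrable_const (‖driftV P (chan (r, 0))‖ + h * ‖a • y‖)).add
    ((integrable_norm_gam.const_mul (h * Real.sqrt (1 - a ^ 2)))))
    (((contDiffOn_velocity' P r hr).continuous.comp (by fun_prop)).aestronglyMeasurable)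
    (ae_of_all _ fun e => ?_)
  have h1 := drift_slice_lip P hr (a • y + Real.sqrt (1 - a ^ 2) • e) 0
  rw [sub_zero] at h1
  have h2 := norm_add_le (a • y) (Real.sqrt (1 - a ^ 2) • e)
  rw [norm_smul (Real.sqrt _), Real.norm_eq_abs, abs_of_nonneg (Real.sqrt_nonneg _)] at h2
  have h3 := norm_le_norm_add_norm_sub' (driftV P (chan (r, a • y + Real.sqrt (1 - a ^ 2) • e)))
    (driftV P (chan (r, 0)))
  simp only [Pi.add_apply]
  nlinarith [mul_le_mul_of_nonneg_left h2 P.h_nonneg]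

theorem chVal_lip {ν : ℕ} (c a : Fin ν → ℝ) (P : Pot d h) {r : ℝ} (hr : ∀ l, r * a l ∈ Ioo (-1 : ℝ) 1)
    (ha : ∀ l, |a l| ≤ 1) (x y : Space d) :
    ‖chVal c a P r x - chVal c a P r y‖ ≤ h * (∑ l, |c l|) * ‖x - y‖ := by
  rw [chVal, chVal, ← Finset.sum_sub_distrib, Finset.mul_sum, Finset.sum_mul]
  refine (norm_sum_le _ _).trans (Finset.sum_le_sum fun l _ => ?_)
  rw [← smul_sub, norm_smul, Real.norm_eq_abs,
    ← integral_sub (chan_drift_int P (hr l) x) (chan_drift_int P (hr l) y), mul_comm h, mul_assoc]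
  refine mul_le_mul_of_nonneg_left ((norm_integral_le_of_norm_le (integrable_const (h * ‖x - y‖))
    (ae_of_all _ fun e => ?_)).trans_eq (by simp)) (abs_nonneg _)
  refine (drift_slice_lip P (hr l) _ _).trans (mul_le_mul_of_nonneg_left ?_ P.h_nonneg)
  rw [add_sub_add_right_eq_sub, ← smul_sub, norm_smul, Real.norm_eq_abs]
  exact mul_le_of_le_one_left (norm_nonneg _) (ha l)

theorem chVal_apply {ν : ℕ} (c a : Fin ν → ℝ) (P : Pot d h) {r : ℝ}
    (hr : ∀ l, r * a l ∈ Ioo (-1 : ℝ) 1) (y : Space d) (i : Fin d) :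
    chVal c a P r y i = ∑ l, c l * Pt (a l) (fun y' => uR P i (r * a l, y')) y := by
  simp only [chVal, WithLp.ofLp_sum, Finset.sum_apply, PiLp.smul_apply, smul_eq_mul]
  refine Finset.sum_congr rfl fun l _ => ?_
  congr 1
  exact ((EuclideanSpace.proj (𝕜 := ℝ) i).integral_comp_comm (chan_drift_int P (hr l) y)).symm

/-- The stand-in is close to the drift in square mean along the exact trajectory. -/
theorem matched_flow (n : ℕ) : ∃ (c : Fin (n + 1) → ℝ) (C : ℝ), 0 ≤ C ∧
    ∀ d h (P : Pot d h), h ≤ 1 → ∀ R ∈ Ioo (0 : ℝ) 1, ∀ r ∈ Ico (0 : ℝ) R, ∀ S : ℝ, 0 ≤ S →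
      ∀ a : Fin (n + 1) → ℝ, (∀ l, a l = Real.exp (-(S * ((l : ℝ) + 1)))) →
      Integrable (fun ξ => ‖chVal c a P r (flow P R ξ r) - velY P R r ξ‖ ^ 2) (gam d) ∧
      ∫ ξ, ‖chVal c a P r (flow P R ξ r) - velY P R r ξ‖ ^ 2 ∂gam d
        ≤ C * S ^ (2 * (n + 1)) * siz P * (((1 - r ^ 2)⁻¹) ^ (2 * (n + 1))) := by
  obtain ⟨c, C, hC, hb⟩ := matched_drift n
  refine ⟨c, C, hC, fun d h P hh R hR r hr S hS a ha => ?_⟩
  have hrm : r ∈ Ioo (-1 : ℝ) 1 := mem_dom hR ⟨by linarith [hr.1, hR.1], hr.2⟩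
  have hal : ∀ l, a l ∈ Icc (0 : ℝ) 1 := fun l => by
    rw [ha l]; exact ⟨(Real.exp_pos _).le, Real.exp_le_one_iff.2 (neg_nonpos.2 (by positivity))⟩
  have hra : ∀ l, r * a l ∈ Ioo (-1 : ℝ) 1 := fun l =>
    ⟨by nlinarith [mul_nonneg hr.1 (hal l).1],
      lt_of_le_of_lt (mul_le_of_le_one_right hr.1 (hal l).2) hrm.2⟩
  have hmp := flow_mp (P := P) hh hR hr hrm
  have := mu_prob (potR P r hrm)
  set F : Space d → ℝ := fun x => ‖chVal c a P r x - driftV P (chan (r, x))‖ ^ 2
  have hcont : Continuous fun x => chVal c a P r x - driftV P (chan (r, x)) :=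
    (LipschitzWith.of_dist_le_mul (K := ⟨h * ∑ l, |c l|, mul_nonneg P.h_nonneg
      (Finset.sum_nonneg fun l _ => abs_nonneg _)⟩) fun x y => by
      rw [dist_eq_norm, dist_eq_norm]
      exact chVal_lip c a P hra (fun l => abs_le.2 ⟨by linarith [(hal l).1], (hal l).2⟩) x y
      ).continuous.sub (contDiffOn_velocity' P r hrm).continuous
  have hFi : Integrable F (mu (potR P r hrm)) := by
    refine mu_int (hcont.norm.pow 2).measurable (grow_pow (grow_mono (g := fun x =>
      ‖chVal c a P r 0 - driftV P (chan (r, 0))‖ + (h * (∑ l, |c l|) + h) * ‖x‖)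
      (grow_add (grow_const _) (grow_mul (grow_const _) (grow_norm grow_id))) fun x => ?_) 2)
    rw [Real.norm_eq_abs, abs_of_nonneg (norm_nonneg _)]
    refine le_trans ?_ (le_abs_self _)
    have h1 := chVal_lip c a P hra (fun l => abs_le.2 ⟨by linarith [(hal l).1], (hal l).2⟩) x 0
    have h2 := drift_slice_lip P hrm x 0
    rw [sub_zero] at h1 h2
    have h3 := norm_le_norm_add_norm_sub' (chVal c a P r x - driftV P (chan (r, x)))
      (chVal c a P r 0 - driftV P (chan (r, 0)))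
    rw [sub_sub_sub_comm] at h3
    linarith [norm_sub_le (chVal c a P r x - chVal c a P r 0)
      (driftV P (chan (r, x)) - driftV P (chan (r, 0)))]
  refine ⟨(hmp.integrable_comp hFi.aestronglyMeasurable).2 hFi, ?_⟩
  have e1 : ∫ ξ, F (flow P R ξ r) ∂gam d = ∫ x, F x ∂mu (potR P r hrm) := by
    rw [← hmp.map_eq, integral_map hmp.measurable.aemeasurable
      (hmp.map_eq ▸ hFi.aestronglyMeasurable)]
  show ∫ ξ, F (flow P R ξ r) ∂gam d ≤ _
  rw [e1]
  refine (le_of_eq (integral_congr_ae (ae_of_all _ fun x => ?_))).trans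
    ((hb d h P hh r hrm S hS).trans_eq ?_)
  · simp only [F, EuclideanSpace.real_norm_sq_eq, PiLp.sub_apply, chVal_apply c a P hra, ha,
      driftV_apply, uR]
  · simp only [wgt, pow_mul, inv_pow, Real.sq_sqrt (var_pos hrm).le]
    simp only [← pow_mul, mul_comm 2 (n + 1)]

end Vale.Agent.P347.Zero
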