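import Vale.Agent.P347.Zero.GridDefs
import Vale.Agent.P347.Zero.FlowExt

/-!
The collocated trajectory as a vector: it is the Picard iterate of the matched combination of
channels, and it is continuous in its start.
-/

noncomputable section

open MeasureTheory Filter Topology Set
open scoped RealInnerProductSpace NNReal

namespace Vale.Agent.P347.Zero

variable {γ H B δv S : ℝ} {ν : ℕ}

theorem sum_ev {d : ℕ} (f : Fin d → ℝ) (u : Fin d) : (∑ c, f c • ev c) u = f u := by
  simp [Finset.sum_apply, Pi.single_apply]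

/-- In large dimension the channel factors are matched to the time `d ^ (-S)`. -/
theorem chA_ev (hδ : 0 < δv) (hS : δv < S) (ν : ℕ) : ∀ᶠ d : ℕ in atTop, ∀ l < ν,
    chA δv S d l = Real.exp (-((d : ℝ) ^ (-S) * ((l : ℝ) + 1))) := by
  have h1 : ∀ᶠ d : ℕ in atTop, 2 * (ν : ℝ) ≤ (d : ℝ) ^ (S - δv) :=
    ((tendsto_rpow_atTop (sub_pos.2 hS)).comp tendsto_natCast_atTop_atTop).eventually_ge_atTop _
  have h2 : ∀ᶠ d : ℕ in atTop, (4 / 3 : ℝ) ≤ (d : ℝ) ^ δv :=
    ((tendsto_rpow_atTop hδ).comp tendsto_natCast_atTop_atTop).eventually_ge_atTop _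
  filter_upwards [h1, h2, eventually_ge_atTop 2] with d hν hd hd2 l hl
  have hd0 : (0 : ℝ) < d := by exact_mod_cast (by omega : 0 < d)
  set τ := (d : ℝ) ^ (-S)
  have hτ : 0 < τ := Real.rpow_pos_of_pos hd0 _
  have hl' : (l : ℝ) + 1 ≤ ν := by exact_mod_cast hl
  have hl0 : (1 : ℝ) ≤ (l : ℝ) + 1 := le_add_of_nonneg_left (Nat.cast_nonneg _)
  set x := 2 * τ * ((l : ℝ) + 1) with hx
  have hx0 : 2 * τ ≤ x := le_mul_of_one_le_right (by positivity) hl0
  have hxd : x ≤ (d : ℝ) ^ (-δv) := by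
    refine (mul_le_mul_of_nonneg_left hl' (by positivity)).trans ?_
    rw [show 2 * τ * (ν : ℝ) = τ * (2 * ν) by ring,
      show -δv = -S + (S - δv) by ring, Real.rpow_add hd0]
    exact mul_le_mul_of_nonneg_left hν hτ.le
  have hd34 : (d : ℝ) ^ (-δv) ≤ 3 / 4 := by
    rw [Real.rpow_neg hd0.le, inv_le_comm₀ (Real.rpow_pos_of_pos hd0 _) (by norm_num)]
    linarith
  have he1 : 1 - Real.exp (-x) ≤ x := by linarith [Real.add_one_le_exp (-x)]
  have he2 : τ / 4 ≤ 1 - Real.exp (-x) := by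
    have h3 : Real.exp (-x) ≤ 1 / (1 + x) := by
      rw [Real.exp_neg, one_div]
      exact inv_anti₀ (by linarith) (by linarith [Real.add_one_le_exp x])
    have h4 : 1 / (1 + x) ≤ 1 - τ / 4 := by
      rw [div_le_iff₀ (by linarith)]
      nlinarith
    linarith
  rw [chA, chS, max_eq_right, min_eq_right, min_eq_right, sub_sub_cancel, ← Real.exp_half]
  · congr 1; ring
  all_goals rw [show 2 * τ * ((l : ℝ) + 1) = x from rfl]
  · linarith
  · rw [min_eq_right] <;> linarith
  · exact he2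

theorem QI.hs_props (i : QI γ H) : 0 < i.hs ∧ i.hs ≤ (i.d : ℝ) ^ (-γ) :=
  ⟨lt_of_lt_of_le (Real.rpow_pos_of_pos (by
      have := i.two_le
      exact_mod_cast (by omega : 0 < i.d)) _) i.le_h,
    (mul_le_of_le_one_right i.P.h_nonneg (pow_le_one₀ i.σ_pos.le i.σ_le)).trans i.h_le⟩

theorem QI.sqrt_siz_le (i : QI γ H) (p : Space i.d) :
    Real.sqrt (siz (i.pot p)) ≤ 2 * i.d * (1 + ‖i.P.g (i.σ • p)‖) := by
  set N := ‖i.P.g (i.σ • p)‖ with hN
  have hN0 : 0 ≤ N := norm_nonneg _
  have e : ‖(i.pot p).g 0‖ ≤ N := by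
    show ‖i.σ • i.P.g (i.σ • p + i.σ • 0)‖ ≤ N
    rw [smul_zero, add_zero, norm_smul, Real.norm_eq_abs, abs_of_pos i.σ_pos, ← hN]
    exact mul_le_of_le_one_left hN0 i.σ_le
  have hd : (2 : ℝ) ≤ i.d := by exact_mod_cast i.two_le
  rw [Real.sqrt_le_left (by positivity), siz]
  have h1 := pow_le_pow_left₀ (norm_nonneg _) e 2
  nlinarith [mul_le_mul hd hd (by norm_num) (by linarith), mul_nonneg hN0 hN0,
    mul_nonneg (sq_nonneg (i.d : ℝ)) hN0]

/-- The collocated trajectory as a vector. -/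
def trajV (G : Grid δv) (hδ : 0 < δv) (hS : δv ≤ S) (c : Fin ν → ℝ) (B : ℝ) (k : ℕ) (i : QI γ H)
    (p : Space i.d) (z : Unit → Space i.d) (b : ℕ) : Space i.d :=
  vecOf (iter (γ := γ) (H := H) (B := B) G hδ hS c k) (i, b) p z

variable (G : Grid δv) (hδ : 0 < δv) (hS : δv ≤ S) (c : Fin ν → ℝ) (i : QI γ H) (p : Space i.d)

include hδ hS in
theorem node_chan (b l : ℕ) : G.node i.d b * chA δv S i.d l ∈ Ioo (-1 : ℝ) 1 := by
  have ha := (chA_props hS i.two_le hδ l).1
  have h1 := (G.node_var i.d b i.two_le).trans (var_le_mul ha)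
  have h2 : 0 < (i.d : ℝ) ^ (-δv) := Real.rpow_pos_of_pos (by
    have := i.two_le
    exact_mod_cast (by omega : 0 < i.d)) _
  refine abs_lt.1 ((sq_lt_one_iff_abs_lt_one _).1 ?_)
  linarith

theorem trajV_zero (z : Unit → Space i.d) (b : ℕ) : trajV G hδ hS c B 0 i p z b = z () := by
  ext u
  exact sum_ev _ u

/-- The trajectory is the Picard iterate of the matched combination. -/
theorem trajV_succ (k : ℕ) (z : Unit → Space i.d) (a : ℕ) :
    trajV G hδ hS c B (k + 1) i p z a = z () - ∑ b ∈ Finset.range (G.m i.d), G.W i.d a b •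
      chVal c (fun l : Fin ν => chA δv S i.d l) (i.pot p) (G.node i.d b)
        (trajV G hδ hS c B k i p z b) := by
  ext u
  refine (sum_ev _ u).trans ?_
  have key : ∀ (b : ℕ) (l : Fin ν) (e : Space i.d),
      vtx 0 (toNodes G hδ hS (iter (γ := γ) (H := H) (B := B) G hδ hS c k)) (i, b, (l : ℕ)) p
        (Sum.elim z fun _ => e) (fun o => o.elim u Fin.elim0)
      = driftV (i.pot p) (chan (G.node i.d b * chA δv S i.d l,
          chA δv S i.d l • trajV G hδ hS c B k i p z b
            + Real.sqrt (1 - chA δv S i.d l ^ 2) • e)) u / i.hs := fun b l e => by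
    simp only [vtx, driftT, pow_zero, one_mul]
    rfl
  show z () u - i.hs * ∑ b ∈ Finset.range (G.m i.d), G.W i.d a b * ∑ l : Fin ν,
    c l * ∫ e, vtx 0 (toNodes G hδ hS (iter (γ := γ) (H := H) (B := B) G hδ hS c k))
      (i, b, (l : ℕ)) p (Sum.elim z fun _ => e) (fun o => o.elim u Fin.elim0) ∂gam i.d = _
  simp only [key, integral_div, PiLp.sub_apply, WithLp.ofLp_sum, Finset.sum_apply, PiLp.smul_apply,
    smul_eq_mul, chVal, Finset.mul_sum]
  congr 1
  refine Finset.sum_congr rfl fun b _ => Finset.sum_congr rfl fun l _ => ?_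
  have h1 := (EuclideanSpace.proj (𝕜 := ℝ) u).integral_comp_comm
    (chan_drift_int (i.pot p) (a := chA δv S i.d l) (node_chan G hδ hS i b l)
      (trajV G hδ hS c B k i p z b))
  simp only [EuclideanSpace.proj, PiLp.proj_apply] at h1
  rw [← h1]
  have := i.hs_props.1.ne'
  field_simp

theorem trajV_cont (k b : ℕ) : Continuous fun z => trajV G hδ hS c B k i p z b := by
  induction k generalizing b with
  | zero => simp only [trajV_zero]; fun_prop
  | succ k ih =>
    simp only [trajV_succ]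
    refine (continuous_apply ()).sub (continuous_finsetSum _ fun b' _ =>
      (continuous_const_smul (G.W i.d b b')).comp ?_)
    have hlip : LipschitzWith ⟨i.hs * ∑ l, |c l|, mul_nonneg (i.pot p).h_nonneg
        (Finset.sum_nonneg fun l _ => abs_nonneg _)⟩
        (chVal c (fun l : Fin ν => chA δv S i.d l) (i.pot p) (G.node i.d b')) :=
      LipschitzWith.of_dist_le_mul fun x y => by
        rw [dist_eq_norm, dist_eq_norm]
        refine chVal_lip c _ (i.pot p) (fun l => node_chan G hδ hS i b' l) (fun l => ?_) x y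
        have := (chA_props hS i.two_le hδ (l : ℕ)).1
        exact abs_le.2 ⟨by linarith [this.1], this.2⟩
    exact hlip.continuous.comp (ih b')

end Vale.Agent.P347.Zero
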