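import Vale.Agent.P347.Zero.GridMake
import Vale.Agent.P347.Zero.MeanIter

/-!
The end of the collocated trajectory is the exact flow to every power of the dimension, and the
drift read at its channel has the mean of the gradient.
-/

noncomputable section

open MeasureTheory ProbabilityTheory Filter Topology Set
open scoped RealInnerProductSpace NNReal

namespace Vale.Agent.P347.Zero

variable {γ H B δv S : ℝ} {d : ℕ} {h : ℝ}

theorem int_le_of_sq {α : Type} {mα : MeasurableSpace α} {μ : Measure α} [IsProbabilityMeasure μ]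
    {f : α → ℝ} (h0 : ∀ x, 0 ≤ f x) (hi : Integrable (fun x => f x ^ 2) μ) {A : ℝ} (hA0 : 0 ≤ A)
    (hA : ∫ x, f x ^ 2 ∂μ ≤ A ^ 2) : Integrable f μ ∧ ∫ x, f x ∂μ ≤ A := by
  have hm : AEStronglyMeasurable f μ := by
    have := Real.continuous_sqrt.comp_aestronglyMeasurable hi.aestronglyMeasurable
    simpa only [Real.sqrt_sq (h0 _)] using this
  have hf : Integrable f μ := ((integrable_const (1 : ℝ)).add hi).mono' hm (ae_of_all _ fun x => by
    rw [Real.norm_eq_abs, abs_of_nonneg (h0 x), Pi.add_apply]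
    nlinarith [sq_nonneg (f x - 1)])
  refine ⟨hf, ?_⟩
  set c := ∫ x, f x ∂μ with hc
  have h1 : 0 ≤ ∫ x, (f x - c) ^ 2 ∂μ := integral_nonneg fun x => sq_nonneg _
  have e : ∀ x, (f x - c) ^ 2 = (f x ^ 2 - 2 * c * f x) + c ^ 2 := fun x => by ring
  have i1 : Integrable (fun x => f x ^ 2 - 2 * c * f x) μ := hi.sub (hf.const_mul _)
  simp only [e] at h1
  rw [integral_add i1 (integrable_const _), integral_sub hi (hf.const_mul _),
    integral_const_mul, ← hc, integral_const, probReal_univ, one_smul] at h1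
  exact le_of_sq_le_sq (by linarith) hA0

/-- The end of the collocated trajectory is close to the flow in mean. -/
theorem endVec_close (γ H : ℝ) (hγ : 0 < γ) (hδ : 0 < δv) (hS : δv < S) (K : ℝ) :
    ∃ (G : Grid δv) (ν : ℕ) (c : Fin ν → ℝ) (k : ℕ) (d₀ : ℕ), ∀ (B : ℝ) (i : QI γ H), d₀ ≤ i.d →
      G.node i.d (G.last i.d) ∈ Ioo (0 : ℝ) 1 ∧
      ∀ p : Space i.d,
        Continuous (fun z => endVec (B := B) G hδ hS.le c k i p z) ∧
        Integrable (fun z => ‖endVec (B := B) G hδ hS.le c k i p z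
            - flow (i.pot p) (G.node i.d (G.last i.d)) (z ()) (G.node i.d (G.last i.d))‖)
          (gp Unit i.d) ∧
        ∫ z, ‖endVec (B := B) G hδ hS.le c k i p z
            - flow (i.pot p) (G.node i.d (G.last i.d)) (z ()) (G.node i.d (G.last i.d))‖
          ∂gp Unit i.d ≤ (i.d : ℝ) ^ (-K) * (1 + ‖i.P.g (i.σ • p)‖) := by
  set T := |K| + 3 with hT
  have hT0 : 0 < T := by positivity
  obtain ⟨G, ω, hωs, hW, hnode, hend, herr⟩ := grid_make hδ hT0.le
  set n := ⌈T / (S - δv)⌉₊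
  obtain ⟨c, CM, hCM, hmat⟩ := matched_flow n
  obtain ⟨CD, hCD, hmove⟩ := flow_move
  set k := ⌈2 * T / γ⌉₊
  set Cs := ∑ l, |c l|
  have hn : T ≤ ((n + 1 : ℕ) : ℝ) * (S - δv) := by
    rw [← div_le_iff₀ (sub_pos.2 hS)]
    push_cast
    linarith [Nat.le_ceil (T / (S - δv))]
  have hk : T ≤ (k : ℝ) * (γ / 2) := by
    rw [← div_le_iff₀ (by positivity), div_div_eq_mul_div, mul_comm T 2]
    exact Nat.le_ceil _
  set Ct := 4 + 4 * Real.sqrt CM + 2 * Real.sqrt CD
  have big : ∀ {e : ℝ}, 0 < e → ∀ X : ℝ, ∀ᶠ d : ℕ in atTop, X ≤ (d : ℝ) ^ e := fun he X =>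
    ((tendsto_rpow_atTop he).comp tendsto_natCast_atTop_atTop).eventually_ge_atTop X
  obtain ⟨d₀, hev⟩ := eventually_atTop.1 ((eventually_ge_atTop 2).and ((chA_ev hδ hS (n + 1)).and
    ((hωs (min (γ / 4) 1) (by positivity)).and (herr.and ((big (by positivity : (0 : ℝ) < γ / 4) Cs).and
      ((big (by positivity : (0 : ℝ) < γ / 2) 2).and
        (tendsto_natCast_atTop_atTop.eventually_ge_atTop Ct)))))))
  refine ⟨G, n + 1, c, k, d₀, fun B i hi => ?_⟩
  obtain ⟨hd2, hA, hω, hM', hCs, hq2, hCt⟩ := hev i.d hi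
  have hd1 : (1 : ℝ) < i.d := by exact_mod_cast (by omega : 1 < i.d)
  have hd0 : (0 : ℝ) < i.d := by linarith
  set re := G.node i.d (G.last i.d)
  have hre : re ∈ Ioo (0 : ℝ) 1 := by
    refine ⟨lt_of_le_of_ne (G.node_mem _ _).1 fun e => ?_, hend i.d⟩
    have h1 : 1 - re ^ 2 = (i.d : ℝ) ^ (-δv) := G.last_var i.d hd2
    rw [← e] at h1
    have := Real.rpow_lt_one_of_one_lt_of_neg hd1 (neg_lt_zero.2 hδ)
    linarith
  refine ⟨hre, fun p => ?_⟩
  obtain ⟨hhs0, hhsγ⟩ := i.hs_props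
  have hh1 : i.hs ≤ 1 :=
    hhsγ.trans (Real.rpow_le_one_of_one_le_of_nonpos hd1.le (by linarith))
  set R := (1 + re) / 2
  have hR : R ∈ Ioo (0 : ℝ) 1 :=
    ⟨by show 0 < (1 + re) / 2; linarith [hre.1], by show (1 + re) / 2 < 1; linarith [hre.2]⟩
  have hreR : re < R := by show re < (1 + re) / 2; linarith [hre.2]
  set P := i.pot p
  set A : Fin (n + 1) → ℝ := fun l => chA δv S i.d l
  have hAe : ∀ l : Fin (n + 1), A l = Real.exp (-((i.d : ℝ) ^ (-S) * ((l : ℝ) + 1))) :=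
    fun l => hA l l.2
  have hAle : ∀ l, |A l| ≤ 1 := fun l => by
    have := (chA_props hS.le i.two_le hδ (l : ℕ)).1
    exact abs_le.2 ⟨by linarith [this.1], this.2⟩
  have hnR : ∀ b, G.node i.d b ∈ Ico (0 : ℝ) R := fun b =>
    ⟨(G.node_mem _ _).1, (hnode i.d b).trans_lt hreR⟩
  obtain ⟨M, hM0, hMi, hMb, hM⟩ := hM' i.hs P R hh1 hR hreR
  obtain ⟨D, hD0, hDi, hDb, hD⟩ := hmove i.d i.hs P R re hh1 hR ⟨hre.1.le, hreR⟩
  set N₀ := ‖i.P.g (i.σ • p)‖
  set Bn := 2 * (i.d : ℝ) * (1 + N₀)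
  have hN0 : (0 : ℝ) ≤ N₀ := norm_nonneg _
  have hBn0 : 0 ≤ Bn := by positivity
  have hBn : siz P ≤ Bn ^ 2 := (Real.sqrt_le_left hBn0).1 (i.sqrt_siz_le p)
  set U : ℕ → Space i.d → ℝ := fun b ξ =>
    ‖chVal c A P (G.node i.d b) (flow P R ξ (G.node i.d b)) - velY P R (G.node i.d b) ξ‖
  set F : Space i.d → ℝ := fun ξ => 2 * (M ξ + ∑ b ∈ Finset.range (G.m i.d), ω i.d b * U b ξ)
    + ((i.d : ℝ) ^ (-(γ / 2))) ^ k * D ξ
  -- the three error terms
  obtain ⟨iM, bM⟩ : Integrable M (gam i.d) ∧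
      ∫ ξ, M ξ ∂gam i.d ≤ (i.d : ℝ) ^ (1 / 2 - T) * Bn := by
    refine int_le_of_sq hM0 hMi (by positivity) (hMb.trans ?_)
    rw [mul_pow, ← Real.rpow_natCast _ 2, ← Real.rpow_mul hd0.le,
      show (1 / 2 - T) * ((2 : ℕ) : ℝ) = 1 - 2 * T by push_cast; ring]
    exact mul_le_mul_of_nonneg_left hBn (by positivity)
  obtain ⟨iD, bD⟩ : Integrable D (gam i.d) ∧ ∫ ξ, D ξ ∂gam i.d ≤ Real.sqrt CD * Bn := by
    refine int_le_of_sq hD0 hDi (by positivity) (hDb.trans ?_)
    rw [mul_pow, Real.sq_sqrt hCD]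
    exact mul_le_mul_of_nonneg_left hBn hCD
  have hU : ∀ b, Integrable (U b) (gam i.d) ∧
      ∫ ξ, U b ξ ∂gam i.d ≤ Real.sqrt CM * (i.d : ℝ) ^ (-T) * Bn := fun b => by
    obtain ⟨iU, bU⟩ := hmat i.d i.hs P hh1 R hR (G.node i.d b) (hnR b) ((i.d : ℝ) ^ (-S))
      (Real.rpow_nonneg hd0.le _) A hAe
    refine int_le_of_sq (A := Real.sqrt CM * (i.d : ℝ) ^ (-T) * Bn) (fun ξ => norm_nonneg _) iU
      (by positivity) (bU.trans ?_)
    set v := 1 - G.node i.d b ^ 2
    have hv : (i.d : ℝ) ^ (-δv) ≤ v := G.node_var i.d b hd2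
    have hv0 : 0 < v := lt_of_lt_of_le (Real.rpow_pos_of_pos hd0 _) hv
    have h1 : (i.d : ℝ) ^ (-S) * v⁻¹ ≤ (i.d : ℝ) ^ (δv - S) := by
      rw [← div_eq_mul_inv, div_le_iff₀ hv0]
      refine le_trans (le_of_eq ?_) (mul_le_mul_of_nonneg_left hv (by positivity))
      rw [← Real.rpow_add hd0]; congr 1; ring
    have h2 : ((i.d : ℝ) ^ (-S) * v⁻¹) ^ (n + 1) ≤ (i.d : ℝ) ^ (-T) := by
      refine (pow_le_pow_left₀ (by positivity) h1 _).trans ?_
      rw [← Real.rpow_natCast, ← Real.rpow_mul hd0.le]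
      exact Real.rpow_le_rpow_of_exponent_le hd1.le (by nlinarith [hn])
    calc CM * ((i.d : ℝ) ^ (-S)) ^ (2 * (n + 1)) * siz P * v⁻¹ ^ (2 * (n + 1))
        = CM * (((i.d : ℝ) ^ (-S) * v⁻¹) ^ (n + 1)) ^ 2 * siz P := by ring
      _ ≤ CM * ((i.d : ℝ) ^ (-T)) ^ 2 * Bn ^ 2 :=
          mul_le_mul (mul_le_mul_of_nonneg_left (pow_le_pow_left₀ (by positivity) h2 2) hCM) hBn
            (siz_pos P).le (by positivity)
      _ = (Real.sqrt CM * (i.d : ℝ) ^ (-T) * Bn) ^ 2 := by
          rw [mul_pow (Real.sqrt CM * (i.d : ℝ) ^ (-T)) Bn, mul_pow (Real.sqrt CM),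
            Real.sq_sqrt hCM]
  -- the pointwise bound
  have hclose : ∀ z : Unit → Space i.d,
      ‖endVec (B := B) G hδ hS.le c k i p z - flow P re (z ()) re‖ ≤ F (z ()) := by
    intro z
    rw [flow_eq hh1 hre hR hreR.le (z ())]
    set ξ := z ()
    set f : Option (Fin (G.m i.d)) → ℕ := fun o => o.elim (G.last i.d) Fin.val
    have := picard_err (d := i.d) (fun o o' => o'.elim 0 fun b => G.W i.d (f o) b)
      (fun o => o.elim 0 fun b => ω i.d b)
      (fun o o' => by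
        cases o'
        · simp
        · exact hW _ _ _)
      (L := i.hs * Cs) (q := (i.d : ℝ) ^ (-(γ / 2)))
      (mul_nonneg hhs0.le (Finset.sum_nonneg fun l _ => abs_nonneg _)) ?_ ?_
      (fun o => flow P R ξ (G.node i.d (f o))) (fun o => velY P R (G.node i.d (f o)) ξ)
      (fun o => chVal c A P (G.node i.d (f o)))
      (fun o x y => chVal_lip c A P (fun l => node_chan G hδ hS.le i _ l) hAle x y) ξ
      (fun j o => trajV G hδ hS.le c B j i p z (f o))
      (fun j o => by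
        rw [trajV_succ, Fintype.sum_option, Option.elim_none, zero_smul, zero_add,
          ← Fin.sum_univ_eq_sum_range]
        rfl)
      (M := M ξ) (D := D ξ) ?_ ?_ k none
    · simp only [Fintype.sum_option, Option.elim_none, Option.elim_some, zero_mul, zero_add, f] at this
      rw [Fin.sum_univ_eq_sum_range (fun b => ω i.d b * U b ξ)] at this
      exact this
    · simp only [Fintype.sum_option, Option.elim_none, Option.elim_some, zero_add]
      rw [Fin.sum_univ_eq_sum_range fun b => ω i.d b]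
      refine (mul_le_mul (mul_le_mul hhsγ hCs (Finset.sum_nonneg fun l _ => abs_nonneg _)
        (by positivity)) (hω.trans (Real.rpow_le_rpow_of_exponent_le hd1.le (min_le_left _ _)))
        (Finset.sum_nonneg fun b _ => (abs_nonneg _).trans (hW i.d 0 b)) (by positivity)).trans_eq ?_
      rw [← Real.rpow_add hd0, ← Real.rpow_add hd0]; congr 1; ring
    · rw [Real.rpow_neg hd0.le, one_div]
      exact inv_anti₀ two_pos hq2
    · intro o
      have := hM ξ (f o) (by cases o <;> simp [f])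
      rw [Fintype.sum_option]
      simp only [Option.elim_none, zero_smul, zero_add]
      simp only [f, Option.elim_some]
      rwa [Fin.sum_univ_eq_sum_range fun b => G.W i.d (f o) b • velY P R (G.node i.d b) ξ]
    · intro o
      rw [trajV_zero, norm_sub_rev]
      exact hD ξ _ ⟨(G.node_mem _ _).1, hnode _ _⟩
  -- integration
  have hev : MeasurePreserving (fun z : Unit → Space i.d => z ()) (gp Unit i.d) (gam i.d) :=
    measurePreserving_eval _ ()
  have iS : Integrable (fun ξ => M ξ + ∑ b ∈ Finset.range (G.m i.d), ω i.d b * U b ξ) (gam i.d) :=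
    iM.add (integrable_finsetSum _ fun b _ => (hU b).1.const_mul _)
  have iF : Integrable F (gam i.d) := (iS.const_mul 2).add (iD.const_mul _)
  have iFz : Integrable (fun z : Unit → Space i.d => F (z ())) (gp Unit i.d) :=
    (hev.integrable_comp iF.aestronglyMeasurable).2 iF
  have hcont : Continuous (fun z => endVec (B := B) G hδ hS.le c k i p z) :=
    trajV_cont G hδ hS.le c i p k (G.last i.d)
  have hfl : Continuous fun z : Unit → Space i.d => flow P re (z ()) re := by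
    simp only [flow_eq hh1 hre hR hreR.le]
    exact (flow_lip hh1 hR ⟨hre.1.le, hreR⟩).continuous.comp (continuous_apply ())
  have iG := iFz.mono' (hcont.sub hfl).norm.aestronglyMeasurable (ae_of_all _ fun z => by
    rw [norm_norm]; exact hclose z)
  refine ⟨hcont, iG, ?_⟩
  refine (integral_mono iG iFz fun z => hclose z).trans ?_
  rw [← integral_map hev.measurable.aemeasurable (by rw [hev.map_eq]; exact iF.aestronglyMeasurable),
    hev.map_eq]
  simp only [F]
  rw [integral_add (iS.const_mul 2) (iD.const_mul _), integral_const_mul, integral_const_mul,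
    integral_add iM (integrable_finsetSum _ fun b _ => (hU b).1.const_mul _),
    integral_finsetSum _ fun b _ => (hU b).1.const_mul _]
  simp only [integral_const_mul]
  have hω1 : ∑ b ∈ Finset.range (G.m i.d), ω i.d b ≤ (i.d : ℝ) ^ (1 : ℝ) :=
    hω.trans (Real.rpow_le_rpow_of_exponent_le hd1.le (min_le_right _ _))
  have b2 : ∑ b ∈ Finset.range (G.m i.d), ω i.d b * ∫ ξ, U b ξ ∂gam i.d
      ≤ (i.d : ℝ) ^ (1 : ℝ) * (Real.sqrt CM * (i.d : ℝ) ^ (-T) * Bn) := by
    refine (Finset.sum_le_sum fun b _ => mul_le_mul_of_nonneg_left (hU b).2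
      ((abs_nonneg _).trans (hW i.d 0 b))).trans ?_
    rw [← Finset.sum_mul]
    exact mul_le_mul_of_nonneg_right hω1 (by positivity)
  have b3 : ((i.d : ℝ) ^ (-(γ / 2))) ^ k * ∫ ξ, D ξ ∂gam i.d
      ≤ (i.d : ℝ) ^ (-T) * (Real.sqrt CD * Bn) := by
    refine mul_le_mul ?_ bD (integral_nonneg hD0) (by positivity)
    rw [← Real.rpow_natCast, ← Real.rpow_mul hd0.le]
    exact Real.rpow_le_rpow_of_exponent_le hd1.le (by linarith)
  -- collecting the powers
  set w := (i.d : ℝ) ^ (-|K| - 1)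
  have e0 : ∀ e : ℝ, e ≤ -|K| - 2 → (i.d : ℝ) ^ e * Bn ≤ 2 * w * (1 + N₀) := fun e he => by
    rw [show (i.d : ℝ) ^ e * Bn = 2 * ((i.d : ℝ) ^ e * i.d) * (1 + N₀) by ring,
      ← Real.rpow_add_one hd0.ne']
    exact mul_le_mul_of_nonneg_right (mul_le_mul_of_nonneg_left
      (Real.rpow_le_rpow_of_exponent_le hd1.le (by linarith)) zero_le_two) (by linarith)
  have e2 : (i.d : ℝ) ^ (1 : ℝ) * (Real.sqrt CM * (i.d : ℝ) ^ (-T) * Bn)
      ≤ Real.sqrt CM * (2 * w * (1 + N₀)) := by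
    rw [show (i.d : ℝ) ^ (1 : ℝ) * (Real.sqrt CM * (i.d : ℝ) ^ (-T) * Bn)
      = Real.sqrt CM * ((i.d : ℝ) ^ (1 : ℝ) * (i.d : ℝ) ^ (-T) * Bn) by ring, ← Real.rpow_add hd0]
    exact mul_le_mul_of_nonneg_left (e0 _ (by linarith)) (Real.sqrt_nonneg _)
  have e3 : (i.d : ℝ) ^ (-T) * (Real.sqrt CD * Bn) ≤ Real.sqrt CD * (2 * w * (1 + N₀)) := by
    rw [mul_left_comm]
    exact mul_le_mul_of_nonneg_left (e0 _ (by linarith)) (Real.sqrt_nonneg _)
  have e1 := e0 (1 / 2 - T) (by linarith)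
  calc 2 * (∫ ξ, M ξ ∂gam i.d + ∑ b ∈ Finset.range (G.m i.d), ω i.d b * ∫ ξ, U b ξ ∂gam i.d)
        + ((i.d : ℝ) ^ (-(γ / 2))) ^ k * ∫ ξ, D ξ ∂gam i.d
      ≤ 2 * (2 * w * (1 + N₀) + Real.sqrt CM * (2 * w * (1 + N₀)))
        + Real.sqrt CD * (2 * w * (1 + N₀)) := by linarith
    _ = Ct * w * (1 + N₀) := by ring
    _ ≤ (i.d : ℝ) * w * (1 + N₀) :=
        mul_le_mul_of_nonneg_right (mul_le_mul_of_nonneg_right hCt (by positivity)) (by linarith)
    _ ≤ (i.d : ℝ) ^ (-K) * (1 + N₀) := by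
        refine mul_le_mul_of_nonneg_right ?_ (by linarith)
        rw [mul_comm, ← Real.rpow_add_one hd0.ne']
        exact Real.rpow_le_rpow_of_exponent_le hd1.le (by linarith [le_abs_self K])

/-- The mean of the drift at the channel of a point that is distributed as the channel. -/
theorem channel_mean (P : Pot d h) (hh : h ≤ 1) {r a : ℝ} (hr : r ∈ Ioo (0 : ℝ) 1)
    (ha : a ∈ Icc (0 : ℝ) 1) (u : Fin d) {Y : (Unit → Space d) → Space d} (hY : Continuous Y)
    (hi : Integrable (fun z => ‖Y z - flow P r (z ()) r‖) (gp Unit d)) :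
    |(∫ z, ∫ e, driftV P (chan (r * a, a • Y z + Real.sqrt (1 - a ^ 2) • e)) u ∂gam d ∂gp Unit d)
        - ∫ x, P.g x u ∂mu P|
      ≤ ∫ z, ‖Y z - flow P r (z ()) r‖ ∂gp Unit d := by
  have hra : r * a ∈ Ioo (-1 : ℝ) 1 := ⟨by nlinarith [hr.1, ha.1],
    lt_of_le_of_lt (mul_le_of_le_one_right hr.1.le ha.2) hr.2⟩
  set f : Space d → ℝ := fun y => driftV P (chan (r * a, y)) u with hf
  have hfl : ∀ x y, |f x - f y| ≤ h * ‖x - y‖ := fun x y => by
    refine le_trans ?_ (drift_slice_lip P hra x y)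
    rw [hf]
    exact PiLp.norm_apply_le (driftV P (chan (r * a, x)) - driftV P (chan (r * a, y))) u
  set Φ : Space d → ℝ := fun y => ∫ e, f (a • y + Real.sqrt (1 - a ^ 2) • e) ∂gam d with hΦ
  have hint : ∀ y, Integrable (fun e => f (a • y + Real.sqrt (1 - a ^ 2) • e)) (gam d) := fun y =>
    (EuclideanSpace.proj (𝕜 := ℝ) u).integrable_comp (chan_drift_int P hra y)
  have hΦl : ∀ x y, |Φ x - Φ y| ≤ ‖x - y‖ := fun x y => by
    rw [hΦ, ← integral_sub (hint x) (hint y), ← Real.norm_eq_abs]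
    refine (norm_integral_le_of_norm_le (integrable_const ‖x - y‖) (ae_of_all _ fun e => ?_)).trans_eq
      (by simp)
    refine (hfl _ _).trans (le_trans (mul_le_mul_of_nonneg_left ?_ P.h_nonneg)
      (mul_le_of_le_one_left (norm_nonneg _) hh))
    rw [add_sub_add_right_eq_sub, ← smul_sub, norm_smul, Real.norm_eq_abs, abs_of_nonneg ha.1]
    exact mul_le_of_le_one_left (norm_nonneg _) ha.2
  have hΦc : Continuous Φ :=
    (LipschitzWith.of_dist_le_mul (K := 1) fun x y => by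
      rw [Real.dist_eq, dist_eq_norm, NNReal.coe_one, one_mul]; exact hΦl x y).continuous
  set R := (1 + r) / 2
  have hR : R ∈ Ioo (0 : ℝ) 1 :=
    ⟨by show 0 < (1 + r) / 2; linarith [hr.1], by show (1 + r) / 2 < 1; linarith [hr.2]⟩
  have hrR : r ∈ Ico 0 R := ⟨hr.1.le, by show r < (1 + r) / 2; linarith [hr.2]⟩
  have hrm : r ∈ Ioo (-1 : ℝ) 1 := ⟨by linarith [hr.1], hr.2⟩
  have hmp : MeasurePreserving (fun z : Unit → Space d => flow P R (z ()) r) (gp Unit d)
      (mu (potR P r hrm)) :=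
    (flow_mp hh hR hrR hrm).comp (measurePreserving_eval _ ())
  have heq : ∀ z : Unit → Space d, flow P r (z ()) r = flow P R (z ()) r :=
    fun z => flow_eq hh hr hR hrR.2.le (z ())
  simp only [heq] at hi ⊢
  have hΦi : Integrable Φ (mu (potR P r hrm)) := mu_int hΦc.measurable ⟨|Φ 0| + 1, 1, fun y => by
    rw [pow_one, Real.norm_eq_abs]
    have h1 := hΦl y 0
    rw [sub_zero] at h1
    have h2 := abs_sub_abs_le_abs_sub (Φ y) (Φ 0)
    nlinarith [norm_nonneg y, abs_nonneg (Φ 0)]⟩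
  have iB : Integrable (fun z : Unit → Space d => Φ (flow P R (z ()) r)) (gp Unit d) :=
    (hmp.integrable_comp hΦi.aestronglyMeasurable).2 hΦi
  have eB : ∫ z, Φ (flow P R (z ()) r) ∂gp Unit d = ∫ x, P.g x u ∂mu P := by
    rw [← integral_map hmp.measurable.aemeasurable
      (by rw [hmp.map_eq]; exact hΦi.aestronglyMeasurable), hmp.map_eq, ← drift_mart P hra u,
      hΦ, channel_comp P hrm ha hra (f := f) ?_ (C := |f 0| + 1) fun y => ?_]
    · rfl
    · exact (EuclideanSpace.proj (𝕜 := ℝ) u).continuous.comp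
        (contDiffOn_velocity' P (r * a) hra).continuous
    · have h1 := hfl y 0
      rw [sub_zero] at h1
      have h2 := abs_sub_abs_le_abs_sub (f y) (f 0)
      nlinarith [norm_nonneg y, abs_nonneg (f 0),
        mul_le_mul_of_nonneg_right hh (norm_nonneg y)]
  have iA : Integrable (fun z => Φ (Y z)) (gp Unit d) :=
    (iB.norm.add hi).mono' (hΦc.comp hY).aestronglyMeasurable (ae_of_all _ fun z => by
      simp only [Pi.add_apply, Real.norm_eq_abs]
      linarith [hΦl (Y z) (flow P R (z ()) r),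
        abs_sub_abs_le_abs_sub (Φ (Y z)) (Φ (flow P R (z ()) r))])
  show |(∫ z, Φ (Y z) ∂gp Unit d) - _| ≤ _
  rw [← eB, ← integral_sub iA iB, ← Real.norm_eq_abs]
  exact norm_integral_le_of_norm_le hi (ae_of_all _ fun z =>
    (Real.norm_eq_abs _).trans_le (hΦl _ _))

/-- A grid, channel coefficients and a number of rounds are exact to any power of the dimension. -/
theorem meanAcc : MeanAccThm := by
  intro γ H δv S hδ hS hγ K
  obtain ⟨G, ν, c, k, d₀, hclose⟩ := endVec_close γ H hγ hδ hS K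
  refine ⟨G, ν, c, k, fun B => ⟨d₀, fun i hi p => ?_⟩⟩
  obtain ⟨hre, hp⟩ := hclose B i hi
  obtain ⟨hc, hint, hle⟩ := hp p
  refine ⟨hle, fun u => ?_⟩
  have ha := (chA_props hS.le i.two_le hδ 0).1
  have hh : i.hs ≤ 1 := i.hs_props.2.trans (Real.rpow_le_one_of_one_le_of_nonpos
    (by exact_mod_cast (le_trans one_le_two i.two_le)) (by linarith))
  refine le_trans ?_ hle
  exact channel_mean (i.pot p) hh hre ⟨by linarith [ha.1], ha.2⟩ u hc hint

end Vale.Agent.P347.Zero
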