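import Vale.Agent.P347.Zero.OuterHybrid
import Vale.Agent.P347.Chain
import Vale.Agent.P347.ChainVar
import Vale.Agent.P347.ChainCov
import Vale.Agent.P347.ChainContract

/-!
Assembly of the all-order bound from local sampling to every polynomial accuracy.
-/

noncomputable section

open MeasureTheory ProbabilityTheory Filter Topology
open scoped RealInnerProductSpace NNReal

namespace Vale.Agent.P347.Zero

variable {d : ℕ} {V : Space d → ℝ}

theorem chainConst_nonneg {C : ℝ} (h : ChainConst C) : 0 ≤ C := by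
  obtain ⟨-, hg, -⟩ := h 1 0 (Pot.zero 1) 1 1 (fun _ => 0) zero_le_one one_pos le_rfl le_rfl
    measurable_const (fun _ => by simp)
  simpa using (norm_nonneg _).trans (hg 0)

/-- Centring is accurate at every point the clipped chain can reach. -/
theorem centre_ok {η R : ℝ} {K : ℕ} (hd : 1 ≤ d) {ηi : ℝ} (hi : 0 < ηi) (hi1 : ηi ≤ η)
    (hR : η ^ K * R ≤ 1) {y : Space d} (hy : ‖y‖ ≤ R) :
    (ηi / (1 + ηi)) ^ (K + 1) * ‖y‖ ≤ Real.sqrt (ηi / (1 + ηi)) * Real.sqrt d := by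
  obtain ⟨h0, h1, h2⟩ := coef_pos hi
  set s := ηi / (1 + ηi)
  have h4 : s ≤ Real.sqrt s := by
    rw [Real.le_sqrt h0.le h0.le]
    nlinarith
  have h5 : (1 : ℝ) ≤ Real.sqrt d := by
    rw [← Real.sqrt_one]; exact Real.sqrt_le_sqrt (by exact_mod_cast hd)
  have h6 : s ^ K * ‖y‖ ≤ 1 :=
    (mul_le_mul (pow_le_pow_left₀ h0.le (h2.trans hi1) K) hy (norm_nonneg _)
      (pow_nonneg (hi.le.trans hi1) _)).trans hR
  calc s ^ (K + 1) * ‖y‖ = s * (s ^ K * ‖y‖) := by ring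
    _ ≤ s * 1 := mul_le_mul_of_nonneg_left h6 h0.le
    _ ≤ Real.sqrt s * Real.sqrt d := by
      rw [mul_one]; exact h4.trans (le_mul_of_one_le_right (Real.sqrt_nonneg _) h5)

/-- The chain over a good local sampler is within the stated error of the target. -/
theorem outer_error {C₂ : ℝ} (hC₂ : ChainConst C₂) {ι : Type} [Fintype ι]
    {F : (Space d → Space d) → (ι → Space d) → Space d} {q : ℕ} (hFc : Computes q F) {η e : ℝ}
    (hFg : GoodLocal F η e) (he : e ≤ 1) (hd : 1 ≤ d) (hη : 0 < η) (hη1 : η ≤ 1)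
    {n J K : ℕ} (hn : 1 ≤ n) {B : ℝ} (hB : 0 < B) (hR : η ^ K * ((n + J : ℕ) * B) ≤ 1)
    (hV : InClass V) {f : Space d → ℝ} (hf : Measurable f) (h1 : ∀ x, |f x| ≤ 1) :
    |(∫ S, f (zSampler F (K + 1) (n + J) (sched η n) B (grd V) S) ∂allLaw ι d (n + J))
        - ∫ x, f x ∂mu hV.pot|
      ≤ (n + J : ℕ) * (e * 2 + 14 * d / B) + 6 * sched η n (n + J) * Real.sqrt d
        + 4 * d * C₂ / Real.sqrt η * ((1 + η)⁻¹) ^ (n - 1) := by
  have hP := poincareMu
  have hD := postDeriv hP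
  have hpos := sched_pos hη n
  have hini := init_bias (J := J) muBasic hD momentMu posteriorId (chainContract hP hD) hC₂
    (chainConst_nonneg hC₂) hV hd hη hη1 hn hf h1
  refine (abs_sub_le _ (tailVal hV.pot (sched η n) f (n + J) 0 0) _).trans (add_le_add ?_ hini)
  refine zHybrid muBasic hD hFc hV hB.le hpos hf h1 (fun i hi y hy => ?_) fun y hy => ?_
  · obtain ⟨hUm, hUb⟩ :=
      tailVal_meas hV.pot muBasic hD hpos hf h1 (n + J - (i + 1)) (i + 1)
    have hη' : sched η n i / 2 ≤ sched η n (i + 1) := by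
      rcases lt_or_ge i n with h | h
      · rw [sched_main h.le, sched_main h]; linarith
      · rw [sched_switch h]
    have hyR : ‖y‖ ≤ (n + J : ℕ) * B :=
      hy.trans (mul_le_mul_of_nonneg_right (by exact_mod_cast hi.le) hB.le)
    have hb := clip_bias muBasic momentMu hD postShift hd hFc hFg he hη1 hV (hpos i)
      ((coef_pos (hpos i)).2.2.trans (sched_le hη n i)) hη' ((sched_le hη n _).trans hη1) hUm hUb
      hB (R := (i + 1 : ℕ) * B) (by push_cast; linarith)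
      (centre_ok hd (hpos i) (sched_le hη n i) hR hyR)
    have hrhs : tailVal hV.pot (sched η n) f (n + J - i) i y
        = post hV.pot (sched η n i / (1 + sched η n i))
            (Pf (sched η n (i + 1)) (tailVal hV.pot (sched η n) f (n + J - (i + 1)) (i + 1)))
            ((1 + sched η n i)⁻¹ • y) := by
      rw [show n + J - i = (n + J - (i + 1)) + 1 by omega]
      rfl
    rw [hrhs]
    exact hb
  · exact last_bias postShift (interpMu hP) hV (hpos _) hf h1
      (centre_ok hd (hpos _) (sched_le hη n _) hR hy)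

theorem tendsto_pow_exp {γ : ℝ} (hγ : 0 < γ) (c s : ℝ) :
    Tendsto (fun x : ℝ => c * (x ^ s * Real.exp (-(x ^ γ) / 2))) atTop (𝓝 0) := by
  have h := ((tendsto_rpow_mul_exp_neg_mul_atTop_nhds_zero (s / γ) (1 / 2) (by norm_num)).comp
    (tendsto_rpow_atTop hγ)).const_mul c
  rw [mul_zero] at h
  refine h.congr' ?_
  filter_upwards [eventually_ge_atTop 0] with x hx
  simp only [Function.comp_apply]
  rw [← Real.rpow_mul hx, mul_div_cancel₀ _ hγ.ne', show -(1 / 2 : ℝ) * x ^ γ = -(x ^ γ) / 2 by ring]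

/-- The conditions on the dimension, for a fixed exponent. -/
def Large (γ C₂ : ℝ) (K : ℕ) (x : ℝ) : Prop :=
  1 ≤ x ∧ 11 ≤ x ^ γ ∧ (K : ℝ) + 2 ≤ x ^ γ ∧ 2 + 2 * Real.log x ≤ x ^ (2 * γ) ∧
    6 * x ^ (2 * γ) ≤ x ∧ 100 * x ^ (2 * γ - 1) ≤ 1 / 30 ∧ 6 * x ^ (-(1 / 2) : ℝ) ≤ 1 / 30 ∧
      4 * C₂ * (x ^ (2 : ℝ) * Real.exp (-(x ^ γ) / 2)) ≤ 1 / 30

theorem eventually_large {γ : ℝ} (hγ : 0 < γ) (hγ1 : γ ≤ 1 / 8) (C₂ : ℝ) (K : ℕ) :
    ∀ᶠ d : ℕ in atTop, Large γ C₂ K d := by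
  refine tendsto_natCast_atTop_atTop.eventually (p := Large γ C₂ K) ?_
  have hz : ∀ c s : ℝ, 0 < s → ∀ᶠ x : ℝ in atTop, c * x ^ (-s) ≤ 1 / 30 := fun c s hs =>
    (by simpa using (tendsto_rpow_neg_atTop hs).const_mul c :
      Tendsto (fun x : ℝ => c * x ^ (-s)) atTop (𝓝 0)).eventually (eventually_le_nhds (by norm_num))
  filter_upwards [eventually_ge_atTop (1 : ℝ),
    (tendsto_rpow_atTop hγ).eventually_ge_atTop 11,
    (tendsto_rpow_atTop hγ).eventually_ge_atTop ((K : ℝ) + 2),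
    (tendsto_rpow_atTop (show 0 < 2 * γ by linarith)).eventually_ge_atTop 4,
    ((isLittleO_log_rpow_atTop (show 0 < 2 * γ by linarith)).bound
      (show (0 : ℝ) < 1 / 4 by norm_num)),
    (tendsto_rpow_atTop (show 0 < 1 - 2 * γ by linarith)).eventually_ge_atTop 6,
    hz 100 (1 - 2 * γ) (by linarith), hz 6 (1 / 2) (by norm_num),
    (tendsto_pow_exp hγ (4 * C₂) 2).eventually (eventually_le_nhds (by norm_num : (0 : ℝ) < 1 / 30))]
    with x h1 h11 hK h4 hlog h6 h100 hs he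
  have h0 : 0 < x := lt_of_lt_of_le one_pos h1
  refine ⟨h1, h11, hK, ?_, ?_, ?_, hs, he⟩
  · rw [Real.norm_eq_abs, Real.norm_eq_abs, abs_of_nonneg (Real.log_nonneg h1),
      abs_of_nonneg (Real.rpow_nonneg h0.le _)] at hlog
    linarith
  · calc 6 * x ^ (2 * γ) ≤ x ^ (1 - 2 * γ) * x ^ (2 * γ) :=
          mul_le_mul_of_nonneg_right h6 (by positivity)
      _ = x := by rw [← Real.rpow_add h0, sub_add_cancel, Real.rpow_one]
  · rwa [neg_sub] at h100

/-- A chain whose error is small against every bounded test is a sampler. -/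
theorem canSample_of_err {C₂ : ℝ} (hC₂ : ChainConst C₂) {ι : Type} [Fintype ι]
    {F : (Space d → Space d) → (ι → Space d) → Space d} {q : ℕ} (hFc : Computes q F) {η e : ℝ}
    (hFg : GoodLocal F η e) (he : e ≤ 1) (hd : 1 ≤ d) (hη : 0 < η) (hη1 : η ≤ 1)
    {n J K : ℕ} (hn : 1 ≤ n) {B : ℝ} (hB : 0 < B) (hR : η ^ K * ((n + J : ℕ) * B) ≤ 1)
    (herr : (n + J : ℕ) * (e * 2 + 14 * d / B) + 6 * sched η n (n + J) * Real.sqrt d
      + 4 * d * C₂ / Real.sqrt η * ((1 + η)⁻¹) ^ (n - 1) ≤ 1 / 5) :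
    CanSample d ((n + J) * (K + 1 + 1 + q) + (K + 1 + 1)) := by
  obtain ⟨A, hA⟩ := exists_zAlgorithm (ι := ι) hFc (K + 1) (n + J) (sched η n) B
  refine ⟨A, fun V hV S hS => ?_⟩
  have := (muBasic d 1 hV.pot).1
  rw [hA V hV.contDiff_gradient.continuous, hV.target_eq]
  set f : Space d → ℝ := fun z => S.indicator (fun _ => (2 : ℝ)) z - 1 with hf
  have hfm : Measurable f := (measurable_const.indicator hS).sub_const 1
  have hf1 : ∀ z, |f z| ≤ 1 := fun z => by
    by_cases hz : z ∈ S <;> simp [hf, hz] <;> norm_num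
  have hint : ∀ μ : Measure (Space d), IsProbabilityMeasure μ → ∫ z, f z ∂μ = 2 * μ.real S - 1 := by
    intro μ _
    simp only [hf]
    rw [integral_sub ((integrable_const 2).indicator hS) (integrable_const _),
      integral_indicator_const _ hS, integral_const, probReal_univ]
    simp [mul_comm]
  have hsm : Measurable (zSampler F (K + 1) (n + J) (sched η n) B (grd V)) :=
    (computes_zSampler (Ω := (Fin (n + J) → ZSeed ι d) × Space d) hFc (K + 1) (n + J) (sched η n) B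
      measurable_id).measurable hV.contDiff_gradient.continuous.measurable
  have h := (outer_error hC₂ hFc hFg he hd hη hη1 (n := n) (J := J) (K := K) hn hB hR hV hfm
    hf1).trans herr
  rw [← integral_map hsm.aemeasurable hfm.aestronglyMeasurable,
    hint _ (Measure.isProbabilityMeasure_map hsm.aemeasurable), hint _ inferInstance] at h
  rw [abs_le] at h ⊢
  constructor <;> linarith [h.1, h.2]

/-- The three error terms are small in large dimension. -/
theorem outer_budget {γ x C₂ : ℝ} {n J T : ℕ} (hγ : 0 < γ) (hγ1 : γ ≤ 1 / 8) (hx1 : 1 ≤ x)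
    (hC0 : 0 ≤ C₂) (hT : (T : ℝ) ≤ 4 * x ^ (2 * γ)) (hJlo : x ≤ 2 ^ J)
    (hnlo : x ^ (2 * γ) ≤ (n - 1 : ℕ)) (hTdef : T = n + J)
    (hstepc : 100 * x ^ (2 * γ - 1) ≤ 1 / 30) (hlastc : 6 * x ^ (-(1 / 2) : ℝ) ≤ 1 / 30)
    (hmixc : 4 * C₂ * (x ^ (2 : ℝ) * Real.exp (-(x ^ γ) / 2)) ≤ 1 / 30) :
    (T : ℝ) * (x ^ (-1 : ℝ) * 2 + 14 * x / x ^ 3) + 6 * sched (x ^ (-γ)) n T * Real.sqrt x
      + 4 * x * C₂ / Real.sqrt (x ^ (-γ)) * ((1 + x ^ (-γ))⁻¹) ^ (n - 1) ≤ 1 / 5 := by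
  have hx0 : 0 < x := lt_of_lt_of_le one_pos hx1
  set η := x ^ (-γ) with hηdef
  have hη : 0 < η := Real.rpow_pos_of_pos hx0 _
  have hη1 : η ≤ 1 := Real.rpow_le_one_of_one_le_of_nonpos hx1 (by linarith)
  set e := x ^ (-1 : ℝ) with hedef
  set y := x ^ (2 * γ) with hydef
  have hy0 : 0 ≤ y := by positivity
  set B := x ^ 3 with hBdef
  have b1 : (T : ℝ) * (e * 2 + 14 * x / B) ≤ 1 / 30 := by
    refine le_trans ?_ hstepc
    have h12 : 14 * x / B ≤ 14 * e := by
      rw [hBdef, hedef, Real.rpow_neg_one, div_le_iff₀ (by positivity)]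
      field_simp
      nlinarith
    calc (T : ℝ) * (e * 2 + 14 * x / B) ≤ 4 * y * (16 * e) :=
          mul_le_mul hT (by linarith) (by positivity) (by linarith)
      _ = 64 * x ^ (2 * γ - 1) := by
          rw [sub_eq_add_neg (2 * γ) 1, Real.rpow_add hx0, hydef, hedef]; ring
      _ ≤ 100 * x ^ (2 * γ - 1) := by gcongr; norm_num
  have b2 : 6 * sched η n T * Real.sqrt x ≤ 1 / 30 := by
    refine le_trans ?_ hlastc
    have h13 : sched η n T ≤ x⁻¹ := by
      rw [sched, hTdef, Nat.add_sub_cancel_left, one_div, inv_pow]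
      exact (mul_le_of_le_one_left (by positivity) hη1).trans (inv_anti₀ hx0 hJlo)
    calc 6 * sched η n T * Real.sqrt x ≤ 6 * x⁻¹ * Real.sqrt x := by gcongr
      _ = 6 * x ^ (-(1 / 2) : ℝ) := by
          rw [Real.rpow_neg hx0.le, ← Real.sqrt_eq_rpow]
          field_simp
          rw [Real.sq_sqrt hx0.le]
  have b3 : 4 * x * C₂ / Real.sqrt η * ((1 + η)⁻¹) ^ (n - 1) ≤ 1 / 30 := by
    refine le_trans ?_ hmixc
    have h14 : (1 + η)⁻¹ ≤ Real.exp (-(η / 2)) := by
      refine le_trans ?_ (Real.add_one_le_exp _)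
      rw [inv_le_iff_one_le_mul₀ (by linarith)]
      nlinarith
    have h15 : ((1 + η)⁻¹) ^ (n - 1) ≤ Real.exp (-(x ^ γ) / 2) := by
      refine (pow_le_pow_left₀ (by positivity) h14 _).trans ?_
      rw [← Real.exp_nat_mul, Real.exp_le_exp]
      have h16 : x ^ γ = y * η := by rw [hydef, hηdef, ← Real.rpow_add hx0]; ring_nf
      have := mul_le_mul_of_nonneg_right hnlo hη.le
      rw [h16]; linarith
    have h17 : 1 / Real.sqrt η ≤ x := by
      rw [hηdef, Real.sqrt_eq_rpow, ← Real.rpow_mul hx0.le, one_div, ← Real.rpow_neg hx0.le]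
      calc x ^ (-(-γ * (1 / 2))) ≤ x ^ (1 : ℝ) :=
            Real.rpow_le_rpow_of_exponent_le hx1 (by linarith)
        _ = x := Real.rpow_one x
    calc 4 * x * C₂ / Real.sqrt η * ((1 + η)⁻¹) ^ (n - 1)
        = 4 * C₂ * (x * (1 / Real.sqrt η) * ((1 + η)⁻¹) ^ (n - 1)) := by ring
      _ ≤ 4 * C₂ * (x * x * Real.exp (-(x ^ γ) / 2)) := by gcongr
      _ = 4 * C₂ * (x ^ (2 : ℝ) * Real.exp (-(x ^ γ) / 2)) := by
          rw [show (2 : ℝ) = ((2 : ℕ) : ℝ) by norm_num, Real.rpow_natCast, sq]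
  linarith

/-- All-order local sampling gives the bound with every positive exponent. -/
theorem zeroBound_of (hL : LocalAll) : ZeroBound := by
  intro ε hε
  obtain ⟨C₂, hC₂⟩ : ChainBounds :=
    chainBounds (postDeriv poincareMu) (chainVar (postDeriv poincareMu) poincareMu)
      (chainCov steinMu poincareMu (postDeriv poincareMu))
  set γ := min (ε / 4) (1 / 8) with hγdef
  have hγ : 0 < γ := lt_min (by linarith) (by norm_num)
  have hγ1 : γ ≤ 1 / 8 := min_le_right _ _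
  have hγε : 4 * γ ≤ ε := by linarith [min_le_left (ε / 4) (1 / 8 : ℝ)]
  set K := ⌈4 / γ⌉₊ with hKdef
  obtain ⟨d₀, hd₀⟩ := eventually_atTop.1
    ((hL γ hγ (by linarith) 1 one_pos γ hγ).and (eventually_large hγ hγ1 C₂ K))
  refine ⟨d₀, fun d hd => ?_⟩
  obtain ⟨hloc, hx1, h11, hK2, hlog, h6, hstepc, hlastc, hmixc⟩ := hd₀ d hd
  set x : ℝ := (d : ℝ) with hxdef
  have hd1 : 1 ≤ d := Nat.one_le_cast.1 hx1
  have hx0 : 0 < x := lt_of_lt_of_le one_pos hx1
  set η := x ^ (-γ) with hηdef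
  have hη : 0 < η := Real.rpow_pos_of_pos hx0 _
  have hη1 : η ≤ 1 := Real.rpow_le_one_of_one_le_of_nonpos hx1 (by linarith)
  obtain ⟨q, hq, ι, hι, F, hFc, hFg⟩ :=
    hloc η (Real.rpow_le_rpow_of_exponent_le hx1 (by linarith)) le_rfl
  set e := x ^ (-1 : ℝ) with hedef
  have he0 : 0 ≤ e := by positivity
  have he1 : e ≤ 1 := Real.rpow_le_one_of_one_le_of_nonpos hx1 (by norm_num)
  set y := x ^ (2 * γ) with hydef
  have hy1 : 1 ≤ y := Real.one_le_rpow hx1 (by linarith)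
  set n := ⌈y⌉₊ + 1 with hndef
  have hn1 : 1 ≤ n := by omega
  have hnlo : y ≤ (n - 1 : ℕ) := by rw [hndef, Nat.add_sub_cancel]; exact Nat.le_ceil y
  have hnhi : (n : ℝ) ≤ 3 * y := by
    have := (Nat.ceil_lt_add_one (show 0 ≤ y by linarith)).le
    rw [hndef]; push_cast; linarith
  set J := Nat.log 2 d + 1 with hJdef
  have hJlo : x ≤ 2 ^ J := by
    rw [hxdef]; exact_mod_cast (Nat.lt_pow_succ_log_self one_lt_two d).le
  have hJhi : (J : ℝ) ≤ y := by
    have h2 : ((2 : ℕ) : ℝ) ^ Nat.log 2 d ≤ x := by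
      rw [hxdef]; exact_mod_cast Nat.pow_log_le_self 2 (by omega : d ≠ 0)
    have h3 := Real.log_le_log (by positivity) h2
    rw [Real.log_pow] at h3
    push_cast at h3
    have h4 : (1 / 2 : ℝ) ≤ Real.log 2 := by linarith [Real.log_two_gt_d9]
    have h5 := mul_le_mul_of_nonneg_left h4 (Nat.cast_nonneg (α := ℝ) (Nat.log 2 d))
    rw [hJdef]; push_cast; linarith
  set T := n + J with hTdef
  have hT : (T : ℝ) ≤ 4 * y := by rw [hTdef]; push_cast; linarith
  set B := x ^ 3 with hBdef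
  have hB : 0 < B := by positivity
  have hR : η ^ K * ((T : ℕ) * B) ≤ 1 := by
    have h7 : (T : ℝ) * B ≤ x ^ 4 := by
      rw [hBdef, pow_succ' x 3]
      exact mul_le_mul_of_nonneg_right (by linarith) (by positivity)
    have h8 : η ^ K ≤ x ^ (-4 : ℝ) := by
      rw [hηdef, ← Real.rpow_natCast, ← Real.rpow_mul hx0.le]
      refine Real.rpow_le_rpow_of_exponent_le hx1 ?_
      have := Nat.le_ceil (4 / γ)
      rw [← hKdef, div_le_iff₀ hγ] at this
      linarith
    refine (mul_le_mul h8 h7 (by positivity) (by positivity)).trans_eq ?_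
    rw [Real.rpow_neg hx0.le, show (4 : ℝ) = ((4 : ℕ) : ℝ) by norm_num, Real.rpow_natCast]
    field_simp
  refine ⟨T * (K + 1 + 1 + q) + (K + 1 + 1), ?_, canSample_of_err hC₂ hFc hFg he1 hd1 hη hη1
    (J := J) hn1 hB hR ?_⟩
  · have hq' : (q : ℝ) ≤ x ^ γ := hq
    have h9 : x ^ (4 * γ) ≤ x ^ ε := Real.rpow_le_rpow_of_exponent_le hx1 hγε
    have e4 : x ^ (4 * γ) = y * (x ^ γ * x ^ γ) := by
      rw [hydef, ← Real.rpow_add hx0, ← Real.rpow_add hx0]; ring_nf
    refine le_trans ?_ h9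
    push_cast
    rw [e4]
    have h10 : 0 ≤ x ^ γ := by positivity
    calc (T : ℝ) * ((K : ℝ) + 1 + 1 + q) + ((K : ℝ) + 1 + 1)
        ≤ 4 * y * (2 * x ^ γ) + x ^ γ := by
          refine add_le_add (mul_le_mul hT ?_ (by positivity) (by positivity)) ?_ <;> linarith
      _ ≤ y * (11 * x ^ γ) := by nlinarith [mul_le_mul_of_nonneg_right hy1 h10]
      _ ≤ y * (x ^ γ * x ^ γ) := by gcongr
  exact outer_budget hγ hγ1 hx1 (chainConst_nonneg hC₂) hT hJlo hnlo (by omega) hstepc hlastc hmixc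

end Vale.Agent.P347.Zero
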