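import Vale.Agent.P347.Zero.ProductAvg

/-!
A contraction along one leg is realised from programs of the factors at the legs (S.pub i)nvolved: the
inner factor may be one level less accurate, as the outer one damps (S.pub i)ts error.
-/

noncomputable section

open MeasureTheory ProbabilityTheory Function
open scoped RealInnerProductSpace NNReal

namespace Vale.Agent.P347.Zero

/-! ### The mean -/

/-- Tuples on legs one of which is alone. -/
theorem sum_sum_unit {d : ℕ} {A : Type} [Fintype A] [DecidableEq A]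
    (f : (A ⊕ Unit → Fin d) → Space d) :
    ∑ i, f i = ∑ u : A → Fin d, ∑ c : Fin d, f (Sum.elim u fun _ => c) := by
  rw [← Equiv.sum_comp ((Equiv.sumArrowEquivProdArrow A Unit (Fin d)).trans
    (Equiv.prodCongr (Equiv.refl _) (Equiv.funUnique Unit (Fin d)))).symm, Fintype.sum_prod_type]
  rfl

theorem sum_unit_sum {d : ℕ} {D : Type} [Fintype D] [DecidableEq D]
    (f : (Unit ⊕ D → Fin d) → Space d) :
    ∑ i, f i = ∑ c : Fin d, ∑ w : D → Fin d, f (Sum.elim (fun _ => c) w) := by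
  rw [← Equiv.sum_comp ((Equiv.sumArrowEquivProdArrow Unit D (Fin d)).trans
    (Equiv.prodCongr (Equiv.funUnique Unit (Fin d)) (Equiv.refl _))).symm, Fintype.sum_prod_type]
  rfl

variable {d : ℕ} {B A D : Type} [Fintype A] [DecidableEq A] [Fintype D] [DecidableEq D]

theorem mapF_meanH (a₀ : A) (cH cF : ℝ) (TH : Ten d (Unit ⊕ D)) (TF : Ten d (A ⊕ Unit))
    (a : PArg d B (A ⊕ D)) :
    mapF a₀ cF TF a true (meanH a₀ cH TH a)
      = (cF * cH) • apT (.inl a₀) (ctr TF TH) a.2.2 := by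
  rw [mapF, pairM, cond_true, meanH, _root_.smul_apply, map_smul, smul_smul]
  refine congrArg _ ?_
  have he : ∀ c : Fin d, tMap (Sum.inl a₀) (Sum.inr ()) TF (argF a₀ a).2.2 (ev c)
      = ∑ u : A → Fin d, (TF (Sum.elim u fun _ => c)
          * ∏ l ∈ Finset.univ.erase a₀, a.2.2 (.inl l) (u l)) • ev (u a₀) := fun c => by
    simp only [tMap, _root_.sum_apply, _root_.smul_apply, ContinuousLinearMap.smulRight_apply,
      PiLp.proj_apply]
    rw [sum_sum_unit]
    refine Finset.sum_congr rfl fun u _ => ?_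
    rw [Finset.sum_eq_single c (fun c' _ hc => by simp [ev, hc])
      fun h => absurd (Finset.mem_univ c) h]
    simp only [Sum.elim_inr, Sum.elim_inl, ev, PiLp.single_apply, if_true, one_smul]
    congr 2
    have hs : (Finset.univ.erase (Sum.inl a₀ : A ⊕ Unit)).erase (Sum.inr ())
        = (Finset.univ.erase a₀).map ⟨Sum.inl, Sum.inl_injective⟩ := by
      ext j; rcases j with j | ⟨⟩ <;> simp
    rw [hs, Finset.prod_map]
    rfl
  conv_lhs => rw [apT, map_sum, sum_unit_sum]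
  simp only [map_smul, Sum.elim_inl, he, Finset.smul_sum, smul_smul]
  rw [apT, ← Equiv.sum_comp (Equiv.sumArrowEquivProdArrow A D (Fin d)).symm, Fintype.sum_prod_type,
    Finset.sum_comm_cycle]
  refine Finset.sum_congr rfl fun u _ => ?_
  rw [Finset.sum_comm]
  refine Finset.sum_congr rfl fun w _ => ?_
  have hsH : Finset.univ.erase (Sum.inl () : Unit ⊕ D)
      = Finset.univ.map ⟨Sum.inr, Sum.inr_injective⟩ := by
    ext j; rcases j with ⟨⟩ | j <;> simp
  have hsT : Finset.univ.erase (Sum.inl a₀ : A ⊕ D)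
      = ((Finset.univ.erase a₀).map ⟨Sum.inl, Sum.inl_injective⟩).disjUnion
          (Finset.univ.map ⟨Sum.inr, Sum.inr_injective⟩)
          (Finset.disjoint_left.2 fun j => by rcases j with j | j <;> simp) := by
    ext j; rcases j with j | j <;> simp
  rw [← Finset.sum_smul]
  refine congrArg (fun r : ℝ => r • ev (u a₀)) ?_
  rw [hsH, hsT, Finset.prod_disjUnion]
  simp only [Finset.prod_map, ctr, Embedding.coeFn_mk, Sum.elim_inr, argH, piH]
  rw [Finset.sum_mul]
  rw [← Equiv.sum_comp (Equiv.funUnique Unit (Fin d)).symm]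
  refine Finset.sum_congr rfl fun c _ => ?_
  simp only [Equiv.sumArrowEquivProdArrow_symm_apply_inl, Equiv.sumArrowEquivProdArrow_symm_apply_inr,
    Function.comp_def, Equiv.funUnique_symm_apply]
  rw [show (uniqueElim c : Unit → Fin d) = fun _ => c from rfl]
  ring

/-! ### The theorem -/

/-- A contraction is realised from programs of its factors. -/
theorem productThm : ProductThm := by
  intro S g φ φ' κ κ' θF θH hg hgφ' hφ hκ B A D _ _ _ _ _ _ F H a₀ b₀ hF hH hBF hBH hF0 _ hF1 hH0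
    hH1 a ha ε hε
  set δ := min (ε / 4) ((θF + θH - φ' - φ - a) / 4) with hδdef
  have hδ : 0 < δ := lt_min (by linarith) (by linarith)
  have hδ1 : δ ≤ ε / 4 := min_le_left _ _
  have hδ2 : δ ≤ (θF + θH - φ' - φ - a) / 4 := min_le_right _ _
  set b := θH - φ' - δ with hb
  set aF := a + δ - b with haF
  obtain ⟨P, hPq, hPw, hPl, hPlaw⟩ := hH0 b (by linarith) (δ / 4) (by linarith)
  obtain ⟨P', hP'q, hP'w, hP'l, hP'law⟩ := hH1 b (by linarith) (δ / 4) (by linarith)
  obtain ⟨Q, hQq, hQw, hQl, hQlaw⟩ := hF0 aF (by linarith) (δ / 4) (by linarith)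
  obtain ⟨Q', hQ'q, hQ'w, hQ'l, hQ'law⟩ := hF1 aF (by linarith) (δ / 4) (by linarith)
  obtain ⟨n, hn⟩ := exists_nat_gt (2 * (1 + |κ|) / g)
  set s : S.key → ℝ := fun k => S.kdd k ^ (-δ)
  set top : S.key → ℝ := fun k => Real.sqrt (max 0 (1 - (s k * prodTau n) ^ 2))
  set R : Run S B (A ⊕ D) := Run.of fun k =>
    prodProg (P.atK k) (P'.atK k) (Q.atK k) (Q'.atK k) n a₀ b₀ (s k) (top k)
  refine ⟨R, ?_, fun i => prodProg_lipW (hPw.lipW i) (hP'w.lipW i) (hQw.lipW i) (hQ'w.lipW i) _ _,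
    Run.lipIn_of fun η hη => ?_, Run.law_of_close fun η hη => ?_⟩
  · refine (((hPq.and hP'q).and (hQq.and hQ'q)).and (S.ev_one_le.and
      (S.ev_le_rpow (3 + 8 * n) (η := δ) hδ))).mono fun i ⟨⟨⟨h1, h2⟩, h3, h4⟩, hd, h5⟩ => ?_
    show ((prodQ (P.at i) (P'.at i) (Q.at i) (Q'.at i) n : ℕ) : ℝ) ≤ _
    simp only [prodQ, isoQ_eq, Run.at, Run.atK]
    push_cast
    set X := S.dd i ^ (δ / 4)
    calc (P.q i : ℝ) + 2 * n * (P.q i + P'.q i) + (Q.q i + Q.q i) + 2 * n * (Q.q i + Q'.q i)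
        ≤ X + 2 * n * (X + X) + (X + X) + 2 * n * (X + X) := by gcongr
      _ = (3 + 8 * n) * X := by ring
      _ ≤ S.dd i ^ δ * X := mul_le_mul_of_nonneg_right h5 (Real.rpow_nonneg (by linarith) _)
      _ ≤ _ := by
          rw [← Real.rpow_add (by linarith)]
          exact Real.rpow_le_rpow_of_exponent_le hd (by linarith)
  · have hη' : 0 < min (η / 2) (g / 2) := lt_min (by linarith) (by linarith)
    refine ((((hPl.lip hη').and (hP'l.lip hη')).and ((hQl.lip hη').and (hQ'l.lip hη'))).and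
      (S.ev_one_le.and (S.ev_le_rpow (prodC n) (half_pos hη)))).mono
        fun i ⟨⟨⟨h1, h2⟩, h3, h4⟩, hd, h5⟩ => ?_
    have hd0 : 0 < S.dd i := by linarith
    have hle : ∀ x : ℝ, x ≤ 0 → S.dd i ^ x ≤ 1 := fun x hx =>
      (Real.rpow_le_rpow_of_exponent_le hd hx).trans_eq (Real.rpow_zero _)
    refine (prodProg_lip (P := P.at i) (P' := P'.at i) (Q := Q.at i) (Q' := Q'.at i) (n := n)
      (a₀ := a₀) (b₀ := b₀) (Real.rpow_nonneg hd0.le _)
      (hle _ (by linarith [min_le_right (η / 2) (g / 2)])) (Real.rpow_nonneg hd0.le _)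
      (hle _ (by linarith [min_le_right (η / 2) (g / 2)])) h1 h2 h3 h4
      (Real.rpow_nonneg hd0.le (-δ)) (top (S.pub i))).mono ?_
    refine (mul_le_mul_of_nonneg_left h5 (mul_nonneg (Real.rpow_nonneg hd0.le _)
      (Real.rpow_nonneg hd0.le _))).trans ?_
    rw [← Real.rpow_add hd0, ← Real.rpow_add hd0]
    exact Real.rpow_le_rpow_of_exponent_le hd (by linarith [min_le_left (η / 2) (g / 2)])
  · have hη' : 0 < min (η / 4) (g / 2) := lt_min (by linarith) (by linarith)
    set η' := min (η / 4) (g / 2)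
    have hη4 : η' ≤ η / 4 := min_le_left _ _
    have hηg : η' ≤ g / 2 := min_le_right _ _
    have ev₁ := (((hPlaw.close hPw hη').and (hP'law.close hP'w hη')).and
      ((hQlaw.close hQw hη').and (hQ'law.close hQ'w hη')))
    have ev₂ := (((hPl.lip hη').and (hP'l.lip hη')).and ((hQl.lip hη').and (hQ'l.lip hη')))
    have ev₃ := ((hBH.tMap hH (o := Sum.inl ()) (l := Sum.inr b₀) (by simp) hη' (n + 1)).and
      (hBH.tMap hH (o := Sum.inl ()) (l := Sum.inr b₀) (by simp) hη' (n + 2))).and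
      ((hBF.tMap hF (o := Sum.inl a₀) (l := Sum.inr ()) (by simp) hη' (n + 1)).and
        (hBF.tMap hF (o := Sum.inl a₀) (l := Sum.inr ()) (by simp) hη' (n + 2)))
    have ev₄ := S.ev_one_le.and ((S.ev_le_rpow (prodTau n) hδ).and
      (S.ev_le_rpow (prodE n * 5) (half_pos hη)))
    refine ((ev₁.and ev₂).and (ev₃.and ev₄)).mono fun i
      ⟨⟨⟨⟨l1, l2⟩, l3, l4⟩, ⟨h1, h2⟩, h3, h4⟩, ⟨⟨m1, m1'⟩, m2, m2'⟩, hd, hτ, hC⟩ p => ?_
    have hd0 : 0 < S.dd i := by linarith
    have hdn : 1 ≤ S.dm i := by exact_mod_cast hd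
    have hle : ∀ x : ℝ, x ≤ 0 → S.dd i ^ x ≤ 1 := fun x hx =>
      (Real.rpow_le_rpow_of_exponent_le hd hx).trans_eq (Real.rpow_zero _)
    set K := S.dd i ^ (η' - (θH - b - δ / 4))
    set L := S.dd i ^ (η' - (θF - aF - δ / 4))
    have hhyp : ProdHyp (P.at i) (P'.at i) (Q.at i) (Q'.at i) (S.og i) K L :=
      ⟨hPw.lipW i, hP'w.lipW i, hQw.lipW i, hQ'w.lipW i, Real.rpow_nonneg hd0.le _,
        hle _ (by linarith), Real.rpow_nonneg hd0.le _, hle _ (by linarith), h1, h2, h3, h4⟩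
    obtain ⟨e1, he1, hb1, hc1⟩ := l1 p
    obtain ⟨e2, he2, hb2, hc2⟩ := l2 p
    obtain ⟨e3, he3, hb3, hc3⟩ := l3 p
    obtain ⟨e4, he4, hb4, hc4⟩ := l4 p
    set Z := S.dd i ^ (-(g / 2)) with hZ
    have hZ0 : 0 ≤ Z := Real.rpow_nonneg hd0.le _
    have hZ1 : Z ≤ 1 := hle _ (by linarith)
    have hpow : ∀ {x : ℝ} (m : ℕ), n + 1 ≤ m → x ≤ -(g / 2) → (S.dd i ^ x) ^ m ≤ Z ^ (n + 1) :=
      fun m hm hx => (pow_le_pow_left₀ (Real.rpow_nonneg hd0.le _)
        (Real.rpow_le_rpow_of_exponent_le hd hx) m).trans (pow_le_pow_of_le_one hZ0 hZ1 hm)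
    have hmom : ∀ {I : Type} [Fintype I] {θ c : ℝ} {f : (B → Space (S.dm i)) × (I → Space (S.dm i)) → ℝ}
        (m : ℕ), n + 1 ≤ m → η' - (θ - c) ≤ -(g / 2) →
        Integrable (fun z => f z ^ m) ((gp B (S.dm i)).prod (gp I (S.dm i))) ∧
          ∫ z, f z ^ m ∂(gp B (S.dm i)).prod (gp I (S.dm i)) ≤ (S.dd i ^ (η' - θ)) ^ m →
        Integrable (fun z => (|S.dd i ^ c| * f z) ^ m) ((gp B (S.dm i)).prod (gp I (S.dm i))) ∧
          ∫ z, (|S.dd i ^ c| * f z) ^ m ∂(gp B (S.dm i)).prod (gp I (S.dm i)) ≤ Z ^ (n + 1) := by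
      intro I _ θ c f m hm hx hf
      simp only [mul_pow, abs_of_pos (Real.rpow_pos_of_pos hd0 c)]
      refine ⟨hf.1.const_mul _, ?_⟩
      rw [integral_const_mul]
      refine (mul_le_mul_of_nonneg_left hf.2 (by positivity)).trans ?_
      rw [← mul_pow, ← Real.rpow_add hd0]
      exact hpow m hm (by linarith)
    have hav : AvgHyp (P.at i) (P'.at i) (Q.at i) (Q'.at i) n a₀ b₀ (S.og i) K L (S.dd i ^ b)
        (S.dd i ^ aF) p (H i p) (F i p) (S.dd i ^ (η' - κ') * S.wt i p)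
        (S.dd i ^ (η' - κ') * S.wt i p) (S.dd i ^ (η' - κ) * S.wt i p)
        (S.dd i ^ (η' - κ') * S.wt i p) (Z ^ (n + 1)) := by
      refine ⟨hH.cont i p, hF.cont i p, ?_, ?_, ?_, ?_, pow_nonneg hZ0 _,
        hpow _ le_rfl (by linarith), hpow _ le_rfl (by linarith), fun m hm hm' => ?_,
        fun m hm hm' => ?_⟩
      · exact (devP_avg (hPw.lipW i) (hH.cont i p) he1 hc1).imp id fun h => h.trans hb1
      · exact (devP_avg (hP'w.lipW i) (hH.cont i p) he2 hc2).imp id fun h => h.trans hb2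
      · exact (devP_avg (hQw.lipW i) (hF.cont i p) he3 hc3).imp id fun h => h.trans hb3
      · exact (devP_avg (hQ'w.lipW i) (hF.cont i p) he4 hc4).imp id fun h => h.trans hb4
      · obtain rfl | rfl : m = n + 1 ∨ m = n + 2 := by omega
        exacts [hmom _ hm (by linarith) (m1 p), hmom _ hm (by linarith) (m1' p)]
      · obtain rfl | rfl : m = n + 1 ∨ m = n + 2 := by omega
        exacts [hmom _ hm (by linarith) (m2 p), hmom _ hm (by linarith) (m2' p)]
    obtain ⟨hint, hbd⟩ := prodErr_avg hdn hhyp hav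
    refine ⟨errAt (P.at i) (P'.at i) (Q.at i) (Q'.at i) n a₀ b₀ (S.og i) K L (S.dd i ^ b)
      (S.dd i ^ aF) p (H i p) (F i p), hint, hbd.trans ?_, fun x X => ?_⟩
    · set w := S.wt i p
      have hw : 1 ≤ w := S.one_le_wt i p
      have hw0 : 0 ≤ w := by linarith
      have hE0 : 0 ≤ prodE n := by
        have := isoE_nonneg n
        have := isoV_pos n
        unfold prodE; linarith
      set X := S.dd i ^ (η / 2 - κ)
      have t1 : S.dd i ^ (η' - κ) * w ≤ X * w :=
        mul_le_mul_of_nonneg_right (Real.rpow_le_rpow_of_exponent_le hd (by linarith)) hw0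
      have t2 : L * (S.dd i ^ (η' - κ') * w) ≤ X * w := by
        rw [← mul_assoc, ← Real.rpow_add hd0]
        exact mul_le_mul_of_nonneg_right (Real.rpow_le_rpow_of_exponent_le hd (by linarith)) hw0
      have t3 : (S.dm i : ℝ) * Z ^ (n + 1) ≤ X * w := by
        refine le_trans ?_ (le_mul_of_one_le_right (Real.rpow_nonneg hd0.le _) hw)
        show S.dd i * Z ^ (n + 1) ≤ _
        rw [hZ, ← Real.rpow_natCast, ← Real.rpow_mul hd0.le]
        conv_lhs => arg 1; rw [← Real.rpow_one (S.dd i)]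
        rw [← Real.rpow_add hd0]
        refine Real.rpow_le_rpow_of_exponent_le hd ?_
        rw [div_lt_iff₀ hg] at hn
        push_cast
        nlinarith [le_abs_self κ]
      calc prodE n * (S.dd i ^ (η' - κ) * w + L * (S.dd i ^ (η' - κ') * w + S.dd i ^ (η' - κ') * w
              + S.dd i ^ (η' - κ') * w) + (S.dm i : ℝ) * Z ^ (n + 1))
          ≤ prodE n * (5 * (X * w)) := mul_le_mul_of_nonneg_left (by linarith) hE0
        _ ≤ S.dd i ^ (η / 2) * (X * w) := by
            rw [← mul_assoc]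
            exact mul_le_mul_of_nonneg_right hC (mul_nonneg (Real.rpow_nonneg hd0.le _) hw0)
        _ = _ := by
            rw [← mul_assoc, ← Real.rpow_add hd0]
            ring_nf
    · have hs0 : 0 ≤ s (S.pub i) := Real.rpow_nonneg hd0.le _
      have hsτ : s (S.pub i) * prodTau n ≤ 1 := by
        refine (mul_le_mul_of_nonneg_left hτ hs0).trans_eq ?_
        rw [← Real.rpow_add hd0, neg_add_cancel, Real.rpow_zero]
      have hsτ0 : 0 ≤ s (S.pub i) * prodTau n := mul_nonneg hs0 (Real.sqrt_nonneg _)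
      have hst : (s (S.pub i) * prodTau n) ^ 2 + top (S.pub i) ^ 2 = 1 := by
        rw [Real.sq_sqrt (le_max_left _ _), max_eq_right (by nlinarith)]
        ring
      have hclose := prodProg_close (P := P.at i) (P' := P'.at i) (Q := Q.at i) (Q' := Q'.at i)
        (n := n) (a₀ := a₀) (b₀ := b₀) (cH := S.dd i ^ b) (cF := S.dd i ^ aF) (TH := H i p x)
        (TF := F i p x) (a := (p, x, X)) hdn hhyp hs0 (hle _ (by linarith)) hst
      have hexp : -δ + (aF + b) = a := by rw [haF]; ring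
      rw [mapF_meanH, smul_smul, ← Real.rpow_add hd0, ← Real.rpow_add hd0, hexp] at hclose
      exact hclose

end Vale.Agent.P347.Zero
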