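import Vale.Agent.P347.Zero.RecTools
import Vale.Agent.P347.Zero.MeanIter
import Vale.Agent.P347.Zero.BaseMean

/-!
One level of the recursion: point programs of every iterate of the trajectory, from the mean oracle
and the vertices of that level.
-/

noncomputable section

open MeasureTheory ProbabilityTheory Set Filter
open scoped RealInnerProductSpace NNReal

namespace Vale.Agent.P347.Zero

variable {γ H Bw δv S' : ℝ} {ν : ℕ}

/-! ### The drift averaged over the noise of its channel -/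

section AvDrift

variable {J : Type} {f : J → NI γ H δv 0 S'}

/-- At the coarsest accuracy a mixture of drifts at a channel is close to the drift at its mean. -/
theorem sam_avDrift_zero {κ φ : ℝ} {Y : Fld (NQ Bw f) Unit Unit} (hY : Sm Y) (hκ : κ ≤ -1)
    (hφ : 0 ≤ φ) (h : SamMix κ φ 0 () (drT Y)) : Sam κ φ 0 () (avDrift Y) := fun a ha ε hε => by
  obtain ⟨R, hq, hl, hin, hlaw⟩ := h a ha ε hε
  refine ⟨R, hq, hl, hin, fun η hη => (((hlaw (η / 2) (half_pos hη)).and
    ((NQ Bw f).ev_le_rpow 3 (half_pos hη))).and (NQ Bw f).ev_one_le).mono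
      fun (n : J) ⟨⟨hi, h3⟩, hd⟩ p => ?_⟩
  set d := (NQ Bw f).dm n
  set X := (NQ Bw f).dd n ^ a with hX
  set W := (NQ Bw f).wt n p with hW
  obtain ⟨e, he, hb, hc⟩ := hi p
  have hd0 : (0 : ℝ) < (NQ Bw f).dd n := by linarith
  have hX0 : 0 ≤ X := Real.rpow_nonneg hd0.le _
  refine ⟨fun z => e z + X * (2 * Real.sqrt (d : ℝ)), he.add (integrable_const _), ?_,
    fun z A ψ L hψ => ?_⟩
  · rw [integral_add he (integrable_const _), integral_const, probReal_univ, one_smul]
    have h1 : X * (2 * Real.sqrt (d : ℝ)) ≤ 2 * (NQ Bw f).dd n ^ (η / 2 - κ) * W := by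
      refine le_trans ?_ (le_mul_of_one_le_right (by positivity) ((NQ Bw f).one_le_wt n p))
      rw [Real.sqrt_eq_rpow, mul_left_comm, hX, ← Real.rpow_add hd0]
      exact mul_le_mul_of_nonneg_left (Real.rpow_le_rpow_of_exponent_le hd (by linarith)) zero_le_two
    refine (add_le_add hb h1).trans ?_
    rw [← add_mul, show (NQ Bw f).dd n ^ (η - κ)
      = (NQ Bw f).dd n ^ (η / 2) * (NQ Bw f).dd n ^ (η / 2 - κ) by rw [← Real.rpow_add hd0]; ring_nf]
    refine mul_le_mul_of_nonneg_right ?_ ((NQ Bw f).wt_nonneg n p)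
    nlinarith [Real.rpow_nonneg hd0.le (η / 2 - κ)]
  · have hv := (f n).var_pos
    set G : (Unit → Space d) → Space d := fun x => apT () (drT Y n p (Sum.elim x z)) A with hG
    have hlip : ∀ x x', ‖G x - G x'‖ ≤ ‖x () - x' ()‖ := fun x x' => by
      have hp : 0 < (f n).q.hs := (f n).q.hs_pos
      simp only [hG, drT_vec]
      erw [← smul_sub, norm_smul]
      rw [norm_inv, Real.norm_of_nonneg hp.le]
      refine (mul_le_mul_of_nonneg_left (norm_driftV_sub _ hv _ _) (inv_nonneg.2 hp.le)).trans ?_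
      rw [← mul_assoc, inv_mul_cancel₀ hp.ne', one_mul]
      erw [← smul_sub, norm_smul, add_sub_add_left_eq_sub, ← smul_sub, norm_smul, ← mul_assoc]
      refine mul_le_of_le_one_left (norm_nonneg _) ?_
      rw [Real.norm_eq_abs, Real.norm_eq_abs, abs_of_nonneg (Real.sqrt_nonneg _),
        abs_of_nonneg (mul_nonneg (f n).r_mem.1 (by linarith [(f n).a_mem.1]))]
      exact mul_le_one₀ (mul_le_one₀ (f n).r_mem.2 (by linarith [(f n).a_mem.1]) (f n).a_mem.2)
        (Real.sqrt_nonneg _) (Real.sqrt_le_one.2 (by linarith [sq_nonneg (f n).a]))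
    have hGc : Continuous G := continuous_apT () (((drT_sm hY).cont n p).comp
      (continuous_pi fun r => by rcases r with r | r <;> simp <;> fun_prop)) continuous_const
    have hev := measurePreserving_eval (fun _ : Unit => gam d) ()
    have hn : Integrable (fun x : Unit → Space d => ‖x ()‖) (gp Unit d) :=
      hev.integrable_comp_of_integrable integrable_norm_gam
    have hnb : ∫ x : Unit → Space d, ‖x ()‖ ∂gp Unit d ≤ Real.sqrt (d : ℝ) := by
      refine le_of_eq_of_le ?_ Loc.gam_norm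
      conv_rhs => rw [← hev.map_eq]
      rw [integral_map hev.measurable.aemeasurable (by fun_prop)]
    have hGi : Integrable G (gp Unit d) :=
      ((integrable_const ‖G 0‖).add hn).mono' hGc.aestronglyMeasurable (ae_of_all _ fun x => by
        have h1 := hlip x 0
        simp only [Pi.zero_apply, sub_zero] at h1
        exact (norm_le_norm_add_norm_sub' _ (G 0)).trans (add_le_add le_rfl h1))
    set m := ∫ x, G x ∂gp Unit d with hm
    have hmT : apT () (avDrift Y n p z) A = m := by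
      have e0 : ∀ T : Ten d Unit, ∀ u, apT () T A u = T fun _ => u := fun T u => by
        rw [apT_unit]; exact sum_ev (fun c => T fun _ => c) u
      ext u
      rw [e0, hm]
      refine Eq.trans ?_ ((EuclideanSpace.proj (𝕜 := ℝ) u).integral_comp_comm hGi)
      exact integral_congr_ae (ae_of_all _ fun x => (e0 _ u).symm)
    have hdev : ∫ x, ‖G x - m‖ ∂gp Unit d ≤ 2 * Real.sqrt (d : ℝ) := by
      have h1 : ∀ x, ‖G x - m‖ ≤ ‖x ()‖ + Real.sqrt (d : ℝ) := fun x => by
        have h2 : G x - m = ∫ x', (G x - G x') ∂gp Unit d := by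
          rw [integral_sub (integrable_const _) hGi, integral_const, probReal_univ, one_smul]
        rw [h2]
        refine (norm_integral_le_of_norm_le ((integrable_const ‖x ()‖).add hn)
          (ae_of_all _ fun x' => (hlip x x').trans (norm_sub_le _ _))).trans ?_
        simp only [Pi.add_apply]
        rw [integral_add (integrable_const _) hn, integral_const, probReal_univ, one_smul]
        linarith
      refine (integral_mono (hGi.sub (integrable_const _)).norm (hn.add (integrable_const _)) h1).trans ?_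
      simp only [Pi.add_apply]
      rw [integral_add hn (integrable_const _), integral_const, probReal_univ, one_smul]
      linarith
    set Φ : Space d → ℝ := fun v => ∫ w, ψ (v + w) ∂gam d
    have hψi : ∀ v : Space d, Integrable (fun w => ψ (v + w)) (gam d) := fun v =>
      (((integrable_const ‖v‖).add integrable_norm_gam).const_mul (L : ℝ)).add
        (integrable_const ‖ψ 0‖) |>.mono' (by have := hψ.continuous; fun_prop)
        (ae_of_all _ fun w => by
          have h1 := hψ.dist_le_mul (v + w) 0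
          rw [dist_eq_norm, dist_eq_norm, sub_zero] at h1
          have h2 := norm_le_norm_add_norm_sub' (ψ (v + w)) (ψ 0)
          simp only [Pi.add_apply]
          nlinarith [norm_add_le v w, L.2])
    have hΦ : ∀ v v', |Φ v - Φ v'| ≤ L * ‖v - v'‖ := fun v v' => by
      rw [← Real.norm_eq_abs]
      simp only [Φ]
      rw [← integral_sub (hψi v) (hψi v')]
      refine (norm_integral_le_of_norm_le (integrable_const ((L : ℝ) * ‖v - v'‖))
        (ae_of_all _ fun w => ?_)).trans_eq (by simp)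
      have h1 := hψ.dist_le_mul (v + w) (v' + w)
      rwa [dist_eq_norm, dist_eq_norm, add_sub_add_right_eq_sub] at h1
    have hΦl : LipschitzWith L Φ := LipschitzWith.of_dist_le_mul fun v v' => by
      rw [Real.dist_eq, dist_eq_norm]; exact hΦ v v'
    have hΦi : Integrable (fun x => Φ (X • G x)) (gp Unit d) :=
      ((integrable_const |Φ 0|).add (hGi.norm.const_mul (L * X))).mono'
        (hΦl.continuous.comp (hGc.const_smul X)).aestronglyMeasurable (ae_of_all _ fun x => by
          have h1 := hΦ (X • G x) 0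
          rw [sub_zero, norm_smul, Real.norm_of_nonneg hX0, ← mul_assoc] at h1
          rw [Real.norm_eq_abs, Pi.add_apply]
          linarith [abs_sub_abs_le_abs_sub (Φ (X • G x)) (Φ 0)])
    have hmid : |∫ x, Φ (X • G x) ∂gp Unit d - Φ (X • m)| ≤ L * (X * (2 * Real.sqrt (d : ℝ))) := by
      rw [show Φ (X • m) = ∫ _ : Unit → Space d, Φ (X • m) ∂gp Unit d by
        rw [integral_const, probReal_univ, one_smul], ← integral_sub hΦi (integrable_const _),
        ← Real.norm_eq_abs]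
      refine (norm_integral_le_of_norm_le (((hGi.sub (integrable_const m)).norm.const_mul X).const_mul
        (L : ℝ)) (ae_of_all _ fun x => ?_)).trans ?_
      · rw [Real.norm_eq_abs]
        refine (hΦ _ _).trans_eq ?_
        simp only [Pi.sub_apply, ← smul_sub, norm_smul, Real.norm_of_nonneg hX0]
      · rw [integral_const_mul, integral_const_mul]
        exact mul_le_mul_of_nonneg_left (mul_le_mul_of_nonneg_left hdev hX0) L.2
    rw [hmT]
    refine (abs_sub_le _ (∫ x, Φ (X • G x) ∂gp Unit d) _).trans ?_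
    rw [add_mul]
    exact add_le_add (hc z A ψ L hψ) (hmid.trans_eq (mul_comm _ _))

/-- The averaged drift at a point computed to the accuracy of a level is realised at that level. -/
theorem sam_avDrift (hVal : ValThm) (hA : AvgThm) {L : Lad} {r : ℕ} {α : ℝ} (hγ : 0 < γ)
    (hδ : 0 < δv) (hS : δv ≤ S') (hSα : S' < 2 * α) (hM : MeanOK γ (L.kap r) (L.phi r))
    {Y : Fld (NQ Bw f) Unit Unit} (hY : Pts (L.kap r) α Y)
    (hV : ∀ k : ℕ, 1 ≤ k → Gd L r (L.phi r) (-(k : ℝ) * L.w) univ (vtx k Y)) :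
    Sam (L.kap r) (L.phi r) 0 () (avDrift Y) := by
  have hgφ : L.g ≤ L.phi r := L.g_lt.le.trans (L.phi_mono (Nat.zero_le r))
  have hmix : SamMix (L.kap r) (L.phi r) 0 () (drT Y) := by
    have h0 := hVal γ H Bw δv 0 S' α (L.kap r) (L.kap r) (L.phi r) (L.phi r) L.g hγ le_rfl hδ.le hS
      hSα L.g_pos hgφ (by linarith) (by linarith [L.g_pos]) hM Unit Empty J f Y (fun _ => 1)
      (fun _ => Empty.elim) hY (fun j => by simp) ?_
    · refine h0.reB (Equiv.sumEmpty Unit Empty) fun (n : J) p x y A => ?_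
      rw [drT_vec, apT_unit]
      ext u
      refine Eq.trans ?_ (sum_ev (fun c => valFld Y (fun _ => 1) (fun _ => Empty.elim) n p
        (Sum.elim x fun c => y (Equiv.sumEmpty Unit Empty c)) fun _ => c) u).symm
      simp only [valFld, Sum.elim_inl, Sum.elim_inr, one_smul, Finset.univ_eq_empty,
        Finset.sum_empty, add_zero, driftT, PiLp.smul_apply, smul_eq_mul, inv_mul_eq_div]
      rfl
    · obtain ⟨d₀, hd⟩ := ((NQ Bw f).ev_le_rpow 64 (show 0 < 2 * α - S' by linarith))
      refine ⟨d₀, fun (n : J) hn => ?_⟩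
      have h1 : (64 : ℝ) ≤ ((f n).q.d : ℝ) ^ (2 * α - S') := hd n hn
      have hd0 : (0 : ℝ) < (f n).q.d := by exact_mod_cast (by linarith [(f n).q.two_le] : 0 < (f n).q.d)
      have h2 := (f n).noise_ge
      have h3 : 64 * ((f n).q.d : ℝ) ^ (-(2 * α)) ≤ ((f n).q.d : ℝ) ^ (-S') := by
        refine (mul_le_mul_of_nonneg_right h1 (Real.rpow_nonneg hd0.le _)).trans_eq ?_
        rw [← Real.rpow_add hd0]
        ring_nf
      simp only [one_pow, one_mul]
      linarith
  match r, hM, hY, hV, hgφ, hmix with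
  | 0, _, hY, _, _, hmix =>
    exact sam_avDrift_zero hY.1 L.kap_zero (L.phi_pos 0).le hmix
  | r + 1, _, hY, hV, _, hmix =>
    rw [avDrift_eq]
    refine hA (NQ Bw f) L r (L.phi (r + 1)) (L.phi (r + 1)) 0 (L.gap r) le_rfl
      (by linarith [L.gap r]) Unit Unit Unit univ () (drT Y) (mem_univ _) (drT_sm hY.1) hmix
      fun b n => ?_
    obtain rfl : b = () := rfl
    have h1 := gdD_drT hY.1 hV n 1 (some '' univ : Set (Option Unit))
      ((shiftO 0).trans oneU.optionCongr) (fun k => Real.sqrt (1 - k.a ^ 2)) le_rfl fun i => by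
        rw [abs_of_nonneg (Real.sqrt_nonneg _)]
        exact Real.sqrt_le_one.2 (by linarith [sq_nonneg (f i).pub.a])
    convert h1 using 1
    · simp
    · funext i p x idx
      refine (dB_subB ((vtx_sm 0 hY.1).reL oneU) _ _ i p x idx).trans ?_
      rw [Fintype.sum_sum_type]
      simp only [swapM, Sum.swap_inl, Sum.swap_inr, Finset.univ_unique, Finset.sum_singleton,
        reduceCtorEq, if_false, if_true, zero_mul, zero_add, one_mul]
      show dB (.inr ()) (reL oneU (vtx 0 Y)) i p _ idx = _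
      rw [dB_reL, dB_vtx 0 hY.1]
      rfl

end AvDrift

/-! ### The iterates -/

variable {G : Grid δv} {hδ : 0 < δv} {hS : δv ≤ S'} {c : Fin ν → ℝ}

/-- An iterate from the averaged drifts of the one before. -/
theorem iter_succ_avDrift (k : ℕ) (x : QI γ H × ℕ) (p : Space x.1.d) (z : Unit → Space x.1.d)
    (idx : Unit → Fin x.1.d) :
    iter (γ := γ) (H := H) (B := Bw) G hδ hS c (k + 1) x p z idx
      = z () (idx ()) + -(x.1.hs * ∑ b ∈ Finset.range (G.m x.1.d), G.W x.1.d x.2 b * ∑ l : Fin ν,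
          c l * avDrift (toNodes G hδ hS (iter (γ := γ) (H := H) (B := Bw) G hδ hS c k))
            (x.1, b, (l : ℕ)) p z idx) := by
  rw [← sub_eq_add_neg]
  refine congrArg₂ (· - ·) rfl (congrArg _ (Finset.sum_congr rfl fun b _ =>
    congrArg _ (Finset.sum_congr rfl fun l _ => congrArg _ ?_)))
  exact (avDrift_apply (toNodes G hδ hS (iter (γ := γ) (H := H) (B := Bw) G hδ hS c k))
    (x.1, b, (l : ℕ)) p z idx).symm

/-- The iterates are smooth. -/
theorem iter_sm : ∀ k, Sm (iter (γ := γ) (H := H) (B := Bw) G hδ hS c k)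
  | 0 => sm_iff.2 fun x p idx => pg_linear ((EuclideanSpace.proj (𝕜 := ℝ) (idx ())).comp
      (ContinuousLinearMap.proj (φ := fun _ : Unit => Space ((GS γ H Bw).dm x)) ()))
  | k + 1 => sm_iff.2 fun (x : QI γ H × ℕ) p idx => by
    have hY : Sm (toNodes G hδ hS (iter (γ := γ) (H := H) (B := Bw) G hδ hS c k)) :=
      fun n p idx => iter_sm k (n.1, n.2.1) p idx
    have h1 : ∀ (b : ℕ) (l : Fin ν), PG fun z : Unit → Space x.1.d =>
        avDrift (toNodes G hδ hS (iter (γ := γ) (H := H) (B := Bw) G hδ hS c k)) (x.1, b, (l : ℕ)) p z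
          idx := fun b l => (avDrift_sm hY).pg (x.1, b, (l : ℕ)) p idx
    have h2 := (pg_linear ((EuclideanSpace.proj (𝕜 := ℝ) (idx () : Fin x.1.d)).comp
        (ContinuousLinearMap.proj (φ := fun _ : Unit => Space x.1.d) ()))).add
      (((PG.sum (Finset.range (G.m x.1.d)) fun b _ =>
        (PG.sum Finset.univ fun l (_ : l ∈ Finset.univ) => (h1 b l).const_mul (c l)).const_mul
          (G.W x.1.d x.2 b)).const_mul x.1.hs).const_mul (-1))
    refine cast (congrArg PG (funext fun z => ?_)) h2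
    rw [neg_one_mul]
    exact (iter_succ_avDrift k x p z idx).symm

/-- The size of one channel value. -/
theorem norm_chVal_le {d : ℕ} {h : ℝ} (P : Pot d h) (hh : h ≤ 1) {r : ℝ} (a : Fin ν → ℝ)
    (hr : ∀ l, r * a l ∈ Ioo (-1 : ℝ) 1) (ha : ∀ l, |a l| ≤ 1) (y : Space d) :
    ‖chVal c a P r y‖ ≤ (∑ l, |c l|) * (2 * Real.sqrt (siz P) + ‖y‖ + Real.sqrt d) := by
  rw [chVal, Finset.sum_mul]
  refine (norm_sum_le _ _).trans (Finset.sum_le_sum fun l _ => ?_)
  rw [norm_smul, Real.norm_eq_abs]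
  refine mul_le_mul_of_nonneg_left ?_ (abs_nonneg _)
  have hv := var_pos (hr l)
  have h0 : ‖driftV P (1 - (r * a l) ^ 2, 0)‖ ≤ 2 * Real.sqrt (siz P) := by
    have h1 := norm_driftV_zero P hh hv (by linarith [sq_nonneg (r * a l)])
    rw [← Real.sqrt_sq (norm_nonneg (driftV P (1 - (r * a l) ^ 2, 0)))]
    refine (Real.sqrt_le_sqrt h1).trans_eq ?_
    rw [Real.sqrt_mul (by norm_num), show (4 : ℝ) = 2 ^ 2 by norm_num, Real.sqrt_sq zero_le_two]
  refine (norm_integral_le_of_norm_le ((integrable_const (2 * Real.sqrt (siz P) + ‖y‖)).add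
    integrable_norm_gam) (ae_of_all _ fun e => ?_)).trans ?_
  · have h1 := norm_driftV_sub P hv ((r * a l) • (a l • y + Real.sqrt (1 - a l ^ 2) • e)) 0
    rw [sub_zero, norm_smul, Real.norm_eq_abs] at h1
    have h2 : ‖a l • y + Real.sqrt (1 - a l ^ 2) • e‖ ≤ ‖y‖ + ‖e‖ := by
      refine (norm_add_le _ _).trans (add_le_add ?_ ?_) <;> rw [norm_smul, Real.norm_eq_abs]
      · exact mul_le_of_le_one_left (norm_nonneg _) (ha l)
      · rw [abs_of_nonneg (Real.sqrt_nonneg _)]
        exact mul_le_of_le_one_left (norm_nonneg _) (Real.sqrt_le_one.2 (by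
          linarith [sq_nonneg (a l)]))
    have h3 : |r * a l| ≤ 1 := abs_le.2 ⟨(hr l).1.le, (hr l).2.le⟩
    have h4 : h * (|r * a l| * ‖a l • y + Real.sqrt (1 - a l ^ 2) • e‖) ≤ ‖y‖ + ‖e‖ :=
      (mul_le_of_le_one_left (by positivity) hh).trans
        ((mul_le_of_le_one_left (norm_nonneg _) h3).trans h2)
    simp only [chan, Pi.add_apply]
    linarith [norm_le_norm_add_norm_sub'
      (driftV P (1 - (r * a l) ^ 2, (r * a l) • (a l • y + Real.sqrt (1 - a l ^ 2) • e)))
      (driftV P (1 - (r * a l) ^ 2, 0))]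
  · simp only [Pi.add_apply]
    rw [integral_add (integrable_const _) integrable_norm_gam, integral_const, probReal_univ,
      one_smul]
    linarith [Loc.gam_norm (d := d)]

/-- The iterates have polynomial size. -/
theorem traj_size (hγ : 0 < γ) : ∀ k, ∃ d₀ : ℕ, ∀ i : QI γ H, d₀ ≤ i.d → ∀ p z b,
    ‖trajV G hδ hS c Bw k i p z b‖
      ≤ (i.d : ℝ) ^ k * (‖z ()‖ + 5 * i.d * (1 + ‖i.P.g (i.σ • p)‖))
  | 0 => ⟨0, fun i _ p z b => by
    rw [trajV_zero, pow_zero, one_mul]
    exact le_add_of_nonneg_right (by positivity)⟩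
  | k + 1 => by
    obtain ⟨d₁, h1⟩ := traj_size hγ k
    obtain ⟨d₂, h2⟩ := G.weight (1 / 4) (by norm_num)
    obtain ⟨d₃, h3⟩ := Filter.eventually_atTop.1 (tendsto_natCast_atTop_atTop.eventually
      ((tendsto_rpow_atTop (show (0 : ℝ) < 1 / 4 by norm_num)).eventually_ge_atTop (∑ l, |c l|)))
    refine ⟨d₁ + d₂ + d₃ + 9, fun i hi p z a => ?_⟩
    have hd : (9 : ℝ) ≤ i.d := by exact_mod_cast (by omega : 9 ≤ i.d)
    have hd0 : (0 : ℝ) < i.d := by linarith
    have hh : i.hs ≤ 1 :=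
      i.hs_le.trans (Real.rpow_le_one_of_one_le_of_nonpos (by linarith) (by linarith))
    set M := ‖z ()‖ + 5 * i.d * (1 + ‖i.P.g (i.σ • p)‖) with hM
    have hM0 : 0 ≤ M := by positivity
    have hdk : (1 : ℝ) ≤ (i.d : ℝ) ^ k := one_le_pow₀ (by linarith)
    set s := Real.sqrt i.d with hs
    have hs0 : 0 ≤ s := Real.sqrt_nonneg _
    have hss : s * s = i.d := Real.mul_self_sqrt hd0.le
    have hs3 : 3 ≤ s := by nlinarith
    rw [trajV_succ]
    refine (norm_sub_le _ _).trans ((add_le_add le_rfl (norm_sum_le _ _)).trans ?_)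
    have hch : ∀ b, ‖G.W i.d a b • chVal c (fun l : Fin ν => chA δv S' i.d l) (i.pot p)
        (G.node i.d b) (trajV G hδ hS c Bw k i p z b)‖
          ≤ |G.W i.d a b| * ((∑ l, |c l|) * ((i.d : ℝ) ^ k * M + M)) := fun b => by
      rw [norm_smul, Real.norm_eq_abs]
      refine mul_le_mul_of_nonneg_left ?_ (abs_nonneg _)
      refine (norm_chVal_le (i.pot p) hh _ (fun l => node_chan G hδ hS i b l) (fun l => ?_) _).trans ?_
      · have := (chA_props hS i.two_le hδ (l : ℕ)).1
        exact abs_le.2 ⟨by linarith [this.1], this.2⟩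
      · refine mul_le_mul_of_nonneg_left ?_ (Finset.sum_nonneg fun l _ => abs_nonneg _)
        have h4 := h1 i (by omega) p z b
        have h5 := i.sqrt_siz_le p
        have h6 : s ≤ i.d := by nlinarith
        nlinarith [mul_nonneg hd0.le (norm_nonneg (i.P.g (i.σ • p))), norm_nonneg (z ())]
    refine (add_le_add le_rfl (Finset.sum_le_sum fun b _ => hch b)).trans ?_
    rw [← Finset.sum_mul]
    have hw := h2 i.d (by omega) a
    have hc := h3 i.d (by omega)
    have h7 : (∑ b ∈ Finset.range (G.m i.d), |G.W i.d a b|) * (∑ l, |c l|) ≤ s := by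
      refine (mul_le_mul hw hc (Finset.sum_nonneg fun l _ => abs_nonneg _)
        (Real.rpow_nonneg hd0.le _)).trans_eq ?_
      rw [← Real.rpow_add hd0, hs, Real.sqrt_eq_rpow]
      norm_num
    rw [← mul_assoc]
    refine (add_le_add le_rfl (mul_le_mul_of_nonneg_right h7 (by positivity))).trans ?_
    rw [pow_succ]
    have hz : ‖z ()‖ ≤ M := le_add_of_nonneg_right (by positivity)
    nlinarith [mul_le_mul_of_nonneg_right hdk hM0, mul_nonneg hs0 hM0,
      mul_le_mul_of_nonneg_right hdk (mul_nonneg hs0 hM0),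
      mul_le_mul_of_nonneg_left hs3 (mul_nonneg (mul_nonneg hs0 hM0) (pow_nonneg hd0.le k))]

/-- The iterates as points have polynomial size. -/
theorem pts_size (hγ : 0 < γ) (k : ℕ) :
    ∃ c₀ : ℝ, (NQ Bw (gridNI (γ := γ) (H := H) G hδ hS)).Ev fun (x : QI γ H × ℕ × ℕ) => ∀ p,
      Integrable (fun z => ‖vecOf (toNodes G hδ hS (iter (γ := γ) (H := H) (B := Bw) G hδ hS c k))
          x p z‖ ^ 2) (gp Unit x.1.d) ∧
        ∫ z, ‖vecOf (toNodes G hδ hS (iter (γ := γ) (H := H) (B := Bw) G hδ hS c k)) x p z‖ ^ 2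
            ∂gp Unit x.1.d ≤ (x.1.d : ℝ) ^ c₀ * (1 + ‖x.1.P.g (x.1.σ • p)‖) ^ 2 := by
  obtain ⟨d₀, hd⟩ := traj_size (H := H) (Bw := Bw) (G := G) (hδ := hδ) (hS := hS) (c := c) hγ k
  refine ⟨((2 * k + 3 : ℕ) : ℝ), d₀ + 52, fun (x : QI γ H × ℕ × ℕ) hx p => ?_⟩
  have hx' : d₀ + 52 ≤ x.1.d := hx
  set i := x.1
  set C := 5 * (i.d : ℝ) * (1 + ‖i.P.g (i.σ • p)‖) with hC
  have hd1 : (52 : ℝ) ≤ i.d := by exact_mod_cast (by omega : 52 ≤ i.d)
  have hpt : ∀ z : Unit → Space i.d, ‖trajV G hδ hS c Bw k i p z x.2.1‖ ^ 2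
      ≤ ((i.d : ℝ) ^ k) ^ 2 * (2 * ‖z ()‖ ^ 2 + 2 * C ^ 2) := fun z => by
    refine (pow_le_pow_left₀ (norm_nonneg _) (hd i (by omega) p z x.2.1) 2).trans ?_
    rw [mul_pow]
    exact mul_le_mul_of_nonneg_left (by
      rw [hC]
      exact add_sq_le.trans_eq (mul_add _ _ _)) (sq_nonneg _)
  have hev := measurePreserving_eval (fun _ : Unit => gam i.d) ()
  have hsq : Integrable (fun z : Unit → Space i.d => ‖z ()‖ ^ 2) (gp Unit i.d) :=
    hev.integrable_comp_of_integrable (Loc.m2_gam.integrable_norm_pow two_ne_zero)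
  have hsi : ∫ z : Unit → Space i.d, ‖z ()‖ ^ 2 ∂gp Unit i.d = i.d := by
    rw [← Loc.gam_sq (d := i.d)]
    conv_rhs => rw [← hev.map_eq]
    rw [integral_map hev.measurable.aemeasurable (by fun_prop)]
  have hR : Integrable (fun z : Unit → Space i.d =>
      ((i.d : ℝ) ^ k) ^ 2 * (2 * ‖z ()‖ ^ 2 + 2 * C ^ 2)) (gp Unit i.d) :=
    ((hsq.const_mul 2).add (integrable_const _)).const_mul _
  have hI : Integrable (fun z => ‖trajV G hδ hS c Bw k i p z x.2.1‖ ^ 2) (gp Unit i.d) :=
    hR.mono' ((trajV_cont G hδ hS c i p k x.2.1).norm.pow 2).aestronglyMeasurable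
      (ae_of_all _ fun z => by rw [Real.norm_of_nonneg (sq_nonneg _)]; exact hpt z)
  refine ⟨hI, (integral_mono hI hR hpt).trans ?_⟩
  rw [integral_const_mul, integral_add (hsq.const_mul 2) (integrable_const _), integral_const_mul,
    hsi, integral_const, probReal_univ, one_smul, Real.rpow_natCast, hC]
  have hN : 1 ≤ (1 + ‖i.P.g (i.σ • p)‖) ^ 2 :=
    one_le_pow₀ (le_add_of_nonneg_right (norm_nonneg _))
  rw [show (i.d : ℝ) ^ (2 * k + 3) = ((i.d : ℝ) ^ k) ^ 2 * (i.d : ℝ) ^ 3 by ring,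
    mul_assoc (((i.d : ℝ) ^ k) ^ 2)]
  refine mul_le_mul_of_nonneg_left ?_ (sq_nonneg _)
  have h2 : 2 * (i.d : ℝ) ≤ 2 * (i.d : ℝ) ^ 2 * (1 + ‖i.P.g (i.σ • p)‖) ^ 2 := by nlinarith
  nlinarith [mul_le_mul_of_nonneg_right hd1 (mul_nonneg (sq_nonneg (i.d : ℝ))
    (sq_nonneg (1 + ‖i.P.g (i.σ • p)‖)))]

/-- Mean oracles and vertices at a level give the point programs of that level. -/
theorem ptsThm_of (hVal : ValThm) (hA : AvgThm) : PtsThm := by
  intro L r γ δv S α hγ hδ₀ hδS hSw hSα hαγ hmono hM hV hδ hS H B G ν c k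
  induction k with
  | zero =>
    refine ⟨fun n p idx => iter_sm 0 (n.1, n.2.1) p idx, fun ε hε => ?_, pts_size hγ 0⟩
    refine ⟨Run.of fun n => (Prog.noise n.q.d Unit Unit 1).shift () ((n.q.d : ℝ) ^ α), ?_, ?_,
      Run.lipIn_of fun η hη => ?_, Run.law_of_close fun η hη => ?_⟩
    · exact ((NQ B (gridNI (γ := γ) (H := H) G hδ hS)).ev_one_le).mono fun i hi => by
        show ((0 : ℕ) : ℝ) ≤ _
        simpa using Real.rpow_nonneg (zero_le_one.trans hi) ε
    · exact fun x => Prog.shift_lipW (Prog.noise_lipW 1 _) () _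
    · exact ((NQ B (gridNI (γ := γ) (H := H) G hδ hS)).ev_one_le).mono
        fun (x : QI γ H × ℕ × ℕ) hd => (Prog.shift_lip (Prog.noise_lip 1 _) () _).mono (by
          rw [add_zero]
          refine (le_of_eq (abs_of_nonneg (Real.rpow_nonneg (Nat.cast_nonneg _) _))).trans ?_
          exact Real.rpow_le_rpow_of_exponent_le (show (1 : ℝ) ≤ x.1.d from hd) (by linarith))
    · exact ((NQ B (gridNI (γ := γ) (H := H) G hδ hS)).ev_one_le).mono fun (x : QI γ H × ℕ × ℕ) hd p =>
        ⟨fun _ => 0, integrable_const _, by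
          rw [integral_zero]
          exact mul_nonneg (Real.rpow_nonneg (zero_le_one.trans hd) _)
            ((NQ B (gridNI (γ := γ) (H := H) G hδ hS)).wt_nonneg x p), fun z A => by
          have h1 := Prog.shift_close (Prog.noise_close (B := Unit) (I := Unit) (d := x.1.d) 1
            x.1.P.g p z A) () ((x.1.d : ℝ) ^ α)
          rw [add_zero] at h1
          have e : apT () (toNodes G hδ hS (iter (γ := γ) (H := H) (B := B) G hδ hS c 0) x p z) A
              = z () := by
            rw [apT_unit]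
            ext u
            exact sum_ev (fun u' => z () u') u
          rw [e]
          exact h1⟩
  | succ k ih =>
    refine ⟨fun n p idx => iter_sm (k + 1) (n.1, n.2.1) p idx, fun ε hε => ?_, pts_size hγ (k + 1)⟩
    set N := NQ B (gridNI (γ := γ) (H := H) G hδ hS)
    set Y := toNodes G hδ hS (iter (γ := γ) (H := H) (B := B) G hδ hS c k) with hYdef
    have hav : Sam (L.kap r) (L.phi r) 0 () (avDrift Y) := by
      refine sam_avDrift hVal hA hγ hδ hS hSα hM ih fun j hj => ?_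
      obtain ⟨h1, h2, h3⟩ := ih
      exact hV r le_rfl H B Unit _ _ Y ⟨h1, fun ε hε => by
        obtain ⟨R, r1, r2, r3, r4⟩ := h2 ε hε
        exact ⟨R, r1, r2, r3, r4.mono (hmono (Nat.sub_le r 1))⟩, h3⟩ j hj
    set U : Fld ((GS γ H B).par ℕ) Unit Unit := fun (y : (QI γ H × ℕ) × ℕ) p =>
      avDrift Y (y.1.1, y.2 / ν, y.2 % ν) p with hU
    have hUs : Sam (L.kap r) (L.phi r) 0 () U := fun a ha ε hε => by
      obtain ⟨R, ⟨d₁, hq⟩, hl, hin, hlaw⟩ := hav a ha ε hε
      refine ⟨Run.of fun y => R.atK (gridNK G hδ hS (y.1.1, y.2 / ν, y.2 % ν)),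
        ⟨d₁, fun y hy => hq (y.1.1, y.2 / ν, y.2 % ν) hy⟩,
        fun y => hl (y.1.1, y.2 / ν, y.2 % ν), fun η hη => ?_, fun η hη => ?_⟩
      · obtain ⟨d₂, h2⟩ := hin η hη
        exact ⟨d₂, fun y hy => h2 (y.1.1, y.2 / ν, y.2 % ν) hy⟩
      · obtain ⟨d₂, h2⟩ := hlaw η hη
        exact ⟨d₂, fun y hy => h2 (y.1.1, y.2 / ν, y.2 % ν) hy⟩
    set cl : ℕ → ℝ := fun l => if h : l < ν then c ⟨l, h⟩ else 0 with hcl
    set Sc : QK γ H × ℕ → ℝ := fun y => y.1.h * y.1.σ ^ 2 * (y.1.d : ℝ) ^ γ with hSc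
    set w : QK γ H × ℕ → ℕ → ℝ := fun y n =>
      -(Sc y * (G.W y.1.d y.2 (n / ν) * cl (n % ν))) with hw
    set Nc : QK γ H × ℕ → ℕ := fun y => G.m y.1.d * ν with hNc
    have hSc1 : ∀ y : QI γ H × ℕ, |Sc (y.1.toQK, y.2)| ≤ 1 := fun y => by
      have hd : (0 : ℝ) < y.1.d := by exact_mod_cast (by linarith [y.1.two_le] : 0 < y.1.d)
      show |y.1.h * y.1.σ ^ 2 * (y.1.d : ℝ) ^ γ| ≤ 1
      rw [abs_of_nonneg (mul_nonneg (mul_nonneg y.1.P.h_nonneg (sq_nonneg _)) (Real.rpow_nonneg hd.le _))]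
      refine (mul_le_mul_of_nonneg_right y.1.hs_le (Real.rpow_nonneg hd.le _)).trans_eq ?_
      rw [← Real.rpow_add hd, neg_add_cancel, Real.rpow_zero]
    have hsum : Sam (L.kap r) (L.phi r) 0 ()
        (sumF (fun y => Nc ((GS γ H B).pub y)) (fun y => w ((GS γ H B).pub y)) U) := by
      refine Sam.sum (S := GS γ H B) hUs (N := Nc) (w := w) (fun η hη => ?_) fun η hη => ?_
      · obtain ⟨d₁, h1⟩ := G.count (η / 2) (half_pos hη)
        obtain ⟨d₂, h2⟩ := (GS γ H B).ev_le_rpow ν (half_pos hη)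
        refine ⟨d₁ + d₂, fun (y : QI γ H × ℕ) hy => ?_⟩
        have hy' : d₁ + d₂ ≤ y.1.d := hy
        have hd : (0 : ℝ) < y.1.d := by exact_mod_cast (by linarith [y.1.two_le] : 0 < y.1.d)
        show ((G.m y.1.d * ν : ℕ) : ℝ) ≤ (y.1.d : ℝ) ^ η
        push_cast
        refine (mul_le_mul (h1 y.1.d (by omega)) (h2 y (show d₂ ≤ y.1.d by omega)) (Nat.cast_nonneg _)
          (Real.rpow_nonneg hd.le _)).trans_eq ?_
        show (y.1.d : ℝ) ^ (η / 2) * (y.1.d : ℝ) ^ (η / 2) = _
        rw [← Real.rpow_add hd, add_halves]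
      · obtain ⟨d₁, h1⟩ := G.weight (η / 2) (half_pos hη)
        obtain ⟨d₂, h2⟩ := (GS γ H B).ev_le_rpow (∑ l, |c l|) (half_pos hη)
        refine ⟨d₁ + d₂, fun (y : QI γ H × ℕ) hy => ?_⟩
        have hy' : d₁ + d₂ ≤ y.1.d := hy
        have hd : (0 : ℝ) < y.1.d := by exact_mod_cast (by linarith [y.1.two_le] : 0 < y.1.d)
        show ∑ n ∈ Finset.range (G.m y.1.d * ν),
          |-(Sc (y.1.toQK, y.2) * (G.W y.1.d y.2 (n / ν) * cl (n % ν)))| ≤ (y.1.d : ℝ) ^ η
        refine (Finset.sum_le_sum (g := fun n => |G.W y.1.d y.2 (n / ν)| * |cl (n % ν)|)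
          fun n _ => ?_).trans ?_
        · rw [abs_neg, abs_mul, ← abs_mul (G.W y.1.d y.2 (n / ν))]
          exact mul_le_of_le_one_left (abs_nonneg _) (hSc1 y)
        · rw [sum_div_mod (G.m y.1.d) ν fun b l => |G.W y.1.d y.2 b| * |cl l|]
          simp only [← Finset.mul_sum, ← Finset.sum_mul]
          have e : ∑ l ∈ Finset.range ν, |cl l| = ∑ l, |c l| := by
            rw [Finset.sum_range]
            exact Finset.sum_congr rfl fun l _ => by simp [hcl]
          rw [e]
          refine (mul_le_mul (h1 y.1.d (by omega) y.2) (h2 y (show d₂ ≤ y.1.d by omega))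
            (Finset.sum_nonneg fun l _ => abs_nonneg _) (Real.rpow_nonneg hd.le _)).trans_eq ?_
          show (y.1.d : ℝ) ^ (η / 2) * (y.1.d : ℝ) ^ (η / 2) = _
          rw [← Real.rpow_add hd, add_halves]
    obtain ⟨R, hq, hl, hin, hlaw⟩ := hsum (α - γ) (by linarith [L.w_pos]) ε hε
    refine ⟨Run.of fun n => (R.atK (n.q, n.lab.1)).shift () ((n.q.d : ℝ) ^ α), ?_,
      fun x => Prog.shift_lipW (hl.lipW (x.1, x.2.1)) () _, Run.lipIn_of fun η hη => ?_,
      Run.law_of_close fun η hη => ?_⟩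
    · obtain ⟨d₁, h1⟩ := hq
      exact ⟨d₁, fun x hx => h1 (x.1, x.2.1) hx⟩
    · obtain ⟨d₁, h1⟩ := hin.lip (half_pos hη)
      obtain ⟨d₂, h2⟩ := (GS γ H B).ev_le_rpow 2 (half_pos hη)
      refine ⟨d₁ + d₂ + 1, fun (x : QI γ H × ℕ × ℕ) hx => ?_⟩
      have hx' : d₁ + d₂ + 1 ≤ x.1.d := hx
      have hd : (1 : ℝ) ≤ x.1.d := by exact_mod_cast (by omega : 1 ≤ x.1.d)
      refine (Prog.shift_lip (h1 (x.1, x.2.1) (show d₁ ≤ x.1.d by omega)) () _).mono ?_
      show |(x.1.d : ℝ) ^ α| + (x.1.d : ℝ) ^ (η / 2 - (0 - (α - γ) - ε))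
        ≤ (x.1.d : ℝ) ^ (η - (-α - ε))
      rw [abs_of_nonneg (Real.rpow_nonneg (by linarith) _)]
      have h4 : (2 : ℝ) ≤ (x.1.d : ℝ) ^ (η / 2) := h2 (x.1, x.2.1) (show d₂ ≤ x.1.d by omega)
      refine le_trans ?_ (le_of_le_of_eq (mul_le_mul_of_nonneg_right h4 (Real.rpow_nonneg
        (by linarith : (0 : ℝ) ≤ x.1.d) (η / 2 + α + ε))) ?_)
      · rw [two_mul]
        exact add_le_add (Real.rpow_le_rpow_of_exponent_le hd (by linarith))
          (Real.rpow_le_rpow_of_exponent_le hd (by linarith))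
      · rw [← Real.rpow_add (by linarith)]; ring_nf
    · obtain ⟨d₁, h1⟩ := hlaw.close hl hη
      refine ⟨d₁, fun (x : QI γ H × ℕ × ℕ) hx p => ?_⟩
      obtain ⟨e, he, hb, hce⟩ := h1 (x.1, x.2.1) hx p
      refine ⟨e, he, hb, fun z A => ?_⟩
      have h5 := Prog.shift_close (hce z A) () ((x.1.d : ℝ) ^ α)
      refine cast ?_ h5
      congr 1
      ext u
      have hd : (0 : ℝ) < x.1.d := by exact_mod_cast (by linarith [x.1.two_le] : 0 < x.1.d)
      simp only [PiLp.add_apply, PiLp.smul_apply, smul_eq_mul]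
      erw [apT_unit_apply]
      refine Eq.trans ?_ (congrArg (fun t => (x.1.d : ℝ) ^ α * t)
        (apT_unit_apply (toNodes G hδ hS (iter (γ := γ) (H := H) (B := B) G hδ hS c (k + 1)) x p z)
          A u)).symm
      show _ + (x.1.d : ℝ) ^ (α - γ) * sumF (fun y => Nc ((GS γ H B).pub y))
        (fun y => w ((GS γ H B).pub y)) U (x.1, x.2.1) p z (fun _ => u) = (x.1.d : ℝ) ^ α *
          iter (γ := γ) (H := H) (B := B) G hδ hS c (k + 1) (x.1, x.2.1) p z (fun _ => u)
      erw [sumF_apply]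
      show _ + (x.1.d : ℝ) ^ (α - γ) * ∑ n ∈ Finset.range (G.m x.1.d * ν),
        -(Sc (x.1.toQK, x.2.1) * (G.W x.1.d x.2.1 (n / ν) * cl (n % ν))) *
          avDrift Y (x.1, n / ν, n % ν) p z (fun _ => u) = _
      rw [sum_div_mod (G.m x.1.d) ν fun b l => -(Sc (x.1.toQK, x.2.1) * (G.W x.1.d x.2.1 b * cl l)) *
        avDrift Y (x.1, b, l) p z (fun _ => u)]
      refine Eq.trans ?_ (congrArg (fun t => (x.1.d : ℝ) ^ α * t)
        (iter_succ_avDrift (Bw := B) (G := G) (hδ := hδ) (hS := hS) (c := c) k (x.1, x.2.1) p z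
          fun _ => u)).symm
      beta_reduce
      rw [← hYdef]
      simp only [mul_add, Finset.mul_sum, ← Finset.sum_neg_distrib]
      congr 1
      refine Finset.sum_congr rfl fun b _ => ?_
      rw [Finset.sum_range]
      refine Finset.sum_congr rfl fun l _ => ?_
      simp only [hcl, hSc, Fin.is_lt, dite_true, Fin.eta, ← hYdef]
      rw [show (x.1.d : ℝ) ^ α = (x.1.d : ℝ) ^ (α - γ) * (x.1.d : ℝ) ^ γ by
        rw [← Real.rpow_add hd, sub_add_cancel]]
      simp only [QI.hs]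
      ring

end Vale.Agent.P347.Zero
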