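import Vale.Agent.P347.Zero.TrajReg

/-!
The probability flow `dy/dr = -u(1 - r², r y)` exists on every compact interval of correlations
inside `(-1, 1)` and is Lipschitz in its starting point.
-/

noncomputable section

open MeasureTheory Filter Topology Set Metric
open scoped RealInnerProductSpace ContDiff NNReal

namespace Vale.Agent.P347.Zero

variable {d : ℕ} {h : ℝ}

/-- The velocity, frozen outside `[-R, R]`. -/
def fldR (P : Pot d h) (R t : ℝ) (y : Space d) : Space d :=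
  -driftV P (chan (max (-R) (min t R), y))

theorem clamp_mem {R : ℝ} (hR : R ∈ Ico (0 : ℝ) 1) (t : ℝ) :
    max (-R) (min t R) ∈ Ioo (-1 : ℝ) 1 :=
  ⟨lt_max_of_lt_left (by linarith [hR.2]),
    max_lt (by linarith [hR.1]) ((min_le_right _ _).trans_lt hR.2)⟩

theorem clamp_eq {R t : ℝ} (ht : t ∈ Icc (-R) R) : max (-R) (min t R) = t := by
  rw [min_eq_left ht.2, max_eq_right ht.1]

theorem fldR_lip (P : Pot d h) (hh : h ≤ 1) {R : ℝ} (hR : R ∈ Ico (0 : ℝ) 1) (t : ℝ) :
    LipschitzWith 1 (fldR P R t) := by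
  refine LipschitzWith.of_dist_le_mul fun y z => ?_
  set c := max (-R) (min t R) with hc
  have hcm := clamp_mem hR t
  rw [NNReal.coe_one, one_mul, dist_eq_norm, dist_eq_norm, fldR, fldR, neg_sub_neg, norm_sub_rev]
  refine (norm_driftV_sub P (var_pos hcm) (c • y) (c • z)).trans ?_
  refine (mul_le_of_le_one_left (norm_nonneg _) hh).trans ?_
  rw [← smul_sub, norm_smul, Real.norm_eq_abs]
  exact mul_le_of_le_one_left (norm_nonneg _) (abs_le.2 ⟨hcm.1.le, hcm.2.le⟩)

theorem contDiffOn_velocity (P : Pot d h) (k : ℕ) :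
    ContDiffOn ℝ k (fun q => driftV P (chan q)) (domR d) :=
  contDiffOn_euclidean.2 fun i => rsm_uR P i k

theorem fldR_cont (P : Pot d h) {R : ℝ} (hR : R ∈ Ico (0 : ℝ) 1) :
    Continuous fun p : ℝ × Space d => fldR P R p.1 p.2 := by
  have h1 : Continuous fun p : ℝ × Space d => driftV P (chan (max (-R) (min p.1 R), p.2)) :=
    (contDiffOn_velocity P 1).continuousOn.comp_continuous
      (f := fun p : ℝ × Space d => (max (-R) (min p.1 R), p.2)) (by fun_prop)
      fun p => clamp_mem hR p.1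
  exact h1.neg

theorem exists_flow (P : Pot d h) (hh : h ≤ 1) {R : ℝ} (hR : R ∈ Ioo (0 : ℝ) 1) (ξ : Space d) :
    ∃ Y : ℝ → Space d, Y 0 = ξ ∧
      ∀ t ∈ Icc (-R) R, HasDerivWithinAt Y (fldR P R t (Y t)) (Icc (-R) R) t := by
  obtain ⟨M, hM⟩ := (isCompact_Icc (a := -R) (b := R)).exists_bound_of_continuousOn
    (f := fun t => fldR P R t ξ)
    ((fldR_cont P ⟨hR.1.le, hR.2⟩).comp (continuous_id.prodMk continuous_const)).continuousOn
  set M' : ℝ≥0 := Real.toNNReal M with hM'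
  set a : ℝ≥0 := Real.toNNReal (R * M' / (1 - R)) with ha
  have hR1 : 0 < 1 - R := by linarith [hR.2]
  have hae : (a : ℝ) = R * M' / (1 - R) :=
    Real.coe_toNNReal _ (div_nonneg (mul_nonneg hR.1.le M'.2) hR1.le)
  have hP : IsPicardLindelof (fldR P R) (tmin := -R) (tmax := R)
      ⟨0, by constructor <;> linarith [hR.1]⟩ ξ a 0 (M' + a) 1 := by
    refine ⟨fun t _ => (fldR_lip P hh ⟨hR.1.le, hR.2⟩ t).lipschitzOnWith, fun x _ => ?_,
      fun t ht x hx => ?_, ?_⟩
    · exact ((fldR_cont P ⟨hR.1.le, hR.2⟩).comp (continuous_id.prodMk continuous_const)).continuousOn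
    · have h1 := (fldR_lip P hh ⟨hR.1.le, hR.2⟩ t).dist_le_mul x ξ
      rw [NNReal.coe_one, one_mul, dist_eq_norm, dist_eq_norm] at h1
      rw [mem_closedBall, dist_eq_norm] at hx
      have h2 : ‖fldR P R t ξ‖ ≤ M' := (hM t ht).trans (Real.le_coe_toNNReal M)
      rw [NNReal.coe_add]
      linarith [norm_le_norm_add_norm_sub' (fldR P R t x) (fldR P R t ξ)]
    · simp only [sub_zero, zero_sub, neg_neg, max_self, NNReal.coe_add, NNReal.coe_zero]
      rw [hae]
      apply le_of_eq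
      field_simp
      ring
  exact hP.exists_eq_forall_mem_Icc_hasDerivWithinAt (mem_closedBall_self NNReal.zero_le_coe)

/-- The flow from `ξ`, meaningful for `h ≤ 1`, `0 < R < 1` and times in `[-R, R]`. -/
def flow (P : Pot d h) (R : ℝ) (ξ : Space d) : ℝ → Space d :=
  open Classical in
  if hc : h ≤ 1 ∧ R ∈ Ioo (0 : ℝ) 1 then (exists_flow P hc.1 hc.2 ξ).choose else fun _ => ξ

variable {P : Pot d h} {R : ℝ}

theorem flow_spec (hh : h ≤ 1) (hR : R ∈ Ioo (0 : ℝ) 1) (ξ : Space d) :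
    flow P R ξ 0 = ξ ∧ ∀ t ∈ Icc (-R) R,
      HasDerivWithinAt (flow P R ξ) (-driftV P (chan (t, flow P R ξ t))) (Icc (-R) R) t := by
  rw [flow, dif_pos ⟨hh, hR⟩]
  obtain ⟨h0, h1⟩ := (exists_flow P hh hR ξ).choose_spec
  refine ⟨h0, fun t ht => ?_⟩
  have := h1 t ht
  rwa [fldR, clamp_eq ht] at this

theorem flow_continuousOn (hh : h ≤ 1) (hR : R ∈ Ioo (0 : ℝ) 1) (ξ : Space d) :
    ContinuousOn (flow P R ξ) (Icc (-R) R) :=
  fun t ht => ((flow_spec hh hR ξ).2 t ht).continuousWithinAt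

theorem flow_hasDerivAt (hh : h ≤ 1) (hR : R ∈ Ioo (0 : ℝ) 1) (ξ : Space d) {t : ℝ}
    (ht : t ∈ Ioo (-R) R) :
    HasDerivAt (flow P R ξ) (-driftV P (chan (t, flow P R ξ t))) t :=
  ((flow_spec hh hR ξ).2 t (Ioo_subset_Icc_self ht)).hasDerivAt (Icc_mem_nhds ht.1 ht.2)

/-- The flow moves two starting points apart by at most a factor three. -/
theorem flow_lip (hh : h ≤ 1) (hR : R ∈ Ioo (0 : ℝ) 1) {t : ℝ} (ht : t ∈ Ico 0 R) :
    LipschitzWith 3 fun ξ => flow P R ξ t := by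
  refine LipschitzWith.of_dist_le_mul fun ξ η => ?_
  have hmem : ∀ s ∈ Icc (0 : ℝ) t, s ∈ Icc (-R) R := fun s hs =>
    ⟨by linarith [hs.1, hR.1], by linarith [hs.2, ht.2]⟩
  have hd : ∀ ζ : Space d, ∀ s ∈ Ico (0 : ℝ) t,
      HasDerivWithinAt (flow P R ζ) (fldR P R s (flow P R ζ s)) (Ici s) s := fun ζ s hs => by
    rw [fldR, clamp_eq (hmem s (Ico_subset_Icc_self hs))]
    exact (flow_hasDerivAt hh hR ζ
      ⟨by linarith [hs.1, hR.1], by linarith [hs.2, ht.2]⟩).hasDerivWithinAt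
  have h0 := dist_le_of_trajectories_ODE (δ := dist ξ η)
    (fldR_lip P hh ⟨hR.1.le, hR.2⟩) ((flow_continuousOn hh hR ξ).mono hmem) (hd ξ)
    ((flow_continuousOn hh hR η).mono hmem) (hd η)
    (by rw [(flow_spec hh hR ξ).1, (flow_spec hh hR η).1]) t ⟨ht.1, le_rfl⟩
  refine h0.trans ?_
  rw [NNReal.coe_one, one_mul, sub_zero, mul_comm]
  refine mul_le_mul_of_nonneg_right ?_ dist_nonneg
  have h3 : Real.exp t ≤ Real.exp 1 := Real.exp_le_exp.2 (by linarith [ht.2, hR.2])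
  exact h3.trans (by simpa using Real.exp_one_lt_three.le)

end Vale.Agent.P347.Zero
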