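import Vale.Agent.P347.Zero.MeanDefs
import Vale.Agent.P347.Zero.Flow

/-!
The collocated trajectory of a problem of the mean oracle, its end field, and the statements that
feed the downward induction on the margin.
-/

noncomputable section

open MeasureTheory ProbabilityTheory Set
open scoped RealInnerProductSpace NNReal

namespace Vale.Agent.P347.Zero

variable {γ H B δv b S : ℝ} {ν : ℕ}

/-- The channel noise `1 - a ^ 2` of the `l`-th factor, kept in the admitted range. -/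
def chS (δv S : ℝ) (d l : ℕ) : ℝ :=
  min (3 / 4) (min ((d : ℝ) ^ (-δv))
    (max ((d : ℝ) ^ (-S) / 4) (1 - Real.exp (-(2 * (d : ℝ) ^ (-S) * (l + 1))))))

/-- The factor of the channel. -/
def chA (δv S : ℝ) (d l : ℕ) : ℝ := Real.sqrt (1 - chS δv S d l)

/-- Collocation nodes and weights in every dimension, with at most `d ^ ε` nodes. -/
structure Grid (δv : ℝ) where
  /-- The number of nodes. -/
  m : ℕ → ℕ
  /-- The nodes. -/
  node : ℕ → ℕ → ℝ
  /-- The weights. -/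
  W : ℕ → ℕ → ℕ → ℝ
  /-- The node at the end. -/
  last : ℕ → ℕ
  node_mem : ∀ d b, node d b ∈ Icc (0 : ℝ) 1
  node_var : ∀ (d : ℕ) b, 2 ≤ d → (d : ℝ) ^ (-δv) ≤ 1 - node d b ^ 2
  last_var : ∀ d : ℕ, 2 ≤ d → 1 - node d (last d) ^ 2 = (d : ℝ) ^ (-δv)
  count : ∀ ε : ℝ, 0 < ε → ∃ d₀ : ℕ, ∀ d : ℕ, d₀ ≤ d → (m d : ℝ) ≤ (d : ℝ) ^ ε
  weight : ∀ η : ℝ, 0 < η → ∃ d₀ : ℕ, ∀ d : ℕ, d₀ ≤ d → ∀ a,
    ∑ b ∈ Finset.range (m d), |W d a b| ≤ (d : ℝ) ^ η

theorem chA_props (hS : δv ≤ S) {d : ℕ} (hd : 2 ≤ d) (hδ : 0 < δv) (l : ℕ) :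
    chA δv S d l ∈ Icc (1 / 2 : ℝ) 1 ∧ (d : ℝ) ^ (-S) / 4 ≤ 1 - chA δv S d l ^ 2 ∧
      1 - chA δv S d l ^ 2 ≤ (d : ℝ) ^ (-δv) := by
  have hd1 : (1 : ℝ) ≤ d := by exact_mod_cast (by omega : 1 ≤ d)
  have hp : 0 < (d : ℝ) ^ (-S) := Real.rpow_pos_of_pos (by linarith) _
  have h1 : (d : ℝ) ^ (-S) ≤ (d : ℝ) ^ (-δv) :=
    Real.rpow_le_rpow_of_exponent_le hd1 (by linarith)
  have h2 : (d : ℝ) ^ (-δv) ≤ 1 := Real.rpow_le_one_of_one_le_of_nonpos hd1 (by linarith)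
  have hs0 : (d : ℝ) ^ (-S) / 4 ≤ chS δv S d l :=
    le_min (by linarith) (le_min (by linarith) (le_max_left _ _))
  have hs1 : chS δv S d l ≤ 3 / 4 := min_le_left _ _
  have hsq : chA δv S d l ^ 2 = 1 - chS δv S d l := Real.sq_sqrt (by linarith)
  refine ⟨⟨?_, ?_⟩, by rw [hsq]; linarith, ?_⟩
  · rw [← Real.sqrt_sq (by norm_num : (0 : ℝ) ≤ 1 / 2)]
    exact Real.sqrt_le_sqrt (by linarith)
  · exact Real.sqrt_le_one.2 (by linarith)
  · rw [hsq, sub_sub_cancel]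
    exact (min_le_right _ _).trans (min_le_left _ _)

theorem var_le_mul {r a : ℝ} (ha : a ∈ Icc (1 / 2 : ℝ) 1) :
    1 - r ^ 2 ≤ 1 - (r * a) ^ 2 := by
  have : a ^ 2 ≤ 1 := pow_le_one₀ (by linarith [ha.1]) ha.2
  nlinarith [sq_nonneg r]

/-- The key of the node of the channel factor `l` at the grid point `b`. -/
def gridNK (G : Grid δv) (hδ : 0 < δv) (hS : δv ≤ S) (x : QK γ H × ℕ × ℕ) : NK γ H δv 0 S where
  q := x.1
  lab := x.2
  r := G.node x.1.d x.2.1
  a := chA δv S x.1.d x.2.2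
  r_mem := G.node_mem _ _
  a_mem := (chA_props hS x.1.two_le hδ _).1
  var_ge := (G.node_var _ _ x.1.two_le).trans (var_le_mul (chA_props hS x.1.two_le hδ _).1)
  var_le := by rw [neg_zero, Real.rpow_zero]; linarith [sq_nonneg (G.node x.1.d x.2.1 *
    chA δv S x.1.d x.2.2)]
  noise_ge := (chA_props hS x.1.two_le hδ _).2.1
  noise_le := (chA_props hS x.1.two_le hδ _).2.2

/-- The node of the channel factor `l` at the grid point `b`. -/
def gridNI (G : Grid δv) (hδ : 0 < δv) (hS : δv ≤ S) (x : QI γ H × ℕ × ℕ) : NI γ H δv 0 S where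
  q := x.1
  lab := x.2
  r := G.node x.1.d x.2.1
  a := chA δv S x.1.d x.2.2
  r_mem := (gridNK G hδ hS (x.1.toQK, x.2)).r_mem
  a_mem := (gridNK G hδ hS (x.1.toQK, x.2)).a_mem
  var_ge := (gridNK G hδ hS (x.1.toQK, x.2)).var_ge
  var_le := (gridNK G hδ hS (x.1.toQK, x.2)).var_le
  noise_ge := (gridNK G hδ hS (x.1.toQK, x.2)).noise_ge
  noise_le := (gridNK G hδ hS (x.1.toQK, x.2)).noise_le

theorem gridNI_pub (G : Grid δv) (hδ : 0 < δv) (hS : δv ≤ S) (x : QI γ H × ℕ × ℕ) :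
    (gridNI G hδ hS x).pub = gridNK G hδ hS (x.1.toQK, x.2) := rfl

/-- The family of grid points. -/
abbrev GS (γ H B : ℝ) : Sys := (MQ γ H B).par ℕ

/-- A field of grid points as a field of the nodes. -/
def toNodes (G : Grid δv) (hδ : 0 < δv) (hS : δv ≤ S) (Y : Fld (GS γ H B) Unit Unit) :
    Fld (NQ B (gridNI (γ := γ) (H := H) G hδ hS)) Unit Unit :=
  fun (x : QI γ H × ℕ × ℕ) p z => Y (x.1, x.2.1) p z

/-- The collocated trajectory after `k` rounds, the drift at each node being replaced by the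
combination `c` of its channels. -/
def iter (G : Grid δv) (hδ : 0 < δv) (hS : δv ≤ S) (c : Fin ν → ℝ) :
    ℕ → Fld (GS γ H B) Unit Unit
  | 0 => fun _ _ z idx => z () (idx ())
  | k + 1 => fun (x : QI γ H × ℕ) p z idx =>
      z () (idx ()) - x.1.hs * ∑ b ∈ Finset.range (G.m x.1.d), G.W x.1.d x.2 b * ∑ l : Fin ν,
        c l * ∫ e, vtx 0 (toNodes G hδ hS (iter G hδ hS c k)) (x.1, b, (l : ℕ)) p
          (Sum.elim z fun _ => e) (fun o => o.elim (idx ()) Fin.elim0) ∂gam x.1.d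

/-- The derivative of the trajectory in its start, less the identity. -/
def iterD (G : Grid δv) (hδ : 0 < δv) (hS : δv ≤ S) (c : Fin ν → ℝ) (k : ℕ) :
    Fld (GS γ H B) Unit (Option Unit) :=
  fun x p z idx => dB () (iter G hδ hS c k) x p z idx - if idx none = idx (some ()) then 1 else 0

/-- The drift at a grid point and channel, averaged over the noise of the channel. -/
def uBar (G : Grid δv) (hδ : 0 < δv) (hS : δv ≤ S) (c : Fin ν → ℝ) (k : ℕ) :
    Fld (NQ B (gridNI (γ := γ) (H := H) G hδ hS)) Unit Unit :=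
  fun (x : QI γ H × ℕ × ℕ) p z idx => ∫ e, vtx 0 (toNodes G hδ hS (iter G hδ hS c k)) x p
    (Sum.elim z fun _ => e) (fun o => o.elim (idx ()) Fin.elim0) ∂gam x.1.d

/-- The problems of dimension large enough for the variance bound `d ^ (-b)` at the end. -/
abbrev EI (γ H δv b : ℝ) := {i : QI γ H // 2 ≤ (i.d : ℝ) ^ (δv - b)}

/-- The key of the node at the end. -/
def endNK (G : Grid δv) (hδ : 0 < δv) (hS : δv ≤ S) 
    (i : {k : QK γ H // 2 ≤ (k.d : ℝ) ^ (δv - b)}) : NK γ H δv b S where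
  q := i.1
  lab := (G.last i.1.d, 0)
  r := G.node i.1.d (G.last i.1.d)
  a := chA δv S i.1.d 0
  r_mem := G.node_mem _ _
  a_mem := (chA_props hS i.1.two_le hδ _).1
  var_ge := (G.node_var _ _ i.1.two_le).trans (var_le_mul (chA_props hS i.1.two_le hδ _).1)
  var_le := by
    have hd : (0 : ℝ) < i.1.d := by
      have := i.1.two_le
      exact_mod_cast (by omega : 0 < i.1.d)
    have h1 := (chA_props hS i.1.two_le hδ 0).2.2
    have h2 := (chA_props hS i.1.two_le hδ 0).1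
    have h3 := G.last_var i.1.d i.1.two_le
    have h4 : G.node i.1.d (G.last i.1.d) ^ 2 ≤ 1 :=
      pow_le_one₀ (G.node_mem _ _).1 (G.node_mem _ _).2
    have h5 : 0 ≤ 1 - chA δv S i.1.d 0 ^ 2 := by
      linarith [pow_le_one₀ (n := 2) (by linarith [h2.1]) h2.2]
    have h6 : 2 * (i.1.d : ℝ) ^ (-δv) ≤ (i.1.d : ℝ) ^ (-b) := by
      have := mul_le_mul_of_nonneg_right i.2 (Real.rpow_nonneg hd.le (-δv))
      rwa [← Real.rpow_add hd, show δv - b + -δv = -b by ring] at this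
    nlinarith [mul_le_mul_of_nonneg_right h4 h5]
  noise_ge := (chA_props hS i.1.two_le hδ _).2.1
  noise_le := (chA_props hS i.1.two_le hδ _).2.2

/-- The node at the end. -/
def endNI (G : Grid δv) (hδ : 0 < δv) (hS : δv ≤ S) (i : EI γ H δv b) : NI γ H δv b S where
  q := i.1
  lab := (G.last i.1.d, 0)
  r := G.node i.1.d (G.last i.1.d)
  a := chA δv S i.1.d 0
  r_mem := (endNK G hδ hS ⟨i.1.toQK, i.2⟩).r_mem
  a_mem := (endNK G hδ hS ⟨i.1.toQK, i.2⟩).a_mem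
  var_ge := (endNK G hδ hS ⟨i.1.toQK, i.2⟩).var_ge
  var_le := (endNK G hδ hS ⟨i.1.toQK, i.2⟩).var_le
  noise_ge := (endNK G hδ hS ⟨i.1.toQK, i.2⟩).noise_ge
  noise_le := (endNK G hδ hS ⟨i.1.toQK, i.2⟩).noise_le

theorem endNI_pub (G : Grid δv) (hδ : 0 < δv) (hS : δv ≤ S) (i : EI γ H δv b) :
    (endNI G hδ hS i).pub = endNK G hδ hS ⟨i.1.toQK, i.2⟩ := rfl

/-- The end of the trajectory. -/
def endPt (G : Grid δv) (hδ : 0 < δv) (hS : δv ≤ S) (c : Fin ν → ℝ) (k : ℕ) :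
    Fld (NQ B (endNI (γ := γ) (H := H) (b := b) G hδ hS)) Unit Unit :=
  fun (i : EI γ H δv b) p z => iter (γ := γ) (H := H) (B := B) G hδ hS c k (i.1, G.last i.1.d) p z

/-- The end of the trajectory as a vector. -/
def endVec (G : Grid δv) (hδ : 0 < δv) (hS : δv ≤ S) (c : Fin ν → ℝ) (k : ℕ) (i : QI γ H)
    (p : Space i.d) (z : Unit → Space i.d) : Space i.d :=
  vecOf (iter (γ := γ) (H := H) (B := B) G hδ hS c k) (i, G.last i.d) p z

/-- Vertices are realisable at level `r` and margin `φ` at every computed point. -/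
def VtxOK (L : Lad) (r : ℕ) (γ δv S α φ : ℝ) : Prop :=
  ∀ (H B : ℝ) (C : Type) [Fintype C] [DecidableEq C] (J : Type) (f : J → NI γ H δv 0 S)
    (Y : Fld (NQ B f) C Unit), Pts (L.kap (r - 1)) α Y →
    ∀ k : ℕ, 1 ≤ k → Gd L r φ (-(k : ℝ) * L.w) univ (vtx k Y)

/-- The derivative of the trajectory is in the class whenever the vertices are. -/
def IterGdThm : Prop :=
  ∀ (L : Lad) (r : ℕ) (γ δv S α φ θ : ℝ) (hδ : 0 < δv) (hS : δv ≤ S), 0 < γ → 0 < α →
    δv < 2 * L.w → L.phi r + 8 * L.w ≤ φ → θ ≤ γ - 2 * L.w → L.phi r + L.w ≤ θ → Monotone L.kap →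
    VtxOK L (r + 1) γ δv S α φ → (∀ r' ≤ r, VtxOK L r' γ δv S α (L.phi r')) →
    ∀ (H B : ℝ) (G : Grid δv) (ν : ℕ) (c : Fin ν → ℝ),
      (∀ k, Pts (L.kap r) α (toNodes G hδ hS (iter (γ := γ) (H := H) (B := B) G hδ hS c k))) →
      ∀ k n : ℕ, GdD L (r + 1) φ univ (fun _ => L.w) n θ univ
          (iterD (γ := γ) (H := H) (B := B) G hδ hS c k) ∧
        GdD L (r + 1) φ univ (fun _ => L.w) n (-L.w) univ
          (dB () (uBar (γ := γ) (H := H) (B := B) G hδ hS c k))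

/-- A grid, channel coefficients and a number of rounds for which the end of the trajectory, and
so the mean of the drift at its channel, are exact to any power of the dimension. -/
def MeanAccThm : Prop :=
  ∀ (γ H δv S : ℝ) (hδ : 0 < δv) (hS : δv < S), 0 < γ → ∀ K : ℝ,
    ∃ (G : Grid δv) (ν : ℕ) (c : Fin ν → ℝ) (k : ℕ), ∀ B : ℝ,
      (MQ γ H B).Ev fun (i : QI γ H) => ∀ p : Space i.d,
        ∫ z, ‖endVec (B := B) G hδ hS.le c k i p z
              - flow (i.pot p) (G.node i.d (G.last i.d)) (z ()) (G.node i.d (G.last i.d))‖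
            ∂gp Unit i.d ≤ (i.d : ℝ) ^ (-K) * (1 + ‖i.P.g (i.σ • p)‖) ∧
        ∀ u : Fin i.d,
          |(∫ z, ∫ e, driftT (i.pot p) (1 - (G.node i.d (G.last i.d) * chA δv S i.d 0) ^ 2) 0
              ((G.node i.d (G.last i.d) * chA δv S i.d 0) •
                (chA δv S i.d 0 • endVec (B := B) G hδ hS.le c k i p z
                  + Real.sqrt (1 - chA δv S i.d 0 ^ 2) • e))
              (fun o => o.elim u Fin.elim0) ∂gam i.d ∂gp Unit i.d)
            - ∫ x, (i.pot p).g x u ∂mu (i.pot p)|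
            ≤ (i.d : ℝ) ^ (-K) * (1 + ‖i.P.g (i.σ • p)‖)

end Vale.Agent.P347.Zero
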