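import Vale.Agent.P347.Zero.Universal

/-!
Tensors as functions of their index tuples: the bound on every bipartition at once, contraction
along any number of legs, relabelling of legs and the derivative of a tensor field.
-/

noncomputable section

open scoped RealInnerProductSpace

namespace Vale.Agent.P347.Zero

/-- A tensor with legs `I`. -/
abbrev Ten (d : ℕ) (I : Type) := (I → Fin d) → ℝ

/-! ### Matrices -/

/-- The bilinear form of the matrix `M` is bounded by `C`. -/
def MatB {α β : Type} [Fintype α] [Fintype β] (C : ℝ) (M : α → β → ℝ) : Prop :=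
  0 ≤ C ∧ ∀ (x : α → ℝ) (y : β → ℝ),
    |∑ a, ∑ b, M a b * x a * y b| ≤ C * Real.sqrt (∑ a, x a ^ 2) * Real.sqrt (∑ b, y b ^ 2)

variable {α β : Type} [Fintype α] [Fintype β]

theorem MatB.flip {C : ℝ} {M : α → β → ℝ} (h : MatB C M) : MatB C fun b a => M a b :=
  ⟨h.1, fun y x => by
    rw [Finset.sum_comm]
    refine le_trans (le_of_eq (congrArg _ (Finset.sum_congr rfl fun a _ => Finset.sum_congr rfl
      fun b _ => ?_))) ((h.2 x y).trans_eq ?_) <;> ring⟩

theorem MatB.apply {C : ℝ} {M : α → β → ℝ} (h : MatB C M) (x : α → ℝ) :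
    ∑ b, (∑ a, M a b * x a) ^ 2 ≤ C ^ 2 * ∑ a, x a ^ 2 := by
  set S := ∑ b, (∑ a, M a b * x a) ^ 2 with hS
  have hS0 : 0 ≤ S := Finset.sum_nonneg fun _ _ => sq_nonneg _
  have hX0 : 0 ≤ ∑ a, x a ^ 2 := Finset.sum_nonneg fun _ _ => sq_nonneg _
  have key := h.2 x fun b => ∑ a, M a b * x a
  have e : ∑ a, ∑ b, M a b * x a * (∑ a, M a b * x a) = S := by
    rw [Finset.sum_comm, hS]
    exact Finset.sum_congr rfl fun b _ => by rw [sq, Finset.sum_mul]
  rw [e, abs_of_nonneg hS0, ← hS] at key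
  rcases hS0.lt_or_eq with hp | hp
  · have hr : 0 < Real.sqrt S := Real.sqrt_pos.2 hp
    have h1 : Real.sqrt S ≤ C * Real.sqrt (∑ a, x a ^ 2) :=
      le_of_mul_le_mul_right (by rw [Real.mul_self_sqrt hS0]; exact key) hr
    calc S = Real.sqrt S ^ 2 := (Real.sq_sqrt hS0).symm
      _ ≤ (C * Real.sqrt (∑ a, x a ^ 2)) ^ 2 := pow_le_pow_left₀ hr.le h1 2
      _ = C ^ 2 * ∑ a, x a ^ 2 := by rw [mul_pow, Real.sq_sqrt hX0]
  · rw [← hp]; positivity

theorem abs_sum_mul_le {ι : Type} [Fintype ι] (u v : ι → ℝ) :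
    |∑ i, u i * v i| ≤ Real.sqrt (∑ i, u i ^ 2) * Real.sqrt (∑ i, v i ^ 2) := by
  rw [← Real.sqrt_mul (Finset.sum_nonneg fun _ _ => sq_nonneg _)]
  exact Real.abs_le_sqrt (Finset.sum_mul_sq_le_sq_mul_sq _ _ _)

/-- The composition rule behind contraction: `M` carries `P` to `Q × G`, `N` carries `G × U` to
`W`; together they carry `P × U` to `Q × W`. -/
theorem MatB.join {P Q G U W : Type} [Fintype P] [Fintype Q] [Fintype G] [Fintype U] [Fintype W]
    {C₁ C₂ : ℝ} {M : P → Q × G → ℝ} {N : G × U → W → ℝ} (hM : MatB C₁ M) (hN : MatB C₂ N) :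
    MatB (C₁ * C₂) fun (pu : P × U) (qw : Q × W) =>
      ∑ g, M pu.1 (qw.1, g) * N (g, pu.2) qw.2 := by
  refine ⟨mul_nonneg hM.1 hN.1, fun x y => ?_⟩
  set z : Q → G × U → ℝ := fun q gu => ∑ p, M p (q, gu.1) * x (p, gu.2) with hz
  have e : ∑ pu : P × U, ∑ qw : Q × W, (∑ g, M pu.1 (qw.1, g) * N (g, pu.2) qw.2) * x pu * y qw
      = ∑ q, ∑ gu : G × U, ∑ w, N gu w * z q gu * y (q, w) := by
    simp only [hz, Fintype.sum_prod_type, Finset.sum_mul, Finset.mul_sum]
    rw [Finset.sum_comm_cycle]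
    refine Finset.sum_congr rfl fun q _ => ?_
    rw [Finset.sum_comm]
    conv_rhs => rw [Finset.sum_comm]
    refine Finset.sum_congr rfl fun u _ => ?_
    rw [Finset.sum_comm]
    conv_rhs => rw [Finset.sum_comm]
    refine Finset.sum_congr rfl fun w _ => ?_
    rw [Finset.sum_comm]
    refine Finset.sum_congr rfl fun g _ => Finset.sum_congr rfl fun p _ => ?_
    ring
  rw [e]
  have hz2 : ∑ q, ∑ gu, z q gu ^ 2 ≤ C₁ ^ 2 * ∑ pu, x pu ^ 2 := by
    calc ∑ q, ∑ gu : G × U, z q gu ^ 2 = ∑ u, ∑ qg : Q × G, (∑ p, M p qg * x (p, u)) ^ 2 := by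
          simp only [hz, Fintype.sum_prod_type]
          rw [Finset.sum_comm_cycle]
      _ ≤ ∑ u, C₁ ^ 2 * ∑ p, x (p, u) ^ 2 := Finset.sum_le_sum fun u _ => hM.apply _
      _ = C₁ ^ 2 * ∑ pu, x pu ^ 2 := by
          rw [← Finset.mul_sum, Fintype.sum_prod_type, Finset.sum_comm]
  have hy : ∑ q, ∑ w, y (q, w) ^ 2 = ∑ qw : Q × W, y qw ^ 2 := by rw [Fintype.sum_prod_type]
  calc |∑ q, ∑ gu : G × U, ∑ w, N gu w * z q gu * y (q, w)|
      ≤ ∑ q, C₂ * (Real.sqrt (∑ gu, z q gu ^ 2) * Real.sqrt (∑ w, y (q, w) ^ 2)) :=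
        (Finset.abs_sum_le_sum_abs _ _).trans (Finset.sum_le_sum fun q _ =>
          (hN.2 (z q) fun w => y (q, w)).trans_eq (mul_assoc _ _ _))
    _ ≤ C₂ * (Real.sqrt (∑ q, ∑ gu, z q gu ^ 2) * Real.sqrt (∑ q, ∑ w, y (q, w) ^ 2)) := by
        rw [← Finset.mul_sum]
        refine mul_le_mul_of_nonneg_left ?_ hN.1
        exact Real.sum_sqrt_mul_sqrt_le _ (fun q => Finset.sum_nonneg fun _ _ => sq_nonneg _)
          fun q => Finset.sum_nonneg fun _ _ => sq_nonneg _
    _ ≤ C₂ * ((C₁ * Real.sqrt (∑ pu, x pu ^ 2)) * Real.sqrt (∑ qw, y qw ^ 2)) := by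
        rw [hy]
        refine mul_le_mul_of_nonneg_left (mul_le_mul_of_nonneg_right ?_ (Real.sqrt_nonneg _)) hN.1
        refine (Real.sqrt_le_sqrt hz2).trans_eq ?_
        rw [Real.sqrt_mul (sq_nonneg _), Real.sqrt_sq hM.1]
    _ = _ := by ring

/-! ### Tensors -/

variable {d : ℕ} {I J A B G : Type} [Fintype I] [DecidableEq I] [Fintype J] [DecidableEq J]
  [Fintype A] [DecidableEq A] [Fintype B] [DecidableEq B] [Fintype G] [DecidableEq G]

/-- The tuple with the entries `p` on the left and `q` on the right of the split `e`. -/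
def glue (e : A ⊕ B ≃ I) (p : A → Fin d) (q : B → Fin d) : I → Fin d := Sum.elim p q ∘ e.symm

/-- Every split of the legs into two nonempty parts gives a matrix bounded by `C`. -/
def SplitB (C : ℝ) (T : Ten d I) : Prop :=
  ∀ (A B : Type) [Fintype A] [DecidableEq A] [Fintype B] [DecidableEq B] [Nonempty A] [Nonempty B]
    (e : A ⊕ B ≃ I), MatB C fun p q => T (glue e p q)

/-- The squared Hilbert-Schmidt norm. -/
def hsT (T : Ten d I) : ℝ := ∑ i, T i ^ 2

/-- Relabelling the legs. -/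
def reT (e : I ≃ J) (T : Ten d I) : Ten d J := fun j => T (j ∘ e)

/-- Contraction along the legs `G`. -/
def ctr (T : Ten d (A ⊕ G)) (S : Ten d (G ⊕ B)) : Ten d (A ⊕ B) :=
  fun i => ∑ c : G → Fin d, T (Sum.elim (i ∘ Sum.inl) c) * S (Sum.elim c (i ∘ Sum.inr))

theorem hsT_nonneg (T : Ten d I) : 0 ≤ hsT T := Finset.sum_nonneg fun _ _ => sq_nonneg _

theorem MatB.add {C₁ C₂ : ℝ} {M N : α → β → ℝ} (hM : MatB C₁ M) (hN : MatB C₂ N) :
    MatB (C₁ + C₂) fun a b => M a b + N a b := by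
  refine ⟨add_nonneg hM.1 hN.1, fun x y => ?_⟩
  simp only [add_mul, Finset.sum_add_distrib]
  exact (abs_add_le _ _).trans (add_le_add (hM.2 x y) (hN.2 x y))

theorem MatB.smul {C : ℝ} {M : α → β → ℝ} (c : ℝ) (hM : MatB C M) :
    MatB (|c| * C) fun a b => c * M a b := by
  refine ⟨mul_nonneg (abs_nonneg c) hM.1, fun x y => ?_⟩
  simp only [mul_assoc c, ← Finset.mul_sum]
  rw [abs_mul, mul_assoc |c|, mul_assoc |c|]
  exact mul_le_mul_of_nonneg_left (hM.2 x y) (abs_nonneg c)

theorem SplitB.mono {C C' : ℝ} {T : Ten d I} (h : SplitB C T) (hC : C ≤ C') : SplitB C' T := by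
  intro A B _ _ _ _ _ _ e
  refine ⟨(h A B e).1.trans hC, fun x y => ((h A B e).2 x y).trans ?_⟩
  exact mul_le_mul_of_nonneg_right (mul_le_mul_of_nonneg_right hC (Real.sqrt_nonneg _))
    (Real.sqrt_nonneg _)

theorem SplitB.add {C₁ C₂ : ℝ} {T S : Ten d I} (hT : SplitB C₁ T) (hS : SplitB C₂ S) :
    SplitB (C₁ + C₂) (T + S) := by
  intro A B _ _ _ _ _ _ e
  exact (hT A B e).add (hS A B e)

theorem SplitB.smul {C : ℝ} {T : Ten d I} (c : ℝ) (hT : SplitB C T) :
    SplitB (|c| * C) (c • T) := by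
  intro A B _ _ _ _ _ _ e
  exact (hT A B e).smul c

theorem SplitB.relabel {C : ℝ} {T : Ten d I} (hT : SplitB C T) (e : I ≃ J) :
    SplitB C (reT e T) := by
  intro A B _ _ _ _ _ _ f
  have h := hT A B (f.trans e.symm)
  exact h

theorem hsT_re (e : I ≃ J) (T : Ten d I) : hsT (reT e T) = hsT T :=
  Equiv.sum_comp (Equiv.arrowCongr e.symm (Equiv.refl (Fin d))) fun i => T i ^ 2

/-- A contraction is bounded by `C²` times the other factor. -/
theorem hsT_ctr_le [Nonempty A] [Nonempty G] {C : ℝ} {T : Ten d (A ⊕ G)} (hT : SplitB C T)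
    (S : Ten d (G ⊕ B)) : hsT (ctr T S) ≤ C ^ 2 * hsT S := by
  have h := (hT A G (Equiv.refl _)).flip
  have e1 : hsT (ctr T S) = ∑ q : B → Fin d, ∑ p : A → Fin d,
      (∑ c, T (Sum.elim p c) * S (Sum.elim c q)) ^ 2 := by
    rw [hsT, ← Equiv.sum_comp (Equiv.sumArrowEquivProdArrow A B (Fin d)).symm,
      Fintype.sum_prod_type, Finset.sum_comm]
    rfl
  have e2 : hsT S = ∑ q : B → Fin d, ∑ c : G → Fin d, S (Sum.elim c q) ^ 2 := by
    rw [hsT, ← Equiv.sum_comp (Equiv.sumArrowEquivProdArrow G B (Fin d)).symm,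
      Fintype.sum_prod_type, Finset.sum_comm]
    rfl
  rw [e1, e2, Finset.mul_sum]
  exact Finset.sum_le_sum fun q _ => h.apply fun c => S (Sum.elim c q)

/-- With at least two legs a bounded tensor has Hilbert-Schmidt norm at most the root of the
number of tuples on one side. -/
theorem hsT_le_of_split [Nonempty A] [Nonempty B] {C : ℝ} {T : Ten d I} (hT : SplitB C T)
    (e : A ⊕ B ≃ I) : hsT T ≤ (d : ℝ) ^ Fintype.card A * C ^ 2 := by
  classical
  have h := hT A B e
  have e1 : hsT T = ∑ p : A → Fin d, ∑ q : B → Fin d, T (glue e p q) ^ 2 := by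
    rw [hsT, ← Equiv.sum_comp ((Equiv.sumArrowEquivProdArrow A B (Fin d)).symm.trans
      (Equiv.arrowCongr e (Equiv.refl _))), Fintype.sum_prod_type]
    rfl
  rw [e1]
  refine (Finset.sum_le_sum fun p _ => ?_).trans_eq (b := ∑ _p : A → Fin d, C ^ 2) ?_
  · have := h.apply fun p' => if p' = p then 1 else 0
    simpa using this
  · simp

theorem MatB.equiv {α' β' : Type} [Fintype α'] [Fintype β'] {C : ℝ} {M : α → β → ℝ}
    (h : MatB C M) (ea : α' ≃ α) (eb : β' ≃ β) : MatB C fun a b => M (ea a) (eb b) := by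
  refine ⟨h.1, fun x y => ?_⟩
  have := h.2 (x ∘ ea.symm) (y ∘ eb.symm)
  rw [← ea.sum_comp, ← ea.sum_comp] at this
  simp only [Function.comp_apply, Equiv.symm_apply_apply] at this
  rw [← eb.sum_comp (fun b => y (eb.symm b) ^ 2)] at this
  simp only [← eb.sum_comp (fun b => M _ b * _ * y (eb.symm b)), Equiv.symm_apply_apply] at this
  exact this

/-- The left summand as a subtype. -/
def leftEquiv (X Y : Type) : {z : X ⊕ Y // z.isLeft = true} ≃ X where
  toFun z := z.1.getLeft z.2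
  invFun x := ⟨.inl x, rfl⟩
  left_inv z := by rcases z with ⟨z | z, hz⟩ <;> simp at hz ⊢
  right_inv x := rfl

/-- The right summand as a subtype. -/
def rightEquiv (X Y : Type) : {z : X ⊕ Y // ¬ z.isLeft = true} ≃ Y where
  toFun z := z.1.getRight (by simpa using z.2)
  invFun y := ⟨.inr y, by simp⟩
  left_inv z := by rcases z with ⟨z | z, hz⟩ <;> simp at hz ⊢
  right_inv y := rfl

theorem elim_left {X Y γ : Type} (p : X → γ) (q : Y → γ) (z : X ⊕ Y) (h : z.isLeft = true) :
    Sum.elim p q z = p (leftEquiv X Y ⟨z, h⟩) := by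
  rcases z with x | y
  · rfl
  · simp at h

theorem elim_right {X Y γ : Type} (p : X → γ) (q : Y → γ) (z : X ⊕ Y) (h : ¬ z.isLeft = true) :
    Sum.elim p q z = q (rightEquiv X Y ⟨z, h⟩) := by
  rcases z with x | y
  · simp at h
  · rfl

/-- Contraction keeps the bound on every split. -/
theorem SplitB.contract [Nonempty A] [Nonempty B] [Nonempty G] {C₁ C₂ : ℝ} {T : Ten d (A ⊕ G)}
    {S : Ten d (G ⊕ B)} (hT : SplitB C₁ T) (hS : SplitB C₂ S) : SplitB (C₁ * C₂) (ctr T S) := by
  intro X Y _ _ _ _ hX hY e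
  classical
  let σ : A ⊕ B → Prop := fun i => (e.symm i).isLeft = true
  let eX : {a // σ (.inl a)} ⊕ {b // σ (.inr b)} ≃ X :=
    (Equiv.subtypeSum.symm.trans (e.symm.subtypeEquiv fun _ => Iff.rfl)).trans (leftEquiv X Y)
  let eY : {a // ¬ σ (.inl a)} ⊕ {b // ¬ σ (.inr b)} ≃ Y :=
    (Equiv.subtypeSum.symm.trans (e.symm.subtypeEquiv fun _ => Iff.rfl)).trans (rightEquiv X Y)
  let eA : {a // σ (.inl a)} ⊕ {a // ¬ σ (.inl a)} ≃ A := Equiv.sumCompl _
  let eB : {b // σ (.inr b)} ⊕ {b // ¬ σ (.inr b)} ≃ B := Equiv.sumCompl _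
  have hA : ∀ (p : X → Fin d) (q : Y → Fin d),
      glue e p q ∘ Sum.inl = glue eA (fun a => p (eX (.inl a))) fun a => q (eY (.inl a)) := by
    intro p q; funext a
    by_cases h : σ (.inl a)
    · simp only [glue, Function.comp_apply, eA]
      rw [Equiv.sumCompl_symm_apply_of_pos (p := fun a => σ (.inl a)) h]
      exact elim_left p q _ h
    · simp only [glue, Function.comp_apply, eA]
      rw [Equiv.sumCompl_symm_apply_of_neg (p := fun a => σ (.inl a)) h]
      exact elim_right p q _ h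
  have hB : ∀ (p : X → Fin d) (q : Y → Fin d),
      glue e p q ∘ Sum.inr = glue eB (fun b => p (eX (.inr b))) fun b => q (eY (.inr b)) := by
    intro p q; funext b
    by_cases h : σ (.inr b)
    · simp only [glue, Function.comp_apply, eB]
      rw [Equiv.sumCompl_symm_apply_of_pos (p := fun b => σ (.inr b)) h]
      exact elim_left p q _ h
    · simp only [glue, Function.comp_apply, eB]
      rw [Equiv.sumCompl_symm_apply_of_neg (p := fun b => σ (.inr b)) h]
      exact elim_right p q _ h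
  let pX : (X → Fin d) ≃ ({a // σ (.inl a)} → Fin d) × ({b // σ (.inr b)} → Fin d) :=
    (Equiv.arrowCongr eX.symm (Equiv.refl _)).trans (Equiv.sumArrowEquivProdArrow _ _ _)
  let pY : (Y → Fin d) ≃ ({a // ¬ σ (.inl a)} → Fin d) × ({b // ¬ σ (.inr b)} → Fin d) :=
    (Equiv.arrowCongr eY.symm (Equiv.refl _)).trans (Equiv.sumArrowEquivProdArrow _ _ _)
  have hpX : ∀ p, pX p = (fun a => p (eX (.inl a)), fun b => p (eX (.inr b))) := fun p => rfl
  have hpY : ∀ q, pY q = (fun a => q (eY (.inl a)), fun b => q (eY (.inr b))) := fun q => rfl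
  by_cases hc : Nonempty {a // σ (.inl a)} ∧ Nonempty {b // ¬ σ (.inr b)}
  · obtain ⟨hn₁, hn₂⟩ := hc
    have := hn₁; have := hn₂
    have hM := (hT _ ({a // ¬ σ (.inl a)} ⊕ G)
      ((Equiv.sumAssoc _ _ _).symm.trans (Equiv.sumCongr eA (Equiv.refl G)))).equiv (Equiv.refl _)
        (Equiv.sumArrowEquivProdArrow _ G (Fin d)).symm
    have hN := (hS (G ⊕ {b // σ (.inr b)}) _
      ((Equiv.sumAssoc _ _ _).trans (Equiv.sumCongr (Equiv.refl G) eB))).equiv
        (Equiv.sumArrowEquivProdArrow G _ (Fin d)).symm (Equiv.refl _)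
    have := (hM.join hN).equiv pX pY
    convert this using 1
    funext p q
    simp only [hpX, hpY, ctr, hA, hB]
    refine Finset.sum_congr rfl fun c _ => ?_
    congr 1 <;> congr 1 <;> funext i <;> rcases i with i | i <;> simp [glue] <;>
      first | (rcases eA.symm i with j | j <;> rfl) | (rcases eB.symm i with j | j <;> rfl)
  · have hn : Nonempty {a // ¬ σ (.inl a)} ∧ Nonempty {b // σ (.inr b)} := by
      by_contra hd
      obtain ⟨a₀⟩ := ‹Nonempty A›
      obtain ⟨b₀⟩ := ‹Nonempty B›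
      by_cases h : σ (.inl a₀)
      · have hb : ∀ b, σ (.inr b) := fun b => by
          by_contra hb; exact hc ⟨⟨⟨a₀, h⟩⟩, ⟨⟨b, hb⟩⟩⟩
        have ha : ∀ a, σ (.inl a) := fun a => by
          by_contra ha; exact hd ⟨⟨⟨a, ha⟩⟩, ⟨⟨b₀, hb b₀⟩⟩⟩
        obtain ⟨y⟩ := hY
        rcases he : e (.inr y) with a | b
        · have := ha a; simp [σ, ← he] at this
        · have := hb b; simp [σ, ← he] at this
      · have hb : ∀ b, ¬ σ (.inr b) := fun b hb => hd ⟨⟨⟨a₀, h⟩⟩, ⟨⟨b, hb⟩⟩⟩
        have ha : ∀ a, ¬ σ (.inl a) := fun a ha => hc ⟨⟨⟨a, ha⟩⟩, ⟨⟨b₀, hb b₀⟩⟩⟩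
        obtain ⟨x⟩ := hX
        rcases he : e (.inl x) with a | b
        · have := ha a; simp [σ, ← he] at this
        · have := hb b; simp [σ, ← he] at this
    obtain ⟨hn₁, hn₂⟩ := hn
    have := hn₁; have := hn₂
    have hM := (hT _ ({a // σ (.inl a)} ⊕ G)
      ((Equiv.sumAssoc _ _ _).symm.trans (Equiv.sumCongr ((Equiv.sumComm _ _).trans eA)
        (Equiv.refl G)))).equiv (Equiv.refl _) (Equiv.sumArrowEquivProdArrow _ G (Fin d)).symm
    have hN := (hS (G ⊕ {b // ¬ σ (.inr b)}) _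
      ((Equiv.sumAssoc _ _ _).trans (Equiv.sumCongr (Equiv.refl G)
        ((Equiv.sumComm _ _).trans eB)))).equiv
        (Equiv.sumArrowEquivProdArrow G _ (Fin d)).symm (Equiv.refl _)
    have := ((hM.join hN).equiv pY pX).flip
    convert this using 1
    funext p q
    simp only [hpX, hpY, ctr, hA, hB]
    refine Finset.sum_congr rfl fun c _ => ?_
    congr 1 <;> congr 1 <;> funext i <;> rcases i with i | i <;> simp [glue] <;>
      first | (rcases eA.symm i with j | j <;> rfl) | (rcases eB.symm i with j | j <;> rfl)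

/-- Contracting the leg `none` with a vector. -/
def ctrV (T : Ten d (Option I)) (x : Space d) : Ten d I :=
  fun i => ∑ c, T (fun o => o.elim c i) * x c

theorem SplitB.contract_vec {C : ℝ} {T : Ten d (Option I)} (hT : SplitB C T) (x : Space d) :
    SplitB (C * ‖x‖) (ctrV T x) := by
  intro X Y _ _ _ _ hX hY e
  let f : (Unit ⊕ X) ⊕ Y ≃ Option I :=
    ((Equiv.sumAssoc Unit X Y).trans (Equiv.sumCongr (Equiv.refl Unit) e)).trans
      ((Equiv.sumComm Unit I).trans (Equiv.optionEquivSumPUnit I).symm)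
  have h := hT (Unit ⊕ X) Y f
  refine ⟨mul_nonneg h.1 (norm_nonneg x), fun p q => ?_⟩
  have key := h.2 (fun a => x (a (.inl ())) * p (a ∘ Sum.inr)) q
  have e0 : ∀ F : (Unit ⊕ X → Fin d) → ℝ,
      ∑ a, F a = ∑ c : Fin d, ∑ a : X → Fin d, F (Sum.elim (fun _ => c) a) := fun F => by
    rw [← Equiv.sum_comp ((Equiv.sumArrowEquivProdArrow Unit X (Fin d)).trans
      (Equiv.prodCongr (Equiv.funUnique Unit (Fin d)) (Equiv.refl _))).symm, Fintype.sum_prod_type]
    rfl
  have e1 : ∑ a : Unit ⊕ X → Fin d, ∑ b : Y → Fin d,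
      T (glue f a b) * (x (a (.inl ())) * p (a ∘ Sum.inr)) * q b
        = ∑ a : X → Fin d, ∑ b, ctrV T x (glue e a b) * p a * q b := by
    rw [e0, Finset.sum_comm]
    refine Finset.sum_congr rfl fun a _ => ?_
    rw [Finset.sum_comm]
    refine Finset.sum_congr rfl fun b _ => ?_
    simp only [ctrV, Finset.sum_mul]
    refine Finset.sum_congr rfl fun c _ => ?_
    have : glue f (Sum.elim (fun _ => c) a) b = fun o => o.elim c (glue e a b) := by
      funext o
      rcases o with _ | i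
      · rfl
      · simp only [glue, f, Function.comp_apply, Option.elim_some]
        simp only [Equiv.symm_trans_apply, Equiv.symm_symm, Equiv.optionEquivSumPUnit_some,
          Equiv.sumComm_symm, Equiv.sumComm_apply, Sum.swap_inl, Equiv.sumCongr_symm,
          Equiv.sumCongr_apply, Sum.map_inr]
        rcases e.symm i with u | u <;> rfl
    rw [this]
    simp only [Sum.elim_inl, Sum.elim_comp_inr]
    ring
  have e2 : ∑ a : Unit ⊕ X → Fin d, (x (a (.inl ())) * p (a ∘ Sum.inr)) ^ 2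
      = ‖x‖ ^ 2 * ∑ a, p a ^ 2 := by
    rw [e0, EuclideanSpace.real_norm_sq_eq, Finset.sum_mul]
    simp only [Sum.elim_inl, Sum.elim_comp_inr, mul_pow, Finset.mul_sum]
  rw [e1, e2, Real.sqrt_mul (sq_nonneg _), Real.sqrt_sq (norm_nonneg _)] at key
  exact key.trans_eq (by ring)

/-! ### Fields -/

/-- The derivative, as one more leg in front. -/
def dT (F : Space d → Ten d I) (x : Space d) : Ten d (Option I) :=
  fun i => fderiv ℝ (fun y => F y fun j => i (some j)) x (ev (i none))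

/-- The leg `none` moved into the left block. -/
def optL (A G : Type) : Option (A ⊕ G) ≃ Option A ⊕ G where
  toFun o := o.elim (.inl none) (Sum.map some id)
  invFun := Sum.elim (fun o => o.map Sum.inl) fun g => some (.inr g)
  left_inv o := by rcases o with _ | a | g <;> rfl
  right_inv o := by rcases o with (_ | a) | g <;> rfl

/-- The leg `none` moved into the right block. -/
def optR (G B : Type) : Option (G ⊕ B) ≃ G ⊕ Option B where
  toFun o := o.elim (.inr none) (Sum.map id some)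
  invFun := Sum.elim (fun g => some (.inl g)) fun o => o.map Sum.inr
  left_inv o := by rcases o with _ | g | b <;> rfl
  right_inv o := by rcases o with g | _ | b <;> rfl

/-- The product rule for a contraction. -/
theorem dT_ctr {F : Space d → Ten d (A ⊕ G)} {H : Space d → Ten d (G ⊕ B)} {x : Space d}
    (hF : ∀ i, DifferentiableAt ℝ (fun y => F y i) x)
    (hH : ∀ i, DifferentiableAt ℝ (fun y => H y i) x) :
    dT (fun y => ctr (F y) (H y)) x =
      reT (optL A B).symm (ctr (reT (optL A G) (dT F x)) (H x)) +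
        reT (optR A B).symm (ctr (F x) (reT (optR G B) (dT H x))) := by
  funext i
  simp only [dT, ctr, Pi.add_apply, reT]
  have h : ∀ c : G → Fin d, HasFDerivAt
      (fun y => F y (Sum.elim ((fun j => i (some j)) ∘ Sum.inl) c) *
        H y (Sum.elim c ((fun j => i (some j)) ∘ Sum.inr))) _ x := fun c =>
    (hF _).hasFDerivAt.fun_mul (hH _).hasFDerivAt
  rw [(HasFDerivAt.fun_sum fun c _ => h c).fderiv, ← Finset.sum_add_distrib,
    ContinuousLinearMap.sum_apply]
  refine Finset.sum_congr rfl fun c _ => ?_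
  simp only [ContinuousLinearMap.add_apply, ContinuousLinearMap.smul_apply, smul_eq_mul]
  rw [add_comm]
  congr 1
  · rw [mul_comm]
    congr 1
    · congr 1
      · congr 1
        funext y; congr 1; funext j; rcases j with a | g <;> rfl
  · congr 1
    congr 1
    congr 1
    funext y; congr 1; funext j; rcases j with g | b <;> rfl

end Vale.Agent.P347.Zero
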