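import Vale.Agent.P347.Zero.Series
import Vale.Agent.P347.Zero.Tensor

/-!
Contracting one leg of a tensor with a fresh Gaussian vector: every split of the result has moments
of order `2 p` bounded by those of the tensor, up to `√p d^(|I| / 2p)`.
-/

noncomputable section

open MeasureTheory ProbabilityTheory Matrix Filter Topology
open scoped Matrix.Norms.L2Operator RealInnerProductSpace Nat

namespace Vale.Agent.P347.Zero

variable {d : ℕ} {I : Type}

/-- The tensor with the leg `none` set to `k`. -/
def slice (T : Ten d (Option I)) (k : Fin d) : Ten d I := fun i => T fun o => o.elim k i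

variable [Fintype I] [DecidableEq I]

/-- The matrix of a split given by a colouring of the legs. -/
def flat (T : Ten d I) (s : I → Bool) :
    Matrix ({i // s i = true} → Fin d) ({i // ¬ s i = true} → Fin d) ℝ :=
  Matrix.of fun p q => T (glue (Equiv.sumCompl fun i => s i = true) p q)

/-- Both colours occur. -/
def Proper (s : I → Bool) : Prop := (∃ i, s i = true) ∧ ∃ i, s i = false

/-- The sum of the operator norms of all splits, a bound for every one of them. -/
def splitN (T : Ten d I) : ℝ :=
  open scoped Classical in ∑ s : I → Bool, if Proper s then ‖flat T s‖ else 0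

namespace ContractAux

omit [Fintype I] [DecidableEq I] in
theorem ctrV_eq (T : Ten d (Option I)) (g : Space d) (i : I → Fin d) :
    ctrV T g i = ∑ k, g k * slice T k i := by
  simp only [ctrV, slice, mul_comm]

theorem matB_of_norm {α β : Type} [Fintype α] [Fintype β] [DecidableEq α] [DecidableEq β]
    {C : ℝ} (M : Matrix α β ℝ) (h : ‖M‖ ≤ C) : MatB C fun a b => M a b := by
  refine ⟨(norm_nonneg M).trans h, fun x y => ?_⟩
  set u : EuclideanSpace ℝ α := WithLp.toLp 2 x
  set v : EuclideanSpace ℝ β := WithLp.toLp 2 y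
  set w : EuclideanSpace ℝ α := WithLp.toLp 2 (M *ᵥ y)
  have e : ∑ a, ∑ b, M a b * x a * y b = ⟪u, w⟫ := by
    simp only [u, w, PiLp.inner_apply, RCLike.inner_apply, conj_trivial, mulVec, dotProduct,
      Finset.sum_mul]
    exact Finset.sum_congr rfl fun a _ => Finset.sum_congr rfl fun b _ => by ring
  have hu : Real.sqrt (∑ a, x a ^ 2) = ‖u‖ := by simp [u, EuclideanSpace.norm_eq]
  have hv : Real.sqrt (∑ b, y b ^ 2) = ‖v‖ := by simp [v, EuclideanSpace.norm_eq]
  have hw : ‖w‖ ≤ C * ‖v‖ :=
    (M.l2_opNorm_mulVec v).trans (mul_le_mul_of_nonneg_right h (norm_nonneg v))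
  rw [e, hu, hv]
  refine (abs_real_inner_le_norm u w).trans ?_
  exact (mul_le_mul_of_nonneg_left hw (norm_nonneg u)).trans_eq (by ring)

theorem norm_of_matB {α β : Type} [Fintype α] [Fintype β] [DecidableEq α] [DecidableEq β]
    {C : ℝ} (M : Matrix α β ℝ) (h : MatB C fun a b => M a b) : ‖M‖ ≤ C := by
  rw [l2_opNorm_def]
  refine ContinuousLinearMap.opNorm_le_bound _ h.1 fun v => ?_
  have h1 := h.flip.apply v.ofLp
  have h2 : ‖(WithLp.toLp 2 (M *ᵥ v.ofLp) : EuclideanSpace ℝ α)‖ ≤ C * ‖v‖ := by
    refine (sq_le_sq₀ (norm_nonneg _) (mul_nonneg h.1 (norm_nonneg v))).1 ?_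
    rw [mul_pow, EuclideanSpace.real_norm_sq_eq, EuclideanSpace.real_norm_sq_eq]
    simpa [mulVec, dotProduct] using h1
  exact h2

/-- The colouring of a split. -/
theorem matB_split {T : Ten d I} {A B : Type} [Fintype A] [DecidableEq A] [Fintype B] [DecidableEq B]
    [Nonempty A] [Nonempty B] (e : A ⊕ B ≃ I) :
    Proper (fun i => (e.symm i).isLeft) ∧ ∀ C, ‖flat T (fun i => (e.symm i).isLeft)‖ ≤ C →
      MatB C fun p q => T (glue e p q) := by
  set s : I → Bool := fun i => (e.symm i).isLeft with hs
  refine ⟨⟨⟨e (.inl (Classical.arbitrary A)), by simp⟩,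
    ⟨e (.inr (Classical.arbitrary B)), by simp⟩⟩, fun C hC => ?_⟩
  let eA : {i // s i = true} ≃ A :=
    (e.symm.subtypeEquiv fun _ => Iff.rfl).trans (leftEquiv A B)
  let eB : {i // ¬ s i = true} ≃ B :=
    (e.symm.subtypeEquiv fun _ => Iff.rfl).trans (rightEquiv A B)
  have h := (matB_of_norm _ hC).equiv (Equiv.arrowCongr eA.symm (Equiv.refl (Fin d)))
    (Equiv.arrowCongr eB.symm (Equiv.refl (Fin d)))
  have key : ∀ (p : A → Fin d) (q : B → Fin d),
      flat T s (Equiv.arrowCongr eA.symm (Equiv.refl (Fin d)) p)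
        (Equiv.arrowCongr eB.symm (Equiv.refl (Fin d)) q) = T (glue e p q) := by
    intro p q
    show flat T s (p ∘ eA) (q ∘ eB) = _
    simp only [flat, of_apply]
    congr 1
    funext i
    by_cases hi : s i = true
    · simp only [glue, Function.comp_apply]
      rw [Equiv.sumCompl_symm_apply_of_pos (p := fun i => s i = true) hi, Sum.elim_inl]
      exact (elim_left p q (e.symm i) hi).symm
    · simp only [glue, Function.comp_apply]
      rw [Equiv.sumCompl_symm_apply_of_neg (p := fun i => s i = true) hi, Sum.elim_inr]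
      exact (elim_right p q (e.symm i) hi).symm
  refine ⟨h.1, fun x y => ?_⟩
  have := h.2 x y
  simp only [← key]
  exact this

theorem norm_flat_le {C : ℝ} {T : Ten d I} (hT : SplitB C T) {s : I → Bool} (hs : Proper s) :
    ‖flat T s‖ ≤ C := by
  have : Nonempty {i // s i = true} := ⟨⟨_, hs.1.choose_spec⟩⟩
  have : Nonempty {i // ¬ s i = true} := ⟨⟨_, by rw [hs.2.choose_spec]; simp⟩⟩
  exact norm_of_matB _ (hT _ _ (Equiv.sumCompl fun i => s i = true))

omit [Fintype I] [DecidableEq I] in
theorem flat_ctrV (T : Ten d (Option I)) (g : Space d) (s : I → Bool) :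
    flat (ctrV T g) s = ser (fun k => flat (slice T k) s) g := by
  ext p q
  simp [flat, ser, Matrix.sum_apply, ctrV_eq]

omit [DecidableEq I] in
theorem card_le {A : Type} [Fintype A] [Nonempty A] (h : Fintype.card A ≤ Fintype.card I) :
    (d : ℝ) ^ Fintype.card A ≤ (d : ℝ) ^ Fintype.card I := by
  rcases Nat.eq_zero_or_pos d with rfl | hd
  · rw [Nat.cast_zero, zero_pow Fintype.card_ne_zero]; positivity
  · exact pow_le_pow_right₀ (by exact_mod_cast hd) h

theorem moment_flat {C : ℝ} {T : Ten d (Option I)} (hT : SplitB C T) {s : I → Bool}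
    (hs : Proper s) {p : ℕ} (hp : 0 < p) :
    ∫ g, ‖flat (ctrV T g) s‖ ^ (2 * p) ∂gam d
      ≤ ((2 * p - 1)‼ : ℕ) * C ^ (2 * p) * (d : ℝ) ^ Fintype.card I := by
  have hA : Nonempty {i // s i = true} := ⟨⟨_, hs.1.choose_spec⟩⟩
  have hB : Nonempty {i // ¬ s i = true} := ⟨⟨_, by rw [hs.2.choose_spec]; simp⟩⟩
  let A := {i // s i = true}
  let B := {i // ¬ s i = true}
  set Bk : Fin d → Matrix (A → Fin d) (B → Fin d) ℝ := fun k => flat (slice T k) s with hBk
  set e : A ⊕ B ≃ I := Equiv.sumCompl fun i => s i = true with he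
  -- the two enlarged splits
  let e1 : A ⊕ (Unit ⊕ B) ≃ Option I :=
    ((Equiv.sumAssoc A Unit B).symm.trans ((Equiv.sumCongr (Equiv.sumComm A Unit) (Equiv.refl B)).trans
      ((Equiv.sumAssoc Unit A B).trans (Equiv.sumCongr (Equiv.refl Unit) e)))).trans
      ((Equiv.sumComm Unit I).trans (Equiv.optionEquivSumPUnit I).symm)
  let e2 : (Unit ⊕ A) ⊕ B ≃ Option I :=
    ((Equiv.sumAssoc Unit A B).trans (Equiv.sumCongr (Equiv.refl Unit) e)).trans
      ((Equiv.sumComm Unit I).trans (Equiv.optionEquivSumPUnit I).symm)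
  set N1 : Matrix (A → Fin d) (Fin d × (B → Fin d)) ℝ := Matrix.of fun a kb => Bk kb.1 a kb.2
  set N2 : Matrix (Fin d × (A → Fin d)) (B → Fin d) ℝ := Matrix.of fun ka b => Bk ka.1 ka.2 b
  let u : (X : Type) → (Unit ⊕ X → Fin d) ≃ Fin d × (X → Fin d) := fun X =>
    (Equiv.sumArrowEquivProdArrow Unit X (Fin d)).trans
      (Equiv.prodCongr (Equiv.funUnique Unit (Fin d)) (Equiv.refl _))
  have hg1 : ∀ a k b, T (glue e1 a ((u B).symm (k, b))) = Bk k a b := fun a k b => by
    simp only [hBk, flat, of_apply, slice]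
    congr 1
    funext o
    rcases o with _ | i
    · rfl
    · rcases hi : e.symm i with x | x <;> simp [glue, e1, u, hi, he ▸ hi]
  have hg2 : ∀ k a b, T (glue e2 ((u A).symm (k, a)) b) = Bk k a b := fun k a b => by
    simp only [hBk, flat, of_apply, slice]
    congr 1
    funext o
    rcases o with _ | i
    · rfl
    · rcases hi : e.symm i with x | x <;> simp [glue, e2, u, hi, he ▸ hi]
  have h1 : ‖N1‖ ≤ C := norm_of_matB _ <| by
    have h := (hT A (Unit ⊕ B) e1).equiv (Equiv.refl _) (u B).symm
    refine ⟨h.1, fun x y => ?_⟩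
    have := h.2 x y
    simpa [N1, hg1] using this
  have h2 : ‖N2‖ ≤ C := norm_of_matB _ <| by
    have h := (hT (Unit ⊕ A) B e2).equiv (u A).symm (Equiv.refl _)
    refine ⟨h.1, fun x y => ?_⟩
    have := h.2 x y
    simpa [N2, hg2] using this
  have s1 : ∑ k, Bk k * (Bk k)ᵀ = N1 * N1ᴴ := by
    ext a a'
    simp [N1, Matrix.sum_apply, Matrix.mul_apply, Fintype.sum_prod_type]
  have s2 : ∑ k, (Bk k)ᵀ * Bk k = N2ᴴ * N2 := by
    ext b b'
    simp [N2, Matrix.sum_apply, Matrix.mul_apply, Fintype.sum_prod_type]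
  have hC := (norm_nonneg N1).trans h1
  have b1 : ‖∑ k, Bk k * (Bk k)ᵀ‖ ≤ C ^ 2 := by
    have h := l2_opNorm_conjTranspose_mul_self N1ᴴ
    rw [conjTranspose_conjTranspose, l2_opNorm_conjTranspose] at h
    rw [s1, h, sq]
    exact mul_le_mul h1 h1 (norm_nonneg _) hC
  have b2 : ‖∑ k, (Bk k)ᵀ * Bk k‖ ≤ C ^ 2 := by
    rw [s2, l2_opNorm_conjTranspose_mul_self, sq]
    exact mul_le_mul h2 h2 (norm_nonneg _) hC
  simp only [flat_ctrV]
  refine (norm_moment_rect Bk b1 b2 hp).trans ?_
  refine mul_le_mul_of_nonneg_left ?_ (mul_nonneg (Nat.cast_nonneg _) (pow_nonneg hC _))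
  simp only [Fintype.card_fun, Fintype.card_fin, Nat.cast_add, Nat.cast_pow]
  have l1 := card_le (d := d) (A := A) (I := I) (Fintype.card_subtype_le _)
  have l2 := card_le (d := d) (A := B) (I := I) (Fintype.card_subtype_le _)
  linarith

end ContractAux

open ContractAux

theorem splitN_nonneg (T : Ten d I) : 0 ≤ splitN T := by
  classical
  exact Finset.sum_nonneg fun s _ => by split_ifs <;> simp

/-- Every split is bounded by `splitN`. -/
theorem splitB_splitN (T : Ten d I) : SplitB (splitN T) T := by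
  classical
  intro A B _ _ _ _ _ _ e
  obtain ⟨hp, h⟩ := matB_split (T := T) e
  refine h _ ?_
  refine le_trans ?_ (Finset.single_le_sum
    (f := fun s : I → Bool => if Proper s then ‖flat T s‖ else 0)
    (fun s _ => by split_ifs <;> simp) (Finset.mem_univ fun i => (e.symm i).isLeft))
  simp [hp]

/-- `splitN` is a bound up to the number of splits. -/
theorem splitN_le {C : ℝ} {T : Ten d I} (hC : 0 ≤ C) (hT : SplitB C T) :
    splitN T ≤ 2 ^ Fintype.card I * C := by
  classical
  refine (Finset.sum_le_card_nsmul _ _ C fun s _ => ?_).trans_eq (by simp)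
  split_ifs with h
  · exact norm_flat_le hT h
  · exact hC

theorem continuous_splitN : Continuous (splitN : Ten d I → ℝ) := by
  classical
  refine continuous_finsetSum _ fun s _ => ?_
  split_ifs
  · exact continuous_norm.comp (continuous_matrix fun p q => continuous_apply _)
  · exact continuous_const

omit [Fintype I] [DecidableEq I] in
theorem continuous_ctrV : Continuous fun r : Ten d (Option I) × Space d => ctrV r.1 r.2 :=
  continuous_pi fun _i => continuous_finsetSum _ fun c _ =>
    ((continuous_apply _).comp continuous_fst).mul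
      ((PiLp.continuous_apply 2 (fun _ : Fin d => ℝ) c).comp continuous_snd)

theorem splitN_ctrV_le {C : ℝ} {T : Ten d (Option I)} (hC : 0 ≤ C) (hT : SplitB C T) (g : Space d) :
    splitN (ctrV T g) ≤ 2 ^ Fintype.card I * C * ‖g‖ := by
  rw [mul_assoc]
  exact splitN_le (mul_nonneg hC (norm_nonneg g)) (hT.contract_vec g)

theorem integrable_splitN_ctrV (T : Ten d (Option I)) (m : ℕ) :
    Integrable (fun g => splitN (ctrV T g) ^ m) (gam d) := by
  refine P245.Tame.integrable
    (tame_of_poly (C := (2 ^ Fintype.card I * splitN T) ^ m) (m := m) fun g => ?_)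
    ((continuous_splitN.comp (continuous_ctrV.comp (continuous_const.prodMk continuous_id))).pow m)
  rw [abs_of_nonneg (pow_nonneg (splitN_nonneg _) m), ← mul_pow]
  exact pow_le_pow_left₀ (splitN_nonneg _)
    (splitN_ctrV_le (splitN_nonneg T) (splitB_splitN T) g) m

/-- Contracting a leg with a standard Gaussian vector keeps the moments of every split. -/
theorem moment_splitN_ctrV {C : ℝ} {T : Ten d (Option I)} (hT : SplitB C T) (hC : 0 ≤ C) {p : ℕ}
    (hp : 0 < p) :
    ∫ g, splitN (ctrV T g) ^ (2 * p) ∂gam d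
      ≤ (2 ^ Fintype.card I * Real.sqrt (2 * p)) ^ (2 * p) * (d : ℝ) ^ Fintype.card I
          * C ^ (2 * p) := by
  classical
  have hdf : (((2 * p - 1)‼ : ℕ) : ℝ) ≤ Real.sqrt (2 * p) ^ (2 * p) := by
    rw [pow_mul, Real.sq_sqrt (by positivity)]
    exact_mod_cast doubleFactorial_le p
  set f : (I → Bool) → Space d → ℝ := fun s g =>
    if Proper s then ‖flat (ctrV T g) s‖ else 0 with hf
  have hf0 : ∀ s g, 0 ≤ f s g := fun s g => by simp only [hf]; split_ifs <;> simp
  have hfi : ∀ s, Integrable (fun g => f s g ^ (2 * p)) (gam d) := fun s => by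
    refine (integrable_splitN_ctrV T (2 * p)).mono' ?_ (ae_of_all _ fun g => ?_)
    · simp only [hf]
      split_ifs
      · simp only [flat_ctrV]
        exact (((continuous_ser _).norm).pow _).aestronglyMeasurable
      · exact aestronglyMeasurable_const
    · rw [Real.norm_eq_abs, abs_of_nonneg (pow_nonneg (hf0 s g) _)]
      exact pow_le_pow_left₀ (hf0 s g)
        (Finset.single_le_sum (fun s _ => hf0 s g) (Finset.mem_univ s)) _
  have hb : ∀ s, ∫ g, f s g ^ (2 * p) ∂gam d
      ≤ Real.sqrt (2 * p) ^ (2 * p) * C ^ (2 * p) * (d : ℝ) ^ Fintype.card I := fun s => by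
    by_cases h : Proper s
    · simp only [hf, h, if_true]
      refine (moment_flat hT h hp).trans ?_
      exact mul_le_mul_of_nonneg_right (mul_le_mul_of_nonneg_right hdf (pow_nonneg hC _))
        (by positivity)
    · simp only [hf, h, if_false, zero_pow (by omega : 2 * p ≠ 0), integral_zero]
      positivity
  obtain ⟨m, hm⟩ : ∃ m, 2 * p = m + 1 := ⟨2 * p - 1, by omega⟩
  have hpt : ∀ g, splitN (ctrV T g) ^ (2 * p)
      ≤ (2 ^ Fintype.card I) ^ m * ∑ s, f s g ^ (2 * p) := fun g => by
    rw [hm]
    refine (pow_sum_le_card_mul_sum_pow (fun s _ => hf0 s g) m).trans_eq ?_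
    simp
  refine (integral_mono (integrable_splitN_ctrV T _)
    ((integrable_finsetSum _ fun s _ => hfi s).const_mul _) hpt).trans ?_
  rw [integral_const_mul, integral_finsetSum _ fun s _ => hfi s]
  refine (mul_le_mul_of_nonneg_left (Finset.sum_le_sum fun s _ => hb s)
    (by positivity)).trans_eq ?_
  rw [Finset.sum_const, nsmul_eq_mul, Finset.card_univ, Fintype.card_fun, Fintype.card_bool,
    Nat.cast_pow, Nat.cast_ofNat]
  rw [mul_pow (2 ^ Fintype.card I : ℝ), hm, pow_succ (2 ^ Fintype.card I : ℝ) m]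
  ring

/-- The same for a random tensor independent of the Gaussian vector. -/
theorem moment_splitN_ctrV_random {Ω : Type*} [MeasurableSpace Ω] {P : Measure Ω} [SFinite P]
    {T : Ω → Ten d (Option I)} (hT : Measurable T) {p : ℕ} (hp : 0 < p)
    (hi : Integrable (fun ω => splitN (T ω) ^ (2 * p)) P) :
    Integrable (fun r => splitN (ctrV (T r.1) r.2) ^ (2 * p)) (P.prod (gam d)) ∧
      ∫ r, splitN (ctrV (T r.1) r.2) ^ (2 * p) ∂P.prod (gam d)
        ≤ (2 ^ Fintype.card I * Real.sqrt (2 * p)) ^ (2 * p) * (d : ℝ) ^ Fintype.card I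
            * ∫ ω, splitN (T ω) ^ (2 * p) ∂P := by
  set K := (2 ^ Fintype.card I * Real.sqrt (2 * p)) ^ (2 * p) * (d : ℝ) ^ Fintype.card I with hK
  have hcs : Measurable (splitN : Ten d I → ℝ) := continuous_splitN.measurable
  have hv : Measurable fun r : Ω × Space d => ctrV (T r.1) r.2 :=
    measurable_pi_iff.2 fun i => Finset.measurable_fun_sum _ fun c _ =>
      (((measurable_pi_apply _).comp hT).comp measurable_fst).mul
        ((EuclideanSpace.proj (𝕜 := ℝ) c).continuous.measurable.comp measurable_snd)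
  have hm : Measurable fun r : Ω × Space d => splitN (ctrV (T r.1) r.2) ^ (2 * p) :=
    (hcs.comp hv).pow_const _
  have hb : ∀ ω, ∫ g, splitN (ctrV (T ω) g) ^ (2 * p) ∂gam d ≤ K * splitN (T ω) ^ (2 * p) :=
    fun ω => moment_splitN_ctrV (splitB_splitN _) (splitN_nonneg _) hp
  have hint : Integrable (fun r : Ω × Space d => splitN (ctrV (T r.1) r.2) ^ (2 * p))
      (P.prod (gam d)) := by
    refine (integrable_prod_iff hm.aestronglyMeasurable).2
      ⟨ae_of_all _ fun ω => integrable_splitN_ctrV (T ω) _, ?_⟩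
    refine (hi.const_mul K).mono' hm.norm.stronglyMeasurable.integral_prod_right'.aestronglyMeasurable
      (ae_of_all _ fun ω => ?_)
    rw [Real.norm_eq_abs, abs_of_nonneg (integral_nonneg fun g => norm_nonneg _)]
    refine le_trans (le_of_eq (integral_congr_ae (ae_of_all _ fun g => ?_))) (hb ω)
    exact Real.norm_of_nonneg (pow_nonneg (splitN_nonneg _) _)
  refine ⟨hint, ?_⟩
  rw [integral_prod _ hint, ← integral_const_mul]
  exact integral_mono hint.integral_prod_left (hi.const_mul K) hb

omit [Fintype I] [DecidableEq I] in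
/-- Derivatives in other seeds pass to the tensor. -/
theorem fderiv_ctrV {E : Type*} [NormedAddCommGroup E] [NormedSpace ℝ E]
    {F : E → Ten d (Option I)} {x : E} (hF : ∀ o, DifferentiableAt ℝ (fun y => F y o) x)
    (g : Space d) (i : I → Fin d) (v : E) :
    fderiv ℝ (fun y => ctrV (F y) g i) x v
      = ctrV (fun o => fderiv ℝ (fun y => F y o) x v) g i := by
  have h : HasFDerivAt (fun y => ctrV (F y) g i)
      (∑ c, g c • fderiv ℝ (fun y => F y fun o => o.elim c i) x) x :=
    HasFDerivAt.fun_sum fun c _ => (hF _).hasFDerivAt.mul_const (g c)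
  rw [h.fderiv]
  simp [ctrV, mul_comm]

omit [Fintype I] [DecidableEq I] in
/-- Differentiating in the Gaussian vector gives the tensor back. -/
theorem dT_ctrV_self (T : Ten d (Option I)) (g : Space d) :
    dT (fun y => ctrV T y) g = T := by
  funext i
  have h : HasFDerivAt (fun y : Space d => ctrV T y fun j => i (some j))
      (∑ c, T (fun o => o.elim c fun j => i (some j)) • EuclideanSpace.proj (𝕜 := ℝ) c) g :=
    HasFDerivAt.fun_sum fun c _ => ((EuclideanSpace.proj (𝕜 := ℝ) c).hasFDerivAt).const_mul _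
  rw [dT, h.fderiv]
  simp only [_root_.sum_apply, _root_.smul_apply, smul_eq_mul, PiLp.proj_apply]
  rw [Finset.sum_eq_single (i none) (fun c _ hc => by simp [ev, hc]) (fun h => absurd (Finset.mem_univ _) h)]
  simp only [ev, PiLp.single_apply, if_true, mul_one]
  congr 1
  funext o
  rcases o with _ | j <;> rfl

/-- Exchange of the two outer legs. -/
def swapO (I : Type) : Option (Option I) ≃ Option (Option I) where
  toFun a := a.elim (some none) fun b => b.elim none fun j => some (some j)
  invFun a := a.elim (some none) fun b => b.elim none fun j => some (some j)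
  left_inv a := by rcases a with _ | _ | j <;> rfl
  right_inv a := by rcases a with _ | _ | j <;> rfl

omit [Fintype I] [DecidableEq I] in
/-- Contraction in the Leibniz form, for seeds in the same space. -/
theorem dT_ctrV {F : Space d → Ten d (Option I)} {x : Space d}
    (hF : ∀ o, DifferentiableAt ℝ (fun y => F y o) x) (g : Space d) :
    dT (fun y => ctrV (F y) g) x = ctrV (reT (swapO I) (dT F x)) g := by
  funext i
  rw [dT, fderiv_ctrV hF]
  simp only [ctrV, dT, reT]
  refine Finset.sum_congr rfl fun c _ => ?_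
  congr 2
  congr 1
  funext y
  congr 1
  funext o
  rcases o with _ | j <;> rfl

end Vale.Agent.P347.Zero
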