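import Vale.Agent.P347.Zero.SamBd
import Vale.Agent.P347.Zero.Contract
import Vale.Agent.P347.Transfer

/-!
The average of a tensor field over some blocks: smoothness, derivatives inside the average and the
moment bound.
-/

noncomputable section

open MeasureTheory ProbabilityTheory Function Filter
open scoped RealInnerProductSpace NNReal Topology

namespace Vale.Agent.P347.Zero

variable {d : ℕ} {B C : Type} [Fintype B] [Fintype C]

/-- The blocks on the right among all blocks. -/
def inrL (d : ℕ) (B C : Type) : (C → Space d) →L[ℝ] (B ⊕ C → Space d) :=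
  ContinuousLinearMap.pi fun r => r.elim (fun _ => 0) fun c => ContinuousLinearMap.proj c

omit [Fintype B] [Fintype C] in
theorem inrL_apply (x : B → Space d) (y : C → Space d) :
    Sum.elim x 0 + inrL d B C y = Sum.elim x y := by
  funext r
  rcases r with b | c <;> simp [inrL]

omit [Fintype B] [Fintype C] in
theorem inrL_single [DecidableEq B] [DecidableEq C] (c : C) (v : Space d) :
    inrL d B C (Pi.single c v) = Pi.single (Sum.inr c) v := by
  funext r
  rcases r with b | c' <;> simp [inrL, Pi.single_apply]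

theorem norm_elim_le (x : B → Space d) (y : C → Space d) :
    1 + ‖Sum.elim x y‖ ≤ (1 + ‖x‖) * (1 + ‖y‖) := by
  have h0 := norm_nonneg x
  have h1 := norm_nonneg y
  have h : ‖Sum.elim x y‖ ≤ ‖x‖ + ‖y‖ := (pi_norm_le_iff_of_nonneg (by positivity)).2 fun r => by
    rcases r with b | c
    · exact (norm_le_pi_norm x b).trans (le_add_of_nonneg_right h1)
    · exact (norm_le_pi_norm y c).trans (le_add_of_nonneg_left h0)
  nlinarith

theorem gp_poly_int (n : ℕ) : Integrable (fun x : B → Space d => (1 + ‖x‖) ^ n) (gp B d) := by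
  rw [integrable_gp_iff]
  refine gam_int (by fun_prop) ⟨(1 + ‖(emb B d).toContinuousLinearMap‖) ^ n, n, fun z => ?_⟩
  rw [Real.norm_of_nonneg (by positivity), ← mul_pow]
  have h := (emb B d).toContinuousLinearMap.le_opNorm z
  have h0 := norm_nonneg z
  have h1 := norm_nonneg (emb B d).toContinuousLinearMap
  refine pow_le_pow_left₀ (by positivity) ?_ n
  calc 1 + ‖emb B d z‖ ≤ 1 + ‖(emb B d).toContinuousLinearMap‖ * ‖z‖ := by gcongr; exact h
    _ ≤ _ := by nlinarith

theorem pg_slice {g : (B ⊕ C → Space d) → ℝ} (hg : PG g) :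
    ∃ (c : ℝ) (n : ℕ), ∀ x y, |g (Sum.elim x y)| ≤ |c| * (1 + ‖x‖) ^ n * (1 + ‖y‖) ^ n := by
  obtain ⟨-, c, n, hc⟩ := hg 0
  refine ⟨c, n, fun x y => ?_⟩
  have h := hc (Sum.elim x y)
  rw [norm_iteratedFDeriv_zero, Real.norm_eq_abs] at h
  refine h.trans ((mul_le_mul_of_nonneg_right (le_abs_self c) (by positivity)).trans ?_)
  rw [mul_assoc, ← mul_pow]
  exact mul_le_mul_of_nonneg_left (pow_le_pow_left₀ (by positivity) (norm_elim_le x y) n)
    (abs_nonneg c)

theorem pg_slice_int {g : (B ⊕ C → Space d) → ℝ} (hg : PG g) (y : C → Space d) :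
    Integrable (fun x => g (Sum.elim x y)) (gp B d) := by
  obtain ⟨c, n, h⟩ := pg_slice hg
  refine (((gp_poly_int n).const_mul |c|).mul_const _).mono'
    (hg.cont.comp (continuous_pi fun r => ?_)).aestronglyMeasurable (ae_of_all _ fun x => h x y)
  rcases r with b | c' <;> simp <;> fun_prop

theorem continuous_elim (y : C → Space d) : Continuous fun x : B → Space d => Sum.elim x y :=
  continuous_pi fun r => by rcases r with b | c <;> simp <;> fun_prop

variable [DecidableEq B] [DecidableEq C]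

/-- The average of a smooth function is differentiated inside. -/
theorem hasFDerivAt_avg {g : (B ⊕ C → Space d) → ℝ} (hg : PG g) (y : C → Space d) :
    ∃ D : (C → Space d) →L[ℝ] ℝ, HasFDerivAt (fun y => ∫ x, g (Sum.elim x y) ∂gp B d) D y ∧
      ∀ v, D v = ∫ x, fderiv ℝ g (Sum.elim x y) (inrL d B C v) ∂gp B d := by
  obtain ⟨h1, c, n, hc⟩ := hg 1
  have hcd : Continuous (fderiv ℝ g) := h1.continuous_fderiv (by norm_num)
  have hm : ∀ y, AEStronglyMeasurable (fun x => g (Sum.elim x y)) (gp B d) := fun y =>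
    (hg.cont.comp (continuous_elim y)).aestronglyMeasurable
  have hdm : AEStronglyMeasurable
      (fun x => (fderiv ℝ g (Sum.elim x y)).comp (inrL d B C)) (gp B d) :=
    ((hcd.comp (continuous_elim y)).clm_comp continuous_const).aestronglyMeasurable
  set bound := fun x : B → Space d => |c| * (1 + ‖x‖) ^ n * (2 + ‖y‖) ^ n * ‖inrL d B C‖
  have hb : Integrable bound (gp B d) :=
    (((gp_poly_int n).const_mul |c|).mul_const _).mul_const _
  have hle : ∀ x, ∀ z ∈ Metric.ball y 1,
      ‖(fderiv ℝ g (Sum.elim x z)).comp (inrL d B C)‖ ≤ bound x := fun x z hz => by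
    refine (ContinuousLinearMap.opNorm_comp_le _ _).trans
      (mul_le_mul_of_nonneg_right ?_ (norm_nonneg _))
    have h := hc (Sum.elim x z)
    rw [norm_iteratedFDeriv_one] at h
    refine h.trans ((mul_le_mul_of_nonneg_right (le_abs_self c) (by positivity)).trans ?_)
    rw [mul_assoc, ← mul_pow]
    refine mul_le_mul_of_nonneg_left (pow_le_pow_left₀ (by positivity)
      ((norm_elim_le x z).trans (mul_le_mul_of_nonneg_left ?_ (by positivity))) n) (abs_nonneg c)
    rw [Metric.mem_ball, dist_eq_norm] at hz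
    linarith [norm_le_norm_add_norm_sub' z y]
  have h := hasFDerivAt_integral_of_dominated_of_fderiv_le (𝕜 := ℝ) (μ := gp B d)
    (F := fun z x => g (Sum.elim x z))
    (F' := fun z x => (fderiv ℝ g (Sum.elim x z)).comp (inrL d B C))
    (Metric.ball_mem_nhds y one_pos) (Eventually.of_forall hm) (pg_slice_int hg y) hdm
    (ae_of_all _ hle) hb (ae_of_all _ fun x z _ => by
      have hlin : HasFDerivAt (fun z => Sum.elim x z) (inrL d B C) z := by
        simpa only [inrL_apply] using ((inrL d B C).hasFDerivAt (x := z)).const_add (Sum.elim x 0)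
      exact (hg.diff (Sum.elim x z)).hasFDerivAt.comp z hlin)
  have hi : Integrable (fun x => (fderiv ℝ g (Sum.elim x y)).comp (inrL d B C)) (gp B d) :=
    hb.mono' hdm (ae_of_all _ fun x => hle x y (Metric.mem_ball_self one_pos))
  exact ⟨_, h, fun v => by rw [ContinuousLinearMap.integral_apply hi]; rfl⟩

theorem fderiv_avg {g : (B ⊕ C → Space d) → ℝ} (hg : PG g) (c : C) (v : Space d) (y : C → Space d) :
    fderiv ℝ (fun y => ∫ x, g (Sum.elim x y) ∂gp B d) y (Pi.single c v)
      = ∫ x, fderiv ℝ g (Sum.elim x y) (Pi.single (Sum.inr c) v) ∂gp B d := by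
  obtain ⟨D, hD, e⟩ := hasFDerivAt_avg hg y
  rw [hD.fderiv, e]
  simp only [inrL_single]

/-- A linear form is the sum of its values at the coordinates. -/
theorem clm_coord (l : (C → Space d) →L[ℝ] ℝ) :
    l = ∑ c, ∑ i, l (Pi.single c (ev i)) • (EuclideanSpace.proj (𝕜 := ℝ) i).comp
      (ContinuousLinearMap.proj (φ := fun _ : C => Space d) c) := by
  refine ContinuousLinearMap.ext fun y => ?_
  have e : y = ∑ c, ∑ i, y c i • Pi.single (M := fun _ : C => Space d) c (ev i) := by
    funext c'
    ext i'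
    simp [Pi.single_apply, ev]
  conv_lhs => rw [e]
  simp only [map_sum, map_smul, smul_eq_mul, sum_apply, smul_apply, ContinuousLinearMap.comp_apply,
    ContinuousLinearMap.proj_apply, PiLp.proj_apply]
  exact Finset.sum_congr rfl fun c _ => Finset.sum_congr rfl fun i _ => mul_comm _ _

/-- The average of a smooth function of polynomial growth is such. -/
theorem PG.avg {g : (B ⊕ C → Space d) → ℝ} (hg : PG g) :
    PG fun y => ∫ x, g (Sum.elim x y) ∂gp B d := by
  intro k
  induction k generalizing g with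
  | zero =>
    refine ⟨contDiff_zero.2 (continuous_iff_continuousAt.2 fun y => ?_), ?_⟩
    · obtain ⟨D, hD, -⟩ := hasFDerivAt_avg hg y
      exact hD.continuousAt
    obtain ⟨c, n, h⟩ := pg_slice hg
    refine ⟨|c| * ∫ x : B → Space d, (1 + ‖x‖) ^ n ∂gp B d, n, fun y => ?_⟩
    rw [norm_iteratedFDeriv_zero]
    refine (norm_integral_le_of_norm_le (((gp_poly_int n).const_mul |c|).mul_const _)
      (ae_of_all _ fun x => h x y)).trans_eq ?_
    rw [integral_mul_const, integral_const_mul]
  | succ k ih =>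
    have hb : ∀ (c : C) (i : Fin d), PG fun z => fderiv ℝ g z (Pi.single (Sum.inr c) (ev i)) :=
      fun c i => hg.fderiv_apply _
    set A := fun y : C → Space d => ∫ x, g (Sum.elim x y) ∂gp B d with hA
    set P := fun (c : C) (i : Fin d) => (EuclideanSpace.proj (𝕜 := ℝ) i).comp
      (ContinuousLinearMap.proj (φ := fun _ : C => Space d) c)
    set Q := fun (q : C × Fin d) (y : C → Space d) => ((1 : ℝ →L[ℝ] ℝ).smulRight (P q.1 q.2))
      (∫ x, fderiv ℝ g (Sum.elim x y) (Pi.single (Sum.inr q.1) (ev q.2)) ∂gp B d) with hQ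
    have e : fderiv ℝ A = fun y => ∑ q, Q q y := by
      funext y
      rw [clm_coord (fderiv ℝ A y), ← Fintype.sum_prod_type']
      refine Finset.sum_congr rfl fun q _ => ?_
      simp only [hQ, hA, P, ContinuousLinearMap.smulRight_apply, ContinuousLinearMap.one_apply,
        fderiv_avg hg]
    have hQd : ∀ q, ContDiff ℝ k (Q q) := fun q =>
      (ContinuousLinearMap.contDiff _).comp (ih (hb q.1 q.2)).1
    refine ⟨?_, ?_⟩
    · rw [show ((k + 1 : ℕ) : WithTop ℕ∞) = (k : WithTop ℕ∞) + 1 by push_cast; rfl,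
        contDiff_succ_iff_fderiv]
      refine ⟨fun y => ?_, fun h => absurd h (by simp), ?_⟩
      · obtain ⟨D, hD, -⟩ := hasFDerivAt_avg hg y
        exact hD.differentiableAt
      · rw [e]
        exact ContDiff.sum fun q _ => hQd q
    choose cb nb hcb using fun q : C × Fin d => (ih (hb q.1 q.2)).2
    refine ⟨∑ q : C × Fin d, ‖(1 : ℝ →L[ℝ] ℝ).smulRight (P q.1 q.2)‖ * |cb q|, ∑ q, nb q,
      fun y => ?_⟩
    rw [← norm_iteratedFDeriv_fderiv, e, iteratedFDeriv_sum (fun q _ => hQd q), Finset.sum_mul]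
    refine le_of_eq_of_le (congrArg norm (Finset.sum_apply y Finset.univ
      fun q => iteratedFDeriv ℝ k (Q q))) ?_
    refine (norm_sum_le _ _).trans (Finset.sum_le_sum fun q _ => ?_)
    refine (ContinuousLinearMap.norm_iteratedFDeriv_comp_left _ (ih (hb q.1 q.2)).1.contDiffAt
      le_rfl).trans ?_
    rw [mul_assoc]
    exact mul_le_mul_of_nonneg_left (pg_bound (Finset.single_le_sum (fun j _ => Nat.zero_le (nb j))
      (Finset.mem_univ q)) (hcb q y)) (norm_nonneg _)

variable {S : Sys} {I : Type} [Fintype I] [DecidableEq I] {θ : ℝ}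

theorem Sm.avB {T : Fld S (B ⊕ C) I} (hT : Sm T) : Sm (avB T) :=
  sm_iff.2 fun i p idx => (hT.pg i p idx).avg

theorem dB_avB {T : Fld S (B ⊕ C) I} (hT : Sm T) (c : C) :
    dB c (avB T) = avB (dB (.inr c) T) := by
  funext i p y idx
  exact fderiv_avg (hT.pg i p fun j => idx (some j)) c (ev (idx none)) y

/-- An average keeps the moments of every split. -/
theorem Bd.avB {T : Fld S (B ⊕ C) I} (h : Bd θ T) (hT : Sm T) : Bd θ (avB T) := fun η hη m => by
  set n := Fintype.card I
  refine (((h (η / 2) (half_pos hη) (m + 1)).and (h (η / 2) (half_pos hη) m)).and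
    ((S.ev_le_rpow (2 ^ n * 2 ^ n) (half_pos hη)).and S.ev_one_le)).mono
      fun i ⟨⟨hi1, hi⟩, h2, hd⟩ p => ?_
  set T' := fun z : B ⊕ C → Space (S.dm i) => T i p z with hT'
  have hmp := measurePreserving_sumPiEquivProdPi_symm (X := fun _ : B ⊕ C => Space (S.dm i))
    (fun _ => gam (S.dm i))
  set e := (MeasurableEquiv.sumPiEquivProdPi fun _ : B ⊕ C => Space (S.dm i)).symm
  have he : ∀ x y, e (x, y) = Sum.elim x y := fun x y => by
    funext r; rcases r with b | c <;> rfl
  set g := fun z => splitN (T' z) with hg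
  have hgm : Measurable g := (continuous_splitN.comp (hT.cont i p)).measurable
  have hg0 : ∀ z, 0 ≤ g z := fun z => splitN_nonneg _
  have hgi : ∀ k, (∃ f : (B ⊕ C → Space (S.dm i)) → ℝ, Measurable f ∧
      (∀ x, 0 ≤ f x ∧ SplitB (f x) (T i p x)) ∧ Integrable (fun x => f x ^ k) (gp (B ⊕ C) (S.dm i)) ∧
        ∫ x, f x ^ k ∂gp (B ⊕ C) (S.dm i) ≤ (S.dd i ^ (η / 2 - θ)) ^ k) →
      Integrable (fun z => g z ^ k) (gp (B ⊕ C) (S.dm i)) ∧
        ∫ z, g z ^ k ∂gp (B ⊕ C) (S.dm i) ≤ (2 ^ n * S.dd i ^ (η / 2 - θ)) ^ k := fun k hk => by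
    obtain ⟨f, hf, hs, hint, hb⟩ := hk
    have hle : ∀ z, g z ^ k ≤ (2 ^ n) ^ k * f z ^ k := fun z => by
      rw [← mul_pow]
      exact pow_le_pow_left₀ (hg0 z) (splitN_le (hs z).1 (hs z).2) k
    have hi' : Integrable (fun z => g z ^ k) (gp (B ⊕ C) (S.dm i)) :=
      (hint.const_mul _).mono' (hgm.pow_const k).aestronglyMeasurable (ae_of_all _ fun z => by
        rw [Real.norm_of_nonneg (pow_nonneg (hg0 z) k)]; exact hle z)
    refine ⟨hi', (integral_mono hi' (hint.const_mul _) hle).trans ?_⟩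
    rw [integral_const_mul, mul_pow]
    exact mul_le_mul_of_nonneg_left hb (by positivity)
  obtain ⟨gi1, -⟩ := hgi (m + 1) (hi1 p)
  obtain ⟨gim, gbm⟩ := hgi m (hi p)
  have gi : Integrable g (gp (B ⊕ C) (S.dm i)) :=
    ((integrable_const (1 : ℝ)).add gi1).mono' hgm.aestronglyMeasurable (ae_of_all _ fun z => by
      rw [Real.norm_of_nonneg (hg0 z), Pi.add_apply]
      rcases le_total (g z) 1 with h1 | h1
      · linarith [pow_nonneg (hg0 z) (m + 1)]
      · linarith [le_self_pow₀ h1 (show m + 1 ≠ 0 by omega)])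
  set μ := gp B (S.dm i)
  set ν := gp C (S.dm i)
  have hp : ∀ {F : (B ⊕ C → Space (S.dm i)) → ℝ}, Integrable F (gp (B ⊕ C) (S.dm i)) →
      Integrable (fun q => F (e q)) (μ.prod ν) ∧
        ∫ q, F (e q) ∂μ.prod ν = ∫ z, F z ∂gp (B ⊕ C) (S.dm i) := fun hF =>
    ⟨hmp.integrable_comp_of_integrable hF, hmp.integral_comp' _⟩
  obtain ⟨hq1, -⟩ := hp gi
  obtain ⟨hqm, hqme⟩ := hp gim
  set f' := fun y : C → Space (S.dm i) => splitN (Zero.avB T i p y) with hf'
  have hf'm : Measurable f' := continuous_splitN.measurable.comp ((hT.avB).cont i p).measurable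
  have hae : ∀ᵐ y ∂ν, f' y ^ m ≤ (2 ^ n) ^ m * ∫ x, g (e (x, y)) ^ m ∂μ := by
    filter_upwards [hq1.prod_left_ae, hqm.prod_left_ae] with y h1 hm'
    set a := ∫ x, g (e (x, y)) ∂μ with ha
    have ha0 : 0 ≤ a := integral_nonneg fun x => hg0 _
    have hsb : SplitB a (Zero.avB T i p y) := by
      intro A A' _ _ _ _ _ _ σ
      refine ⟨ha0, fun u v => ?_⟩
      have hi0 : ∀ q q', Integrable
          (fun x => T i p (Sum.elim x y) (glue σ q q') * u q * v q') μ := fun q q' =>
        ((pg_slice_int (hT.pg i p _) y).mul_const _).mul_const _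
      have e0 : ∑ q, ∑ q', Zero.avB T i p y (glue σ q q') * u q * v q'
          = ∫ x, ∑ q, ∑ q', T i p (Sum.elim x y) (glue σ q q') * u q * v q' ∂μ := by
        rw [integral_finsetSum _ fun q _ => integrable_finsetSum _ fun q' _ => hi0 q q']
        refine Finset.sum_congr rfl fun q _ => ?_
        rw [integral_finsetSum _ fun q' _ => hi0 q q']
        exact Finset.sum_congr rfl fun q' _ => by
          rw [integral_mul_const, integral_mul_const]; rfl
      rw [e0, ha, ← integral_mul_const, ← integral_mul_const, ← Real.norm_eq_abs]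
      refine norm_integral_le_of_norm_le ((h1.mul_const _).mul_const _) (ae_of_all _ fun x => ?_)
      rw [Real.norm_eq_abs, he]
      exact (splitB_splitN (T i p (Sum.elim x y)) A A' σ).2 u v
    refine (pow_le_pow_left₀ (splitN_nonneg _) (splitN_le ha0 hsb) m).trans ?_
    rw [mul_pow]
    refine mul_le_mul_of_nonneg_left ?_ (by positivity)
    exact (convexOn_pow m).map_integral_le (μ := μ) (f := fun x => g (e (x, y)))
      (continuous_pow m).continuousOn isClosed_Ici (ae_of_all _ fun x => hg0 _) h1 hm'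
  have hri := (hqm.integral_prod_right).const_mul ((2 ^ n : ℝ) ^ m)
  have hfi : Integrable (fun y => f' y ^ m) ν :=
    hri.mono' (hf'm.pow_const m).aestronglyMeasurable (hae.mono fun y hy => by
      rw [Real.norm_of_nonneg (pow_nonneg (splitN_nonneg _) m)]; exact hy)
  refine ⟨f', hf'm, fun y => ⟨splitN_nonneg _, splitB_splitN _⟩, hfi, ?_⟩
  refine (integral_mono_ae hfi hri hae).trans ?_
  rw [integral_const_mul, ← integral_prod_symm _ hqm, hqme]
  refine (mul_le_mul_of_nonneg_left gbm (by positivity)).trans ?_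
  rw [← mul_pow]
  refine pow_le_pow_left₀ (by positivity) ?_ m
  rw [← mul_assoc, show S.dd i ^ (η - θ) = S.dd i ^ (η / 2) * S.dd i ^ (η / 2 - θ) by
    rw [← Real.rpow_add (show (0 : ℝ) < S.dd i by linarith)]; ring_nf]
  exact mul_le_mul_of_nonneg_right h2 (Real.rpow_nonneg (by linarith) _)

end Vale.Agent.P347.Zero
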