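import Vale.Agent.P347.Zero.VtxBasic
import Vale.Agent.P347.Zero.AvgField
import Vale.Agent.P347.Zero.Apply

/-!
The derivative of a vertex in a block of its point, and the drift of a vertex averaged over the
noise of its channel.
-/

noncomputable section

open MeasureTheory ProbabilityTheory Set
open scoped RealInnerProductSpace NNReal

namespace Vale.Agent.P347.Zero

variable {γ H B δv b S : ℝ} {C : Type} [Fintype C] [DecidableEq C] {J : Type}
  {f : J → NI γ H δv b S}

/-- The derivative in a block of a point, less the identity. -/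
def delB {S : Sys} (c : C) (Y : Fld S C Unit) : Fld S C (Option Unit) :=
  fun i p x idx => dB c Y i p x idx - if idx none = idx (some ()) then 1 else 0

/-- The blocks of a point among those of its vertices. -/
def inlM (C : Type) [DecidableEq C] : C → C ⊕ Unit → ℝ := fun c r => if r = .inl c then 1 else 0

/-- The newest derivative leg, alone on the left. -/
def headO (j : ℕ) : Option (Fin (j + 1)) ≃ Unit ⊕ Option (Fin j) where
  toFun o := o.elim (.inr none) (Fin.cases (.inl ()) fun l => .inr (some l))
  invFun r := r.elim (fun _ => some 0) fun o => o.elim none fun l => some l.succ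
  left_inv o := by
    rcases o with _ | j
    · rfl
    · induction j using Fin.cases <;> rfl
  right_inv r := by rcases r with u | _ | l <;> rfl

theorem sm_delB {S : Sys} (c : C) {Y : Fld S C Unit} (hY : Sm Y) : Sm (delB c Y) :=
  sm_iff.2 fun i p idx => by
    simpa only [delB, sub_eq_add_neg] using
      ((hY.dB c).pg i p idx).add (pg_const (-(if idx none = idx (some ()) then 1 else 0)))

theorem mixB_inlM (d : ℕ) (x : C ⊕ Unit → Space d) :
    mixB d (inlM C) x = fun c => x (.inl c) := by
  funext c
  rw [mixB_apply]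
  simp [inlM]

/-- The derivative in a block of the point is the next derivative of the drift contracted with the
derivative of the point. -/
theorem dB_vtx_inl (j : ℕ) {Y : Fld (NQ B f) C Unit} (hY : Sm Y) (c₀ : C) :
    dB (.inl c₀) (vtx j Y) = smulF (fun n : J => (f n).a)
      (addT (reL (shiftO j) (vtx (j + 1) Y))
        (reL (optU (Option (Fin j))).symm
          (ctL (reL (optU Unit) (subB (fun n => mixB ((NQ B f).dm n) (inlM C)) (delB c₀ Y)))
            (reL (headO j) (vtx (j + 1) Y))))) := by
  funext (n : J) p x idx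
  set a := (f n).a
  set ra := (f n).r * (f n).a with hra
  set K := ra ^ j / (f n).q.hs with hK
  set idx' : Option (Fin j) → Fin ((NQ B f).dm n) := fun o => idx (some o) with hi
  set xl : C → Space ((NQ B f).dm n) := fun c => x (.inl c) with hxl
  set DY : Fin ((NQ B f).dm n) → ℝ := fun m =>
    fderiv ℝ (fun y => Y n p y fun _ => m) xl (Pi.single c₀ (ev (idx none))) with hDY
  set π : (C ⊕ Unit → Space ((NQ B f).dm n)) →L[ℝ] (C → Space ((NQ B f).dm n)) :=
    ContinuousLinearMap.pi fun c => ContinuousLinearMap.proj (Sum.inl c) with hπ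
  set W : C ⊕ Unit → Space ((NQ B f).dm n) := Pi.single (Sum.inl c₀) (ev (idx none)) with hW
  have e1 : π W = Pi.single c₀ (ev (idx none)) := by
    funext c
    simp [hπ, hW, Pi.single_apply]
  have e2 : W (.inr ()) = 0 := by simp [hW]
  have hv := (HasFDerivAt.fun_sum (u := (Finset.univ : Finset (Fin ((NQ B f).dm n)))) fun m _ =>
    (((hY.pg n p fun _ => m).diff (π x)).hasFDerivAt.comp x π.hasFDerivAt).smul_const (ev m))
  have hcen := ((hv.const_smul a).add
    ((ContinuousLinearMap.proj (R := ℝ) (φ := fun _ : C ⊕ Unit => Space ((NQ B f).dm n)) (Sum.inr ())).hasFDerivAt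
      (x := x) |>.const_smul (Real.sqrt (1 - a ^ 2)))).const_smul ra
  set cen := ra • (a • vecOf Y n p xl + Real.sqrt (1 - a ^ 2) • x (.inr ())) with hcd
  have hD : HasFDerivAt
      (fun q => K * driftT ((f n).q.pot p) (1 - ra ^ 2) j q idx') _ cen :=
    (((contDiff_driftT ((f n).q.pot p) (f n).var_pos 1 j idx').differentiable (by norm_num))
      cen).hasFDerivAt.const_mul K
  have h := hD.comp x hcen
  have e : (fun y => vtx j Y n p y idx') = _ := funext fun y => show
      ra ^ j * driftT ((f n).q.pot p) (1 - ra ^ 2) j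
        (ra • (a • (∑ m, Y n p (π y) (fun _ => m) • ev m) + Real.sqrt (1 - a ^ 2) • y (.inr ())))
          idx' / (f n).q.hs
      = K * driftT ((f n).q.pot p) (1 - ra ^ 2) j
        (ra • (a • (∑ m, Y n p (π y) (fun _ => m) • ev m) + Real.sqrt (1 - a ^ 2) • y (.inr ())))
          idx' from (div_mul_eq_mul_div _ _ _).symm
  show fderiv ℝ (fun y => vtx j Y n p y idx') x W = _
  rw [e]
  refine (congrArg (fun Φ : (C ⊕ Unit → Space ((NQ B f).dm n)) →L[ℝ] ℝ => Φ W) h.fderiv).trans ?_
  have eV : (∑ i, (fderiv ℝ (fun x => Y n p x fun _ => i) (π x) ∘SL π).smulRight (ev i)) W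
      = ∑ i, DY i • ev i := by
    rw [sum_apply]
    refine Finset.sum_congr rfl fun i _ => ?_
    rw [ContinuousLinearMap.smulRight_apply, ContinuousLinearMap.comp_apply, e1]
    rfl
  show K * fderiv ℝ (fun q => driftT ((f n).q.pot p) (1 - ra ^ 2) j q idx') cen
    (ra • (a • (∑ i, (fderiv ℝ (fun x => Y n p x fun _ => i) (π x) ∘SL π).smulRight (ev i)) W
      + Real.sqrt (1 - a ^ 2) • W (.inr ()))) = _
  rw [eV, e2, smul_zero, add_zero]
  erw [map_smul, map_smul, map_sum]
  set G : Fin ((NQ B f).dm n) → ℝ := fun m => ra ^ (j + 1) *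
    driftT ((f n).q.pot p) (1 - ra ^ 2) (j + 1) cen
    (fun o => o.elim (idx (some none)) (Fin.cons m fun l => idx (some (some l)))) / (f n).q.hs with hG
  have key : ∀ m, fderiv ℝ (fun q => driftT ((f n).q.pot p) (1 - ra ^ 2) j q idx') cen (DY m • ev m)
      = DY m * fderiv ℝ (fun q => driftT ((f n).q.pot p) (1 - ra ^ 2) j q idx') cen (ev m) ∧
      ra * K * fderiv ℝ (fun q => driftT ((f n).q.pot p) (1 - ra ^ 2) j q idx') cen (ev m) = G m :=
    fun m => ⟨map_smul _ _ _, by
      erw [fderiv_driftT ((f n).q.pot p) (f n).var_pos]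
      simp only [hG, hi, hK, pow_succ]
      ring⟩
  trans a * ∑ m, DY m * G m
  · simp only [smul_eq_mul, Finset.mul_sum]
    refine Finset.sum_congr rfl fun m _ => ?_
    erw [(key m).1]
    rw [← (key m).2]
    ring
  simp only [smulF, addT, Zero.reL, reT, ctL, ctr, subB, Pi.add_apply, Pi.smul_apply, smul_eq_mul,
    smul_eq_mul]
  congr 1
  have eG : ∀ m, vtx (j + 1) Y n p x (fun o => o.elim (idx (some none))
      (Fin.cons m fun l => idx (some (some l)))) = G m := fun m => rfl
  have es : ((vtx (j + 1) Y n p x) fun o => idx (shiftO j o)) = G (idx none) := by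
    refine Eq.trans ?_ (eG _)
    congr 1
    funext o
    rcases o with _ | l
    · rfl
    · induction l using Fin.cases <;> rfl
  refine Eq.trans ?_ (congrArg₂ (· + ·) es.symm rfl)
  rw [← Equiv.sum_comp (Equiv.funUnique Unit (Fin ((NQ B f).dm n))).symm]
  have et : ∀ m : Fin ((NQ B f).dm n), DY m * G m = (if idx none = m then G m else 0) + (DY m -
      if idx none = m then 1 else 0) * G m := fun m => by split_ifs <;> ring
  rw [Finset.sum_congr rfl fun m _ => et m, Finset.sum_add_distrib, Finset.sum_ite_eq,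
    if_pos (Finset.mem_univ _)]
  congr 1
  refine Finset.sum_congr rfl fun m _ => congrArg₂ (· * ·) ?_ ?_
  · simp only [delB, dB, mixB_inlM]
    rfl
  · refine (eG m).symm.trans (congrArg _ ?_)
    funext o
    rcases o with _ | l
    · rfl
    · induction l using Fin.cases <;> rfl

/-! ### The averaged drift -/

/-- The two blocks exchanged. -/
def swapM : Unit ⊕ Unit → Unit ⊕ Unit → ℝ := fun r r' => if r' = r.swap then 1 else 0

/-- The leg of the drift. -/
def oneU : Option (Fin 0) ≃ Unit := Equiv.ofUnique _ _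

/-- The drift of a point averaged over the noise of its channel. -/
def avDrift (Y : Fld (NQ B f) Unit Unit) : Fld (NQ B f) Unit Unit :=
  avB (subB (fun n => mixB ((NQ B f).dm n) swapM) (reL oneU (vtx 0 Y)))

theorem avDrift_apply (Y : Fld (NQ B f) Unit Unit) (n : J) (p : Space ((NQ B f).dm n))
    (z : Unit → Space ((NQ B f).dm n)) (idx : Unit → Fin ((NQ B f).dm n)) :
    avDrift Y n p z idx = ∫ e, vtx 0 Y n p (Sum.elim z fun _ => e)
      (fun o => o.elim (idx ()) Fin.elim0) ∂gam ((NQ B f).dm n) := by
  have hmp := MeasureTheory.measurePreserving_funUnique (gam ((NQ B f).dm n)) Unit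
  simp only [avDrift, avB, subB, Zero.reL, reT]
  rw [← hmp.integral_comp']
  refine integral_congr_ae (ae_of_all _ fun e => ?_)
  show vtx 0 Y n p (mixB ((NQ B f).dm n) swapM (Sum.elim e z)) (idx ∘ oneU) = vtx 0 Y n p _ _
  congr 1
  · funext r
    rw [mixB_apply]
    rcases r with u | u <;> simp [swapM]
  · funext o
    rcases o with _ | l
    · rfl
    · exact Fin.elim0 l

theorem avDrift_sm {Y : Fld (NQ B f) Unit Unit} (hY : Sm Y) : Sm (avDrift Y) :=
  (((vtx_sm 0 hY).reL oneU).subB _).avB

theorem dB_avDrift {Y : Fld (NQ B f) Unit Unit} (hY : Sm Y) :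
    dB () (avDrift Y) = avB (subB (fun n => mixB ((NQ B f).dm n) swapM)
      (reL oneU.optionCongr (dB (.inl ()) (vtx 0 Y)))) := by
  refine (dB_avB (((vtx_sm 0 hY).reL oneU).subB _) ()).trans (congrArg avB ?_)
  funext (n : J) p x idx
  have hT := (((vtx_sm 0 hY).pg n p fun o => idx (some (oneU o))).diff
    (mixB ((NQ B f).dm n) swapM x)).hasFDerivAt.comp x (mixB ((NQ B f).dm n) swapM).hasFDerivAt
  refine (congrArg (fun Φ : (Unit ⊕ Unit → Space ((NQ B f).dm n)) →L[ℝ] ℝ =>
    Φ (Pi.single (Sum.inr ()) (ev (idx none)))) hT.fderiv).trans ?_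
  rw [ContinuousLinearMap.comp_apply]
  have e : mixB ((NQ B f).dm n) swapM
      (Pi.single (Sum.inr ()) (ev (idx none)) : Unit ⊕ Unit → Space ((NQ B f).dm n))
      = Pi.single (Sum.inl ()) (ev (idx none)) := by
    funext r
    rw [mixB_apply]
    rcases r with u | u <;> simp [swapM]
  rw [e]
  rfl

end Vale.Agent.P347.Zero
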