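import Vale.Agent.P347.Zero.SamMix
import Vale.Agent.P347.Zero.IterVtx
import Vale.Agent.P347.Zero.GridDefs

/-!
Closure under averages, and the tower: every derivative of a vertex is in the class as soon as the
derivative of its point is.
-/

noncomputable section

open MeasureTheory ProbabilityTheory Set
open scoped RealInnerProductSpace NNReal

namespace Vale.Agent.P347.Zero

section

variable {S : Sys} {B C I : Type} [Fintype B] [DecidableEq B] [Fintype C] [DecidableEq C]
  [Fintype I] [DecidableEq I] {L : Lad} {r r' : ℕ} {φ θ : ℝ} {D : Set B} {w : B → ℝ} {O O' : Set I}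

omit [DecidableEq B] in
theorem Gd.union {T : Fld S B I} (h : Gd L r φ θ O T) (h' : Gd L r φ θ O' T) :
    Gd L r φ θ (O ∪ O') T :=
  ⟨h.1, fun o ho => ho.elim (h.2.1 o) (h'.2.1 o), h.2.2⟩

theorem GdD.union {n : ℕ} {T : Fld S B I} (h : GdD L r φ D w n θ O T)
    (h' : GdD L r φ D w n θ O' T) : GdD L r φ D w n θ (O ∪ O') T := by
  induction n generalizing θ I O O' with
  | zero => exact Gd.union h h'
  | succ n ih =>
    refine ⟨h.1.union h'.1, fun b hb => ?_⟩
    rw [Set.image_union]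
    exact ih (h.2 b hb) (h'.2 b hb)

omit [DecidableEq B] in
theorem Gd.lower {T : Fld S B I} (h : Gd L r φ θ O T) (hr : r' < r) :
    Gd L r' (L.phi r') θ O' T :=
  ⟨h.1, fun o _ => h.2.2 r' hr o, fun r'' hr'' o => h.2.2 r'' (hr''.trans hr) o⟩

theorem GdD.lower {n : ℕ} {T : Fld S B I} (h : GdD L r φ D w n θ O T) (hr : r' < r) :
    GdD L r' (L.phi r') D w n θ O' T := by
  induction n generalizing θ I O O' with
  | zero => exact Gd.lower h hr
  | succ n ih => exact ⟨h.1.lower hr, fun b hb => ih (h.2 b hb)⟩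

/-- Averages, from the statement of averaging. -/
theorem GdD.avg (hA : AvgThm) [Nontrivial I] {T : Fld S (B ⊕ C) I} (hT : Sm T)
    (hφ : L.phi r + 8 * L.w ≤ φ)
    (h : ∀ n, GdD L (r + 1) φ univ (fun _ => L.w) n θ O T) :
    ∀ n, GdD L (r + 1) φ univ (fun _ => L.w) n θ O (avB T) := by
  intro n
  have key : Gd L (r + 1) φ θ O (avB T) := by
    refine ⟨(h 0).1.avB hT, fun o ho => ?_, fun r' hr o => ?_⟩
    · exact hA S L r φ φ θ hφ le_rfl (by linarith) B C I O o T ho hT (((h 0).2.1 o ho).mix hT)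
        fun b m => ((h (m + 1)).2 (.inl b) trivial).mono le_rfl le_rfl subset_rfl (subset_univ _)
          fun _ _ => le_rfl
    · rcases r' with _ | r'
      · exact sam_zero hT.avB ((h 0).1.avB hT) L.kap_zero (L.phi_pos 0).le
      · exact hA S L r' (L.phi (r' + 1)) (L.phi (r' + 1)) θ (L.gap r') le_rfl
          (by linarith [L.gap r']) B C I univ o T trivial hT (((h 0).2.2 (r' + 1) hr o).mix hT)
          fun b m => ((((h (m + 1)).lower hr (O' := univ)).2 (.inl b) trivial)).mono le_rfl le_rfl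
            subset_rfl (subset_univ _) fun _ _ => le_rfl
  induction n generalizing θ I O with
  | zero => exact key
  | succ n ih =>
    refine ⟨key, fun c _ => ?_⟩
    rw [dB_avB hT]
    have h' : ∀ m, GdD L (r + 1) φ univ (fun _ => L.w) m (θ - L.w) (some '' O) (dB (.inr c) T) :=
      fun m => (h (m + 1)).2 (.inr c) trivial
    refine ih (hT.dB _) h' ⟨(h' 0).1.avB (hT.dB _), fun o ho => ?_, fun r' hr o => ?_⟩
    · exact hA S L r φ φ _ hφ le_rfl (by linarith) B C _ _ o _ ho (hT.dB _)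
        (((h' 0).2.1 o ho).mix (hT.dB _))
        fun b m => ((h' (m + 1)).2 (.inl b) trivial).mono le_rfl le_rfl subset_rfl (subset_univ _)
          fun _ _ => le_rfl
    · rcases r' with _ | r'
      · exact sam_zero (hT.dB _).avB ((h' 0).1.avB (hT.dB _)) L.kap_zero (L.phi_pos 0).le
      · exact hA S L r' (L.phi (r' + 1)) (L.phi (r' + 1)) _ (L.gap r') le_rfl
          (by linarith [L.gap r']) B C _ univ o _ trivial (hT.dB _)
          (((h' 0).2.2 (r' + 1) hr o).mix (hT.dB _))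
          fun b m => ((((h' (m + 1)).lower hr (O' := univ)).2 (.inl b) trivial)).mono le_rfl le_rfl
            subset_rfl (subset_univ _) fun _ _ => le_rfl

end

/-! ### The tower -/

variable {γ H B δv S : ℝ} {C : Type} [Fintype C] [DecidableEq C] {J : Type}
  {f : J → NI γ H δv 0 S} {Y : Fld (NQ B f) C Unit} {L : Lad} {r : ℕ} {φ θ : ℝ}

theorem inlM_orth (b b' : C) :
    ∑ c, inlM C b c * inlM C b' c = if b = b' then 1 else 0 := by
  simp [inlM, eq_comm]

/-- The derivative of a point over the blocks of its vertices. -/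
theorem gdD_inlX {n : ℕ} {c : C} (hY : Sm Y)
    (h : GdD L (r + 1) φ univ (fun _ => L.w) n θ univ (delB c Y)) :
    GdD L (r + 1) φ (univ : Set (C ⊕ Unit)) (fun _ => L.w) n θ univ
      (reL (optU Unit) (subB (fun i => mixB ((NQ B f).dm i) (inlM C)) (delB c Y))) := by
  refine ((h.subB (M := fun _ => inlM C) (D' := univ) (v := fun _ => L.w) (sm_delB c hY)
    (fun _ => inlM_orth) fun _ _ _ _ => ⟨trivial, le_rfl⟩).reL (optU Unit)).mono le_rfl le_rfl
      (fun o _ => ⟨(optU Unit).symm o, trivial, (optU Unit).apply_symm_apply o⟩) subset_rfl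
      fun _ _ => le_rfl

theorem noise_coef_le {η : ℝ} (hη : 0 < η) :
    (NQ B f).Ev fun i : J => |Real.sqrt (1 - (f i).pub.a ^ 2)| ≤ (NQ B f).dd i ^ η :=
  ((NQ B f).ev_le_rpow 1 hη).mono fun (i : J) hi => le_trans (by
    rw [abs_of_nonneg (Real.sqrt_nonneg _)]
    exact Real.sqrt_le_one.2 (by nlinarith [sq_nonneg (f i).pub.a])) hi

theorem chan_coef_le {η : ℝ} (hη : 0 < η) :
    (NQ B f).Ev fun i : J => |(f i).pub.a| ≤ (NQ B f).dd i ^ η :=
  ((NQ B f).ev_le_rpow 1 hη).mono fun (i : J) hi => le_trans (by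
    rw [abs_of_nonneg (le_trans (by norm_num) (f i).pub.a_mem.1)]
    exact (f i).pub.a_mem.2) hi

/-- Derivatives in the noise block of a vertex are further vertices. -/
theorem gdD_dB_inr {n j : ℕ} (hY : Sm Y) {θ' : ℝ}
    (h : GdD L (r + 1) φ univ (fun _ => L.w) n θ' univ (vtx (j + 1) Y)) :
    GdD L (r + 1) φ univ (fun _ => L.w) n θ' univ (dB (.inr ()) (vtx j Y)) := by
  have h1 := ((h.reL (shiftO j)).smul ((vtx_sm _ hY).reL _)
    (c := fun k => Real.sqrt (1 - k.a ^ 2)) fun η hη => noise_coef_le hη).mono le_rfl le_rfl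
      (O' := univ) (fun o _ => ⟨(shiftO j).symm o, trivial, (shiftO j).apply_symm_apply o⟩)
      subset_rfl fun _ _ => le_rfl
  rw [dB_vtx j hY]
  exact h1

/-- Derivatives in a block of the point, from the derivative of the point. -/
theorem gdD_dB_inl (hP : ProductThm) (hφ : L.phi r ≤ φ) (hθ : L.phi r ≤ θ) {n j : ℕ} (hY : Sm Y)
    (c : C) {θ' : ℝ} (hD : GdD L (r + 1) φ univ (fun _ => L.w) n θ univ (delB c Y))
    (h : GdD L (r + 1) φ univ (fun _ => L.w) n θ' univ (vtx (j + 1) Y)) :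
    GdD L (r + 1) φ univ (fun _ => L.w) n θ' univ (dB (.inl c) (vtx j Y)) := by
  have hX := gdD_inlX hY hD
  have hH := h.reL (headO j)
  have sX : Sm (reL (optU Unit) (subB (fun i => mixB ((NQ B f).dm i) (inlM C)) (delB c Y))) :=
    ((sm_delB c hY).subB _).reL _
  have sH : Sm (reL (headO j) (vtx (j + 1) Y)) := (vtx_sm _ hY).reL _
  have h1 := GdD.ctL hP (r := r + 1) hφ (OA := univ) sX sH
    (hX.mono le_rfl le_rfl (subset_univ _) subset_rfl fun _ _ => le_rfl) hH
  have h2 := GdD.ctL' hP (r := r + 1) hφ (OC := univ) sX sH hX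
    (hH.mono le_rfl le_rfl (fun o _ => ⟨(headO j).symm o, trivial, (headO j).apply_symm_apply o⟩)
      subset_rfl fun _ _ => le_rfl)
  have h3 := ((h1.union h2).reL (optU (Option (Fin j))).symm).mono (O' := univ) le_rfl
    (show θ' ≤ θ + θ' - L.phi (r + 1 - 1) by simp only [Nat.add_sub_cancel]; linarith)
    (fun o _ => ⟨optU (Option (Fin j)) o, by
      rcases optU (Option (Fin j)) o with u | v <;> simp, Equiv.symm_apply_apply _ _⟩)
    subset_rfl fun _ _ => le_rfl
  have h4 := (h.reL (shiftO j)).mono (O' := univ) le_rfl le_rfl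
    (fun o _ => ⟨(shiftO j).symm o, trivial, (shiftO j).apply_symm_apply o⟩) subset_rfl
    fun _ _ => le_rfl
  have h5 := (GdD.add ((vtx_sm _ hY).reL _) ((sX.ctL sH).reL _) h4 h3).smul
    (Sm.add ((vtx_sm _ hY).reL _) ((sX.ctL sH).reL _)) (c := fun k => k.a)
    fun η hη => chan_coef_le hη
  rw [dB_vtx_inl j hY c]
  exact h5

/-- The tower: every derivative of every vertex. -/
theorem gdD_vtx (hP : ProductThm) (hφ : L.phi r ≤ φ) (hθ : L.phi r ≤ θ) {α : ℝ}
    (hv : VtxOK L (r + 1) γ δv S α φ) (hY : Pts (L.kap r) α Y) :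
    ∀ n : ℕ, (∀ c, GdD L (r + 1) φ univ (fun _ => L.w) n θ univ (delB c Y)) →
      ∀ j : ℕ, 1 ≤ j → GdD L (r + 1) φ univ (fun _ => L.w) n (-(j : ℝ) * L.w) univ (vtx j Y)
  | 0, _, j, hj => hv H B C J f Y hY j hj
  | n + 1, hD, j, hj => by
    refine ⟨hv H B C J f Y hY j hj, fun b _ => ?_⟩
    have h := gdD_vtx hP hφ hθ hv hY n (fun c => (hD c).of_succ) (j + 1) (by omega)
    have e : -((j + 1 : ℕ) : ℝ) * L.w = -(j : ℝ) * L.w - L.w := by push_cast; ring
    rw [e] at h
    rcases b with c | u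
    · exact (gdD_dB_inl hP hφ hθ hY.1 c (hD c).of_succ h).mono le_rfl le_rfl (subset_univ _)
        subset_rfl fun _ _ => le_rfl
    · exact (gdD_dB_inr hY.1 h).mono le_rfl le_rfl (subset_univ _) subset_rfl fun _ _ => le_rfl

/-- The derivatives of the drift at a point. -/
theorem gdD_dB_vtx0 (hP : ProductThm) (hφ : L.phi r ≤ φ) (hθ : L.phi r ≤ θ) {α : ℝ}
    (hv : VtxOK L (r + 1) γ δv S α φ) (hY : Pts (L.kap r) α Y) (n : ℕ)
    (hD : ∀ c, GdD L (r + 1) φ univ (fun _ => L.w) n θ univ (delB c Y)) (b : C ⊕ Unit) :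
    GdD L (r + 1) φ univ (fun _ => L.w) n (-L.w) univ (dB b (vtx 0 Y)) := by
  have h := gdD_vtx hP hφ hθ hv hY n hD 1 le_rfl
  rw [Nat.cast_one, neg_one_mul] at h
  rcases b with c | u
  · exact gdD_dB_inl hP hφ hθ hY.1 c (hD c) h
  · exact gdD_dB_inr hY.1 h

end Vale.Agent.P347.Zero
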