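import Vale.Agent.P347.Zero.GdClosure
import Vale.Agent.P347.Zero.AvgField

/-!
Two moves of realisability: a small multiple raises the exponent, and blocks that the program does
not receive are drawn as seeds.
-/

noncomputable section

open MeasureTheory ProbabilityTheory Function
open scoped RealInnerProductSpace NNReal

namespace Vale.Agent.P347.Zero

variable {S : Sys} {B C I : Type} [Fintype B] [DecidableEq B] [Fintype C] [DecidableEq C]
  [Fintype I] [DecidableEq I] {κ φ θ s : ℝ} {o : I}

/-! ### Small multiples -/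

theorem Sam.scale {T : Fld S B I} (h : Sam κ φ θ o T) {c : S.key → ℝ}
    (hc : ∀ η : ℝ, 0 < η → S.Ev fun i => |c (S.pub i)| ≤ S.dd i ^ (η - s)) :
    Sam κ φ (θ + s) o (smulF (fun i => c (S.pub i)) T) := by
  have hs := h.smul (c := fun k => c k * S.kdd k ^ s) fun η hη =>
    ((hc η hη).and S.ev_one_le).mono fun i ⟨hi, hd⟩ => by
      have h0 : (0 : ℝ) < S.dd i := by linarith
      show |c (S.pub i) * S.dd i ^ s| ≤ _
      rw [abs_mul, abs_of_nonneg (Real.rpow_nonneg h0.le _)]
      refine (mul_le_mul_of_nonneg_right hi (Real.rpow_nonneg h0.le _)).trans_eq ?_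
      rw [← Real.rpow_add h0, sub_add_cancel]
  intro a ha ε hε
  obtain ⟨R, hq, hl, hin, hlaw⟩ := hs (a - s) (by linarith) ε hε
  refine ⟨R, hq, hl, hin.mono (by linarith), Run.law_of_close fun η hη =>
    ((hlaw.close hl hη).and S.ev_one_le).mono fun i ⟨hi, hd⟩ p => ?_⟩
  obtain ⟨e, he, hb, hce⟩ := hi p
  refine ⟨e, he, hb, fun x A => ?_⟩
  have h1 := hce x A
  simp only [smulF] at h1 ⊢
  rw [apT_smul, smul_smul] at h1 ⊢
  rw [show S.dd i ^ a * c (S.pub i) = S.dd i ^ (a - s) * (c (S.pub i) * S.kdd (S.pub i) ^ s) by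
    rw [mul_comm (c (S.pub i)), ← mul_assoc, ← Real.rpow_add (show (0 : ℝ) < S.dd i by linarith),
      sub_add_cancel]]
  exact h1

theorem Bd.scale {T : Fld S B I} (h : Bd θ T) {c : S.ι → ℝ}
    (hc : ∀ η : ℝ, 0 < η → S.Ev fun i => |c i| ≤ S.dd i ^ (η - s)) :
    Bd (θ + s) (smulF c T) := by
  have hs := h.smul (c := fun i => c i * S.dd i ^ s) fun η hη =>
    ((hc η hη).and S.ev_one_le).mono fun i ⟨hi, hd⟩ => by
      have h0 : (0 : ℝ) < S.dd i := by linarith
      rw [abs_mul, abs_of_nonneg (Real.rpow_nonneg h0.le _)]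
      refine (mul_le_mul_of_nonneg_right hi (Real.rpow_nonneg h0.le _)).trans_eq ?_
      rw [← Real.rpow_add h0, sub_add_cancel]
  intro η hη m
  refine ((hs η hη m).and S.ev_one_le).mono fun i ⟨hi, hd⟩ p => ?_
  obtain ⟨f, hf, hsp, hint, hb⟩ := hi p
  have h0 : (0 : ℝ) < S.dd i := by linarith
  set q := S.dd i ^ (-s)
  have hq : 0 ≤ q := Real.rpow_nonneg h0.le _
  have hcq : q * (c i * S.dd i ^ s) = c i := by
    rw [mul_left_comm, ← Real.rpow_add h0, neg_add_cancel, Real.rpow_zero, mul_one]
  refine ⟨fun x => q * f x, hf.const_mul q, fun x => ⟨mul_nonneg hq (hsp x).1, ?_⟩, ?_, ?_⟩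
  · intro A A' _ _ _ _ _ _ e
    have h1 := ((hsp x).2 A A' e).smul q
    rw [abs_of_nonneg hq] at h1
    refine cast (congrArg (fun M => MatB (q * f x) M) (funext fun u => funext fun v => ?_)) h1
    simp only [smulF, Pi.smul_apply, smul_eq_mul]
    rw [← mul_assoc, hcq]
  · simp only [mul_pow]
    exact hint.const_mul _
  · simp only [mul_pow, integral_const_mul]
    refine (mul_le_mul_of_nonneg_left hb (pow_nonneg hq _)).trans_eq ?_
    rw [← mul_pow, ← Real.rpow_add h0]
    ring_nf

theorem Gd.scale {L : Lad} {r : ℕ} {O : Set I} {T : Fld S B I} (h : Gd L r φ θ O T)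
    {c : S.key → ℝ} (hc : ∀ η : ℝ, 0 < η → S.Ev fun i => |c (S.pub i)| ≤ S.dd i ^ (η - s)) :
    Gd L r φ (θ + s) O (smulF (fun i => c (S.pub i)) T) :=
  ⟨h.1.scale hc, fun o ho => (h.2.1 o ho).scale hc, fun r' hr o => (h.2.2 r' hr o).scale hc⟩

theorem GdD.scale {L : Lad} {r n : ℕ} {D : Set B} {w : B → ℝ} {O : Set I} {T : Fld S B I}
    (hT : Sm T) (h : GdD L r φ D w n θ O T) {c : S.key → ℝ}
    (hc : ∀ η : ℝ, 0 < η → S.Ev fun i => |c (S.pub i)| ≤ S.dd i ^ (η - s)) :
    GdD L r φ D w n (θ + s) O (smulF (fun i => c (S.pub i)) T) := by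
  induction n generalizing θ I O with
  | zero => exact Gd.scale h hc
  | succ n ih =>
    refine ⟨h.1.scale hc, fun b hb => ?_⟩
    rw [dB_smulF hT, show θ + s - w b = θ - w b + s by ring]
    exact ih (hT.dB b) (h.2 b hb)

/-! ### Blocks drawn as seeds -/

variable {d : ℕ}

/-- The blocks and the seeds among longer seeds. -/
def seedMap (d : ℕ) (B : Type) [Fintype B] (n : ℕ) (ω : Fin (Fintype.card B + n) → Space d) :
    (B → Space d) × (Fin n → Space d) :=
  (fun b => (splitSeeds _ _ ω).1 (Fintype.equivFin B b), (splitSeeds _ _ ω).2)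

omit [DecidableEq B] in
theorem seedMap_mp (n : ℕ) : MeasurePreserving (seedMap d B n)
    (gp (Fin (Fintype.card B + n)) d) ((gp B d).prod (gp (Fin n) d)) := by
  have h1 := measurePreserving_piCongrLeft (α := fun _ : B => Space d) (fun _ => gam d)
    (Fintype.equivFin B).symm
  have h2 := (h1.prod (MeasurePreserving.id (gp (Fin n) d))).comp
    (splitSeeds_mp (Fintype.card B) n)
  refine cast (congrArg (fun g => MeasurePreserving g _ _) (funext fun ω => ?_)) h2
  refine Prod.ext (funext fun b => ?_) rfl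
  simp [seedMap, MeasurableEquiv.piCongrLeft, Equiv.piCongrLeft_apply_eq_cast]

/-- A program that draws the blocks on the left. -/
def Prog.seedB (P : Prog d (B ⊕ C) I) : Prog d C I where
  sd := Fintype.card B + P.sd
  q := P.q
  F := fun G a => P.F G (a.1, Sum.elim (seedMap d B P.sd a.2.2.2).1 a.2.1, a.2.2.1,
    (seedMap d B P.sd a.2.2.2).2)
  comp := P.comp.comp (f := fun a : Inp d C I (Fintype.card B + P.sd) =>
    (a.1, Sum.elim (seedMap d B P.sd a.2.2.2).1 a.2.1, a.2.2.1, (seedMap d B P.sd a.2.2.2).2))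
    (by
      have hs := (seedMap_mp (B := B) (d := d) P.sd).measurable
      refine measurable_fst.prodMk (Measurable.prodMk (measurable_pi_lambda _ fun r => ?_)
        (measurable_snd.snd.fst.prodMk (hs.comp measurable_snd.snd.snd).snd))
      rcases r with b | c
      · exact (measurable_pi_apply b).comp (hs.comp measurable_snd.snd.snd).fst
      · exact (measurable_pi_apply c).comp measurable_snd.fst)

omit [DecidableEq B] [DecidableEq C] [DecidableEq I] in
theorem Prog.seedB_lip {P : Prog d (B ⊕ C) I} {G : Space d → Space d} {K : ℝ} (hP : P.Lip G K) :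
    P.seedB.Lip G K := fun p p' x x' A A' ω => by
  refine (hP p p' (Sum.elim (seedMap d B P.sd ω).1 x) (Sum.elim (seedMap d B P.sd ω).1 x') A A'
    (seedMap d B P.sd ω).2).trans_eq ?_
  simp [dist3, Fintype.sum_sum_type]

omit [DecidableEq B] [DecidableEq C] [DecidableEq I] in
theorem Prog.seedB_lipW {P : Prog d (B ⊕ C) I} {G : Space d → Space d} (hP : P.LipW G) :
    P.seedB.LipW G := by
  obtain ⟨L, hL⟩ := hP
  have s := LipschitzWith.prod_snd (α := Space d)
    (β := (C → Space d) × (I → Space d) × (Fin (Fintype.card B + P.sd) → Space d))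
  have h3 := (LipschitzWith.prod_snd.comp LipschitzWith.prod_snd).comp s
  have h1 : LipschitzWith 1 fun u : (B → Space d) × (C → Space d) => Sum.elim u.1 u.2 :=
    LipschitzWith.of_dist_le_mul fun u v => by
      rw [NNReal.coe_one, one_mul]
      refine (dist_pi_le_iff dist_nonneg).2 fun r => ?_
      rcases r with b | c
      · exact (dist_le_pi_dist u.1 v.1 b).trans (le_max_left _ _)
      · exact (dist_le_pi_dist u.2 v.2 c).trans (le_max_right _ _)
  exact ⟨_, hL.comp (LipschitzWith.prod_fst.prodMk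
    ((h1.comp ((((lipschitz_reindex (Fintype.equivFin B)).comp
      (lipschitz_reindex (Fin.castAdd P.sd))).comp h3).prodMk
        (LipschitzWith.prod_fst.comp s))).prodMk
    (((LipschitzWith.prod_fst.comp LipschitzWith.prod_snd).comp s).prodMk
      ((lipschitz_reindex (Fin.natAdd (Fintype.card B))).comp h3))))⟩

omit [Fintype B] [DecidableEq B] [Fintype C] [DecidableEq C] in
theorem continuous_elimL (y : C → Space d) :
    Continuous fun x : B → Space d => Sum.elim x y :=
  continuous_pi fun r => by rcases r with b | c <;> simp <;> fun_prop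

omit [DecidableEq B] [DecidableEq C] [DecidableEq I] in
/-- Drawing blocks mixes the laws. -/
theorem Prog.seedB_test {P : Prog d (B ⊕ C) I} {G : Space d → Space d} (hP : P.LipW G)
    (p : Space d) (y : C → Space d) (A : I → Space d)
    {v : (B ⊕ C → Space d) × (I → Space d) → Space d} (hv : Continuous v)
    (hvi : Integrable (fun x => v (Sum.elim x y, A)) (gp B d)) {ψ : Space d → ℝ} {L : ℝ≥0}
    (hψ : LipschitzWith L ψ) :
    |(∫ ω, ψ (P.seedB.F G (p, y, A, ω)) ∂gp (Fin P.seedB.sd) d)
        - ∫ x, ∫ z, ψ (v (Sum.elim x y, A) + z) ∂gam d ∂gp B d|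
      ≤ (∫ x, P.dev G p (Sum.elim x y) A (v (Sum.elim x y, A)) ∂gp B d) * L := by
  set K : (B → Space d) → (Fin P.sd → Space d) → Space d :=
    fun x ω => P.F G (p, Sum.elim x y, A, ω) with hK
  set U : (B → Space d) → Space d → Space d := fun x z => v (Sum.elim x y, A) + z with hU
  obtain ⟨Lp, hLp⟩ := hP
  have hW : P.LipW G := ⟨Lp, hLp⟩
  have hKb : ∀ x ω, ‖K x ω‖ ≤ ‖K 0 ω‖ + Lp * ‖x‖ := fun x ω => by
    have h1 := hLp.norm_sub_le (p, Sum.elim x y, A, ω) (p, Sum.elim 0 y, A, ω)
    refine (norm_le_norm_add_norm_sub' _ (K 0 ω)).trans (add_le_add le_rfl (h1.trans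
      (mul_le_mul_of_nonneg_left ?_ Lp.2)))
    simp only [Prod.norm_def, Prod.fst_sub, Prod.snd_sub, sub_self, norm_zero]
    refine max_le (norm_nonneg x) (max_le ?_ (norm_nonneg x))
    refine (pi_norm_le_iff_of_nonneg (norm_nonneg _)).2 fun r => ?_
    rcases r with b | c
    · simpa using norm_le_pi_norm x b
    · simp
  have hxi : Integrable (fun x : B → Space d => ‖x‖) (gp B d) :=
    (gp_poly_int 1).mono' continuous_norm.aestronglyMeasurable (ae_of_all _ fun x => by
      rw [norm_norm, pow_one]; linarith [norm_nonneg x])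
  have hKi : Integrable (uncurry K) ((gp B d).prod (gp (Fin P.sd) d)) := by
    refine (((hW.integrable p _ A).norm.comp_snd _).add ((hxi.const_mul Lp).comp_fst _)).mono'
      (hLp.continuous.comp ?_).aestronglyMeasurable (ae_of_all _ fun u => hKb u.1 u.2)
    exact continuous_const.prodMk (((continuous_elimL y).comp continuous_fst).prodMk
      (continuous_const.prodMk continuous_snd))
  have hgx : Integrable (fun x => P.dev G p (Sum.elim x y) A (v (Sum.elim x y, A))) (gp B d) := by
    refine ((hKi.norm.integral_prod_left.add hvi.norm).add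
      (integrable_const (∫ z, ‖z‖ ∂gam d))).mono'
      ((Prog.measurable_dev hW p hv).comp
        (((continuous_elimL y).prodMk continuous_const).measurable)).aestronglyMeasurable
      (ae_of_all _ fun x => ?_)
    simp only [Pi.add_apply]
    rw [Real.norm_of_nonneg (Prog.dev_nonneg hW _ _ _ _)]
    refine ciSup_le fun φ => ?_
    have hle : ∀ w, ‖φ.1 w‖ ≤ ‖w‖ := fun w => by simpa [φ.2.2] using test_one φ.2.1 w 0
    have hz : Integrable (fun z => v (Sum.elim x y, A) + z) (gam d) := by
      simpa using integrable_gau (v (Sum.elim x y, A)) (1 : ℝ)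
    have hA : |∫ ω, φ.1 (P.F G (p, Sum.elim x y, A, ω)) ∂gp (Fin P.sd) d|
        ≤ ∫ ω, ‖uncurry K (x, ω)‖ ∂gp (Fin P.sd) d := by
      rw [← Real.norm_eq_abs]
      exact norm_integral_le_of_norm_le (hW.integrable p (Sum.elim x y) A).norm
        (ae_of_all _ fun _ => hle _)
    have hB : |∫ z, φ.1 (v (Sum.elim x y, A) + z) ∂gam d|
        ≤ ‖v (Sum.elim x y, A)‖ + ∫ z, ‖z‖ ∂gam d := by
      rw [← Real.norm_eq_abs]
      refine (norm_integral_le_of_norm_le hz.norm (ae_of_all _ fun _ => hle _)).trans ?_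
      refine (integral_mono hz.norm ((integrable_const ‖v (Sum.elim x y, A)‖).add integrable_norm_gam)
        fun z => norm_add_le _ _).trans_eq ?_
      rw [integral_add' (integrable_const _) integrable_norm_gam, integral_const, probReal_univ,
        one_smul]
    exact (abs_sub _ _).trans ((add_le_add hA hB).trans_eq (add_assoc _ _ _).symm)
  have hUm : AEStronglyMeasurable (uncurry U) ((gp B d).prod (gam d)) :=
    ((hvi.comp_fst _).add ((IsGaussian.integrable_id (μ := gam d)).comp_snd _)).1
  have hm := Close.mix hKi hUm (ae_of_all _ fun x => show Close (gp (Fin P.sd) d) (K x)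
      (gam d) (U x) (P.dev G p (Sum.elim x y) A (v (Sum.elim x y, A))) by
    have h1 := Prog.closeAt_dev hW p (Sum.elim x y) A (v (Sum.elim x y, A))
    simp only [Prog.CloseAt, one_smul] at h1
    exact h1) hgx
  have hfin := (hm.comp_left (seedMap_mp (B := B) (d := d) P.sd)).scaled hψ
  refine le_trans (le_of_eq ?_) (hfin.trans_eq (mul_comm _ _))
  exact congrArg abs (congrArg₂ (· - ·) rfl (integral_prod _ (integrable_test hψ hm.intY)).symm)

/-- Blocks that are not received are drawn as seeds. -/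
theorem Sam.mix {T : Fld S (B ⊕ C) I} (h : Sam κ φ θ o T) (hT : Sm T) :
    SamMix κ φ θ o T := fun a ha ε hε => by
  obtain ⟨R, hq, hl, hin, hlaw⟩ := h a ha ε hε
  refine ⟨Run.of fun k => (R.atK k).seedB, hq, fun i => Prog.seedB_lipW (hl.lipW i),
    Run.lipIn_of fun η hη => (hin.lip hη).mono fun i hi => Prog.seedB_lip hi,
    fun η hη => (hlaw.close hl hη).mono fun i hi p => ?_⟩
  obtain ⟨e, he, hb, hc⟩ := hi p
  set P := R.at i with hP
  set G := S.og i
  have hW : P.LipW G := hl.lipW i
  set v : (B ⊕ C → Space (S.dm i)) × (I → Space (S.dm i)) → Space (S.dm i) := fun z =>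
    S.dd i ^ a • apT o (T i p z.1) z.2 with hv
  have hvc : Continuous v := by
    have h1 : Continuous fun x : B ⊕ C → Space (S.dm i) => T i p x := hT.cont i p
    simp only [hv, apT]
    fun_prop
  set dv : (B ⊕ C → Space (S.dm i)) × (I → Space (S.dm i)) → ℝ := fun z => P.dev G p z.1 z.2 (v z)
    with hdv
  have hdm : Measurable dv := Prog.measurable_dev hW p hvc
  have hd0 : ∀ z, 0 ≤ dv z := fun z => Prog.dev_nonneg hW _ _ _ _
  have hde : ∀ z, dv z ≤ e z := fun z => Prog.dev_le (hc z.1 z.2)
  have hdi : Integrable dv ((gp (B ⊕ C) (S.dm i)).prod (gp I (S.dm i))) :=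
    he.mono' hdm.aestronglyMeasurable
      (ae_of_all _ fun z => by rw [Real.norm_of_nonneg (hd0 z)]; exact hde z)
  -- the two products
  have hs1 := measurePreserving_sumPiEquivProdPi_symm (X := fun _ : B ⊕ C => Space (S.dm i))
    (fun _ => gam (S.dm i))
  set es := (MeasurableEquiv.sumPiEquivProdPi fun _ : B ⊕ C => Space (S.dm i)).symm
  have hes : ∀ x y, es (x, y) = Sum.elim x y := fun x y => by
    funext r; rcases r with b | c <;> rfl
  set g : (B → Space (S.dm i)) × ((C → Space (S.dm i)) × (I → Space (S.dm i))) → ℝ :=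
    fun u => dv (es (u.1, u.2.1), u.2.2) with hg
  have hmp : MeasurePreserving
      (fun u : (B → Space (S.dm i)) × ((C → Space (S.dm i)) × (I → Space (S.dm i))) =>
        (es (u.1, u.2.1), u.2.2))
      ((gp B (S.dm i)).prod ((gp C (S.dm i)).prod (gp I (S.dm i))))
      ((gp (B ⊕ C) (S.dm i)).prod (gp I (S.dm i))) :=
    (hs1.prod (MeasurePreserving.id _)).comp (measurePreserving_prodAssoc _ _ _).symm
  have hgi : Integrable g ((gp B (S.dm i)).prod ((gp C (S.dm i)).prod (gp I (S.dm i)))) :=
    hmp.integrable_comp_of_integrable hdi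
  refine ⟨fun z => ∫ x, g (x, z) ∂gp B (S.dm i), hgi.integral_prod_right, ?_, ?_⟩
  · rw [← integral_prod_symm _ hgi]
    refine le_trans (le_of_eq ?_) ((integral_mono hdi he hde).trans hb)
    conv_rhs => rw [← hmp.map_eq]
    rw [integral_map hmp.measurable.aemeasurable (by rw [hmp.map_eq]; exact hdi.1)]
  intro y A ψ L hψ
  have hvi : Integrable (fun x : B → Space (S.dm i) => v (Sum.elim x y, A)) (gp B (S.dm i)) :=
    (integrable_finsetSum (Finset.univ : Finset (I → Fin (S.dm i)))
      (f := fun idx (x : B → Space (S.dm i)) => (T i p (Sum.elim x y) idx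
        * ∏ l ∈ Finset.univ.erase o, A l (idx l)) • ev (idx o)) fun idx _ =>
      ((pg_slice_int (hT.pg i p idx) y).mul_const _).smul_const _).smul (S.dd i ^ a)
  refine (Prog.seedB_test hW p y A hvc hvi hψ).trans_eq ?_
  simp only [hg, hdv, hes]

end Vale.Agent.P347.Zero
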