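import Vale.Agent.P347.Zero.RecPts
import Vale.Agent.P347.Zero.GdTower
import Vale.Agent.P347.Zero.SamMix
import Vale.Agent.P347.Zero.IterGd

/-!
One step down in the margin: the mean oracle is the drift at the channel of the end of the
trajectory, averaged over the start and over the noise of the channel.
-/

noncomputable section

open MeasureTheory ProbabilityTheory Set
open scoped RealInnerProductSpace NNReal

namespace Vale.Agent.P347.Zero

variable {γ H Bw δv S' κ φ θ : ℝ} {ν : ℕ}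

/-! ### Every block drawn as a seed -/

section Flat

variable {S : Sys} {B C : Type} [Fintype B] [DecidableEq B] [Fintype C] [DecidableEq C]

/-- All blocks on the left. -/
def flatF (U : Fld S (B ⊕ C) Unit) : Fld S ((B ⊕ C) ⊕ Empty) Unit :=
  fun i p x => U i p fun r => x (.inl r)

/-- Blocks that a mixture keeps, and the unused input, can be drawn as seeds. -/
theorem SamMix.seedAll {U : Fld S (B ⊕ C) Unit} (h : SamMix κ φ θ () U) (hU : Sm U) :
    SamMix κ φ θ () (flatF U) := fun a ha ε hε => by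
  obtain ⟨R, hq, hl, hin, hlaw⟩ := h a ha ε hε
  have hφ1 : ∀ (d : ℕ), ∃ φ : (((C ⊕ Unit) ⊕ Empty → Space d) × (Unit → Space d)) →L[ℝ]
      ((C → Space d) × (Unit → Space d)), ∀ x A,
        φ (x, A) = ((fun c => x (.inl (.inl c))), fun _ => x (.inl (.inr ()))) := fun d =>
    ⟨((ContinuousLinearMap.pi fun c => ContinuousLinearMap.proj (Sum.inl (Sum.inl c))).prod
      (ContinuousLinearMap.pi fun _ => ContinuousLinearMap.proj (Sum.inl (Sum.inr ())))).comp
        (ContinuousLinearMap.fst ℝ _ _), fun x A => rfl⟩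
  choose π hπ using hφ1
  refine ⟨Run.of fun k => ((R.atK k).comap (π (S.kdm k))).seedB, hq,
    fun i => Prog.seedB_lipW (Prog.comap_lipW (hl.lipW i) _),
    Run.lipIn_of fun η hη => ((hin.lip hη).and S.ev_one_le).mono fun i ⟨h1, hd⟩ => ?_,
    fun η hη => ((hlaw η hη).and S.ev_one_le).mono fun i ⟨hi, hd⟩ p => ?_⟩
  · refine Prog.seedB_lip ((Prog.comap_lip (Real.rpow_nonneg (zero_le_one.trans hd) _) h1 _ le_rfl
      fun z => ?_).mono (mul_one _).le)
    obtain ⟨x, A⟩ := z
    rw [one_mul, hπ, Fintype.sum_sum_type (fun r => ‖x r‖), Fintype.sum_sum_type]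
    have hA : 0 ≤ ∑ l, ‖A l‖ := Finset.sum_nonneg fun l _ => norm_nonneg _
    simpa using add_nonneg hA (Finset.sum_nonneg fun (b : Empty) _ => norm_nonneg (x (.inr b)))
  set d := S.dm i
  set P := R.at i
  set G := S.og i
  obtain ⟨e, he, hb, hc⟩ := hi p
  refine ⟨fun _ => ∫ z, e z ∂(gp C d).prod (gp Unit d), integrable_const _, ?_,
    fun y A ψ L hψ => ?_⟩
  · rw [integral_const, probReal_univ, one_smul]; exact hb
  obtain ⟨Lp, hLp⟩ := hl.lipW i
  set X := S.dd i ^ a
  -- the program side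
  set g : ((C → Space d) × (Unit → Space d)) × (Fin P.sd → Space d) → ℝ :=
    fun u => ψ (P.F G (p, u.1.1, u.1.2, u.2)) with hg
  have hgi : Integrable g (((gp C d).prod (gp Unit d)).prod (gp (Fin P.sd) d)) := by
    have hC : Integrable (fun x : C → Space d => ‖x‖) (gp C d) :=
      (gp_poly_int 1).mono' continuous_norm.aestronglyMeasurable (ae_of_all _ fun x => by
        rw [norm_norm, pow_one]; linarith [norm_nonneg x])
    have hU1 : Integrable (fun x : Unit → Space d => ‖x‖) (gp Unit d) :=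
      (gp_poly_int 1).mono' continuous_norm.aestronglyMeasurable (ae_of_all _ fun x => by
        rw [norm_norm, pow_one]; linarith [norm_nonneg x])
    have hF : Integrable (fun x : Fin P.sd → Space d => ‖x‖) (gp (Fin P.sd) d) :=
      (gp_poly_int 1).mono' continuous_norm.aestronglyMeasurable (ae_of_all _ fun x => by
        rw [norm_norm, pow_one]; linarith [norm_nonneg x])
    have hl' := hψ.comp hLp
    refine (((((hC.comp_fst _).add (hU1.comp_snd _)).comp_fst _).add (hF.comp_snd _)).const_mul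
      ((L * Lp : ℝ≥0) : ℝ)).add (integrable_const |ψ (P.F G (p, 0, 0, 0))|) |>.mono'
      (hl'.continuous.comp (by fun_prop)).aestronglyMeasurable (ae_of_all _ fun u => ?_)
    have h1 := hl'.norm_sub_le (p, u.1.1, u.1.2, u.2) (p, 0, 0, 0)
    have h2 := norm_le_norm_add_norm_sub' (g u) (ψ (P.F G (p, 0, 0, 0)))
    simp only [Pi.add_apply]
    refine h2.trans ?_
    rw [add_comm, Real.norm_eq_abs (ψ (P.F G (p, 0, 0, 0)))]
    refine add_le_add (h1.trans (mul_le_mul_of_nonneg_left ?_ (L * Lp).2)) le_rfl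
    simp only [Prod.norm_def, Prod.fst_sub, Prod.snd_sub, sub_self, norm_zero, sub_zero]
    have e1 := norm_nonneg u.1.1
    have e2 := norm_nonneg u.1.2
    have e3 := norm_nonneg u.2
    exact max_le (by linarith) (max_le (by linarith) (max_le (by linarith) (by linarith)))
  -- the target side
  set V : (B ⊕ C → Space d) → Space d := fun b => X • apT () (U i p b) A with hV
  have hVi : Integrable V (gp (B ⊕ C) d) := by
    refine (integrable_finsetSum (Finset.univ : Finset (Unit → Fin d))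
      (f := fun idx (b : B ⊕ C → Space d) => (U i p b idx
        * ∏ l ∈ Finset.univ.erase (), A l (idx l)) • ev (idx ())) fun idx _ =>
      ((Integrable.mul_const ?_ _).smul_const _)).smul X
    obtain ⟨-, c, n, hcn⟩ := hU i p idx 0
    refine ((gp_poly_int n).const_mul |c|).mono' ((hU i p idx 0).1.continuous).aestronglyMeasurable
      (ae_of_all _ fun b => ?_)
    have h1 := hcn b
    rw [norm_iteratedFDeriv_zero] at h1
    exact h1.trans (mul_le_mul_of_nonneg_right (le_abs_self c) (by positivity))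
  have hW : Integrable (fun u : (B ⊕ C → Space d) × Space d => ψ (V u.1 + u.2))
      ((gp (B ⊕ C) d).prod (gam d)) := by
    refine (((hVi.norm.comp_fst _).add (integrable_norm_gam.comp_snd _)).const_mul (L : ℝ)).add
      (integrable_const |ψ 0|) |>.mono' (hψ.continuous.comp_aestronglyMeasurable
        ((hVi.1.comp_fst).add (aestronglyMeasurable_id.comp_snd))) (ae_of_all _ fun u => ?_)
    have h1 := hψ.norm_sub_le (V u.1 + u.2) 0
    rw [sub_zero] at h1
    simp only [Pi.add_apply, Real.norm_eq_abs] at h1 ⊢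
    nlinarith [norm_add_le (V u.1) u.2, abs_sub_abs_le_abs_sub (ψ (V u.1 + u.2)) (ψ 0), L.2]
  set Φ : (B ⊕ C → Space d) → ℝ := fun b => ∫ w, ψ (V b + w) ∂gam d with hΦ
  have hΦi : Integrable Φ (gp (B ⊕ C) d) := hW.integral_prod_left
  have hes := measurePreserving_sumPiEquivProdPi_symm (X := fun _ : B ⊕ C => Space d)
    (fun _ => gam d)
  set es := (MeasurableEquiv.sumPiEquivProdPi fun _ : B ⊕ C => Space d).symm
  have hese : ∀ x z, es (x, z) = Sum.elim x z := fun x z => by
    funext r; rcases r with b | c <;> rfl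
  have hΦ2 : Integrable (fun u => Φ (es u)) ((gp B d).prod (gp C d)) :=
    hes.integrable_comp_of_integrable hΦi
  have hT : (∫ b, Φ b ∂gp (B ⊕ C) d) = ∫ z, ∫ x, Φ (Sum.elim x z) ∂gp B d ∂gp C d := by
    refine (hes.integral_comp' Φ).symm.trans ((integral_prod_symm _ hΦ2).trans ?_)
    simp only [hese]
  have hTi : Integrable (fun z => ∫ x, Φ (Sum.elim x z) ∂gp B d) (gp C d) := by
    simpa only [hese] using hΦ2.integral_prod_right
  -- draw the blocks
  have hseed : (∫ ω, ψ ((Run.of fun k => ((R.atK k).comap (π (S.kdm k))).seedB).F i G (p, y, A, ω))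
      ∂gp (Fin ((Run.of fun k => ((R.atK k).comap (π (S.kdm k))).seedB).sd i)) d)
      = ∫ u, ∫ ω, g (u, ω) ∂gp (Fin P.sd) d ∂(gp C d).prod (gp Unit d) := by
    rw [← integral_prod _ hgi]
    have hs := seedMap_mp (B := C ⊕ Unit) (d := d) P.sd
    have hsp := measurePreserving_sumPiEquivProdPi (X := fun _ : C ⊕ Unit => Space d)
      (fun _ => gam d)
    have hm := (hsp.prod (MeasurePreserving.id (gp (Fin P.sd) d))).comp hs
    conv_rhs => rw [← hm.map_eq]
    rw [integral_map hm.measurable.aemeasurable (by rw [hm.map_eq]; exact hgi.1)]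
    refine integral_congr_ae (ae_of_all _ fun ω => ?_)
    show ψ (P.F G (p, (π (S.kdm (S.pub i)) (_, A)).1, (π (S.kdm (S.pub i)) (_, A)).2, _)) = _
    rw [hπ]
    rfl
  rw [hseed]
  have hbig : ∀ u : (C → Space d) × (Unit → Space d),
      |(∫ ω, g (u, ω) ∂gp (Fin P.sd) d) - ∫ x, Φ (Sum.elim x u.1) ∂gp B d| ≤ e u * L := fun u => by
    have h1 := hc u.1 u.2 ψ L hψ
    have hA : ∀ b, apT () (U i p b) u.2 = apT () (U i p b) A := fun b => by
      simp only [apT_unit]
    simp only [hA] at h1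
    exact h1
  rw [show (∫ x, ∫ w, ψ (X • apT () (flatF U i p (Sum.elim x y)) A + w) ∂gam d ∂gp (B ⊕ C) d)
    = ∫ u : (C → Space d) × (Unit → Space d), ∫ x, Φ (Sum.elim x u.1) ∂gp B d
      ∂(gp C d).prod (gp Unit d) by
      rw [integral_fun_fst (fun z => ∫ x, Φ (Sum.elim x z) ∂gp B d), probReal_univ, one_smul, ← hT]
      rfl,
    ← integral_sub hgi.integral_prod_left (hTi.comp_fst _), ← Real.norm_eq_abs]
  refine (norm_integral_le_of_norm_le (he.mul_const (L : ℝ)) (ae_of_all _ fun u => ?_)).trans_eq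
    (integral_mul_const _ _)
  rw [Real.norm_eq_abs]
  exact hbig u

end Flat

/-! ### The node at the end -/

variable {G : Grid δv} {hδ : 0 < δv} {hS : δv ≤ S'}

/-- A field of the nodes read at the node at the end. -/
def endF {Bl I : Type} (T : Fld (NQ Bw (gridNI (γ := γ) (H := H) G hδ hS)) Bl I) :
    Fld (MQ γ H Bw) Bl I :=
  fun (i : QI γ H) p => T (i, G.last i.d, 0) p

theorem Sys.Ev.endF {P : QI γ H × ℕ × ℕ → Prop}
    (h : (NQ Bw (gridNI (γ := γ) (H := H) G hδ hS)).Ev P) :
    (MQ γ H Bw).Ev fun i : QI γ H => P (i, G.last i.d, 0) :=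
  let ⟨d₀, hd⟩ := h
  ⟨d₀, fun (i : QI γ H) hi => hd (i, G.last i.d, 0) hi⟩

theorem GdD.endF {L : Lad} {r n : ℕ} {Bl I : Type} [Fintype Bl] [DecidableEq Bl] [Fintype I]
    [DecidableEq I] {D : Set Bl} {w : Bl → ℝ} {O : Set I}
    {T : Fld (NQ Bw (gridNI (γ := γ) (H := H) G hδ hS)) Bl I} (h : GdD L r φ D w n θ O T) :
    GdD L r φ D w n θ O (Zero.endF T) := by
  have hSam : ∀ {J : Type} [Fintype J] [DecidableEq J] {κ' φ' θ' : ℝ} {o : J}
      {U : Fld (NQ Bw (gridNI (γ := γ) (H := H) G hδ hS)) Bl J},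
      Sam κ' φ' θ' o U → Sam κ' φ' θ' o (Zero.endF U) := fun h a ha ε hε => by
    obtain ⟨R, hq, hl, hin, hlaw⟩ := h a ha ε hε
    exact ⟨Run.of fun k : QK γ H => R.atK (gridNK G hδ hS (k, G.last k.d, 0)), hq.endF,
      fun (i : QI γ H) => hl (i, G.last i.d, 0), Run.lipIn_of fun η hη => (hin.lip hη).endF,
      fun η hη => (hlaw η hη).endF⟩
  induction n generalizing θ I O with
  | zero =>
    exact ⟨fun η hη m => (h.1 η hη m).endF, fun o ho => hSam (h.2.1 o ho),
      fun r' hr o => hSam (h.2.2 r' hr o)⟩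
  | succ n ih =>
    exact ⟨⟨fun η hη m => (h.1.1 η hη m).endF, fun o ho => hSam (h.1.2.1 o ho),
      fun r' hr o => hSam (h.1.2.2 r' hr o)⟩, fun b hb => ih (h.2 b hb)⟩

/-- A noise and a start among all averaged blocks. -/
def padM : Unit ⊕ Unit → (Unit ⊕ Unit) ⊕ Empty → ℝ := fun b c => if c = .inl b then 1 else 0

theorem padM_orth (b b' : Unit ⊕ Unit) :
    ∑ c, padM b c * padM b' c = if b = b' then 1 else 0 := by
  simp [padM, eq_comm]

theorem sm_meanFld : Sm (meanFld γ H Bw) := sm_iff.2 fun i p idx => by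
  refine cast (congrArg PG (funext fun x => ?_)) (pg_const (meanFld γ H Bw i p Empty.elim idx))
  rfl

/-- The mean oracle one step down in the margin. -/
theorem meanStep_of (hVal : ValThm) (hA : AvgThm) (hP : ProductThm) (hIt : IterGdThm)
    (hAcc : MeanAccThm) : MeanStepThm := by
  intro L r γ δv S α φ Φ hγ _ hδ hδS hSw hSα hphi hmono hφ hφΦ hΦδ hΦ2 hM hX hlow hpts H B
  have hw := L.w_pos
  have hS : δv ≤ S := hδS.le
  set κ := L.kap (r + 1) with hκ
  set K : ℝ := 1 / 2 + H + max B 0 + max (κ - φ) 0 with hK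
  obtain ⟨G, ν, c, k, hacc⟩ := hAcc γ H δv S hδ hδS hγ K
  set it := iter (γ := γ) (H := H) (B := B) G hδ hS c k with hit
  set Y := toNodes G hδ hS it with hYdef
  have hptsH := hpts hδ hS H B G ν c
  have hY : Pts (L.kap r) α Y := hptsH k
  have hD : ∀ n, GdD L (r + 1) Φ univ (fun _ => L.w) n (γ - 2 * L.w) univ (delB () Y) := fun n => by
    have h1 := (hIt L r γ δv S α Φ (γ - 2 * L.w) hδ hS hγ (by linarith) (by linarith) (by linarith)
      le_rfl (by linarith) hmono hX hlow H B G ν c hptsH k n).1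
    rw [hYdef, hit, delB_toNodes]
    exact h1.atNode
  -- the mixture at the end
  have hmix : SamMix κ φ 0 () (endF (drT Y)) := by
    have hPe : Pts (L.kap r) α (endPt (γ := γ) (H := H) (B := B) (b := δv / 2) G hδ hS c k) := by
      obtain ⟨hs, hrun, c₀, d₀, hsz⟩ := hY
      refine ⟨fun i p idx => hs (i.1, G.last i.1.d, 0) p idx, fun ε hε => ?_,
        ⟨c₀, d₀, fun i hi p => hsz (i.1, G.last i.1.d, 0) hi p⟩⟩
      obtain ⟨R, ⟨d₁, hq⟩, hl, hin, hlaw⟩ := hrun ε hε
      refine ⟨Run.of fun n : NK γ H δv (δv / 2) S => R.atK (gridNK G hδ hS (n.q, G.last n.q.d, 0)),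
        ⟨d₁, fun i hi => hq (i.1, G.last i.1.d, 0) hi⟩, fun i => hl (i.1, G.last i.1.d, 0),
        fun η hη => ?_, fun η hη => ?_⟩
      · obtain ⟨d₂, h2⟩ := hin η hη
        exact ⟨d₂, fun i hi => h2 (i.1, G.last i.1.d, 0) hi⟩
      · obtain ⟨d₂, h2⟩ := hlaw η hη
        exact ⟨d₂, fun i hi => h2 (i.1, G.last i.1.d, 0) hi⟩
    have h0 := hVal γ H B δv (δv / 2) S α κ (L.kap r) φ Φ L.g hγ (by linarith) (by linarith) hS hSα
      L.g_pos (L.g_lt.le.trans ((L.phi_mono (Nat.zero_le r)).trans (by linarith))) (by linarith)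
      (L.kap_succ r) hM Unit Empty (EI γ H δv (δv / 2)) (endNI G hδ hS)
      (endPt (γ := γ) (H := H) (B := B) G hδ hS c k) (fun _ => 1) (fun _ => Empty.elim) hPe
      (fun j => by simp) (by
        obtain ⟨d₀, hd⟩ := (MQ γ H B).ev_le_rpow 64 (show 0 < 2 * α - S by linarith)
        refine ⟨d₀, fun i hi => ?_⟩
        have h1 : (64 : ℝ) ≤ (i.1.d : ℝ) ^ (2 * α - S) := hd i.1 hi
        have hd0 : (0 : ℝ) < i.1.d := by exact_mod_cast (by linarith [i.1.two_le] : 0 < i.1.d)
        have h2 := (endNI G hδ hS i).noise_ge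
        have h3 : 64 * (i.1.d : ℝ) ^ (-(2 * α)) ≤ (i.1.d : ℝ) ^ (-S) := by
          refine (mul_le_mul_of_nonneg_right h1 (Real.rpow_nonneg hd0.le _)).trans_eq ?_
          rw [← Real.rpow_add hd0]
          ring_nf
        simp only [one_pow, one_mul]
        change (i.1.d : ℝ) ^ (-S) / 4 ≤ _ at h2
        show 16 * (i.1.d : ℝ) ^ (-(2 * α)) ≤ _
        linarith)
    intro a ha ε hε
    classical
    obtain ⟨R, ⟨d₁, hq⟩, hl, hin, hlaw⟩ := h0 a ha ε hε
    obtain ⟨d₂, hc2⟩ := (MQ γ H B).ev_le_rpow 2 (show 0 < δv - δv / 2 by linarith)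
    set σ : (Unit ⊕ Empty) ⊕ Unit ≃ Unit ⊕ Unit :=
      Equiv.sumCongr (Equiv.sumEmpty Unit Empty) (Equiv.refl Unit) with hσ
    set F : ∀ q : QK γ H, Prog q.d Unit Unit := fun q =>
      if hq : 2 ≤ (q.d : ℝ) ^ (δv - δv / 2) then (R.atK (endNK G hδ hS ⟨q, hq⟩)).comap (permIO σ)
        else Prog.noise q.d Unit Unit 1 with hF
    have hpos : ∀ (i : QI γ H) (hi : 2 ≤ (i.d : ℝ) ^ (δv - δv / 2)),
        F i.toQK = (R.at ⟨i, hi⟩).comap (permIO σ) := fun i hi => dif_pos hi
    refine ⟨Run.of F, ⟨d₁ + d₂, fun (i : QI γ H) hi => ?_⟩, fun (i : QI γ H) => ?_,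
      Run.lipIn_of fun η hη => ?_, fun η hη => ?_⟩
    · have hi' : d₁ + d₂ ≤ i.d := hi
      show ((F i.toQK).q : ℝ) ≤ _
      rw [hpos i (hc2 i (show d₂ ≤ i.d by omega))]
      exact hq ⟨i, _⟩ (show d₁ ≤ i.d by omega)
    · show (F i.toQK).LipW _
      by_cases hi : 2 ≤ (i.d : ℝ) ^ (δv - δv / 2)
      · rw [hpos i hi]; exact Prog.comap_lipW (hl.lipW ⟨i, hi⟩) _
      · rw [show F i.toQK = Prog.noise i.d Unit Unit 1 from dif_neg hi]
        exact Prog.noise_lipW 1 _
    · obtain ⟨d₃, h3⟩ := hin.lip hη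
      refine ⟨d₂ + d₃, fun (i : QI γ H) hi => ?_⟩
      have hi' : d₂ + d₃ ≤ i.d := hi
      show (F i.toQK).Lip _ _
      rw [hpos i (hc2 i (show d₂ ≤ i.d by omega))]
      exact (Prog.comap_lip (Real.rpow_nonneg (Nat.cast_nonneg _) _)
        (h3 ⟨i, _⟩ (show d₃ ≤ i.d by omega)) (permIO σ) le_rfl
        fun z => by rw [permIO_norm, one_mul]).mono (mul_one _).le
    · obtain ⟨d₃, h3⟩ := hlaw η hη
      refine ⟨d₂ + d₃, fun (i : QI γ H) hi p => ?_⟩
      have hi' : d₂ + d₃ ≤ i.d := hi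
      have hc := hc2 i (show d₂ ≤ i.d by omega)
      obtain ⟨e, he, hb, hce⟩ := h3 ⟨i, hc⟩ (show d₃ ≤ i.d by omega) p
      have hmp := permIO_mp (d := i.d) σ
      refine ⟨fun z => e (permIO σ z), hmp.integrable_comp_of_integrable he, ?_, fun y A ψ L' hψ => ?_⟩
      · refine (le_of_eq ?_).trans hb
        conv_rhs => erw [← hmp.map_eq]
        erw [integral_map hmp.measurable.aemeasurable (by rw [hmp.map_eq]; exact he.1)]
        rfl
      · show |(∫ ω, ψ ((F i.toQK).F i.P.g (p, y, A, ω)) ∂gp (Fin (F i.toQK).sd) i.d) - _| ≤ _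
        rw [hpos i hc]
        have hperm : permIO σ (y, A) = ((fun r => y (Equiv.sumEmpty Unit Empty r)), A) := by
          rw [permIO_apply]; rfl
        show |(∫ ω, ψ ((R.at ⟨i, hc⟩).F i.P.g (p, (permIO σ (y, A)).1, (permIO σ (y, A)).2, ω))
          ∂gp (Fin (R.at ⟨i, hc⟩).sd) i.d) - _| ≤ e (permIO σ (y, A)) * L'
        rw [hperm]
        refine le_trans (le_of_eq ?_) (hce _ A ψ L' hψ)
        refine congrArg abs (congrArg₂ (· - ·) rfl (integral_congr_ae (ae_of_all _ fun x => ?_)))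
        refine congrArg (fun t : Space i.d => ∫ z, ψ ((i.d : ℝ) ^ a • t + z) ∂gam i.d) ?_
        refine (drT_vec Y (i, G.last i.d, 0) p x y A).trans ?_
        ext u
        refine Eq.trans ?_ (apT_unit_apply (valFld (endPt (γ := γ) (H := H) (B := B) (b := δv / 2)
          G hδ hS c k) (fun _ => 1) (fun _ => Empty.elim) ⟨i, hc⟩ p
          (Sum.elim x fun r => y (Equiv.sumEmpty Unit Empty r))) A u).symm
        simp only [valFld, Sum.elim_inl, Sum.elim_inr, one_smul, Finset.univ_eq_empty,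
          Finset.sum_empty, add_zero, driftT, PiLp.smul_apply, smul_eq_mul, inv_mul_eq_div]
        rfl
  have hdr : Sm (endF (drT Y)) := fun i p idx => drT_sm hY.1 (i, G.last i.d, 0) p idx
  set T : Fld (MQ γ H B) ((Unit ⊕ Unit) ⊕ Empty) Unit :=
    endF (subB (matB _ fun _ => padM) (drT Y)) with hT
  have hTe : flatF (endF (drT Y)) = T := by
    funext i p x idx
    show drT Y (i, G.last i.d, 0) p _ idx = drT Y (i, G.last i.d, 0) p (mixB _ padM x) idx
    congr 1
    funext b
    refine ((mixB_apply padM x b).trans ?_).symm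
    rw [Finset.sum_eq_single (Sum.inl b) (fun b' _ hb => by simp [padM, hb]) (by simp)]
    simp only [padM, if_true]
    exact one_smul ℝ _
  have hTm : Sm T := fun i p idx => ((drT_sm hY.1).subB _) (i, G.last i.d, 0) p idx
  have hav : Sam κ φ 0 () (avB T) := by
    refine hA (MQ γ H B) L r φ Φ 0 hφ hφΦ hΦ2 (Unit ⊕ Unit) Empty Unit univ () T (mem_univ _) hTm
      (hTe ▸ hmix.seedAll hdr) fun b n => ?_
    have h1 := gdD_dB_vtx0 hP (show L.phi r ≤ Φ by linarith)
      (show L.phi r ≤ γ - 2 * L.w by linarith) hX hY n (fun _ => hD n) b.swap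
    have h2 := ((h1.reL oneU.optionCongr).subB (M := fun _ => swapM) (D' := univ)
      (v := fun _ => L.w) (((vtx_sm 0 hY.1).dB _).reL _) (fun _ => swapM_orth)
      fun _ _ _ _ => ⟨trivial, le_rfl⟩)
    have h3 := h2.subB (M := fun _ => padM) (D' := range Sum.inl) (v := fun _ => L.w)
      ((((vtx_sm 0 hY.1).dB _).reL _).subB _) (fun _ => padM_orth) fun _ _ _ _ => ⟨trivial, le_rfl⟩
    have h4 := (h3.mono (O' := some '' univ) le_rfl (θ' := 0 - L.w) (by linarith)
      (fun o _ => ⟨oneU.optionCongr.symm o, trivial, oneU.optionCongr.apply_symm_apply o⟩)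
      subset_rfl fun _ _ => le_rfl).endF
    refine cast (congrArg (fun U => GdD L (r + 1) Φ _ _ n _ _ U) ?_) h4
    funext i p x idx
    symm
    refine (dB_subB (drT_sm hY.1) (fun _ => padM) (.inl b) (i, G.last i.d, 0) p x idx).trans ?_
    rw [Finset.sum_eq_single b (fun b' _ hb => by simp [padM, Ne.symm hb]) (by simp)]
    rw [show padM b (.inl b) = 1 by simp [padM], one_mul]
    refine (dB_subB ((vtx_sm 0 hY.1).reL oneU) (fun _ => swapM) b (i, G.last i.d, 0) p _ idx).trans ?_
    rw [Finset.sum_eq_single b.swap (fun b' _ hb => by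
      have : b ≠ b'.swap := fun h => hb (by rw [h, Sum.swap_swap])
      simp [swapM, this]) (by simp)]
    rw [show swapM b.swap b = 1 by simp [swapM], one_mul, dB_reL]
    rfl
  refine hav.perturb hTm.avB sm_meanFld (c := κ + 0 - φ) le_rfl fun η hη => ?_
  obtain ⟨d₀, hd₀⟩ := hacc B
  refine ⟨d₀ + 1, fun (i : QI γ H) hi p => ?_⟩
  have hi' : d₀ + 1 ≤ i.d := hi
  set d := i.d
  have hd1 : (1 : ℝ) ≤ d := by exact_mod_cast (by omega : 1 ≤ d)
  set N := ‖i.P.g (i.σ • p)‖ with hN
  have hp : 0 < i.hs := i.hs_pos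
  set bd := (d : ℝ) ^ (-K) * (1 + N) / i.hs with hbd
  have hb0 : 0 ≤ bd := by positivity
  have hcoord : ∀ u : Fin d, |avB T i p Empty.elim (fun _ => u)
      - meanFld γ H B i p Empty.elim (fun _ => u)| ≤ bd := fun u => by
    have h1 := (hd₀ i (show d₀ ≤ i.d by omega) p).2 u
    rw [hbd, le_div_iff₀ hp]
    have e : ∀ x y : ℝ, |x - y| * i.hs = |x * i.hs - y * i.hs| := fun x y => by
      rw [← sub_mul, abs_mul, abs_of_pos hp]
    refine le_trans (le_of_eq ?_) h1
    refine (e _ _).trans (congrArg abs (congrArg₂ (· - ·) ?_ ?_))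
    · set g : (Unit ⊕ Unit → Space d) → ℝ := fun b => drT Y (i, G.last d, 0) p b fun _ => u with hg
      have hgi : Integrable g (gp (Unit ⊕ Unit) d) := by
        obtain ⟨hc, c', n, hcn⟩ := drT_sm hY.1 (i, G.last d, 0) p (fun _ => u) 0
        refine ((gp_poly_int n).const_mul |c'|).mono' hc.continuous.aestronglyMeasurable
          (ae_of_all _ fun b => ?_)
        have h1 := hcn b
        erw [norm_iteratedFDeriv_zero] at h1
        exact h1.trans (mul_le_mul_of_nonneg_right (le_abs_self c')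
          (pow_nonneg (add_nonneg zero_le_one (norm_nonneg _)) n))
      have hes := measurePreserving_sumPiEquivProdPi_symm (X := fun _ : Unit ⊕ Unit => Space d)
        (fun _ => gam d)
      set es := (MeasurableEquiv.sumPiEquivProdPi fun _ : Unit ⊕ Unit => Space d).symm
      have hav2 : avB T i p Empty.elim (fun _ => u) = ∫ b, g b ∂gp (Unit ⊕ Unit) d := by
        rw [← hTe]; rfl
      have hsplit : ∫ b, g b ∂gp (Unit ⊕ Unit) d
          = ∫ z, ∫ e, g (es (e, z)) ∂gp Unit d ∂gp Unit d :=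
        (hes.integral_comp' g).symm.trans (integral_prod_symm _ (hes.integrable_comp_of_integrable hgi))
      rw [hav2, hsplit]
      simp only [← integral_mul_const]
      refine integral_congr_ae (ae_of_all _ fun z => ?_)
      beta_reduce
      rw [← (measurePreserving_funUnique (gam d) Unit).integral_comp']
      refine integral_congr_ae (ae_of_all _ fun e => ?_)
      beta_reduce
      rw [show es (e, z) = Sum.elim e z by funext r; rcases r with b | b <;> rfl]
      have e0 := congrArg (fun v : Space d => v u) (drT_vec Y (i, G.last d, 0) p e z fun _ => 0)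
      have e1 := (apT_unit_apply (drT Y (i, G.last d, 0) p (Sum.elim e z)) (fun _ => 0) u).symm.trans e0
      refine (congrArg (· * i.hs) e1).trans ?_
      show i.hs⁻¹ * _ * i.hs = _
      rw [mul_right_comm, inv_mul_cancel₀ hp.ne', one_mul]
      rfl
    · simp only [meanFld, div_mul_cancel₀ _ hp.ne']
  have hsq : ∀ x, Real.sqrt (hsT (avB T i p x - meanFld γ H B i p x))
      ≤ Real.sqrt d * bd := fun x => by
    rw [show x = Empty.elim from funext fun b => b.elim, ← Real.sqrt_sq hb0,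
      ← Real.sqrt_mul (Nat.cast_nonneg d)]
    refine Real.sqrt_le_sqrt ?_
    simp only [hsT, Pi.sub_apply]
    refine le_trans (Finset.sum_le_sum (g := fun _ => bd ^ 2) fun idx _ => ?_) ?_
    · rw [← sq_abs]
      refine pow_le_pow_left₀ (abs_nonneg _) ?_ 2
      have hidx : idx = fun _ => idx () := rfl
      rw [hidx]
      exact hcoord (idx ())
    · simp
      rfl
  have hint : Integrable (fun x : Empty → Space ((MQ γ H B).dm i) =>
      Real.sqrt (hsT (avB T i p x - meanFld γ H B i p x))) (gp Empty ((MQ γ H B).dm i)) :=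
    (integrable_const (Real.sqrt (hsT (avB T i p Empty.elim - meanFld γ H B i p Empty.elim)))).congr
      (ae_of_all _ fun x => by rw [show x = Empty.elim from funext fun b => b.elim])
  refine ⟨hint, (integral_mono hint (integrable_const _) hsq).trans ?_⟩
  rw [integral_const, probReal_univ, one_smul]
  show Real.sqrt d * bd ≤ (d : ℝ) ^ (η - (κ + 0 - φ)) * (1 + (d : ℝ) ^ (-B) * N)
  have hd0 : (0 : ℝ) < d := by linarith
  have h1 : (1 + N) ≤ (d : ℝ) ^ max B 0 * (1 + (d : ℝ) ^ (-B) * N) := by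
    rw [mul_add, mul_one, ← mul_assoc, ← Real.rpow_add hd0]
    refine add_le_add (Real.one_le_rpow hd1 (le_max_right _ _)) (le_mul_of_one_le_left (norm_nonneg _)
      (Real.one_le_rpow hd1 (by linarith [le_max_left B 0])))
  have h2 : bd ≤ (d : ℝ) ^ (H - K + max B 0) * (1 + (d : ℝ) ^ (-B) * N) := by
    rw [hbd, div_le_iff₀ hp]
    refine (mul_le_mul_of_nonneg_left h1 (Real.rpow_nonneg hd0.le _)).trans ?_
    have hle : (d : ℝ) ^ (-K + max B 0) ≤ (d : ℝ) ^ (H - K + max B 0) * i.hs := by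
      refine le_trans (le_of_eq ?_) (mul_le_mul_of_nonneg_left i.le_h (Real.rpow_nonneg hd0.le _))
      rw [← Real.rpow_add hd0]; ring_nf
    rw [← mul_assoc, ← Real.rpow_add hd0, mul_right_comm]
    exact mul_le_mul_of_nonneg_right hle (by positivity)
  rw [Real.sqrt_eq_rpow]
  refine (mul_le_mul_of_nonneg_left h2 (Real.rpow_nonneg hd0.le _)).trans ?_
  rw [← mul_assoc, ← Real.rpow_add hd0]
  exact mul_le_mul_of_nonneg_right (Real.rpow_le_rpow_of_exponent_le hd1
    (by linarith [le_max_left (κ - φ) 0])) (by positivity)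

end Vale.Agent.P347.Zero
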