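import Vale.Agent.P347.Zero.SamplerLev

/-!
The local sampler: levels of the channel until the conditional law is narrower than the target
accuracy.
-/

noncomputable section

open MeasureTheory ProbabilityTheory Filter Topology Set Function
open scoped RealInnerProductSpace NNReal

namespace Vale.Agent.P347.Zero

/-- Finitely many levels. -/
theorem smp_levels {γ δv κp H η : ℝ} {J : ℕ} {d : ℕ} {h : ℝ} (hγ : 0 < γ) (hδ : 0 < δv)
    (hη : 0 < η) (hd : 2 ≤ d) (hJ : 2 * κp ≤ δv / 2 * J) (hbig : 2 ≤ (d : ℝ) ^ (δv / 2))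
    (hH : (J : ℝ) * δv + 1 ≤ H) (hlo : (d : ℝ) ^ (-1 : ℝ) ≤ h) (hhi : h ≤ (d : ℝ) ^ (-γ))
    (hlev : ∀ k : QK γ H, k.d = d →
      ∃ (q : ℕ) (ρ : ℝ) (hρ : ρ ∈ Ioo (-1 : ℝ) 1) (M : ℝ≥0),
        (q : ℝ) ≤ (k.d : ℝ) ^ η ∧ (k.d : ℝ) ^ (-δv) ≤ 1 - ρ ^ 2 ∧
          1 - ρ ^ 2 ≤ 2 * (k.d : ℝ) ^ (-δv) ∧ (M : ℝ) ≤ 2 * (k.d : ℝ) ^ η ∧
            LevOK k.d k.h q (k.σ ^ 2) ρ hρ M (2 * (k.d : ℝ) ^ (η - κp))) :
    ∀ j ≤ J, ∀ s : ℝ, (d : ℝ) ^ (-(((J - j : ℕ) : ℝ) * δv)) ≤ s →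
      s ≤ (d : ℝ) ^ (-(((J - j : ℕ) : ℝ) * (δv / 2))) →
      ∃ (q : ℕ) (L : ℝ≥0) (E : ℝ), (q : ℝ) ≤ j * (d : ℝ) ^ η ∧ (L : ℝ) ≤ (2 * (d : ℝ) ^ η) ^ j ∧
        0 ≤ E ∧ E ≤ (7 * (d : ℝ) ^ η) ^ j * (4 * (d : ℝ) ^ (η - κp)) ∧ Smp d h q s L E := by
  have hd1 : (1 : ℝ) ≤ d := by exact_mod_cast le_trans one_le_two hd
  have hd0 : (0 : ℝ) < d := by linarith
  have hh : h ≤ 1 := hhi.trans (Real.rpow_le_one_of_one_le_of_nonpos hd1 (by linarith))
  set e₀ := (d : ℝ) ^ (η - κp)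
  have he0 : 0 ≤ e₀ := Real.rpow_nonneg hd0.le _
  have hη1 : 1 ≤ (d : ℝ) ^ η := Real.one_le_rpow hd1 hη.le
  intro j
  induction j with
  | zero =>
    intro _ s hs0 hs1
    simp only [Nat.sub_zero] at hs0 hs1
    have hs : 0 ≤ s := (Real.rpow_nonneg hd0.le _).trans hs0
    have hsl : s ≤ 1 := hs1.trans (Real.rpow_le_one_of_one_le_of_nonpos hd1
      (neg_nonpos.2 (by positivity)))
    refine ⟨0, 1, 2 * Real.sqrt s, by simp, by simp, by positivity, ?_, smp_base hh hs hsl⟩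
    have h1 : Real.sqrt s ≤ e₀ := by
      rw [Real.sqrt_le_left he0]
      refine hs1.trans ?_
      rw [← Real.rpow_natCast ((d : ℝ) ^ _), ← Real.rpow_mul hd0.le]
      exact Real.rpow_le_rpow_of_exponent_le hd1 (by push_cast; linarith)
    rw [pow_zero, one_mul]
    linarith
  | succ j ih =>
    intro hj s hs0 hs1
    have hs : 0 < s := lt_of_lt_of_le (Real.rpow_pos_of_pos hd0 _) hs0
    have hsl : s ≤ 1 := hs1.trans (Real.rpow_le_one_of_one_le_of_nonpos hd1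
      (neg_nonpos.2 (by positivity)))
    have hJj : ((J - (j + 1) : ℕ) : ℝ) + 1 = ((J - j : ℕ) : ℝ) := by
      exact_mod_cast (by omega : J - (j + 1) + 1 = J - j)
    have hJle : ((J - (j + 1) : ℕ) : ℝ) ≤ J := by exact_mod_cast Nat.sub_le _ _
    have hk : (d : ℝ) ^ (-H) ≤ h * Real.sqrt s ^ 2 := by
      rw [Real.sq_sqrt hs.le]
      refine le_trans ?_ (mul_le_mul hlo hs0 (Real.rpow_nonneg hd0.le _)
        ((Real.rpow_nonneg hd0.le _).trans hlo))
      rw [← Real.rpow_add hd0]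
      exact Real.rpow_le_rpow_of_exponent_le hd1 (by nlinarith)
    obtain ⟨q₁, ρ, hρ, M, hq₁, hv0, hv1, hM, hl⟩ :=
      hlev ⟨d, h, Real.sqrt s, hd, Real.sqrt_pos.2 hs, Real.sqrt_le_one.2 hsl, hhi, hk⟩ rfl
    replace hl : LevOK d h q₁ s ρ hρ M (2 * e₀) := by
      have := hl
      rwa [Real.sq_sqrt hs.le] at this
    obtain ⟨q, L, E, hq, hL, hE0, hE, hsmp⟩ := ih (by omega) (s * (1 - ρ ^ 2))
      (by
        rw [← hJj, add_mul, neg_add, Real.rpow_add hd0, one_mul]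
        exact mul_le_mul hs0 hv0 (Real.rpow_nonneg hd0.le _) hs.le)
      (by
        rw [← hJj, add_mul, neg_add, Real.rpow_add hd0, one_mul]
        refine mul_le_mul hs1 (hv1.trans ?_) (var_pos hρ).le (Real.rpow_nonneg hd0.le _)
        rw [show -δv = -(δv / 2) + -(δv / 2) by ring, Real.rpow_add hd0, ← mul_assoc]
        refine mul_le_of_le_one_left (Real.rpow_nonneg hd0.le _) ?_
        rw [Real.rpow_neg hd0.le, ← div_eq_mul_inv, div_le_one (by linarith)]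
        exact hbig)
    refine ⟨q₁ + q, L * M, L * (2 * e₀) + 5 * E, ?_, ?_, by positivity, ?_,
      smp_step hh hs hsl hρ hE0 hl hsmp⟩
    · push_cast
      linarith
    · rw [NNReal.coe_mul, pow_succ]
      exact mul_le_mul hL hM M.2 (by positivity)
    · have h2 : (2 * (d : ℝ) ^ η) ^ j ≤ (7 * (d : ℝ) ^ η) ^ j :=
        pow_le_pow_left₀ (by positivity) (by linarith) j
      set A := (7 * (d : ℝ) ^ η) ^ j
      have hA : 0 ≤ A := by positivity
      calc (L : ℝ) * (2 * e₀) + 5 * E ≤ A * (2 * e₀) + 5 * (A * (4 * e₀)) :=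
            add_le_add (mul_le_mul_of_nonneg_right (hL.trans h2) (by positivity)) (by linarith)
        _ = 22 * (A * e₀) := by ring
        _ ≤ 28 * (d : ℝ) ^ η * (A * e₀) :=
            mul_le_mul_of_nonneg_right (by linarith) (by positivity)
        _ = (7 * (d : ℝ) ^ η) ^ (j + 1) * (4 * e₀) := by rw [pow_succ]; ring

/-- Point programs of sufficient accuracy give local samplers. -/
theorem samplerThm : SamplerThm := by
  intro γ δv S α κp κ ε hγ _ hδ hS hSα hκ hκp hε _ hpts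
  set J := ⌈4 * κp / δv⌉₊
  set H := (J : ℝ) * δv + 1
  set η := min (ε / 2) (1 / (2 * ((J : ℝ) + 1)))
  have hη : 0 < η := lt_min (by linarith) (by positivity)
  obtain ⟨d₀, hlev⟩ := level_ok hγ hδ hS hSα hpts H hη
  have big : ∀ {e : ℝ}, 0 < e → ∀ X : ℝ, ∀ᶠ d : ℕ in atTop, X ≤ (d : ℝ) ^ e := fun he X =>
    ((tendsto_rpow_atTop he).comp tendsto_natCast_atTop_atTop).eventually_ge_atTop X
  filter_upwards [eventually_ge_atTop d₀, eventually_ge_atTop 2, big (half_pos hδ) 2,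
    big (half_pos hε) (J : ℝ), big one_pos (12 * 7 ^ J)] with d hd hd2 hbig hJq hconst h hlo hhi
  have hd1 : (1 : ℝ) ≤ d := by exact_mod_cast le_trans one_le_two hd2
  have hd0 : (0 : ℝ) < d := by linarith
  have hh : h ≤ 1 := hhi.trans (Real.rpow_le_one_of_one_le_of_nonpos hd1 (by linarith))
  have hJ : 2 * κp ≤ δv / 2 * J := by
    have := Nat.le_ceil (4 * κp / δv)
    rw [div_le_iff₀ hδ] at this
    show 2 * κp ≤ δv / 2 * (⌈4 * κp / δv⌉₊ : ℝ)
    linarith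
  obtain ⟨q, L, E, hq, -, hE0, hE, ι, _, F, hc, hl, hcl⟩ :=
    smp_levels hγ hδ hη hd2 hJ hbig le_rfl hlo hhi (fun k hk => hlev k (hk ▸ hd)) J le_rfl 1
      (by simp) (by simp)
  refine ⟨q, ?_, ι ⊕ Unit, inferInstance,
    fun G ω => F G (0, fun j => ω (.inl j)) + Real.sqrt (1 / 8) • ω (.inr ()), ?_, ?_⟩
  · refine hq.trans ?_
    calc (J : ℝ) * (d : ℝ) ^ η ≤ (d : ℝ) ^ (ε / 2) * (d : ℝ) ^ (ε / 2) :=
          mul_le_mul hJq (Real.rpow_le_rpow_of_exponent_le hd1 (min_le_left _ _))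
            (Real.rpow_nonneg hd0.le _) (Real.rpow_nonneg hd0.le _)
      _ = (d : ℝ) ^ ε := by rw [← Real.rpow_add hd0, add_halves]
  · exact (hc.comp (f := fun ω : ι ⊕ Unit → Space d => ((0 : Space d), fun j => ω (.inl j)))
      (by fun_prop)).map (f := fun z => z.2 + Real.sqrt (1 / 8) • z.1 (.inr ())) (by fun_prop)
  intro P hgs ψ L' hψ
  have := mu_prob P
  have h0 := hcl P 0
  have e : mu (P.aff 0 (Real.sqrt 1)) = mu P := Loc.mu_congr fun x => by simp [Pot.aff]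
  rw [e] at h0
  simp only [Real.sqrt_one, one_smul, zero_add] at h0
  set c := Real.sqrt (1 / 8 : ℝ)
  have hg0 : Close (gam d) (fun z => c • z) (gam d) (fun z => c • z) 0 :=
    Close.refl ((IsGaussian.integrable_id (μ := gam d)).smul c)
  have hmp : MeasurePreserving (fun ω : ι ⊕ Unit → Space d => ((fun j => ω (.inl j)), ω (.inr ())))
      (gp (ι ⊕ Unit) d) ((gp ι d).prod (gam d)) :=
    ((MeasurePreserving.id _).prod (measurePreserving_eval _ ())).comp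
      (measurePreserving_sumPiEquivProdPi fun _ : ι ⊕ Unit => gam d)
  have h1 := (h0.add hg0).comp_left hmp
  refine ⟨integrable_test hψ h1.intX, ?_⟩
  have h2 := h1.scaled hψ
  rw [integral_prod _ (integrable_test hψ h1.intY)] at h2
  refine h2.trans ?_
  rw [add_zero, mul_comm]
  refine mul_le_mul_of_nonneg_right ?_ L'.2
  have hw : cenW P 0 ≤ 3 * (d : ℝ) := by
    have hs : Real.sqrt d ≤ d := by
      rw [Real.sqrt_le_left hd0.le]; nlinarith
    have := mul_le_of_le_one_left (Real.sqrt_nonneg (d : ℝ)) hh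
    have := mul_nonneg P.h_nonneg (Real.sqrt_nonneg (d : ℝ))
    unfold gsize at hgs
    unfold cenW
    linarith
  refine (mul_le_mul hE hw (cenW_nonneg _ _) (by positivity)).trans ?_
  have hJη : ((J : ℝ) + 1) * η ≤ 1 / 2 := by
    refine (mul_le_mul_of_nonneg_left (min_le_right _ _) (by positivity)).trans_eq ?_
    field_simp
  calc (7 * (d : ℝ) ^ η) ^ J * (4 * (d : ℝ) ^ (η - κp)) * (3 * d)
      = 12 * 7 ^ J * ((d : ℝ) ^ ((J : ℝ) * η) * (d : ℝ) ^ (η - κp) * (d : ℝ) ^ (1 : ℝ)) := by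
        rw [mul_pow, mul_comm (J : ℝ), Real.rpow_mul hd0.le, Real.rpow_natCast, Real.rpow_one]
        ring
    _ ≤ (d : ℝ) ^ (1 : ℝ) * ((d : ℝ) ^ ((J : ℝ) * η) * (d : ℝ) ^ (η - κp) * (d : ℝ) ^ (1 : ℝ)) :=
        mul_le_mul_of_nonneg_right hconst (by positivity)
    _ ≤ (d : ℝ) ^ (-κ) := by
        rw [← Real.rpow_add hd0, ← Real.rpow_add hd0, ← Real.rpow_add hd0]
        exact Real.rpow_le_rpow_of_exponent_le hd1 (by linarith)

end Vale.Agent.P347.Zero
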