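import Vale.Agent.P347.Zero.MeanDefs
import Vale.Agent.P347.Zero.TrajL2

/-!
The drift at a node is the mean of the gradient of a potential seen at a smaller scale around a
moved centre; both are Lipschitz in the centre, with the weight changing by the move at most.
-/

noncomputable section

open MeasureTheory ProbabilityTheory Set Filter
open scoped RealInnerProductSpace NNReal

namespace Vale.Agent.P347.Zero

variable {γ H H' : ℝ}

theorem QI.hs_pos' (i : QI γ H) : 0 < i.hs :=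
  (Real.rpow_pos_of_pos (by exact_mod_cast (by linarith [i.two_le] : 0 < i.d)) _).trans_le i.le_h

/-- The same problem seen at the scale times `√v`. -/
def QK.child (k : QK γ H) (v : ℝ) (δv : ℝ) (hv : (k.d : ℝ) ^ (-δv) ≤ v) (hv1 : v ≤ 1) :
    QK γ (H + δv) where
  d := k.d
  h := k.h
  σ := k.σ * Real.sqrt v
  two_le := k.two_le
  σ_pos := mul_pos k.σ_pos (Real.sqrt_pos.2 ((Real.rpow_pos_of_pos
    (by exact_mod_cast (by linarith [k.two_le] : 0 < k.d)) _).trans_le hv))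
  σ_le := mul_le_one₀ k.σ_le (Real.sqrt_nonneg _) (Real.sqrt_le_one.2 hv1)
  h_le := k.h_le
  le_h := by
    have hd : (0 : ℝ) < k.d := by exact_mod_cast (by linarith [k.two_le] : 0 < k.d)
    rw [mul_pow, Real.sq_sqrt ((Real.rpow_pos_of_pos hd _).le.trans hv), ← mul_assoc, neg_add,
      Real.rpow_add hd]
    exact mul_le_mul k.le_h hv (Real.rpow_nonneg hd.le _)
      ((Real.rpow_nonneg hd.le _).trans k.le_h)

/-- The same potential seen at the scale times `√v`. -/
def QI.child (i : QI γ H) (v : ℝ) (δv : ℝ) (hv : (i.d : ℝ) ^ (-δv) ≤ v) (hv1 : v ≤ 1) :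
    QI γ (H + δv) :=
  ⟨i.toQK.child v δv hv hv1, i.P⟩

/-- The drift at variance `v` around `p`, in units of the strength. -/
def QI.dvec (i : QI γ H) (v : ℝ) (p a : Space i.d) : Space i.d :=
  i.hs⁻¹ • driftV (i.pot p) (v, a)

theorem QI.dvec_lip (i : QI γ H) {v : ℝ} (hv : 0 < v) (p a b : Space i.d) :
    ‖i.dvec v p a - i.dvec v p b‖ ≤ ‖a - b‖ := by
  have hs := i.hs_pos'
  rw [QI.dvec, QI.dvec, ← smul_sub, norm_smul, norm_inv, Real.norm_of_nonneg hs.le]
  refine (mul_le_mul_of_nonneg_left (norm_driftV_sub (i.pot p) hv a b) (by positivity)).trans_eq ?_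
  rw [← mul_assoc, inv_mul_cancel₀ hs.ne', one_mul]

theorem QI.dvec_apply (i : QI γ H) (v : ℝ) (p a : Space i.d) (c : Fin i.d) :
    i.dvec v p a c = driftT (i.pot p) v 0 a (fun o => o.elim c Fin.elim0) / i.hs := by
  show i.hs⁻¹ * drift (i.pot p) c (v, a) = iteratedFDeriv ℝ 0 _ a _ / i.hs
  rw [iteratedFDeriv_zero_apply, div_eq_inv_mul]
  rfl

/-- The drift as a mean: the potential at the scale `σ √v` around `(√v)⁻¹ (p + a)`. -/
theorem QI.meanFld_child (i : QI γ H) {v δv : ℝ} (hv : (i.d : ℝ) ^ (-δv) ≤ v) (hv1 : v ≤ 1)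
    (B : ℝ) (p a : Space i.d) (x : Empty → Space i.d) (idx : Unit → Fin i.d) :
    meanFld γ (H + δv) B (i.child v δv hv hv1) ((Real.sqrt v)⁻¹ • (p + a)) x idx
      = (Real.sqrt v)⁻¹ * i.dvec v p a (idx ()) := by
  set c := idx ()
  have hd : (0 : ℝ) < i.d := by exact_mod_cast (by linarith [i.two_le] : 0 < i.d)
  have hv0 : 0 < v := (Real.rpow_pos_of_pos hd _).trans_le hv
  set s := Real.sqrt v with hs
  have hs0 : 0 < s := Real.sqrt_pos.2 hv0
  set p' := s⁻¹ • (p + a)
  have harg : ∀ ξ : Space i.d, (i.σ * s) • p' + (i.σ * s) • ξ = i.σ • p + i.σ • (a + s • ξ) := fun ξ => by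
    simp only [p', smul_smul, mul_assoc, mul_inv_cancel₀ hs0.ne', mul_one, smul_add]
    abel
  have hmu : mu ((i.child v δv hv hv1).pot p') = mu ((i.pot p).aff a s) := by
    show (gam i.d).tilted _ = (gam i.d).tilted _
    congr 1
    funext ξ
    exact congrArg (fun z => -i.P.W z) (harg ξ)
  have hg : ∀ ξ : Space i.d, ((i.child v δv hv hv1).pot p').g ξ c = s * (i.pot p).g (a + s • ξ) c := fun ξ : Space i.d => by
    show (i.σ * s) * i.P.g ((i.σ * s) • p' + (i.σ * s) • ξ) c = s * (i.σ * i.P.g _ c)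
    rw [harg ξ]
    ring
  show (∫ ξ, ((i.child v δv hv hv1).pot p').g ξ c ∂mu ((i.child v δv hv hv1).pot p'))
      / (i.h * (i.σ * s) ^ 2) = s⁻¹ * (i.hs⁻¹ * drift (i.pot p) c (v, a))
  have e : (∫ ξ, ((i.child v δv hv hv1).pot p').g ξ c ∂mu ((i.child v δv hv hv1).pot p'))
      = ∫ ξ : Space i.d, s * (i.pot p).g (a + s • ξ) c ∂mu ((i.pot p).aff a s) := by
    rw [← hmu]
    exact integral_congr_ae (ae_of_all _ hg)
  rw [e, integral_const_mul, mul_pow]
  show s * post (i.pot p) v (fun ξ => (i.pot p).g ξ c) a / (i.h * (i.σ ^ 2 * s ^ 2))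
    = s⁻¹ * ((i.h * i.σ ^ 2)⁻¹ * post (i.pot p) v (fun ξ => (i.pot p).g ξ c) a)
  have h1 := i.σ_pos
  have h2 : i.h ≠ 0 := by
    intro h0
    have := i.hs_pos'
    simp [QI.hs, h0] at this
  field_simp

/-- The mean is Lipschitz in the centre. -/
theorem QI.meanFld_lip (i : QI γ H) (B : ℝ) (p q : Space i.d) (x : Empty → Space i.d) :
    ‖(WithLp.toLp 2 fun c : Fin i.d => meanFld γ H B i p x fun _ => c : Space i.d)
      - (WithLp.toLp 2 fun c : Fin i.d => meanFld γ H B i q x fun _ => c : Space i.d)‖ ≤ ‖p - q‖ := by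
  have e : ∀ r : Space i.d, (WithLp.toLp 2 fun c => meanFld γ H B i r x fun _ => c : Space i.d)
      = i.dvec 1 0 r := fun r => by
    ext c
    have hg : ∀ ξ, (i.pot r).g ξ c = (i.pot 0).g (r + (1 : ℝ) • ξ) c := fun ξ => by
      simp [QI.pot, Pot.aff]
    have hmu : mu (i.pot r) = mu ((i.pot 0).aff r 1) := by
      show (gam i.d).tilted _ = (gam i.d).tilted _
      congr 1
      funext ξ
      simp [QI.pot, Pot.aff]
    show (∫ ξ, (i.pot r).g ξ c ∂mu (i.pot r)) / i.hs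
      = i.hs⁻¹ * post (i.pot 0) 1 (fun ξ => (i.pot 0).g ξ c) r
    rw [div_eq_inv_mul, post, Real.sqrt_one, hmu]
    simp only [hg]
  rw [e, e]
  exact i.dvec_lip one_pos 0 p q

/-- The oracle at a moved centre. -/
theorem QI.norm_og_le (i : QI γ H) (p u : Space i.d) :
    ‖i.P.g (i.σ • (p + u))‖ ≤ ‖i.P.g (i.σ • p)‖ + i.h * (i.σ * ‖u‖) := by
  refine (norm_le_norm_add_norm_sub' _ (i.P.g (i.σ • p))).trans (add_le_add le_rfl ?_)
  refine (i.P.lip _ _).trans_eq ?_
  rw [← smul_sub, add_sub_cancel_left, norm_smul, Real.norm_of_nonneg i.σ_pos.le]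

end Vale.Agent.P347.Zero
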