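import Vale.Agent.P347.Zero.NodeProg
import Vale.Agent.P347.Zero.NodeMean
import Vale.Agent.P347.Zero.SamBasics
import Vale.Agent.P347.LocalTools

/-!
The value of the drift at a computed point: at each node the program of the child mean is run at
the centre made from the output of the point program and a private Gaussian, which absorbs the
error of that output; the law averaged over this Gaussian is the drift at the exact channel.
-/

noncomputable section

open MeasureTheory ProbabilityTheory Set Filter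
open scoped RealInnerProductSpace NNReal

namespace Vale.Agent.P347.Zero

variable {γ H B δv b S : ℝ}

/-- A tensor with one leg is a vector. -/
theorem apT_toLp {d : ℕ} (T : Ten d Unit) (A : Unit → Space d) :
    apT () T A = WithLp.toLp 2 fun c => T fun _ => c := by
  have he : (Finset.univ : Finset Unit).erase () = ∅ := by decide
  simp only [apT, he, Finset.prod_empty, mul_one]
  rw [← (Equiv.funUnique Unit (Fin d)).symm.sum_comp]
  ext c
  simp [Finset.sum_apply, Pi.single_apply, Equiv.funUnique]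
  rfl

/-- The mean of the gradient in units of the strength, as a vector. -/
def QI.mvec (i : QI γ H) (B : ℝ) (p : Space i.d) : Space i.d :=
  WithLp.toLp 2 fun c : Fin i.d => meanFld γ H B i p (fun b => b.elim) fun _ => c

theorem QI.mvec_eq (i : QI γ H) (B : ℝ) (p : Space i.d) (x : Empty → Space i.d)
    (A : Unit → Space i.d) : apT () (meanFld γ H B i p x) A = i.mvec B p :=
  apT_toLp (meanFld γ H B i p x) A

theorem QI.mvec_lip (i : QI γ H) (B : ℝ) (p q : Space i.d) :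
    ‖i.mvec B p - i.mvec B q‖ ≤ ‖p - q‖ := i.meanFld_lip B p q fun b => b.elim

theorem QI.mvec_child (i : QI γ H) {v δv : ℝ} (hv : (i.d : ℝ) ^ (-δv) ≤ v) (hv1 : v ≤ 1)
    (B : ℝ) (p a : Space i.d) :
    (i.child v δv hv hv1).mvec B ((Real.sqrt v)⁻¹ • (p + a)) = (Real.sqrt v)⁻¹ • i.dvec v p a := by
  ext c
  exact i.meanFld_child hv hv1 B p a (fun b => b.elim) fun _ => c

namespace NK

variable (n : NK γ H δv b S)

theorem d_pos : (0 : ℝ) < n.q.d := by exact_mod_cast (by linarith [n.q.two_le] : 0 < n.q.d)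

/-- The variance. -/
def v : ℝ := 1 - (n.r * n.a) ^ 2

theorem v_pos : 0 < n.v := (Real.rpow_pos_of_pos n.d_pos _).trans_le n.var_ge

theorem v_le_one : n.v ≤ 1 := sub_le_self _ (sq_nonneg _)

/-- The child. -/
def child : QK γ (H + δv) := n.q.child n.v δv n.var_ge n.v_le_one

/-- The factor of the child output. -/
def gain : ℝ := Real.sqrt n.v * (n.q.d : ℝ) ^ (b / 2)

theorem gain_mem : n.gain ∈ Icc (0 : ℝ) 1 := by
  refine ⟨mul_nonneg (Real.sqrt_nonneg _) (Real.rpow_nonneg n.d_pos.le _), ?_⟩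
  refine (mul_le_mul_of_nonneg_right (Real.sqrt_le_sqrt n.var_le)
    (Real.rpow_nonneg n.d_pos.le _)).trans_eq ?_
  rw [Real.sqrt_eq_rpow, ← Real.rpow_mul n.d_pos.le, ← Real.rpow_add n.d_pos,
    show -b * (1 / 2) + b / 2 = 0 by ring, Real.rpow_zero]

theorem gain_eq : n.gain * (Real.sqrt n.v)⁻¹ = (n.q.d : ℝ) ^ (b / 2) := by
  rw [gain, mul_comm (Real.sqrt n.v), mul_inv_cancel_right₀ (Real.sqrt_pos.2 n.v_pos).ne']

theorem ra_mem : n.r * n.a ∈ Icc (0 : ℝ) 1 := by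
  have h1 := n.r_mem
  have h2 := n.a_mem
  exact ⟨mul_nonneg h1.1 (by linarith [h2.1]), mul_le_one₀ h1.2 (by linarith [h2.1]) h2.2⟩

theorem sqrt_mem : Real.sqrt (1 - n.a ^ 2) ∈ Icc (0 : ℝ) 1 :=
  ⟨Real.sqrt_nonneg _, Real.sqrt_le_one.2 (sub_le_self _ (sq_nonneg _))⟩

/-- The coefficient of the output of the point program. -/
def cy (α : ℝ) : ℝ := (Real.sqrt n.v)⁻¹ * (n.r * n.a) * (n.a * (n.q.d : ℝ) ^ (-α))

/-- The coefficient of the private Gaussian. -/
def cz (α c : ℝ) : ℝ := (Real.sqrt n.v)⁻¹ * (n.r * n.a) *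
  Real.sqrt (c ^ 2 * (1 - n.a ^ 2) - (n.a * (n.q.d : ℝ) ^ (-α)) ^ 2)

theorem abs_cy (α : ℝ) : |n.cy α| ≤ (Real.sqrt n.v)⁻¹ * (n.q.d : ℝ) ^ (-α) := by
  have ha := n.a_mem
  have hs0 : 0 ≤ (Real.sqrt n.v)⁻¹ := inv_nonneg.2 (Real.sqrt_nonneg _)
  rw [cy, abs_mul, abs_mul, abs_of_nonneg hs0, abs_of_nonneg n.ra_mem.1, abs_mul,
    abs_of_nonneg (by linarith [ha.1] : 0 ≤ n.a), abs_of_nonneg (Real.rpow_nonneg n.d_pos.le _)]
  exact mul_le_mul (mul_le_of_le_one_right hs0 n.ra_mem.2)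
    (mul_le_of_le_one_left (Real.rpow_nonneg n.d_pos.le _) ha.2)
    (mul_nonneg (by linarith [ha.1]) (Real.rpow_nonneg n.d_pos.le _)) hs0

/-- The coefficient of a block. -/
def cb (c : ℝ) : ℝ := (Real.sqrt n.v)⁻¹ * (n.r * n.a) * (Real.sqrt (1 - n.a ^ 2) * c)

end NK

/-- A statement on the child holds at the nodes of large dimension. -/
theorem ev_child {J : Type} {f : J → NI γ H δv b S} {B' : ℝ}
    {P : (MQ γ (H + δv) B').ι → Prop} (h : (MQ γ (H + δv) B').Ev P) :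
    (NQ B f).Ev fun (j : J) =>
      P ((f j).q.child (f j).pub.v δv (f j).var_ge (f j).pub.v_le_one) :=
  let ⟨d₀, hd⟩ := h
  ⟨d₀, fun _ hj => hd _ hj⟩

variable {C K : Type} [Fintype C] [DecidableEq C] [Fintype K] [DecidableEq K]

/-- The program of the drift at a node. -/
def valProg (n : NK γ H δv b S) (Py : Prog n.q.d C Unit) (Pc : Prog n.q.d Empty Unit)
    (α : ℝ) (c₀ : ℝ) (c : K → ℝ) : Prog n.q.d (C ⊕ K) Unit :=
  Py.node ((Pc.smul n.gain).add (Prog.noise n.q.d Empty Unit (Real.sqrt (1 - n.gain ^ 2))))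
    (Real.sqrt n.v)⁻¹ (n.cy α) (n.cz α c₀) fun l => n.cb (c l)

omit [DecidableEq C] [DecidableEq K] in
theorem valProg_lip (n : NK γ H δv b S) {Py : Prog n.q.d C Unit} {Pc : Prog n.q.d Empty Unit}
    {G : Space n.q.d → Space n.q.d} {Ky Kc α c₀ : ℝ} {c : K → ℝ} (hy : Py.Lip G Ky)
    (hc : Pc.Lip G Kc) (hKy : 0 ≤ Ky) (hKc : 0 ≤ Kc) (hcl : ∀ l, |c l| ≤ 1) :
    (valProg n Py Pc α c₀ c).Lip G (Kc * (n.q.d : ℝ) ^ (b / 2) *
      (2 + (Fintype.card K : ℝ) + (n.q.d : ℝ) ^ (-α) * Ky)) := by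
  have hQ := Prog.add_lip (Prog.smul_lip hc n.gain)
    (Prog.noise_lip (B := Empty) (I := Unit) (Real.sqrt (1 - n.gain ^ 2)) G)
  rw [add_zero, abs_of_nonneg n.gain_mem.1] at hQ
  refine (Prog.node_lip hKy (mul_nonneg n.gain_mem.1 hKc) hy hQ).mono ?_
  set s := (Real.sqrt n.v)⁻¹ with hs
  have hs0 : 0 ≤ s := inv_nonneg.2 (Real.sqrt_nonneg _)
  have hs1 : 1 ≤ s := one_le_inv₀ (Real.sqrt_pos.2 n.v_pos) |>.2
    (Real.sqrt_le_one.2 n.v_le_one)
  have hra := n.ra_mem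
  have ha := n.a_mem
  have h1 : |n.cy α| ≤ s * (n.q.d : ℝ) ^ (-α) := n.abs_cy α
  have h2 : ∀ l, |n.cb (c l)| ≤ s := fun l => by
    rw [NK.cb, abs_mul, abs_mul, abs_of_nonneg hs0, abs_of_nonneg hra.1, abs_mul,
      abs_of_nonneg n.sqrt_mem.1]
    exact (mul_le_mul (mul_le_of_le_one_right hs0 hra.2) (mul_le_one₀ n.sqrt_mem.2 (abs_nonneg _)
      (hcl l)) (mul_nonneg n.sqrt_mem.1 (abs_nonneg _)) hs0).trans_eq (mul_one s)
  rw [mul_assoc (Kc : ℝ), mul_comm n.gain Kc, mul_assoc (Kc : ℝ)]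
  refine mul_le_mul_of_nonneg_left ?_ hKc
  rw [← n.gain_eq, ← hs, mul_assoc]
  refine mul_le_mul_of_nonneg_left ?_ n.gain_mem.1
  have h3 : ∑ l, |n.cb (c l)| ≤ (Fintype.card K : ℝ) * s :=
    (Finset.sum_le_sum fun l _ => h2 l).trans_eq (by simp)
  have h4 := mul_le_mul_of_nonneg_right h1 hKy
  rw [abs_of_nonneg hs0]
  nlinarith

omit [DecidableEq C] [DecidableEq K] in
/-- The law of the program, at one node, centre, value of the blocks and input. -/
theorem valProg_close (N : NI γ H δv b S) {B' α a κ' : ℝ} {c₀ : ℝ} {c : K → ℝ}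
    {Py : Prog N.q.d C Unit} {Pc : Prog N.q.d Empty Unit}
    (hc : Pc.LipW N.q.P.g) {Kc : ℝ} (hKc : 0 ≤ Kc) (hcl : Pc.Lip N.q.P.g Kc)
    (hsep : 16 * (N.q.d : ℝ) ^ (-(2 * α)) ≤ c₀ ^ 2 * (1 - N.a ^ 2))
    (hκ' : κ' = a - b / 2)
    (Yv : Space N.q.d)
    (p : Space N.q.d) (x : C ⊕ K → Space N.q.d) (A : Unit → Space N.q.d) {ey : ℝ}
    (hy : Py.CloseAt N.q.P.g p (fun l => x (.inl l)) A
      ((N.q.d : ℝ) ^ α • Yv) 1 ey) :
    let n := N.pub
    let i := N.q
    let ctr : Space i.d → Space i.d := fun u => (n.r * n.a) • (n.a • Yv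
      + Real.sqrt (1 - n.a ^ 2) • (c₀ • u + ∑ l, c l • x (.inr l)))
    let E : Space i.d → ℝ := fun u => Pc.dev i.P.g ((Real.sqrt n.v)⁻¹ • (p + ctr u)) 0 A
      ((i.d : ℝ) ^ κ' • (i.child n.v δv n.var_ge n.v_le_one).mvec B'
        ((Real.sqrt n.v)⁻¹ • (p + ctr u)))
    Integrable E (gam i.d) ∧
    Close (gp (Fin (valProg n Py Pc α c₀ c).sd) i.d)
      (fun ω => (valProg n Py Pc α c₀ c).F i.P.g (p, x, A, ω)) ((gam i.d).prod (gam i.d))
      (fun z => (i.d : ℝ) ^ a • i.dvec n.v p (ctr z.1) + (1 : ℝ) • z.2)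
      (n.gain * Kc * |n.cy α| * ey + n.gain * ∫ u, E u ∂gam i.d) := by
  intro n i ctr E
  obtain ⟨hg0, hg1⟩ := n.gain_mem
  set Q := (Pc.smul n.gain).add (Prog.noise i.d Empty Unit (Real.sqrt (1 - n.gain ^ 2))) with hQ
  have hv := n.v_pos
  set s₀ := (Real.sqrt n.v)⁻¹ with hs₀
  set w := Real.sqrt (1 - n.a ^ 2) with hw
  set t := n.a * (i.d : ℝ) ^ (-α) with ht
  have hd : (0 : ℝ) < i.d := n.d_pos
  have hw2 : w ^ 2 = 1 - n.a ^ 2 := Real.sq_sqrt (by nlinarith [n.a_mem.1, n.a_mem.2])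
  have ht2 : t ^ 2 ≤ c₀ ^ 2 * (1 - n.a ^ 2) := by
    refine le_trans ?_ hsep
    rw [ht, mul_pow, ← Real.rpow_natCast ((i.d : ℝ) ^ (-α)), ← Real.rpow_mul hd.le]
    rw [show -α * ((2 : ℕ) : ℝ) = -(2 * α) by push_cast; ring]
    refine mul_le_mul_of_nonneg_right ?_ (Real.rpow_nonneg hd.le _)
    nlinarith [n.a_mem.1, n.a_mem.2]
  have hcw : w * c₀ ≠ 0 := fun h0 => by
    have h1 : c₀ ^ 2 * (1 - n.a ^ 2) = 0 := by rw [← hw2, ← mul_pow, mul_comm, h0]; ring
    have h2 : 0 < 16 * (i.d : ℝ) ^ (-(2 * α)) := by positivity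
    linarith [h1 ▸ hsep]
  set p₁ := t / (w * c₀) with hp₁
  set q₁ := Real.sqrt (c₀ ^ 2 * (1 - n.a ^ 2) - t ^ 2) / (w * c₀) with hq₁
  set s := s₀ * (n.r * n.a) * (w * c₀) with hs
  have hpq : p₁ ^ 2 + q₁ ^ 2 = 1 := by
    rw [hp₁, hq₁, div_pow, div_pow, Real.sq_sqrt (sub_nonneg.2 ht2), ← add_div, div_eq_one_iff_eq
      (pow_ne_zero 2 hcw), mul_pow w, hw2]
    ring
  have h1 : n.cy α = s * p₁ := by
    rw [hs, hp₁, mul_assoc _ (w * c₀), mul_div_cancel₀ _ hcw]
    rfl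
  have h2 : n.cz α c₀ = s * q₁ := by
    rw [hs, hq₁, mul_assoc _ (w * c₀), mul_div_cancel₀ _ hcw]
    rfl
  set vy := (i.d : ℝ) ^ α • Yv with hvy
  have hcen : ∀ u, s₀ • p + (∑ l, n.cb (c l) • x (.inr l)) + n.cy α • vy + s • u
      = s₀ • (p + ctr u) := fun u => by
    have e1 : n.cy α • vy = (s₀ * (n.r * n.a) * n.a) • Yv := by
      rw [hvy, smul_smul]
      congr 1
      rw [NK.cy, hs₀]
      have : (i.d : ℝ) ^ (-α) * (i.d : ℝ) ^ α = 1 := by
        rw [← Real.rpow_add hd, neg_add_cancel, Real.rpow_zero]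
      show (Real.sqrt n.v)⁻¹ * (n.r * n.a) * (n.a * (i.d : ℝ) ^ (-α)) * (i.d : ℝ) ^ α = _
      linear_combination (Real.sqrt n.v)⁻¹ * (n.r * n.a) * n.a * this
    have e2 : ∑ l, n.cb (c l) • x (.inr l) = (s₀ * (n.r * n.a) * w) • ∑ l, c l • x (.inr l) := by
      rw [Finset.smul_sum]
      refine Finset.sum_congr rfl fun l _ => ?_
      rw [smul_smul, NK.cb, mul_assoc _ w]
    rw [e1, e2]
    simp only [ctr, hs]
    module
  set ci := i.child n.v δv n.var_ge n.v_le_one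
  set mv : Space i.d × (Empty → Space i.d) × (Unit → Space i.d) → Space i.d := fun z =>
    (i.d : ℝ) ^ κ' • ci.mvec B' z.1 with hmv
  have hmvL : LipschitzWith ‖(i.d : ℝ) ^ κ'‖₊ mv := by
    refine LipschitzWith.of_dist_le_mul fun z z' => ?_
    rw [dist_eq_norm, hmv, coe_nnnorm]
    beta_reduce
    erw [← smul_sub, norm_smul]
    refine mul_le_mul_of_nonneg_left ((ci.mvec_lip B' z.1 z'.1).trans ?_) (norm_nonneg _)
    exact (dist_eq_norm z.1 z'.1).symm.trans_le (le_max_left _ _)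
  obtain ⟨LD, hLD⟩ := Prog.lipschitz_dev hc hmvL
  have hEc : LipschitzWith (LD * ‖s‖₊) E := by
    refine LipschitzWith.of_dist_le_mul fun u u' => ?_
    have e : ∀ u, E u = Pc.dev i.P.g (s₀ • p + (∑ l, n.cb (c l) • x (.inr l)) + n.cy α • vy + s • u)
        0 A (mv (s₀ • p + (∑ l, n.cb (c l) • x (.inr l)) + n.cy α • vy + s • u, 0, A)) := fun u => by
      rw [hcen]
    rw [e, e, NNReal.coe_mul, mul_assoc]
    refine (hLD.dist_le_mul (_, 0, A) (_, 0, A)).trans (mul_le_mul_of_nonneg_left ?_ LD.2)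
    simp [dist_eq_norm, ← smul_sub, norm_smul]
    positivity
  have hEi : Integrable E (gam i.d) := by
    refine ((integrable_const ‖E 0‖).add (integrable_norm_gam.const_mul
      ((LD * ‖s‖₊ : ℝ≥0) : ℝ))).mono' hEc.continuous.aestronglyMeasurable (ae_of_all _ fun u => ?_)
    refine (norm_le_norm_add_norm_sub' _ (E 0)).trans (add_le_add le_rfl ?_)
    exact (hEc.norm_sub_le u 0).trans_eq (by rw [sub_zero])
  refine ⟨hEi, ?_⟩
  set T : Space i.d → Space i.d := fun u => (i.d : ℝ) ^ a • i.dvec n.v p (ctr u) with hT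
  have hTc : Continuous T := by
    have h3 : Continuous fun z => i.dvec n.v p z :=
      (lip_of_le (L := 1) fun z z' => by rw [NNReal.coe_one, one_mul]; exact i.dvec_lip hv p z z').continuous
    exact (h3.comp (by fun_prop : Continuous ctr)).const_smul ((i.d : ℝ) ^ a)
  have hQw : Q.LipW i.P.g :=
    Prog.add_lipW (Prog.smul_lipW hc _) (Prog.noise_lipW _ _)
  have hQl : Q.Lip i.P.g (n.gain * Kc) := by
    have := Prog.add_lip (Prog.smul_lip hcl n.gain)
      (Prog.noise_lip (B := Empty) (I := Unit) (Real.sqrt (1 - n.gain ^ 2)) i.P.g)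
    rwa [add_zero, abs_of_nonneg hg0] at this
  have hQc : ∀ u, Q.CloseAt i.P.g (s₀ • p + (∑ l, n.cb (c l) • x (.inr l)) + n.cy α • vy + s • u)
      0 A (T u) 1 (n.gain * E u) := fun u => by
    rw [hcen]
    have h5 := Prog.add_close (Prog.smul_close (Prog.closeAt_dev hc (s₀ • (p + ctr u)) 0 A
      (mv (s₀ • (p + ctr u), 0, A))) n.gain)
      (Prog.noise_close (B := Empty) (I := Unit) (Real.sqrt (1 - n.gain ^ 2)) i.P.g
        (s₀ • (p + ctr u)) 0 A)
    rw [mul_one, Real.sq_sqrt (by nlinarith : (0 : ℝ) ≤ 1 - n.gain ^ 2), add_sub_cancel,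
      Real.sqrt_one, add_zero, add_zero, abs_of_nonneg hg0] at h5
    have e3 : n.gain • mv (s₀ • (p + ctr u), 0, A) = T u := by
      rw [hmv, hT]
      beta_reduce
      erw [i.mvec_child n.var_ge n.v_le_one B' p (ctr u)]
      show n.gain • (i.d : ℝ) ^ κ' • s₀ • i.dvec n.v p (ctr u) = _
      rw [smul_smul, smul_smul, show (i.d : ℝ) ^ a = (i.d : ℝ) ^ κ' * (i.d : ℝ) ^ (b / 2) by
        rw [← Real.rpow_add hd, hκ', sub_add_cancel],
        show (i.d : ℝ) ^ (b / 2) = n.gain * s₀ from n.gain_eq.symm]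
      congr 1
      ring
    rw [e3] at h5
    exact h5
  have h6 := Prog.node_close (K := K) hQw (mul_nonneg hg0 hKc) hQl (g₀ := s₀)
    (cl := fun l => n.cb (c l)) (t₂ := n.cz α c₀) hy hpq h1 h2 hTc (hEi.const_mul n.gain) hQc
  rw [integral_const_mul] at h6
  exact h6

/-- A nonnegative error integrated over the input and the centre. -/
theorem avg_err {d : ℕ} {ι : Type} [Fintype ι] {D : Space d × (Unit → Space d) → ℝ}
    (hDc : Continuous D) (hD0 : ∀ z, 0 ≤ D z)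
    (hDi : ∀ q, Integrable (fun A => D (q, A)) (gp Unit d))
    {cen : (ι → Space d) × Space d → Space d} (hcen : Continuous cen)
    {W : (ι → Space d) × Space d → ℝ} (hW : Integrable W ((gp ι d).prod (gam d)))
    (hb : ∀ w, ∫ A, D (cen w, A) ∂gp Unit d ≤ W w) :
    Integrable (fun z : (ι → Space d) × (Unit → Space d) => ∫ u, D (cen (z.1, u), z.2) ∂gam d)
        ((gp ι d).prod (gp Unit d)) ∧
      ∫ z, ∫ u, D (cen (z.1, u), z.2) ∂gam d ∂(gp ι d).prod (gp Unit d)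
        ≤ ∫ w, W w ∂(gp ι d).prod (gam d) := by
  set F : ((ι → Space d) × Space d) × (Unit → Space d) → ℝ := fun r => D (cen r.1, r.2) with hF
  have hFc : Continuous F := hDc.comp ((hcen.comp continuous_fst).prodMk continuous_snd)
  have hFi : Integrable F (((gp ι d).prod (gam d)).prod (gp Unit d)) := by
    refine (integrable_prod_iff hFc.aestronglyMeasurable).2 ⟨ae_of_all _ fun w => hDi (cen w), ?_⟩
    refine hW.mono' hFc.norm.aestronglyMeasurable.integral_prod_right' (ae_of_all _ fun w => ?_)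
    rw [Real.norm_of_nonneg (integral_nonneg fun _ => norm_nonneg _)]
    simp only [hF, Real.norm_of_nonneg (hD0 _)]
    exact hb w
  have hπ : MeasurePreserving
      (fun r : ((ι → Space d) × (Unit → Space d)) × Space d => ((r.1.1, r.2), r.1.2))
      (((gp ι d).prod (gp Unit d)).prod (gam d)) (((gp ι d).prod (gam d)).prod (gp Unit d)) :=
    ((measurePreserving_prodAssoc (gp ι d) (gam d) (gp Unit d)).symm _).comp
      (((MeasurePreserving.id (gp ι d)).prod Measure.measurePreserving_swap).comp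
        (measurePreserving_prodAssoc (gp ι d) (gp Unit d) (gam d)))
  have hGi := hπ.integrable_comp_of_integrable hFi
  refine ⟨hGi.integral_prod_left, le_of_eq_of_le ?_
    ((integral_prod _ hFi).trans_le (integral_mono hFi.integral_prod_left hW hb))⟩
  have h1 := integral_prod _ hGi
  simp only [Function.comp_apply, hF] at h1
  rw [← h1]
  conv_rhs => rw [← hπ.map_eq]
  rw [integral_map hπ.measurable.aemeasurable hFc.aestronglyMeasurable]

/-- The vector of a field is its action on inputs. -/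
theorem apT_vecOf {S : Sys} {B : Type} (Y : Fld S B Unit) (i : S.ι) (p : Space (S.dm i))
    (x : B → Space (S.dm i)) (A : Unit → Space (S.dm i)) : apT () (Y i p x) A = vecOf Y i p x := by
  rw [apT_toLp]
  ext k
  simp [vecOf, Finset.sum_apply, Pi.single_apply]

omit [DecidableEq C] [DecidableEq K] in
/-- Projection on some blocks. -/
theorem inl_mp (d : ℕ) : MeasurePreserving (fun (y : C ⊕ K → Space d) l => y (Sum.inl l))
    (gp (C ⊕ K) d) (gp C d) :=
  measurePreserving_fst.comp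
    (measurePreserving_sumPiEquivProdPi (X := fun _ : C ⊕ K => Space d) (fun _ => gam d))

omit [DecidableEq C] [DecidableEq K] in
/-- The oracle at the moved centres, in mean. -/
theorem centre_mass (d : ℕ) (hd : 1 ≤ d) {Yf : (C → Space d) → Space d} (hYc : Continuous Yf)
    {t : ℝ} (ht : 0 < t) (hYi : Integrable (fun x => ‖Yf x‖ ^ 2) (gp C d))
    (hY : ∫ x, ‖Yf x‖ ^ 2 ∂gp C d ≤ t ^ 2) :
    Integrable (fun w : (C ⊕ K → Space d) × Space d =>
        ‖Yf fun l => w.1 (.inl l)‖ + ‖w.2‖ + ∑ l, ‖w.1 (.inr l)‖) ((gp (C ⊕ K) d).prod (gam d)) ∧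
      ∫ w : (C ⊕ K → Space d) × Space d,
          (‖Yf fun l => w.1 (.inl l)‖ + ‖w.2‖ + ∑ l, ‖w.1 (.inr l)‖) ∂(gp (C ⊕ K) d).prod (gam d)
        ≤ t + (1 + (Fintype.card K : ℝ)) * d := by
  have hn : Integrable (fun x => ‖Yf x‖) (gp C d) := by
    refine ((integrable_const (1 : ℝ)).add hYi).mono' hYc.norm.aestronglyMeasurable
      (ae_of_all _ fun x => ?_)
    simp only [norm_norm, Pi.add_apply]
    nlinarith [sq_nonneg (‖Yf x‖ - 1)]
  have hnb : ∫ x, ‖Yf x‖ ∂gp C d ≤ t := by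
    refine (integral_mono hn ((integrable_const (t / 2)).add (hYi.div_const (2 * t))) fun x => ?_).trans ?_
    · show ‖Yf x‖ ≤ t / 2 + ‖Yf x‖ ^ 2 / (2 * t)
      rw [div_add_div _ _ two_ne_zero (by positivity), le_div_iff₀ (by positivity)]
      nlinarith [sq_nonneg (‖Yf x‖ - t)]
    · rw [integral_add' (integrable_const _) (hYi.div_const _), integral_const, probReal_univ,
        one_smul, integral_div]
      calc t / 2 + (∫ x, ‖Yf x‖ ^ 2 ∂gp C d) / (2 * t) ≤ t / 2 + t ^ 2 / (2 * t) := by gcongr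
        _ = t := by field_simp; ring
  have hd' : (1 : ℝ) ≤ d := by exact_mod_cast hd
  have hz : ∫ z, ‖z‖ ∂gam d ≤ (d : ℝ) := by
    have h2 : Integrable (fun z : Space d => ‖z‖ ^ 2) (gam d) :=
      gam_int (by fun_prop) (grow_pow (grow_norm grow_id) 2)
    refine (integral_mono integrable_norm_gam
      (((integrable_const (1 : ℝ)).add h2).div_const 2) fun z => ?_).trans ?_
    · simp only [Pi.add_apply]; nlinarith [sq_nonneg (‖z‖ - 1)]
    · rw [integral_div, integral_add' (integrable_const _) h2, integral_const, probReal_univ,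
        one_smul, Loc.gam_sq]
      linarith
  have hl : ∀ l : K, MeasurePreserving (fun y : C ⊕ K → Space d => y (.inr l)) (gp (C ⊕ K) d)
      (gam d) := fun l => measurePreserving_eval (fun _ : C ⊕ K => gam d) (Sum.inr l)
  have i1 := (inl_mp (C := C) (K := K) d).integrable_comp_of_integrable hn
  have i2 : ∀ l, Integrable (fun y : C ⊕ K → Space d => ‖y (.inr l)‖) (gp (C ⊕ K) d) := fun l =>
    (hl l).integrable_comp_of_integrable integrable_norm_gam
  have j1 : Integrable (fun w : (C ⊕ K → Space d) × Space d => ‖Yf fun l => w.1 (.inl l)‖)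
      ((gp (C ⊕ K) d).prod (gam d)) := i1.comp_fst (gam d)
  have j2 : Integrable (fun w : (C ⊕ K → Space d) × Space d => ‖w.2‖)
      ((gp (C ⊕ K) d).prod (gam d)) := integrable_norm_gam.comp_snd _
  have j3 : Integrable (fun w : (C ⊕ K → Space d) × Space d => ∑ l, ‖w.1 (.inr l)‖)
      ((gp (C ⊕ K) d).prod (gam d)) :=
    (integrable_finsetSum _ fun l _ => i2 l).comp_fst (gam d)
  refine ⟨(j1.add j2).add j3, ?_⟩
  rw [integral_add (show Integrable (fun w : (C ⊕ K → Space d) × Space d =>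
      ‖Yf fun l => w.1 (.inl l)‖ + ‖w.2‖) _ from j1.add j2) j3, integral_add j1 j2,
    integral_fun_fst (fun y : C ⊕ K → Space d => ‖Yf fun l => y (.inl l)‖),
    integral_fun_snd (fun u : Space d => ‖u‖),
    integral_fun_fst (fun y : C ⊕ K → Space d => ∑ l, ‖y (.inr l)‖), probReal_univ, one_smul,
    probReal_univ, one_smul, one_smul, integral_finsetSum _ fun l _ => i2 l]
  have e1 : ∫ y : C ⊕ K → Space d, ‖Yf fun l => y (.inl l)‖ ∂gp (C ⊕ K) d ≤ t := by
    refine le_of_eq_of_le ?_ hnb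
    conv_rhs => rw [← (inl_mp (C := C) (K := K) d).map_eq]
    rw [integral_map (inl_mp d).measurable.aemeasurable hYc.norm.aestronglyMeasurable]
  have e2 : ∀ l, ∫ y : C ⊕ K → Space d, ‖y (.inr l)‖ ∂gp (C ⊕ K) d ≤ (d : ℝ) := fun l => by
    refine le_of_eq_of_le ?_ hz
    conv_rhs => rw [← (hl l).map_eq]
    rw [integral_map (hl l).measurable.aemeasurable continuous_norm.aestronglyMeasurable]
  refine (add_le_add (add_le_add e1 hz) (Finset.sum_le_sum fun l _ => e2 l)).trans_eq ?_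
  rw [Finset.sum_const, Finset.card_univ, nsmul_eq_mul]
  ring

/-- The weight of the children, in mean over the centres. -/
theorem child_weight {Dd B B' G m cY : ℝ} (hD : 1 ≤ Dd) (hB' : max B 0 + |cY| + 1 = B') {k : ℝ}
    (hk : 0 ≤ k) (hG : 0 ≤ G) (hm : m ≤ Dd ^ |cY| * (1 + G) + (1 + k) * Dd) :
    1 + Dd ^ (-B') * (G + m) ≤ (3 + k) * (1 + Dd ^ (-B) * G) := by
  have hd : 0 < Dd := one_pos.trans_le hD
  have hc := abs_nonneg cY
  have h1 : Dd ^ (-B') ≤ Dd ^ (-B) :=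
    Real.rpow_le_rpow_of_exponent_le hD (by linarith [le_max_left B 0])
  have h2 : Dd ^ (-B') * Dd ^ |cY| ≤ Dd ^ (-B) ∧ Dd ^ (-B') * Dd ^ |cY| ≤ 1 := by
    rw [← Real.rpow_add hd]
    exact ⟨Real.rpow_le_rpow_of_exponent_le hD (by linarith [le_max_left B 0]),
      Real.rpow_le_one_of_one_le_of_nonpos hD (by linarith [le_max_right B 0])⟩
  have h3 : Dd ^ (-B') * Dd ≤ 1 := by
    rw [← Real.rpow_add_one hd.ne']
    exact Real.rpow_le_one_of_one_le_of_nonpos hD (by linarith [le_max_right B 0])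
  have h4 := mul_le_mul_of_nonneg_left hm (Real.rpow_nonneg hd.le (-B'))
  have h5 : 0 ≤ Dd ^ (-B) * G := mul_nonneg (Real.rpow_nonneg hd.le _) hG
  nlinarith [mul_le_mul_of_nonneg_right h1 hG, mul_le_mul_of_nonneg_right h2.1 hG, h2.2,
    mul_le_mul_of_nonneg_left h3 (add_nonneg zero_le_one hk), mul_nonneg hk h5]

omit [DecidableEq C] [DecidableEq K] in
/-- The error of the program at one node and centre. -/
theorem val_node (N : NI γ H δv b S) {B B' cY α a κ κy η₀ ε₀ : ℝ} (hγ : 0 ≤ γ)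
    (hB' : max B 0 + |cY| + 1 = B') (hη₀ : 0 < η₀) (hεa : a + ε₀ - α - κy ≤ -κ)
    {c₀ : ℝ} {c : K → ℝ} (hc0 : |c₀| ≤ 1) (hcl : ∀ l, |c l| ≤ 1)
    {Py : Prog N.q.d C Unit} {Pc : Prog N.q.d Empty Unit} (hPw : Pc.LipW N.q.P.g)
    (hcL : Pc.Lip N.q.P.g ((N.q.d : ℝ) ^ (η₀ - (0 - (a - b / 2) - ε₀))))
    (hsj : 16 * (N.q.d : ℝ) ^ (-(2 * α)) ≤ c₀ ^ 2 * (1 - N.a ^ 2))
    (hd : (1 : ℝ) ≤ N.q.d) (h4d : 4 + (Fintype.card K : ℝ) ≤ (N.q.d : ℝ) ^ η₀)
    (p : Space N.q.d) {Yf : (C → Space N.q.d) → Space N.q.d} (hYc : Continuous Yf)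
    (hYi : Integrable (fun x => ‖Yf x‖ ^ 2) (gp C N.q.d))
    (hYb : ∫ x, ‖Yf x‖ ^ 2 ∂gp C N.q.d
      ≤ (N.q.d : ℝ) ^ cY * (1 + ‖N.q.P.g (N.q.σ • p)‖) ^ 2)
    {ey : (C → Space N.q.d) × (Unit → Space N.q.d) → ℝ}
    (heyi : Integrable ey ((gp C N.q.d).prod (gp Unit N.q.d)))
    (heyb : ∫ z, ey z ∂(gp C N.q.d).prod (gp Unit N.q.d)
      ≤ (N.q.d : ℝ) ^ (η₀ - κy) * (1 + (N.q.d : ℝ) ^ (-B) * ‖N.q.P.g (N.q.σ • p)‖))
    (heyc : ∀ x A, Py.CloseAt N.q.P.g p x A ((N.q.d : ℝ) ^ α • Yf x) 1 (ey (x, A)))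
    (hc1 : ∀ q : Space N.q.d, ∃ e : (Empty → Space N.q.d) × (Unit → Space N.q.d) → ℝ,
      Integrable e ((gp Empty N.q.d).prod (gp Unit N.q.d)) ∧
        ∫ z, e z ∂(gp Empty N.q.d).prod (gp Unit N.q.d) ≤ (N.q.d : ℝ) ^ (η₀ - κ) *
          (1 + (N.q.d : ℝ) ^ (-B') * ‖N.q.P.g ((N.q.σ * Real.sqrt N.pub.v) • q)‖) ∧
        ∀ x A, Pc.CloseAt N.q.P.g q x A ((N.q.d : ℝ) ^ (a - b / 2) •
          (N.q.child N.pub.v δv N.pub.var_ge N.pub.v_le_one).mvec B' q) 1 (e (x, A))) :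
    ∃ e : (C ⊕ K → Space N.q.d) × (Unit → Space N.q.d) → ℝ,
      Integrable e ((gp (C ⊕ K) N.q.d).prod (gp Unit N.q.d)) ∧
        ∫ z, e z ∂(gp (C ⊕ K) N.q.d).prod (gp Unit N.q.d)
          ≤ (N.q.d : ℝ) ^ (4 * η₀ - κ) * (1 + (N.q.d : ℝ) ^ (-B) * ‖N.q.P.g (N.q.σ • p)‖) ∧
        ∀ (y : C ⊕ K → Space N.q.d) (A : Unit → Space N.q.d), Close (gp (Fin (valProg N.pub Py Pc α c₀ c).sd) N.q.d)
          (fun ω => (valProg N.pub Py Pc α c₀ c).F N.q.P.g (p, y, A, ω))
          ((gam N.q.d).prod (gam N.q.d))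
          (fun z => (N.q.d : ℝ) ^ a • N.q.dvec N.pub.v p ((N.r * N.a) •
            (N.a • Yf (fun l => y (.inl l)) + Real.sqrt (1 - N.a ^ 2) •
              (c₀ • z.1 + ∑ l, c l • y (.inr l)))) + (1 : ℝ) • z.2) (e (y, A)) := by
  set ci := N.q.child N.pub.v δv N.pub.var_ge N.pub.v_le_one
  set Dd := (N.q.d : ℝ)
  set κ' := a - b / 2
  have hd0 : 0 < Dd := one_pos.trans_le hd
  have hdn : 1 ≤ N.q.d := Nat.one_le_iff_ne_zero.2 fun h0 => by
    simp [Dd, h0] at hd0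
  set Kc := Dd ^ (η₀ - (0 - κ' - ε₀))
  have hKc : 0 ≤ Kc := Real.rpow_nonneg hd0.le _
  set ctr : (C ⊕ K → Space N.q.d) × Space N.q.d → Space N.q.d := fun w => (N.r * N.a) •
    (N.a • Yf (fun l => w.1 (.inl l)) + Real.sqrt (1 - N.a ^ 2) •
      (c₀ • w.2 + ∑ l, c l • w.1 (.inr l))) with hctr
  set cen : (C ⊕ K → Space N.q.d) × Space N.q.d → Space N.q.d := fun w =>
    (Real.sqrt N.pub.v)⁻¹ • (p + ctr w)
  have hctrc : Continuous ctr := by simp only [ctr]; fun_prop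
  set mv : Space N.q.d × (Empty → Space N.q.d) × (Unit → Space N.q.d) → Space N.q.d := fun z =>
    Dd ^ κ' • ci.mvec B' z.1
  have hmvL : LipschitzWith ‖Dd ^ κ'‖₊ mv := by
    refine LipschitzWith.of_dist_le_mul fun z z' => ?_
    rw [dist_eq_norm, coe_nnnorm]
    erw [← smul_sub, norm_smul]
    refine mul_le_mul_of_nonneg_left ((ci.mvec_lip B' z.1 z'.1).trans ?_) (norm_nonneg _)
    exact (dist_eq_norm z.1 z'.1).symm.trans_le (le_max_left _ _)
  obtain ⟨LD, hLD⟩ := Prog.lipschitz_dev hPw hmvL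
  set D : Space N.q.d × (Unit → Space N.q.d) → ℝ := fun z =>
    Pc.dev N.q.P.g z.1 0 z.2 (mv (z.1, 0, z.2))
  have hDc : Continuous D := by
    exact hLD.continuous.comp (by fun_prop :
      Continuous fun z : Space N.q.d × (Unit → Space N.q.d) =>
        (z.1, (0 : Empty → Space N.q.d), z.2))
  have hchild : ∀ q : Space N.q.d, Integrable (fun A => D (q, A)) (gp Unit N.q.d) ∧
      ∫ A, D (q, A) ∂gp Unit N.q.d
        ≤ Dd ^ (η₀ - κ) * (1 + Dd ^ (-B') * ‖N.q.P.g ((N.q.σ * Real.sqrt N.pub.v) • q)‖) := fun q => by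
    obtain ⟨e, he, heb, hec⟩ := hc1 q
    have hle : ∀ A, D (q, A) ≤ e ((fun x => x.elim), A) := fun A => by
      refine le_trans (le_of_eq ?_) (Prog.dev_le (hec (fun x => x.elim) A))
      exact congrArg (fun x => Pc.dev N.q.P.g q x A (mv (q, 0, A))) (Subsingleton.elim _ _)
    have hes : Integrable (fun A => e ((fun x => x.elim), A)) (gp Unit N.q.d) := by
      obtain ⟨x, hx⟩ := he.prod_right_ae.exists
      rwa [Subsingleton.elim x fun x => x.elim] at hx
    have hDi : Integrable (fun A => D (q, A)) (gp Unit N.q.d) :=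
      hes.mono' (hDc.comp (by fun_prop)).aestronglyMeasurable (ae_of_all _ fun A =>
        (Real.norm_of_nonneg (Prog.dev_nonneg hPw _ _ _ _)).trans_le (hle A))
    refine ⟨hDi, (integral_mono hDi hes hle).trans (le_of_eq_of_le ?_ heb)⟩
    rw [integral_prod _ he, integral_unique (α := Empty → Space N.q.d), probReal_univ, one_smul]
    exact integral_congr_ae (ae_of_all _ fun A =>
      congrArg (fun x => e (x, A)) (Subsingleton.elim _ _))
  set G := ‖N.q.P.g (N.q.σ • p)‖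
  set t := Dd ^ |cY| * (1 + G)
  have ht : 0 < t := by positivity
  have ht2 : ∫ x, ‖Yf x‖ ^ 2 ∂gp C N.q.d ≤ t ^ 2 := by
    refine hYb.trans ?_
    rw [mul_pow, ← Real.rpow_natCast (Dd ^ |cY|), ← Real.rpow_mul hd0.le]
    refine mul_le_mul_of_nonneg_right (Real.rpow_le_rpow_of_exponent_le hd ?_) (sq_nonneg _)
    push_cast
    linarith [le_abs_self cY, abs_nonneg cY]
  obtain ⟨hMi, hMb⟩ := centre_mass (K := K) N.q.d hdn hYc ht hYi ht2
  set M : (C ⊕ K → Space N.q.d) × Space N.q.d → ℝ := fun w =>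
    ‖Yf fun l => w.1 (.inl l)‖ + ‖w.2‖ + ∑ l, ‖w.1 (.inr l)‖
  have hWi : Integrable (fun w => Dd ^ (η₀ - κ) * (1 + Dd ^ (-B') * (G + M w)))
      ((gp (C ⊕ K) N.q.d).prod (gam N.q.d)) :=
    ((integrable_const (1 : ℝ)).add
      (((integrable_const G).add hMi).const_mul (Dd ^ (-B')))).const_mul _
  have hcm : ∀ w, ‖ctr w‖ ≤ M w := fun w => by
    have hra : N.r * N.a ∈ Icc (0 : ℝ) 1 := N.pub.ra_mem
    have ha' := N.a_mem
    have hw : Real.sqrt (1 - N.a ^ 2) ∈ Icc (0 : ℝ) 1 := N.pub.sqrt_mem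
    simp only [ctr]
    rw [norm_smul, Real.norm_of_nonneg hra.1]
    refine (mul_le_of_le_one_left (norm_nonneg _) hra.2).trans ((norm_add_le _ _).trans ?_)
    rw [norm_smul, norm_smul, Real.norm_of_nonneg (by linarith [ha'.1] : 0 ≤ N.a),
      Real.norm_of_nonneg hw.1]
    show _ ≤ ‖Yf fun l => w.1 (.inl l)‖ + ‖w.2‖ + ∑ l, ‖w.1 (.inr l)‖
    rw [add_assoc]
    refine add_le_add (mul_le_of_le_one_left (norm_nonneg _) ha'.2)
      ((mul_le_of_le_one_left (norm_nonneg _) hw.2).trans ((norm_add_le _ _).trans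
        (add_le_add ?_ ((norm_sum_le _ _).trans (Finset.sum_le_sum fun l _ => ?_)))))
    · rw [norm_smul, Real.norm_eq_abs]
      exact mul_le_of_le_one_left (norm_nonneg _) hc0
    · rw [norm_smul, Real.norm_eq_abs]
      exact mul_le_of_le_one_left (norm_nonneg _) (hcl l)
  have hb1 : ∀ w, ∫ A, D (cen w, A) ∂gp Unit N.q.d
      ≤ Dd ^ (η₀ - κ) * (1 + Dd ^ (-B') * (G + M w)) := fun w => by
    refine (hchild _).2.trans (mul_le_mul_of_nonneg_left (add_le_add le_rfl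
      (mul_le_mul_of_nonneg_left ?_ (Real.rpow_nonneg hd0.le _))) (Real.rpow_nonneg hd0.le _))
    simp only [cen, smul_smul, mul_assoc, mul_inv_cancel₀ (Real.sqrt_pos.2 N.pub.v_pos).ne', mul_one]
    refine (N.q.norm_og_le p (ctr w)).trans (add_le_add le_rfl ?_)
    refine (mul_le_of_le_one_left (mul_nonneg N.q.σ_pos.le (norm_nonneg _)) ?_).trans
      ((mul_le_of_le_one_left (norm_nonneg _) N.q.σ_le).trans (hcm w))
    exact N.q.h_le.trans (Real.rpow_le_one_of_one_le_of_nonpos hd (by linarith))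
  obtain ⟨hEi, hEb⟩ := avg_err hDc (fun z => Prog.dev_nonneg hPw _ _ _ _) (fun q => (hchild q).1)
    (cen := cen) (by simp only [cen]; fun_prop) hWi hb1
  set π : (C ⊕ K → Space N.q.d) × (Unit → Space N.q.d) → (C → Space N.q.d) × (Unit → Space N.q.d) :=
    fun z => (fun l => z.1 (.inl l), z.2)
  have hπ : MeasurePreserving π ((gp (C ⊕ K) N.q.d).prod (gp Unit N.q.d))
      ((gp C N.q.d).prod (gp Unit N.q.d)) := (inl_mp N.q.d).prod (MeasurePreserving.id _)
  have i1 := hπ.integrable_comp_of_integrable heyi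
  set k₁ := N.pub.gain * Kc * |N.pub.cy α|
  have hg := N.pub.gain_mem
  refine ⟨fun z => k₁ * ey (π z) + N.pub.gain * ∫ u, D (cen (z.1, u), z.2) ∂gam N.q.d,
    (i1.const_mul k₁).add (hEi.const_mul _), ?_, fun y A => ?_⟩
  · set wt := 1 + Dd ^ (-B) * G
    rw [integral_add (show Integrable (fun z => k₁ * ey (π z)) _ from i1.const_mul k₁)
      (hEi.const_mul _), integral_const_mul, integral_const_mul]
    have hwt : 0 ≤ wt := by positivity
    have e1 : ∫ z, ey (π z) ∂(gp (C ⊕ K) N.q.d).prod (gp Unit N.q.d)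
        ≤ Dd ^ (η₀ - κy) * wt := by
      refine le_of_eq_of_le ?_ heyb
      conv_rhs => rw [← hπ.map_eq]
      rw [integral_map hπ.measurable.aemeasurable]
      rw [hπ.map_eq]
      exact heyi.1
    have e2 : ∫ w, Dd ^ (η₀ - κ) * (1 + Dd ^ (-B') * (G + M w))
          ∂(gp (C ⊕ K) N.q.d).prod (gam N.q.d)
        ≤ Dd ^ (η₀ - κ) * ((3 + (Fintype.card K : ℝ)) * wt) := by
      rw [integral_const_mul, integral_add (integrable_const _)
        (show Integrable (fun w => Dd ^ (-B') * (G + M w)) _ from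
          ((integrable_const G).add hMi).const_mul _), integral_const_mul,
        integral_add (integrable_const _) hMi, integral_const, integral_const, probReal_univ,
        one_smul, one_smul]
      exact mul_le_mul_of_nonneg_left (child_weight hd hB' (Nat.cast_nonneg _) (norm_nonneg _) hMb)
        (Real.rpow_nonneg hd0.le _)
    have hk1 : k₁ ≤ Dd ^ (η₀ + a + ε₀ - α) := by
      have hge : N.pub.gain * (Real.sqrt N.pub.v)⁻¹ = Dd ^ (b / 2) := N.pub.gain_eq
      have hcy : |N.pub.cy α| ≤ (Real.sqrt N.pub.v)⁻¹ * Dd ^ (-α) := N.pub.abs_cy α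
      refine (mul_le_mul_of_nonneg_left hcy (mul_nonneg hg.1 hKc)).trans_eq ?_
      rw [show N.pub.gain * Kc * ((Real.sqrt N.pub.v)⁻¹ * Dd ^ (-α))
          = (N.pub.gain * (Real.sqrt N.pub.v)⁻¹) * Kc * Dd ^ (-α) by ring, hge]
      rw [← Real.rpow_add hd0, ← Real.rpow_add hd0]
      simp only [κ']
      ring_nf
    refine (add_le_add (mul_le_mul hk1 e1 (integral_nonneg fun z => ?_)
      (Real.rpow_nonneg hd0.le _)) ((mul_le_of_le_one_left (integral_nonneg fun z => ?_) hg.2).trans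
        (hEb.trans e2))).trans ?_
    · exact Close.nonneg (heyc _ _)
    · exact integral_nonneg fun u => Prog.dev_nonneg hPw _ _ _ _
    rw [← mul_assoc, ← Real.rpow_add hd0, ← mul_assoc, ← add_mul]
    refine mul_le_mul_of_nonneg_right ?_ hwt
    have h5 : Dd ^ (η₀ + a + ε₀ - α + (η₀ - κy)) ≤ Dd ^ (2 * η₀ - κ) :=
      Real.rpow_le_rpow_of_exponent_le hd (by linarith)
    have h6 : Dd ^ (η₀ - κ) ≤ Dd ^ (2 * η₀ - κ) :=
      Real.rpow_le_rpow_of_exponent_le hd (by linarith)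
    calc Dd ^ (η₀ + a + ε₀ - α + (η₀ - κy)) + Dd ^ (η₀ - κ) * (3 + (Fintype.card K : ℝ))
        ≤ Dd ^ (2 * η₀ - κ) * (4 + (Fintype.card K : ℝ)) := by
          nlinarith [mul_le_mul_of_nonneg_right h6
            (show (0 : ℝ) ≤ 3 + (Fintype.card K : ℝ) by positivity)]
      _ ≤ Dd ^ (2 * η₀ - κ) * Dd ^ η₀ :=
          mul_le_mul_of_nonneg_left h4d (Real.rpow_nonneg hd0.le _)
      _ = Dd ^ (3 * η₀ - κ) := by rw [← Real.rpow_add hd0]; ring_nf
      _ ≤ Dd ^ (4 * η₀ - κ) := Real.rpow_le_rpow_of_exponent_le hd (by linarith)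
  · obtain ⟨-, hC⟩ := valProg_close (K := K) N (B' := B') (a := a) (c := c) hPw hKc hcL hsj
      rfl (Yf fun l => y (.inl l)) p y A (heyc _ _)
    exact hC

/-- Mean oracles of the children give the drift at a computed point. -/
theorem valThm : ValThm := by
  intro γ H B δv b S α κ κy φ φc g hγ hb hbδ hδS hSα hg hgφ hφc hκ hM C K _ _ _ _ J f Y c₀ c hPts
    hsum hsep a ha ε hε
  obtain ⟨hYs, hYr, cY, hYm⟩ := hPts
  have hα : 0 < α := by linarith
  set ε₀ := min (ε / 4) (α / 2) with hε₀def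
  have hε₀ : 0 < ε₀ := lt_min (by linarith) (by linarith)
  have hε4 : ε₀ ≤ ε / 4 := min_le_left _ _
  have hα2 : ε₀ ≤ α / 2 := min_le_right _ _
  set B' := max B 0 + |cY| + 1 with hB'
  set κ' := a - b / 2 with hκ'
  obtain ⟨Ry, hyq, hyl, hyi, hyw⟩ := hYr ε₀ hε₀
  obtain ⟨Rc, hcq, hcl, hci, hcw⟩ := hM (H + δv) B' κ' (by linarith) ε₀ hε₀
  set R : Run (NQ B f) (C ⊕ K) Unit := Run.of fun n : NK γ H δv b S =>
    valProg n (Ry.atK n) (Rc.atK n.child) α (c₀ n) (c n)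
  have hcle : ∀ (j : J) l, |c (f j).pub l| ≤ 1 := fun j l => by
    rw [← sq_le_one_iff_abs_le_one]
    refine (Finset.single_le_sum (f := fun l => c (f j).pub l ^ 2) (fun l _ => sq_nonneg _)
      (Finset.mem_univ l)).trans ?_
    linarith [hsum j, sq_nonneg (c₀ (f j).pub)]
  have hc0 : ∀ j : J, |c₀ (f j).pub| ≤ 1 := fun j => by
    rw [← sq_le_one_iff_abs_le_one]
    linarith [hsum j, Finset.sum_nonneg fun l (_ : l ∈ Finset.univ) => sq_nonneg (c (f j).pub l)]
  refine ⟨R, ?_, fun (j : J) => ?_, Run.lipIn_of fun η hη => ?_, fun η hη => ?_⟩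
  · refine ((hyq.and (ev_child hcq)).and
      ((NQ B f).ev_one_le.and ((NQ B f).ev_le_rpow 2 hε₀))).mono
        fun (j : J) ⟨⟨h1, h2⟩, hd, h2d⟩ => ?_
    set Dd := (NQ B f).dd j
    show ((Ry.kq (f j).pub + (Rc.kq (f j).pub.child + 0) : ℕ) : ℝ) ≤ Dd ^ ε
    rw [add_zero, Nat.cast_add]
    refine (add_le_add h1 (show (Rc.kq (f j).pub.child : ℝ) ≤ Dd ^ ε₀ from h2)).trans ?_
    have h3 : Dd ^ ε₀ * Dd ^ ε₀ ≤ Dd ^ ε := by
      rw [← Real.rpow_add (by linarith)]
      exact Real.rpow_le_rpow_of_exponent_le hd (by linarith)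
    nlinarith [Real.rpow_nonneg (by linarith : (0 : ℝ) ≤ Dd) ε₀]
  · exact Prog.node_lipW (hyl.lipW j)
      (Prog.add_lipW (Prog.smul_lipW
        (hcl.lipW ((f j).q.child (f j).pub.v δv (f j).var_ge (f j).pub.v_le_one)) _)
        (Prog.noise_lipW _ _))
  · set η₀ := η / 3
    have hη₀ : 0 < η₀ := by positivity
    refine (((hyi.lip hη₀).and (ev_child (hci.lip hη₀))).and
      ((NQ B f).ev_one_le.and ((NQ B f).ev_le_rpow (3 + (Fintype.card K : ℝ)) hη₀))).mono
        fun (j : J) ⟨⟨h1, h2⟩, hd, h3d⟩ => ?_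
    set Dd := (NQ B f).dd j
    have hd0 : 0 < Dd := one_pos.trans_le hd
    refine (valProg_lip (f j).pub h1 h2 (Real.rpow_nonneg hd0.le _) (Real.rpow_nonneg hd0.le _)
      (hcle j)).mono ?_
    show Dd ^ (η₀ - (0 - κ' - ε₀)) * Dd ^ (b / 2)
        * (2 + (Fintype.card K : ℝ) + Dd ^ (-α) * Dd ^ (η₀ - (-α - ε₀))) ≤ Dd ^ (η - (0 - a - ε))
    rw [← Real.rpow_add hd0, ← Real.rpow_add hd0]
    set e := η₀ + ε₀
    have he : 1 ≤ Dd ^ e := Real.one_le_rpow hd (by positivity)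
    rw [show η₀ - (0 - κ' - ε₀) + b / 2 = a + e by simp only [e, κ']; ring,
      show -α + (η₀ - (-α - ε₀)) = e by simp only [e]; ring]
    have h4 : Dd ^ (a + e) * (Dd ^ η₀ * Dd ^ e) ≤ Dd ^ (η - (0 - a - ε)) := by
      rw [← Real.rpow_add hd0, ← Real.rpow_add hd0]
      exact Real.rpow_le_rpow_of_exponent_le hd (by simp only [e, η₀]; linarith)
    refine le_trans (mul_le_mul_of_nonneg_left ?_ (Real.rpow_nonneg hd0.le _)) h4
    nlinarith [mul_le_mul_of_nonneg_right h3d (zero_le_one.trans he),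
      mul_nonneg (Nat.cast_nonneg (α := ℝ) (Fintype.card K)) (sub_nonneg.2 he)]
  · set η₀ := η / 4 with hη₀def
    have hη₀ : 0 < η₀ := by positivity
    refine ((((hyw.close hyl hη₀).and (ev_child (hcw.close hcl hη₀))).and
      ((ev_child (hci.lip hη₀)).and hsep)).and
      (hYm.and ((NQ B f).ev_one_le.and ((NQ B f).ev_le_rpow (4 + (Fintype.card K : ℝ)) hη₀)))).mono
        fun (j : J) ⟨⟨⟨hy1, hc1⟩, hcL, hsj⟩, hYj, hd, h4d⟩ p => ?_
    have hYc : Continuous fun x : C → Space ((NQ B f).dm j) => vecOf Y j p x :=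
      continuous_finsetSum _ fun l _ =>
        ((hYs j p (fun _ => l) 0).1.continuous).smul continuous_const
    obtain ⟨ey, heyi, heyb, heyc⟩ := hy1 p
    obtain ⟨hYi, hYb⟩ := hYj p
    obtain ⟨e, hei, heb, hec⟩ := val_node (f j) (Py := Ry.at j) (Pc := Rc.atK (f j).pub.child)
      (c₀ := c₀ (f j).pub) (c := c (f j).pub) (B := B) (B' := B') (cY := cY) (κ := κ) (κy := κy)
      (a := a) (ε₀ := ε₀) hγ.le rfl hη₀ (by linarith) (hc0 j) (hcle j)
      (hcl.lipW ((f j).q.child (f j).pub.v δv (f j).var_ge (f j).pub.v_le_one)) hcL hsj hd h4d p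
      hYc hYi hYb heyi heyb (fun x A => by
        have h0 := heyc x A
        erw [apT_vecOf] at h0
        exact h0) (fun q => by
        obtain ⟨e, he, heb, hec⟩ := hc1 q
        refine ⟨e, he, heb, fun x A => ?_⟩
        have h1 := hec x A
        erw [QI.mvec_eq] at h1
        exact h1)
    refine ⟨e, hei, heb.trans_eq (by rw [hη₀def, mul_div_cancel₀ _ four_ne_zero]; rfl),
      fun y A ψ L hψ => ?_⟩
    refine le_of_eq_of_le ?_ (((hec y A).scaled hψ).trans_eq (mul_comm _ _))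
    have hi := integrable_test hψ (hec y A).intY
    refine congrArg (fun t => |_ - t|) ?_
    rw [integral_prod _ hi]
    simp only [one_smul]
    have hev := measurePreserving_eval (fun _ : Unit => gam (f j).q.d) ()
    conv_rhs => rw [← hev.map_eq]
    rw [integral_map hev.measurable.aemeasurable]
    · refine integral_congr_ae (ae_of_all _ fun x => ?_)
      have key : ∀ cen : Space (f j).q.d, (WithLp.toLp 2 fun l => driftT ((f j).q.pot p)
          (f j).pub.v 0 cen (fun o => o.elim l Fin.elim0) / (f j).q.hs : Space (f j).q.d)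
            = (f j).q.dvec (f j).pub.v p cen := fun cen => by
        ext l
        exact ((f j).q.dvec_apply (f j).pub.v p cen l).symm
      beta_reduce
      rw [← key]
      erw [apT_toLp]
      rw [hev.map_eq]
      rfl
    · rw [hev.map_eq]
      exact hi.integral_prod_left.1.congr (ae_of_all _ fun u => by simp only [one_smul])

end Vale.Agent.P347.Zero
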