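import Vale.Agent.P347.Zero.Stein
import Vale.Agent.P347.Zero.Tensor

/-!
The exact identity behind deconvolution. A scalar field `f` of Gaussian seeds is the weak divergence
of a vector field `u` when `E[f ψ] = E⟪u, ∇ψ⟫` for every test `ψ`. Coordinates, centred functions
(through the field `Gt`), resolvents of one block and all their linear combinations are such. A map
of the seeds whose components are weak divergences is as close to the Gaussian law as its kernel
`⟪u i, ∇Φ k⟫` is to the identity in Hilbert-Schmidt norm.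
-/

noncomputable section

open MeasureTheory ProbabilityTheory Set Filter Topology
open scoped RealInnerProductSpace NNReal

namespace Vale.Agent.P347.Zero

set_option maxSynthPendingDepth 3

variable {n d : ℕ}

/-- `f` is the weak Gaussian divergence of `u`. -/
structure IsDiv (u : Space n → Space n) (f : Space n → ℝ) : Prop where
  fc : Continuous f
  fg : Grow f
  uc : Continuous u
  ug : Grow u
  ibp : ∀ ψ : Space n → ℝ, Nice ψ →
    ∫ x, f x * ψ x ∂gam n = ∫ x, ∑ j, u x j * fderiv ℝ ψ x (ev j) ∂gam n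

/-- The Stein kernel of `Φ` for the fields `u`. -/
def steinKer (u : Fin d → Space n → Space n) (Φ : Space n → Space d) (x : Space n) (i k : Fin d) :
    ℝ :=
  ∑ j, u i x j * fderiv ℝ (fun y => Φ y k) x (ev j)

/-- The squared Hilbert-Schmidt distance of the kernel from the identity. -/
def kerDev (u : Fin d → Space n → Space n) (Φ : Space n → Space d) (x : Space n) : ℝ :=
  ∑ i, ∑ k, ((if i = k then (1 : ℝ) else 0) - steinKer u Φ x i k) ^ 2

namespace SteinAux

theorem fderiv_comp_coord {m : ℕ} {F : Space n → Space m}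
    (hF : ∀ k, Differentiable ℝ fun y => F y k) (x v : Space n) (k : Fin m) :
    fderiv ℝ F x v k = fderiv ℝ (fun y => F y k) x v := by
  have hd : DifferentiableAt ℝ F x := differentiableAt_euclidean.2 fun k => hF k x
  have h := ((EuclideanSpace.proj (𝕜 := ℝ) k).hasFDerivAt.comp x hd.hasFDerivAt).fderiv
  have e : (⇑(EuclideanSpace.proj (𝕜 := ℝ) k) ∘ F) = fun y => F y k := rfl
  rw [e] at h
  rw [h]
  rfl

theorem dlt_coord {u : Space n → Space n} (hu : ∀ j, Nice fun y => u y j) (x : Space n) :
    dlt u x = ∑ j, (x j * u x j - fderiv ℝ (fun y => u y j) x (ev j)) := by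
  rw [Finset.sum_sub_distrib, dlt, trc]
  congr 1
  · simp [PiLp.inner_apply, mul_comm]
  · exact Finset.sum_congr rfl fun j _ => fderiv_comp_coord (fun j => (hu j).diff) x (ev j) j

theorem hess_entry {U : Space d → ℝ} (hUh : HessBound U 1) (y : Space d) (k i : Fin d) :
    |fderiv ℝ (fderiv ℝ U) y (ev k) (ev i)| ≤ 1 := by
  have h := hUh y
  rw [one_pow] at h
  have h1 : fderiv ℝ (fderiv ℝ U) y (ev k) (ev i) ^ 2 ≤ 1 :=
    le_trans (le_trans
      (Finset.single_le_sum (f := fun i => fderiv ℝ (fderiv ℝ U) y (ev k) (ev i) ^ 2)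
        (fun _ _ => sq_nonneg _) (Finset.mem_univ i))
      (Finset.single_le_sum (f := fun k => ∑ i, fderiv ℝ (fderiv ℝ U) y (ev k) (ev i) ^ 2)
        (fun _ _ => Finset.sum_nonneg fun _ _ => sq_nonneg _) (Finset.mem_univ k))) h
  exact abs_le_of_sq_le_sq' (by simpa using h1) zero_le_one |> abs_le.2

/-- The gradient of a test along the map, with its derivative. -/
theorem grad_along {U : Space d → ℝ} (hU : ContDiff ℝ 2 U) (hUh : HessBound U 1)
    {Φ : Space n → Space d} (hΦ : ∀ k, Nice fun y => Φ y k) (i : Fin d) :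
    Nice (fun y => fderiv ℝ U (Φ y) (ev i)) ∧ ∀ x v,
      fderiv ℝ (fun y => fderiv ℝ U (Φ y) (ev i)) x v
        = ∑ k, fderiv ℝ (fun y => Φ y k) x v * fderiv ℝ (fderiv ℝ U) (Φ x) (ev k) (ev i) := by
  have hD1 : ContDiff ℝ 1 (fderiv ℝ U) := hU.fderiv_right (by norm_num)
  have hΦ1 : ContDiff ℝ 1 Φ := contDiff_euclidean.2 fun k => (hΦ k).1
  have hder : ∀ x v, fderiv ℝ (fun y => fderiv ℝ U (Φ y) (ev i)) x v
      = ∑ k, fderiv ℝ (fun y => Φ y k) x v * fderiv ℝ (fderiv ℝ U) (Φ x) (ev k) (ev i) := by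
    intro x v
    have h1 := ((hD1.differentiable one_ne_zero (Φ x)).hasFDerivAt.comp x
      (hΦ1.differentiable one_ne_zero x).hasFDerivAt).clm_apply (hasFDerivAt_const (ev i) x)
    simp only [Function.comp_apply] at h1
    rw [h1.fderiv]
    have e : fderiv ℝ Φ x v = ∑ k, fderiv ℝ Φ x v k • ev k := by
      ext j
      simp [ev, Pi.single_apply]
    simp only [add_apply, ContinuousLinearMap.comp_apply, ContinuousLinearMap.flip_apply,
      zero_apply, map_zero, zero_add]
    rw [e]
    simp only [map_sum, map_smul, sum_apply, smul_apply, smul_eq_mul,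
      fderiv_comp_coord (fun k => (hΦ k).diff)]
  refine ⟨Nice.of_bound ((hD1.comp hΦ1).clm_apply contDiff_const)
    (G := fun x => ∑ k, ‖fderiv ℝ (fun y => Φ y k) x‖)
    (grow_finsum _ fun k => grow_norm (hΦ k).2) fun x => ?_, hder⟩
  refine ContinuousLinearMap.opNorm_le_bound _ (Finset.sum_nonneg fun _ _ => norm_nonneg _)
    fun v => ?_
  rw [hder, Finset.sum_mul]
  refine (norm_sum_le _ _).trans (Finset.sum_le_sum fun k _ => ?_)
  rw [norm_mul, Real.norm_eq_abs (fderiv ℝ (fderiv ℝ U) _ _ _)]
  exact (mul_le_of_le_one_right (norm_nonneg _) (hess_entry hUh _ k i)).trans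
    ((fderiv ℝ (fun y => Φ y k) x).le_opNorm v)

end SteinAux

namespace SteinAux

theorem grow_coord' {m : ℕ} {v : Space n → Space m} (hv : Grow v) (j : Fin m) :
    Grow fun x => v x j :=
  grow_mono hv fun x => by rw [Real.norm_eq_abs]; exact P245.abs_coord_le _ j

theorem cont_coord' {m : ℕ} {v : Space n → Space m} (hv : Continuous v) (j : Fin m) :
    Continuous fun x => v x j :=
  (EuclideanSpace.proj (𝕜 := ℝ) j).continuous.comp hv

theorem grow_of_coord {m : ℕ} {v : Space n → Space m} (hv : ∀ j, Grow fun x => v x j) : Grow v := by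
  refine grow_mono (g := fun x => ∑ j, ‖v x j‖) (grow_finsum _ fun j => grow_norm (hv j)) fun x => ?_
  refine le_trans ?_ (le_abs_self _)
  have e : v x = ∑ j, v x j • ev j := by
    ext k
    simp [ev, Pi.single_apply]
  conv_lhs => rw [e]
  exact (norm_sum_le _ _).trans_eq (Finset.sum_congr rfl fun j _ => by
    rw [norm_smul, norm_ev, mul_one])

theorem pair_int {u : Space n → Space n} (hc : Continuous u) (hg : Grow u) {ψ : Space n → ℝ}
    (hψ : Nice ψ) : Integrable (fun x => ∑ j, u x j * fderiv ℝ ψ x (ev j)) (gam n) :=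
  gam_int (continuous_finsetSum _ fun j _ => (cont_coord' hc j).mul (hψ.cont_deriv _))
    (grow_finsum _ fun j => grow_mul (grow_coord' hg j) (hψ.grow_deriv _))

theorem norm_mix_le (x : Space n) {p : ℝ × Space n} (hp : p.1 ∈ Ioo (0 : ℝ) 1) :
    1 + ‖mix x p‖ ≤ (1 + ‖x‖) * (1 + ‖p.2‖) := by
  have h1 : ‖mix x p‖ ≤ ‖x‖ + ‖p.2‖ := by
    refine (norm_add_le _ _).trans (add_le_add ?_ ?_)
    · rw [norm_smul, Real.norm_eq_abs, abs_of_pos hp.1]
      exact mul_le_of_le_one_left (norm_nonneg _) hp.2.le
    · rw [norm_smul, Real.norm_eq_abs, abs_of_nonneg (Real.sqrt_nonneg _)]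
      exact mul_le_of_le_one_left (norm_nonneg _) (Real.sqrt_le_one.2 (by nlinarith))
  nlinarith [mul_nonneg (norm_nonneg x) (norm_nonneg p.2)]

theorem poly_snd_int (k : ℕ) : Integrable (fun p : ℝ × Space n => (1 + ‖p.2‖) ^ k) (tg n) := by
  have := unit_prob
  exact Integrable.comp_snd (int_poly k) _

theorem mix_grow {F : Space n → ℝ} (hg : Grow F) : ∃ (C : ℝ) (k : ℕ), 0 ≤ C ∧
    ∀ (x : Space n) (p : ℝ × Space n), p.1 ∈ Ioo (0 : ℝ) 1 →
      |F (mix x p)| ≤ C * (1 + ‖x‖) ^ k * (1 + ‖p.2‖) ^ k := by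
  obtain ⟨C, k, hC⟩ := hg
  refine ⟨|C|, k, abs_nonneg C, fun x p hp => (hC _).trans ?_⟩
  rw [mul_assoc, ← mul_pow]
  exact mul_le_mul (le_abs_self C) (pow_le_pow_left₀ (by positivity) (norm_mix_le x hp) k)
    (by positivity) (abs_nonneg C)

theorem mix_int {F : Space n → ℝ} (hc : Continuous F) (hg : Grow F) (x : Space n) :
    Integrable (fun p => F (mix x p)) (tg n) := by
  obtain ⟨C, k, -, hC⟩ := mix_grow hg
  refine Integrable.mono' ((poly_snd_int k).const_mul (C * (1 + ‖x‖) ^ k))
    (hc.comp (continuous_mix x)).aestronglyMeasurable ?_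
  filter_upwards [tg_mem] with p hp
  exact hC x p hp

/-- Averages over the correlation stay continuous, of polynomial growth. -/
theorem mixAvg_reg {F : Space n → ℝ} (hc : Continuous F) (hg : Grow F) :
    (Continuous fun x => ∫ p, F (mix x p) ∂tg n) ∧ Grow fun x => ∫ p, F (mix x p) ∂tg n := by
  obtain ⟨C, k, hC0, hC⟩ := mix_grow hg
  constructor
  · refine continuous_iff_continuousAt.2 fun x₀ => continuousAt_of_dominated
      (bound := fun p => C * (2 + ‖x₀‖) ^ k * (1 + ‖p.2‖) ^ k)
      (Eventually.of_forall fun x => (mix_int hc hg x).aestronglyMeasurable) ?_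
      ((poly_snd_int k).const_mul _)
      (ae_of_all _ fun p => (hc.comp (continuous_mix_left p)).continuousAt)
    filter_upwards [Metric.ball_mem_nhds x₀ one_pos] with x hx
    filter_upwards [tg_mem] with p hp
    refine (hC x p hp).trans ?_
    rw [mem_ball_iff_norm] at hx
    have h1 := norm_le_norm_add_norm_sub' x x₀
    gcongr C * ?_ * _
    exact pow_le_pow_left₀ (by positivity) (by linarith) k
  · refine ⟨C * ∫ p : ℝ × Space n, (1 + ‖p.2‖) ^ k ∂tg n, k, fun x => ?_⟩
    refine (norm_integral_le_of_norm_le ((poly_snd_int k).const_mul (C * (1 + ‖x‖) ^ k)) ?_).trans_eq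
      (by rw [integral_const_mul]; ring)
    filter_upwards [tg_mem] with p hp
    exact hC x p hp

end SteinAux

open SteinAux

/-! ### Weak divergences -/

theorem IsDiv.add {u v : Space n → Space n} {f g : Space n → ℝ} (hf : IsDiv u f)
    (hg : IsDiv v g) : IsDiv (fun x => u x + v x) fun x => f x + g x := by
  refine ⟨hf.fc.add hg.fc, grow_add hf.fg hg.fg, hf.uc.add hg.uc, grow_add hf.ug hg.ug,
    fun ψ hψ => ?_⟩
  have e : ∀ x, ∑ j, (u x + v x) j * fderiv ℝ ψ x (ev j)
      = (∑ j, u x j * fderiv ℝ ψ x (ev j)) + ∑ j, v x j * fderiv ℝ ψ x (ev j) := fun x => by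
    rw [← Finset.sum_add_distrib]
    exact Finset.sum_congr rfl fun j _ => by rw [PiLp.add_apply, add_mul]
  simp only [e, add_mul]
  rw [integral_add (gam_int (hf.fc.fun_mul hψ.cont) (grow_mul hf.fg hψ.grow))
      (gam_int (hg.fc.fun_mul hψ.cont) (grow_mul hg.fg hψ.grow)),
    integral_add (pair_int hf.uc hf.ug hψ) (pair_int hg.uc hg.ug hψ), hf.ibp ψ hψ, hg.ibp ψ hψ]

theorem IsDiv.smul {u : Space n → Space n} {f : Space n → ℝ} (hf : IsDiv u f) (c : ℝ) :
    IsDiv (fun x => c • u x) fun x => c * f x := by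
  refine ⟨continuous_const.mul hf.fc, grow_mul (grow_const c) hf.fg, hf.uc.const_smul c,
    grow_of_coord fun j => ?_, fun ψ hψ => ?_⟩
  · simp only [PiLp.smul_apply, smul_eq_mul]
    exact grow_mul (grow_const c) (grow_coord' hf.ug j)
  · simp only [PiLp.smul_apply, smul_eq_mul, mul_assoc, ← Finset.mul_sum, integral_const_mul,
      hf.ibp ψ hψ]

theorem isDiv_zero : IsDiv (fun _ : Space n => 0) fun _ => 0 :=
  ⟨continuous_const, grow_const 0, continuous_const, grow_const 0, fun ψ _ => by simp⟩

theorem IsDiv.congr {u v : Space n → Space n} {f g : Space n → ℝ} (h : IsDiv u f)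
    (hu : ∀ x, v x = u x) (hf : ∀ x, g x = f x) : IsDiv v g := by
  obtain rfl : v = u := funext hu
  obtain rfl : g = f := funext hf
  exact h

theorem IsDiv.sum {ι : Type*} (s : Finset ι) {u : ι → Space n → Space n} {f : ι → Space n → ℝ}
    (h : ∀ i, IsDiv (u i) (f i)) :
    IsDiv (fun x => ∑ i ∈ s, u i x) fun x => ∑ i ∈ s, f i x := by
  classical
  induction s using Finset.induction with
  | empty => simpa using isDiv_zero (n := n)
  | insert a t ha ih => simpa [Finset.sum_insert ha] using (h a).add ih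

/-- A coordinate. -/
theorem isDiv_coord (k : Fin n) : IsDiv (fun _ => ev k) fun x : Space n => x k :=
  ⟨(nice_coord k).cont, grow_coord k, continuous_const, grow_const _, fun ψ hψ => by
    have h := gStein hψ (ev k)
    simp only [coord_inner] at h
    rw [h]
    refine integral_congr_ae (ae_of_all _ fun x => ?_)
    simp [ev]⟩

/-- A divergence. -/
theorem isDiv_dlt {u : Space n → Space n} (hu : ∀ j, Nice fun x => u x j) : IsDiv u (dlt u) := by
  have hg : Grow u := grow_of_coord fun j => (hu j).grow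
  have hc : Continuous u := (contDiff_euclidean.2 fun j => (hu j).1).continuous
  have hfc : ∀ j, Continuous fun x => x j * u x j - fderiv ℝ (fun y => u y j) x (ev j) := fun j =>
    ((nice_coord j).cont.mul (hu j).cont).sub ((hu j).cont_deriv _)
  have hfg : ∀ j, Grow fun x => x j * u x j - fderiv ℝ (fun y => u y j) x (ev j) := fun j =>
    grow_add (grow_mul (grow_coord j) (hu j).grow)
      (grow_mono ((hu j).grow_deriv (ev j)) fun x => (norm_neg _).le)
  have e := funext (dlt_coord hu)
  refine ⟨e ▸ continuous_finsetSum _ fun j _ => hfc j, e ▸ grow_finsum _ hfg, hc, hg,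
    fun ψ hψ => ?_⟩
  rw [e]
  simp only [Finset.sum_mul]
  rw [integral_finsetSum _ fun j _ =>
      gam_int ((hfc j).fun_mul hψ.cont) (grow_mul (hfg j) hψ.grow),
    integral_finsetSum _ fun j _ => gam_int ((hu j).cont.fun_mul (hψ.cont_deriv _))
      (grow_mul (hu j).grow (hψ.grow_deriv _))]
  refine Finset.sum_congr rfl fun j _ => ?_
  have i1 : Integrable (fun x => x j * (u x j * ψ x)) (gam n) :=
    gam_int ((nice_coord j).cont.mul ((hu j).cont.mul hψ.cont))
      (grow_mul (grow_coord j) (grow_mul (hu j).grow hψ.grow))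
  have i2 : Integrable (fun x => fderiv ℝ (fun y => u y j) x (ev j) * ψ x) (gam n) :=
    gam_int (((hu j).cont_deriv _).mul hψ.cont) (grow_mul ((hu j).grow_deriv _) hψ.grow)
  simp only [sub_mul, mul_assoc]
  rw [integral_sub i1 i2, gStein_mul (hu j) hψ j]
  ring

theorem nice_zero : Nice fun _ : Space n => (0 : ℝ) :=
  Nice.of_bound contDiff_const (grow_const (0 : ℝ)) fun x => by simp

/-- The gradient part of a block. -/
def blockGrad (B : Finset (Fin n)) (F : Space n → ℝ) (x : Space n) : Space n :=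
  WithLp.toLp 2 fun j => if j ∈ B then fderiv ℝ F x (ev j) else 0

/-- The part of a field in a block. -/
def blockPart (B : Finset (Fin n)) (w : Space n → Space n) (x : Space n) : Space n :=
  WithLp.toLp 2 fun j => if j ∈ B then w x j else 0

/-- The resolvent of one block: if `F - L_B F = ⟪w, x⟫_B` and no `w j` depends on its own
coordinate `j` in the block, then `F` is the divergence of `w - ∇F` on the block. -/
theorem isDiv_resolvent (B : Finset (Fin n)) {F : Space n → ℝ} {w : Space n → Space n}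
    (hFd : ∀ j ∈ B, Nice fun x => fderiv ℝ F x (ev j)) (hw : ∀ j ∈ B, Nice fun x => w x j)
    (hw0 : ∀ j ∈ B, ∀ x, fderiv ℝ (fun y => w y j) x (ev j) = 0)
    (he : ∀ x, F x + ∑ j ∈ B, (x j * fderiv ℝ F x (ev j)
      - fderiv ℝ (fun y => fderiv ℝ F y (ev j)) x (ev j)) = ∑ j ∈ B, x j * w x j) :
    IsDiv (fun x => blockPart B w x - blockGrad B F x) F := by
  have n1 : ∀ j, Nice fun x => blockPart B w x j := fun j => by
    by_cases hj : j ∈ B
    · simpa [blockPart, hj] using hw j hj
    · simpa [blockPart, hj] using nice_zero (n := n)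
  have n2 : ∀ j, Nice fun x => blockGrad B F x j := fun j => by
    by_cases hj : j ∈ B
    · simpa [blockGrad, hj] using hFd j hj
    · simpa [blockGrad, hj] using nice_zero (n := n)
  refine ((isDiv_dlt n1).add ((isDiv_dlt n2).smul (-1))).congr (fun x => by module) fun x => ?_
  have e1 : dlt (blockPart B w) x = ∑ j ∈ B, x j * w x j := by
    rw [dlt_coord n1]
    refine ((Finset.sum_subset (Finset.subset_univ B) fun j _ hj => ?_).symm).trans
      (Finset.sum_congr rfl fun j hj => ?_)
    · simp [blockPart, hj]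
    · simp [blockPart, hj, hw0 j hj x]
  have e2 : dlt (blockGrad B F) x = ∑ j ∈ B, (x j * fderiv ℝ F x (ev j)
      - fderiv ℝ (fun y => fderiv ℝ F y (ev j)) x (ev j)) := by
    rw [dlt_coord n2]
    refine ((Finset.sum_subset (Finset.subset_univ B) fun j _ hj => ?_).symm).trans
      (Finset.sum_congr rfl fun j hj => ?_)
    · simp [blockGrad, hj]
    · simp [blockGrad, hj]
  rw [e1, e2, ← he x]
  ring

/-- The resolvent of a block on a field of degree `m` without a repeated coordinate: it is the
field divided by `1 + m`. -/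
theorem isDiv_homog (B : Finset (Fin n)) {w : Space n → Space n} {m : ℝ} (hm : 0 ≤ m)
    (hw : ∀ j ∈ B, Nice fun x => w x j)
    (hw0 : ∀ j ∈ B, ∀ x, fderiv ℝ (fun y => w y j) x (ev j) = 0)
    {G : Space n → ℝ} (hG : ∀ x, G x = ∑ j ∈ B, x j * w x j)
    (hGd : ∀ j ∈ B, Nice fun x => fderiv ℝ G x (ev j))
    (hdeg : ∀ x, ∑ j ∈ B, x j * fderiv ℝ G x (ev j) = m * G x)
    (hharm : ∀ j ∈ B, ∀ x, fderiv ℝ (fun y => fderiv ℝ G y (ev j)) x (ev j) = 0) :
    IsDiv (fun x => blockPart B w x - blockGrad B (fun y => (1 + m)⁻¹ * G y) x)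
      fun x => (1 + m)⁻¹ * G x := by
  have e : ∀ j x, fderiv ℝ (fun y => (1 + m)⁻¹ * G y) x (ev j)
      = (1 + m)⁻¹ * fderiv ℝ G x (ev j) := fun j x => by
    have h : fderiv ℝ ((1 + m)⁻¹ • G) = (1 + m)⁻¹ • fderiv ℝ G := fderiv_const_smul_field _
    exact congrFun (congrArg DFunLike.coe (congrFun h x)) (ev j)
  refine isDiv_resolvent B (fun j hj => ?_) hw hw0 fun x => ?_
  · simp only [e]
    exact Nice.mul (Nice.of_bound contDiff_const (grow_const (0 : ℝ)) fun x => by simp) (hGd j hj)
  · simp only [e]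
    have e2 : ∀ j ∈ B, x j * ((1 + m)⁻¹ * fderiv ℝ G x (ev j))
        - fderiv ℝ (fun y => (1 + m)⁻¹ * fderiv ℝ G y (ev j)) x (ev j)
        = (1 + m)⁻¹ * (x j * fderiv ℝ G x (ev j)) := fun j hj => by
      rw [fderiv_const_mul ((hGd j hj).diff x)]
      simp [hharm j hj x]
      ring
    rw [Finset.sum_congr rfl e2, ← Finset.mul_sum, hdeg, ← hG]
    field_simp

/-- The Gaussian average of the gradient over all correlations. -/
def Gt (φ : Space n → ℝ) (x : Space n) : Space n :=
  WithLp.toLp 2 fun j => ∫ p, fderiv ℝ φ (mix x p) (ev j) ∂tg n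

/-- The covariance identity for functions with one derivative. -/
theorem cov_nice {φ ψ : Space n → ℝ} (hφ : Nice φ) (hψ : Nice ψ) :
    (∫ x, φ x * ψ x ∂gam n) - (∫ x, φ x ∂gam n) * ∫ x, ψ x ∂gam n
      = ∫ x, ∑ j, Gt φ x j * fderiv ℝ ψ x (ev j) ∂gam n := by
  have := unit_prob
  have := tg_prob (d := n)
  set D : Space n → Space n →L[ℝ] ℝ := fderiv ℝ φ with hD
  have hDc : Continuous D := hφ.1.continuous_fderiv one_ne_zero
  set Z : ℝ × Space n × Space n → Space n := fun q => mix q.2.1 (q.1, q.2.2) with hZ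
  have hZc : Continuous Z := by simp only [hZ, mix]; fun_prop
  -- the integrand of the time derivative
  set A : ℝ × Space n × Space n → ℝ := fun q =>
    D (Z q) (q.2.1 + (-(q.1 / Real.sqrt (1 - q.1 ^ 2))) • q.2.2) * ψ q.2.1 with hA
  set W : ℝ × Space n × Space n → ℝ := fun q =>
    ∑ j, D (Z q) (ev j) * fderiv ℝ ψ q.2.1 (ev j) with hW
  set μt := volume.restrict (Ioo (0 : ℝ) 1) with hμt
  set G2 := (gam n).prod (gam n) with hG2
  obtain ⟨C, k, hC0, hC⟩ := mix_grow (grow_norm hφ.2)
  obtain ⟨E, m, hE⟩ := hψ.grow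
  obtain ⟨E', m', hE'⟩ := hψ.2
  have hq : ∀ᵐ q ∂μt.prod G2, q.1 ∈ Ioo (0 : ℝ) 1 :=
    (Measure.quasiMeasurePreserving_fst (μ := μt) (ν := G2)).ae (ae_restrict_mem measurableSet_Ioo)
  have hDb : ∀ q : ℝ × Space n × Space n, q.1 ∈ Ioo (0 : ℝ) 1 →
      ‖D (Z q)‖ ≤ C * (1 + ‖q.2.1‖) ^ k * (1 + ‖q.2.2‖) ^ k := fun q hq => by
    have h1 := hC q.2.1 (q.1, q.2.2) hq
    rwa [abs_norm] at h1
  have ipair : ∀ a b : ℕ, Integrable
      (fun p : Space n × Space n => (1 + ‖p.1‖) ^ a * (1 + ‖p.2‖) ^ b) G2 := fun a b =>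
    Integrable.mul_prod (int_poly a) (int_poly b)
  have hAi : Integrable A (μt.prod G2) := by
    have hb : Integrable (fun q : ℝ × Space n × Space n => (1 + q.1 / Real.sqrt (1 - q.1 ^ 2))
        * (C * |E| * ((1 + ‖q.2.1‖) ^ (k + m + 1) * (1 + ‖q.2.2‖) ^ (k + 1)))) (μt.prod G2) :=
      Integrable.mul_prod (f := fun t : ℝ => 1 + t / Real.sqrt (1 - t ^ 2))
        (g := fun p : Space n × Space n => C * |E|
          * ((1 + ‖p.1‖) ^ (k + m + 1) * (1 + ‖p.2‖) ^ (k + 1)))
        ((integrable_const _).add weight_spec.1) ((ipair _ _).const_mul _)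
    refine Integrable.mono' hb ?_ ?_
    · have hm1 : Measurable fun q : ℝ × Space n × Space n =>
          q.2.1 + (-(q.1 / Real.sqrt (1 - q.1 ^ 2))) • q.2.2 := by fun_prop
      exact (((isBoundedBilinearMap_apply (𝕜 := ℝ) (E := Space n) (F := ℝ)).continuous.measurable.comp
        ((hDc.comp hZc).measurable.prodMk hm1)).mul
        (hψ.cont.measurable.comp (measurable_fst.comp measurable_snd))).aestronglyMeasurable
    · filter_upwards [hq] with q hq
      rw [Real.norm_eq_abs]
      simp only [hA]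
      rw [abs_mul]
      set w := q.1 / Real.sqrt (1 - q.1 ^ 2) with hw
      have hw0 : 0 ≤ w := div_nonneg hq.1.le (Real.sqrt_nonneg _)
      set a := 1 + ‖q.2.1‖ with ha
      set b := 1 + ‖q.2.2‖ with hb'
      have ha1 : 1 ≤ a := by linarith [norm_nonneg q.2.1]
      have hb1 : 1 ≤ b := by linarith [norm_nonneg q.2.2]
      have h1 : ‖q.2.1 + (-w) • q.2.2‖ ≤ (1 + w) * (a * b) := by
        refine (norm_add_le _ _).trans ?_
        rw [norm_smul, norm_neg, Real.norm_eq_abs, abs_of_nonneg hw0]
        have hab : a ≤ a * b := le_mul_of_one_le_right (by linarith) hb1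
        have hba : b ≤ a * b := le_mul_of_one_le_left (by linarith) ha1
        nlinarith [mul_le_mul_of_nonneg_left hba hw0]
      have h2 : |D (Z q) (q.2.1 + (-w) • q.2.2)| ≤ C * a ^ k * b ^ k * ((1 + w) * (a * b)) :=
        ((D (Z q)).le_opNorm _).trans (mul_le_mul (hDb q hq) h1 (norm_nonneg _) (by positivity))
      have h3 : |ψ q.2.1| ≤ |E| * a ^ m :=
        (hE _).trans (mul_le_mul_of_nonneg_right (le_abs_self E) (by positivity))
      refine (mul_le_mul h2 h3 (abs_nonneg _) (by positivity)).trans_eq ?_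
      ring
  have hWi : Integrable W (μt.prod G2) := by
    refine integrable_finsetSum _ fun j _ => ?_
    refine Integrable.mono' (Integrable.comp_snd ((ipair (k + m') k).const_mul (C * |E'|)) μt) ?_ ?_
    · exact (((hDc.comp hZc).clm_apply continuous_const).mul
        ((hψ.cont_deriv _).comp (continuous_fst.comp continuous_snd))).aestronglyMeasurable
    · filter_upwards [hq] with q hq
      rw [Real.norm_eq_abs, abs_mul]
      have h1 : |D (Z q) (ev j)| ≤ C * (1 + ‖q.2.1‖) ^ k * (1 + ‖q.2.2‖) ^ k := by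
        refine ((D (Z q)).le_opNorm _).trans ?_
        rw [norm_ev, mul_one]
        exact hDb q hq
      have h2 : |fderiv ℝ ψ q.2.1 (ev j)| ≤ |E'| * (1 + ‖q.2.1‖) ^ m' := by
        refine ((fderiv ℝ ψ q.2.1).le_opNorm _).trans ?_
        rw [norm_ev, mul_one]
        exact (hE' _).trans (mul_le_mul_of_nonneg_right (le_abs_self E') (by positivity))
      refine (mul_le_mul h1 h2 (abs_nonneg _) (by positivity)).trans_eq ?_
      ring
  -- time integral of the integrand
  have key : ∀ᵐ p ∂G2, ∫ t, A (t, p) ∂μt = (φ p.1 - φ p.2) * ψ p.1 := by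
    filter_upwards [hAi.prod_left_ae] with p hp
    by_cases h0 : ψ p.1 = 0
    · simp [hA, h0]
    have hd : ∀ t ∈ Ioo (0 : ℝ) 1, HasDerivAt (fun t : ℝ => φ (mix p.1 (t, p.2)))
        (D (Z (t, p)) (p.1 + (-(t / Real.sqrt (1 - t ^ 2))) • p.2)) t := by
      intro t ht
      have h0 : 0 < 1 - t ^ 2 := by nlinarith [ht.1, ht.2]
      have h1 : HasDerivAt (fun t : ℝ => mix p.1 (t, p.2))
          (p.1 + (-(t / Real.sqrt (1 - t ^ 2))) • p.2) t := by
        simp only [mix]
        refine ((hasDerivAt_id t).smul_const p.1 |>.add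
          ((((hasDerivAt_pow 2 t).const_sub 1).sqrt h0.ne').smul_const p.2)).congr_deriv ?_
        have := (Real.sqrt_pos.2 h0).ne'
        rw [one_smul]
        congr 2
        field_simp
        norm_num
      exact (hφ.diff _).hasFDerivAt.comp_hasDerivAt t h1
    have hi : Integrable
        (fun t => D (Z (t, p)) (p.1 + (-(t / Real.sqrt (1 - t ^ 2))) • p.2)) μt :=
      (hp.mul_const (ψ p.1)⁻¹).congr (ae_of_all _ fun t => by
        simp only [hA]; field_simp)
    have hc : ContinuousOn (fun t : ℝ => φ (mix p.1 (t, p.2))) (Icc 0 1) :=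
      (hφ.cont.comp ((continuous_mix p.1).comp (by fun_prop))).continuousOn
    have := intervalIntegral.integral_eq_sub_of_hasDerivAt_of_le zero_le_one hc hd
      ((intervalIntegrable_iff_integrableOn_Ioc_of_le zero_le_one).2
        ((integrableOn_Ioc_iff_integrableOn_Ioo).2 hi))
    rw [intervalIntegral.integral_of_le zero_le_one, integral_Ioc_eq_integral_Ioo] at this
    simp only [hA]
    rw [integral_mul_const, this]
    simp [mix]
  -- fixed time
  have fixed : ∀ᵐ t ∂μt, ∫ p, A (t, p) ∂G2 = ∫ p, W (t, p) ∂G2 := by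
    filter_upwards [ae_restrict_mem measurableSet_Ioo, hAi.prod_right_ae, hWi.prod_right_ae]
      with t ht hat hwt
    set s := Real.sqrt (1 - t ^ 2) with hs
    have h0 : 0 < 1 - t ^ 2 := by nlinarith [ht.1, ht.2]
    have hs0 : 0 < s := Real.sqrt_pos.2 h0
    have hts : t ^ 2 + s ^ 2 = 1 := by rw [Real.sq_sqrt h0.le]; ring
    set T := fun q : Space n × Space n => (t • q.1 + s • q.2, (-1 : ℝ) • (-s • q.1 + t • q.2))
      with hTdef
    have hT : MeasurePreserving T G2 G2 := rot_preserves hs0.le hts (Or.inr rfl)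
    have eZ : ∀ q, Z (t, T q) = q.1 := fun q => by
      simp only [hZ, hTdef, mix, ← hs]
      linear_combination (norm := module) (congrArg (fun c : ℝ => c • q.1) hts)
    have eV : ∀ q, (T q).1 + (-(t / s)) • (T q).2 = s⁻¹ • q.2 := fun q => by
      have e : s + t / s * t = s⁻¹ := by field_simp; linarith
      have e' : t - t / s * s = 0 := by field_simp; ring
      simp only [hTdef]
      linear_combination (norm := module)
        (congrArg (fun c : ℝ => c • q.2) e) + (congrArg (fun c : ℝ => c • q.1) e')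
    have eA : ∀ q, A (t, T q) = ∑ j, D q.1 (ev j) * (s⁻¹ * (q.2 j * ψ (t • q.1 + s • q.2))) :=
      fun q => by
      have e : q.2 = ∑ j, q.2 j • ev j := by
        ext j
        simp [ev, Pi.single_apply]
      show D (Z (t, T q)) ((T q).1 + (-(t / s)) • (T q).2) * ψ (T q).1 = _
      rw [eZ, eV, map_smul, smul_eq_mul]
      conv_lhs => arg 1; arg 2; arg 2; rw [e]
      simp only [map_sum, map_smul, smul_eq_mul, Finset.mul_sum, Finset.sum_mul, hTdef]
      exact Finset.sum_congr rfl fun j _ => by ring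
    have eW : ∀ q, W (t, T q) = ∑ j, D q.1 (ev j) * fderiv ℝ ψ (t • q.1 + s • q.2) (ev j) :=
      fun q => by
      show ∑ j, D (Z (t, T q)) (ev j) * fderiv ℝ ψ (T q).1 (ev j) = _
      simp only [eZ]
      simp only [hTdef]
    have tr : ∀ {F : Space n × Space n → ℝ}, Integrable F G2 →
        ∫ p, F p ∂G2 = ∫ w, ∫ z, F (T (w, z)) ∂gam n ∂gam n := fun {F} hF => by
      rw [← hT.map_eq, integral_map hT.measurable.aemeasurable (by rw [hT.map_eq]; exact hF.1),
        hG2]
      exact integral_prod _ ((hT.integrable_comp hF.1).2 hF)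
    rw [tr hat, tr hwt]
    refine integral_congr_ae (ae_of_all _ fun w => ?_)
    simp only [eA, eW]
    have hn : ∀ z, HasFDerivAt (fun z => ψ (t • w + s • z)) (s • fderiv ℝ ψ (t • w + s • z)) z :=
      fun z => by
      refine ((hψ.diff _).hasFDerivAt.comp z
        (((hasFDerivAt_id z).const_smul s).const_add (t • w))).congr_fderiv ?_
      ext v
      simp
    have hψn : Nice fun z => ψ (t • w + s • z) := by
      refine Nice.of_bound (hψ.1.comp (contDiff_const.add (contDiff_id.const_smul s)))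
        (G := fun z => |s| * ‖fderiv ℝ ψ (t • w + s • z)‖)
        (grow_mul (grow_const |s|) (grow_comp (grow_norm hψ.2) (t • w) s)) fun z => ?_
      rw [(hn z).fderiv, norm_smul, Real.norm_eq_abs]
    have ej : ∀ j, Integrable (fun z : Space n =>
        D w (ev j) * (s⁻¹ * (z j * ψ (t • w + s • z)))) (gam n) := fun j =>
      ((gam_int ((nice_coord j).cont.mul hψn.cont)
        (grow_mul (grow_coord j) hψn.grow)).const_mul _).const_mul _
    have ek : ∀ j, Integrable (fun z : Space n =>
        D w (ev j) * fderiv ℝ ψ (t • w + s • z) (ev j)) (gam n) := fun j =>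
      (gam_int ((hψ.cont_deriv (ev j)).comp (by fun_prop))
        (grow_comp (hψ.grow_deriv (ev j)) (t • w) s)).const_mul _
    rw [integral_finsetSum _ fun j _ => ej j, integral_finsetSum _ fun j _ => ek j]
    refine Finset.sum_congr rfl fun j _ => ?_
    have hg := gStein hψn (ev j)
    simp only [coord_inner, (hn _).fderiv, smul_apply, smul_eq_mul, integral_const_mul] at hg
    rw [integral_const_mul, integral_const_mul, integral_const_mul, hg, inv_mul_cancel_left₀ hs0.ne']
  -- assemble
  have i1 : Integrable (fun p : Space n × Space n => φ p.1 * ψ p.1) G2 :=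
    Integrable.comp_fst (gam_int (hφ.cont.mul hψ.cont) (grow_mul hφ.grow hψ.grow)) _
  have i2 : Integrable (fun p : Space n × Space n => ψ p.1 * φ p.2) G2 :=
    Integrable.mul_prod (gam_int hψ.cont hψ.grow) (gam_int hφ.cont hφ.grow)
  have el : (∫ x, φ x * ψ x ∂gam n) - (∫ x, φ x ∂gam n) * ∫ x, ψ x ∂gam n
      = ∫ p, (φ p.1 - φ p.2) * ψ p.1 ∂G2 := by
    simp only [sub_mul, mul_comm (φ (Prod.snd _))]
    rw [integral_sub i1 i2, integral_fun_fst (f := fun x => φ x * ψ x), probReal_univ, one_smul,
      integral_prod_mul (f := ψ) (g := φ)]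
    ring
  rw [el, ← integral_congr_ae key, ← integral_prod_symm A hAi, integral_prod A hAi,
    integral_congr_ae fixed, ← integral_prod W hWi, integral_prod_symm W hWi,
    integral_prod _ hWi.integral_prod_right]
  refine integral_congr_ae (ae_of_all _ fun x => ?_)
  simp only [Gt, hW, ← integral_mul_const]
  have hj : ∀ j, Integrable (fun p : ℝ × Space n => D (mix x p) (ev j) * fderiv ℝ ψ x (ev j))
      (tg n) := fun j => (mix_int (hφ.cont_deriv _) (hφ.grow_deriv _) x).mul_const _
  rw [← integral_finsetSum _ fun j _ => hj j,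
    integral_prod_symm _ (integrable_finsetSum _ fun j _ => hj j)]

/-- A centred function is the divergence of `Gt`. -/
theorem isDiv_cov {φ : Space n → ℝ} (hφ : Nice φ) :
    IsDiv (Gt φ) fun x => φ x - ∫ y, φ y ∂gam n := by
  refine ⟨hφ.cont.sub continuous_const, grow_sub_const hφ.grow _,
    (PiLp.continuous_toLp 2 _).comp (continuous_pi fun j =>
      (mixAvg_reg (hφ.cont_deriv (ev j)) (hφ.grow_deriv _)).1),
    grow_of_coord fun j => (mixAvg_reg (hφ.cont_deriv (ev j)) (hφ.grow_deriv _)).2, fun ψ hψ => ?_⟩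
  rw [← cov_nice hφ hψ]
  simp only [sub_mul]
  rw [integral_sub (gam_int (hφ.cont.fun_mul hψ.cont) (grow_mul hφ.grow hψ.grow))
    ((gam_int hψ.cont hψ.grow).const_mul _), integral_const_mul]

/-! ### The kernel bound -/

/-- The exact residual of the Stein operator along a map whose components are weak divergences. -/
theorem steinOp_residual {Φ : Space n → Space d} {u : Fin d → Space n → Space n}
    {r : Space n → Space d} (hΦ : ∀ k, Nice fun y => Φ y k) (hr : Continuous r) (hrg : Grow r)
    (hu : ∀ i, IsDiv (u i) fun x => Φ x i - r x i) {U : Space d → ℝ} (hU : ContDiff ℝ 2 U)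
    (hUg : GradBound U 1) (hUh : HessBound U 1) :
    ∫ x, steinOp U (Φ x) ∂gam n
      = (∫ x, ∑ i, ∑ k, ((if i = k then (1 : ℝ) else 0) - steinKer u Φ x i k)
          * fderiv ℝ (fderiv ℝ U) (Φ x) (ev k) (ev i) ∂gam n)
        - ∫ x, fderiv ℝ U (Φ x) (r x) ∂gam n := by
  have hΦc : Continuous Φ := (contDiff_euclidean.2 fun k => (hΦ k).1).continuous
  have hD2c : Continuous (fderiv ℝ (fderiv ℝ U)) :=
    (hU.fderiv_right (m := 1) (by norm_num)).continuous_fderiv one_ne_zero
  have hDc : Continuous (fderiv ℝ U) := hU.continuous_fderiv two_ne_zero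
  set M : Space n → Fin d → Fin d → ℝ := fun x k i =>
    fderiv ℝ (fderiv ℝ U) (Φ x) (ev k) (ev i) with hM
  have hMc : ∀ k i, Continuous fun x => M x k i := fun k i =>
    ((hD2c.comp hΦc).clm_apply continuous_const).clm_apply continuous_const
  have hMg : ∀ k i, Grow fun x => M x k i := fun k i =>
    ⟨1, 0, fun x => by simpa using hess_entry hUh (Φ x) k i⟩
  set f : Fin d → Space n → ℝ := fun i y => fderiv ℝ U (Φ y) (ev i) with hf
  have hfn : ∀ i, Nice (f i) := fun i => (grad_along hU hUh hΦ i).1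
  -- the remainder
  set R : Space n → ℝ := fun x => ∑ i, r x i * f i x with hR
  have hRc : Continuous R := continuous_finsetSum _ fun i _ =>
    ((EuclideanSpace.proj (𝕜 := ℝ) i).continuous.comp hr).mul (hfn i).cont
  have hRb : ∀ x, |R x| ≤ ‖r x‖ := fun x => by
    have e : r x = ∑ i, r x i • ev i := by
      ext j
      simp [ev, Pi.single_apply]
    have e1 : R x = fderiv ℝ U (Φ x) (r x) := by
      conv_rhs => rw [e]
      simp [hR, hf, map_sum, map_smul]
    rw [e1]
    have := (fderiv ℝ U (Φ x)).le_of_opNorm_le (hUg (Φ x)) (r x)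
    simpa [Real.norm_eq_abs] using this
  have hRi : Integrable R (gam n) := gam_int hRc (grow_mono hrg fun x => by
    rw [Real.norm_eq_abs]; exact hRb x)
  -- one component
  have huc : ∀ i j, Continuous fun x => u i x j := fun i j =>
    (EuclideanSpace.proj (𝕜 := ℝ) j).continuous.comp (hu i).uc
  have hug : ∀ i j, Grow fun x => u i x j := fun i j =>
    grow_mono (hu i).ug fun x => by rw [Real.norm_eq_abs]; exact P245.abs_coord_le _ j
  have hkerN : ∀ i k j, Continuous (fun x => u i x j * fderiv ℝ (fun y => Φ y k) x (ev j)) ∧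
      Grow (fun x => u i x j * fderiv ℝ (fun y => Φ y k) x (ev j)) := fun i k j =>
    ⟨(huc i j).mul ((hΦ k).cont_deriv _), grow_mul (hug i j) ((hΦ k).grow_deriv _)⟩
  have hkc : ∀ i k, Continuous (fun x => steinKer u Φ x i k) := fun i k =>
    continuous_finsetSum _ fun j _ => (hkerN i k j).1
  have hkg : ∀ i k, Grow (fun x => steinKer u Φ x i k) := fun i k =>
    grow_finsum _ fun j => (hkerN i k j).2
  have comp : ∀ i, ∫ x, (Φ x i - r x i) * f i x ∂gam n
      = ∫ x, ∑ k, steinKer u Φ x i k * M x k i ∂gam n := by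
    intro i
    rw [(hu i).ibp (f i) (hfn i)]
    refine integral_congr_ae (ae_of_all _ fun x => ?_)
    simp only [hf, (grad_along hU hUh hΦ i).2, steinKer, Finset.sum_mul, Finset.mul_sum, hM]
    rw [Finset.sum_comm]
    exact Finset.sum_congr rfl fun k _ => Finset.sum_congr rfl fun j _ => by ring
  -- assemble
  set δ : Fin d → Fin d → ℝ := fun i k => if i = k then 1 else 0 with hδ
  have hT : ∀ x, ∑ i, M x i i = ∑ i, ∑ k, δ i k * M x k i := fun x => by
    simp [hδ]
  set D : Space n → ℝ := fun x => ∑ i, ∑ k, (δ i k - steinKer u Φ x i k) * M x k i with hD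
  have hDi : Integrable D (gam n) := gam_int
    (continuous_finsetSum _ fun i _ => continuous_finsetSum _ fun k _ =>
      (continuous_const.sub (hkc i k)).mul (hMc k i))
    (grow_finsum _ fun i => grow_finsum _ fun k => grow_mul
      (grow_add (grow_const (δ i k)) (grow_mono (hkg i k) fun x => (norm_neg _).le)) (hMg k i))
  have hre : ∀ x, fderiv ℝ U (Φ x) (r x) = R x := fun x => by
    have e : r x = ∑ i, r x i • ev i := by
      ext j
      simp [ev, Pi.single_apply]
    conv_lhs => rw [e]
    simp [hR, hf, map_sum, map_smul]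
  simp only [hre]
  show _ = (∫ x, D x ∂gam n) - ∫ x, R x ∂gam n
  have hMi : Integrable (fun x => ∑ i, M x i i) (gam n) :=
    gam_int (continuous_finsetSum _ fun i _ => hMc i i) (grow_finsum _ fun i => hMg i i)
  have hdi : ∀ i, Integrable (fun x => (Φ x i - r x i) * f i x) (gam n) := fun i =>
    gam_int ((hu i).fc.mul (hfn i).cont) (grow_mul (hu i).fg (hfn i).grow)
  have hki : ∀ i, Integrable (fun x => ∑ k, steinKer u Φ x i k * M x k i) (gam n) := fun i =>
    gam_int (continuous_finsetSum _ fun k _ => (hkc i k).mul (hMc k i))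
      (grow_finsum _ fun k => grow_mul (hkg i k) (hMg k i))
  have e0 : ∀ x, steinOp U (Φ x)
      = (∑ i, M x i i) - (∑ i, (Φ x i - r x i) * f i x) - R x := fun x => by
    have e : Φ x = ∑ i, Φ x i • ev i := by
      ext j
      simp [ev, Pi.single_apply]
    have e2 : fderiv ℝ U (Φ x) (Φ x) = ∑ i, Φ x i * f i x := by
      conv_lhs => arg 2; rw [e]
      simp [hf, map_sum, map_smul]
    rw [steinOp, e2, sub_sub, ← Finset.sum_add_distrib]
    refine congrArg₂ _ rfl (Finset.sum_congr rfl fun i _ => ?_)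
    ring
  simp only [e0]
  have hsum : Integrable (fun x => (∑ i, M x i i) - ∑ i, (Φ x i - r x i) * f i x) (gam n) :=
    hMi.sub (integrable_finsetSum _ fun i _ => hdi i)
  rw [integral_sub hsum hRi, integral_sub hMi (integrable_finsetSum _ fun i _ => hdi i),
    integral_finsetSum _ fun i _ => hdi i]
  simp only [comp]
  rw [← integral_finsetSum _ fun i _ => hki i,
    ← integral_sub hMi (integrable_finsetSum _ fun i _ => hki i)]
  simp only [hD, hT, sub_mul, Finset.sum_sub_distrib]

/-- If `Φ i - r i` is the weak divergence of `u i` then, against Lipschitz tests, the law of `Φ` is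
within the mean deviation of the kernel plus the mean norm of `r` of the Gaussian law. -/
theorem stein_kernel_w1 {Φ : Space n → Space d} {u : Fin d → Space n → Space n}
    {r : Space n → Space d} (hΦ : ∀ k, Nice fun y => Φ y k) (hr : Continuous r) (hrg : Grow r)
    (hu : ∀ i, IsDiv (u i) fun x => Φ x i - r x i) {H : Space d → ℝ} {L : ℝ≥0}
    (hH : LipschitzWith L H) :
    |(∫ x, H (Φ x) ∂gam n) - ∫ y, H y ∂gam d|
      ≤ ((∫ x, Real.sqrt (kerDev u Φ x) ∂gam n) + ∫ x, ‖r x‖ ∂gam n) * L := by
  have hΦc : Continuous Φ := (contDiff_euclidean.2 fun k => (hΦ k).1).continuous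
  have hΦg : Grow Φ := by
    refine grow_mono (g := fun x => ∑ k, ‖Φ x k‖) (grow_finsum _ fun k => grow_norm (hΦ k).grow)
      fun x => ?_
    rw [Real.norm_eq_abs]
    refine le_trans ?_ (le_abs_self _)
    have e : Φ x = ∑ k, Φ x k • ev k := by
      ext j
      simp [ev, Pi.single_apply]
    conv_lhs => rw [e]
    exact (norm_sum_le _ _).trans_eq (Finset.sum_congr rfl fun k _ => by
      rw [norm_smul, norm_ev, mul_one])
  have hΦi : Integrable Φ (gam n) :=
    (integrable_norm_iff hΦc.aestronglyMeasurable).1 (gam_int hΦc.norm (grow_norm hΦg))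
  refine stein_w1 hΦi (fun U hU hUg hUh => ?_) hH
  have hD2c : Continuous (fderiv ℝ (fderiv ℝ U)) :=
    (hU.fderiv_right (m := 1) (by norm_num)).continuous_fderiv one_ne_zero
  have hDc : Continuous (fderiv ℝ U) := hU.continuous_fderiv two_ne_zero
  set M : Space n → Fin d → Fin d → ℝ := fun x k i =>
    fderiv ℝ (fderiv ℝ U) (Φ x) (ev k) (ev i) with hM
  have hMc : ∀ k i, Continuous fun x => M x k i := fun k i =>
    ((hD2c.comp hΦc).clm_apply continuous_const).clm_apply continuous_const
  have hMg : ∀ k i, Grow fun x => M x k i := fun k i =>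
    ⟨1, 0, fun x => by simpa using hess_entry hUh (Φ x) k i⟩
  set f : Fin d → Space n → ℝ := fun i y => fderiv ℝ U (Φ y) (ev i) with hf
  have hfn : ∀ i, Nice (f i) := fun i => (grad_along hU hUh hΦ i).1
  -- the remainder
  set R : Space n → ℝ := fun x => ∑ i, r x i * f i x with hR
  have hRc : Continuous R := continuous_finsetSum _ fun i _ =>
    ((EuclideanSpace.proj (𝕜 := ℝ) i).continuous.comp hr).mul (hfn i).cont
  have hRb : ∀ x, |R x| ≤ ‖r x‖ := fun x => by
    have e : r x = ∑ i, r x i • ev i := by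
      ext j
      simp [ev, Pi.single_apply]
    have e1 : R x = fderiv ℝ U (Φ x) (r x) := by
      conv_rhs => rw [e]
      simp [hR, hf, map_sum, map_smul]
    rw [e1]
    have := (fderiv ℝ U (Φ x)).le_of_opNorm_le (hUg (Φ x)) (r x)
    simpa [Real.norm_eq_abs] using this
  have hRi : Integrable R (gam n) := gam_int hRc (grow_mono hrg fun x => by
    rw [Real.norm_eq_abs]; exact hRb x)
  -- one component
  have huc : ∀ i j, Continuous fun x => u i x j := fun i j =>
    (EuclideanSpace.proj (𝕜 := ℝ) j).continuous.comp (hu i).uc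
  have hug : ∀ i j, Grow fun x => u i x j := fun i j =>
    grow_mono (hu i).ug fun x => by rw [Real.norm_eq_abs]; exact P245.abs_coord_le _ j
  have hkerN : ∀ i k j, Continuous (fun x => u i x j * fderiv ℝ (fun y => Φ y k) x (ev j)) ∧
      Grow (fun x => u i x j * fderiv ℝ (fun y => Φ y k) x (ev j)) := fun i k j =>
    ⟨(huc i j).mul ((hΦ k).cont_deriv _), grow_mul (hug i j) ((hΦ k).grow_deriv _)⟩
  have hkc : ∀ i k, Continuous (fun x => steinKer u Φ x i k) := fun i k =>
    continuous_finsetSum _ fun j _ => (hkerN i k j).1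
  have hkg : ∀ i k, Grow (fun x => steinKer u Φ x i k) := fun i k =>
    grow_finsum _ fun j => (hkerN i k j).2
  -- assemble
  set δ : Fin d → Fin d → ℝ := fun i k => if i = k then 1 else 0 with hδ
  set D : Space n → ℝ := fun x => ∑ i, ∑ k, (δ i k - steinKer u Φ x i k) * M x k i with hD
  have hDi : Integrable D (gam n) := gam_int
    (continuous_finsetSum _ fun i _ => continuous_finsetSum _ fun k _ =>
      (continuous_const.sub (hkc i k)).mul (hMc k i))
    (grow_finsum _ fun i => grow_finsum _ fun k => grow_mul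
      (grow_add (grow_const (δ i k)) (grow_mono (hkg i k) fun x => (norm_neg _).le)) (hMg k i))
  rw [steinOp_residual hΦ hr hrg hu hU hUg hUh]
  have hre : ∀ x, fderiv ℝ U (Φ x) (r x) = R x := fun x => by
    have e : r x = ∑ i, r x i • ev i := by
      ext j
      simp [ev, Pi.single_apply]
    conv_lhs => rw [e]
    simp [hR, hf, map_sum, map_smul]
  simp only [hre]
  refine (abs_sub _ _).trans (add_le_add ?_ ?_)
  · refine le_trans (abs_integral_le_integral_abs) (integral_mono hDi.abs ?_ fun x => ?_)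
    · refine gam_int (Real.continuous_sqrt.comp (continuous_finsetSum _ fun i _ =>
        continuous_finsetSum _ fun k _ => (continuous_const.sub (hkc i k)).pow 2)) ?_
      refine grow_mono (g := fun x => 1 + kerDev u Φ x)
        (grow_add (grow_const 1) (grow_finsum _ fun i => grow_finsum _ fun k =>
          grow_pow (grow_add (grow_const (δ i k)) (grow_mono (hkg i k) fun x => (norm_neg _).le)) 2))
        fun x => ?_
      have h0 : 0 ≤ kerDev u Φ x :=
        Finset.sum_nonneg fun _ _ => Finset.sum_nonneg fun _ _ => sq_nonneg _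
      show ‖Real.sqrt (kerDev u Φ x)‖ ≤ _
      rw [Real.norm_eq_abs, Real.norm_eq_abs, abs_of_nonneg (Real.sqrt_nonneg _),
        abs_of_nonneg (by linarith), Real.sqrt_le_left (by linarith)]
      nlinarith
    · simp only [← Fintype.sum_prod_type']
      refine (abs_sum_mul_le _ _).trans (mul_le_of_le_one_right (Real.sqrt_nonneg _) ?_) |>.trans_eq ?_
      · rw [Real.sqrt_le_one, Fintype.sum_prod_type, Finset.sum_comm]
        simpa using hUh (Φ x)
      · simp [kerDev, Fintype.sum_prod_type]
  · exact le_trans (abs_integral_le_integral_abs)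
      (integral_mono hRi.abs (gam_int hr.norm (grow_norm hrg)) hRb)

end Vale.Agent.P347.Zero
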