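import Vale.Agent.P347.Zero.SamBd
import Vale.Agent.P347.Zero.Ident
import Vale.Agent.P347.Transfer

/-!
The step behind averaging over blocks: Gaussian integration by parts in one coordinate of a block,
and the covariance identity with a node rule, so that the covariance of two fields of the blocks is
the mean of one field of two copies of the blocks up to a quadrature error.
-/

noncomputable section

open MeasureTheory ProbabilityTheory Set
open scoped RealInnerProductSpace

namespace Vale.Agent.P347.Zero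

variable {d : ℕ} {ι : Type} [Fintype ι] [DecidableEq ι]

/-- The mixture of two families of vectors at correlation `t`. -/
def mixX (t : ℝ) (x x' : ι → Space d) : ι → Space d := t • x + Real.sqrt (1 - t ^ 2) • x'

/-- The derivative in the coordinate `c` of the block `b`. -/
def pdB (f : (ι → Space d) → ℝ) (b : ι) (c : Fin d) (x : ι → Space d) : ℝ :=
  fderiv ℝ f x (Pi.single b (ev c))

/-- The node sum of the pairing of two gradients, on two copies of the blocks. -/
def nodePair {m : ℕ} (N : Nodes m) (φ ψ : (ι → Space d) → ℝ) (x x' : ι → Space d) : ℝ :=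
  ∑ l, N.w l * ∑ b, ∑ c, pdB φ b c (mixX (N.t l) x x') * pdB ψ b c x

/-- The rule `N` replaces the average over the correlation within `e`, in every dimension. -/
def QuadOK {m : ℕ} (N : Nodes m) (e : ℝ) : Prop :=
  0 ≤ e ∧ (∀ l, N.t l ∈ Icc (0 : ℝ) 1) ∧ ∀ (n : ℕ) (f : Space n → ℝ), Continuous f → Grow f →
    ∫ x, ((∑ l, N.w l * Pt (N.t l) f x) - ∫ t in (0 : ℝ)..1, Pt t f x) ^ 2 ∂gam n
      ≤ e ^ 2 * ∫ x, f x ^ 2 ∂gam n

namespace AvgAux

theorem pg_grow {E : Type} [NormedAddCommGroup E] [NormedSpace ℝ E] {f : E → ℝ} (hf : PG f) :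
    ∃ (C : ℝ) (k : ℕ), ∀ x, ‖f x‖ ≤ C * (1 + ‖x‖) ^ k := by
  obtain ⟨-, c, n, hc⟩ := hf 0
  exact ⟨c, n, fun x => by simpa [norm_iteratedFDeriv_zero] using hc x⟩

theorem pg_nice {n : ℕ} {f : Space n → ℝ} (hf : PG f) : Nice f := by
  obtain ⟨h1, c, k, hc⟩ := hf 1
  exact ⟨h1, c, k, fun x => by simpa [← norm_iteratedFDeriv_one] using hc x⟩

omit [DecidableEq ι] in
theorem nice_emb {f : (ι → Space d) → ℝ} (hf : PG f) : Nice fun z => f (emb ι d z) :=
  pg_nice (hf.comp_clm (emb ι d).toContinuousLinearMap)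

omit [DecidableEq ι] in
theorem fderiv_emb {f : (ι → Space d) → ℝ} (hf : PG f) (z v : Space (famDim ι d)) :
    fderiv ℝ (fun z => f (emb ι d z)) z v = fderiv ℝ f (emb ι d z) (emb ι d v) := by
  have h := ((hf.diff (emb ι d z)).hasFDerivAt.comp z (emb ι d).hasFDerivAt).fderiv
  simp only [Function.comp_def] at h
  rw [h]
  rfl

/-- The unit vector of a coordinate, in the flat space. -/
def unitB (b : ι) (c : Fin d) : Space (famDim ι d) := (emb ι d).symm (Pi.single b (ev c))

theorem emb_unitB (b : ι) (c : Fin d) : emb ι d (unitB b c) = Pi.single b (ev c) :=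
  (emb ι d).apply_symm_apply _

theorem inner_unitB (b : ι) (c : Fin d) (z : Space (famDim ι d)) :
    ⟪unitB b c, z⟫ = emb ι d z b c := by
  set e := (stdOrthonormalBasis ℝ (PiLp 2 fun _ : ι => Space d)).repr.symm with he
  have h1 : e (unitB b c) = WithLp.toLp 2 (Pi.single b (ev c)) := by
    have h := emb_unitB (d := d) b c
    exact congrArg (WithLp.toLp 2) h
  have h2 : (e z) b = emb ι d z b := rfl
  rw [← e.inner_map_map, h1, PiLp.inner_apply, Finset.sum_eq_single b (fun b' _ hb' => by simp [hb'])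
    (fun h => absurd (Finset.mem_univ b) h)]
  simp [h2, EuclideanSpace.inner_single_left]

theorem sum_pi_single (x : ι → Space d) :
    x = ∑ b, ∑ c, x b c • Pi.single (M := fun _ => Space d) b (ev c) := by
  funext b'
  ext c'
  simp [Finset.sum_apply, Pi.single_apply, ev]

/-- Both expansions of the product of two linear functions. -/
theorem sum_ev_emb (φ ψ : (ι → Space d) →L[ℝ] ℝ) :
    ∑ j, φ (emb ι d (ev j)) * ψ (emb ι d (ev j))
      = ∑ b, ∑ c, φ (Pi.single b (ev c)) * ψ (Pi.single b (ev c)) := by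
  have e : ∀ j, ψ (emb ι d (ev j))
      = ∑ b, ∑ c, emb ι d (ev j) b c * ψ (Pi.single b (ev c)) := fun j => by
    conv_lhs => rw [sum_pi_single (emb ι d (ev j))]
    simp
  simp only [e, Finset.mul_sum]
  rw [Finset.sum_comm]
  refine Finset.sum_congr rfl fun b _ => ?_
  rw [Finset.sum_comm]
  refine Finset.sum_congr rfl fun c _ => ?_
  have e2 : φ (Pi.single b (ev c)) = ∑ j, unitB b c j * φ (emb ι d (ev j)) := by
    have hu : unitB b c = ∑ j, unitB b c j • ev j := by
      ext k
      simp [ev, Pi.single_apply]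
    conv_lhs => rw [← emb_unitB b c, hu]
    simp
  rw [e2, Finset.sum_mul]
  refine Finset.sum_congr rfl fun j _ => ?_
  have e3 : emb ι d (ev j) b c = unitB b c j := by
    rw [← inner_unitB, real_inner_comm, coord_inner]
  rw [e3]
  ring

theorem grad_pair {φ ψ : (ι → Space d) → ℝ} (hφ : PG φ) (hψ : PG ψ) (y z : Space (famDim ι d)) :
    ∑ j, fderiv ℝ (fun z => φ (emb ι d z)) y (ev j) * fderiv ℝ (fun z => ψ (emb ι d z)) z (ev j)
      = ∑ b, ∑ c, pdB φ b c (emb ι d y) * pdB ψ b c (emb ι d z) := by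
  simp only [fderiv_emb hφ, fderiv_emb hψ, pdB]
  exact sum_ev_emb _ _

omit [DecidableEq ι] in
theorem emb_mix (t : ℝ) (z z' : Space (famDim ι d)) :
    emb ι d (t • z + Real.sqrt (1 - t ^ 2) • z') = mixX t (emb ι d z) (emb ι d z') := by
  simp [mixX]

end AvgAux

open AvgAux SteinAux

/-- Integration by parts in a coordinate of a block. -/
theorem gp_stein {f : (ι → Space d) → ℝ} (hf : PG f) (b : ι) (c : Fin d) :
    ∫ x, x b c * f x ∂gp ι d = ∫ x, pdB f b c x ∂gp ι d := by
  rw [integral_gp, integral_gp]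
  have h := gStein (nice_emb hf) (unitB b c)
  simp only [inner_unitB, fderiv_emb hf, emb_unitB] at h
  exact h

omit [DecidableEq ι] in
/-- The mean of a field of two copies of the blocks, from the flat space. -/
theorem integral_gp_pair {F : (ι → Space d) → (ι → Space d) → ℝ} :
    ∫ x, ∫ x', F x x' ∂gp ι d ∂gp ι d
      = ∫ z, ∫ z', F (emb ι d z) (emb ι d z') ∂gam (famDim ι d) ∂gam (famDim ι d) := by
  rw [integral_gp]
  simp only [integral_gp]

/-- The covariance of two fields of the blocks is the mean of the node sum of their gradient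
pairing, up to the quadrature error times the two gradients. -/
theorem cov_nodes {m : ℕ} {N : Nodes m} {e : ℝ} (hN : QuadOK N e) {φ ψ : (ι → Space d) → ℝ}
    (hφ : PG φ) (hψ : PG ψ) :
    |(∫ x, φ x * ψ x ∂gp ι d) - (∫ x, φ x ∂gp ι d) * (∫ x, ψ x ∂gp ι d)
        - ∫ x, ∫ x', nodePair N φ ψ x x' ∂gp ι d ∂gp ι d|
      ≤ e * (Real.sqrt (∑ b, ∑ c, ∫ x, pdB φ b c x ^ 2 ∂gp ι d)
        * Real.sqrt (∑ b, ∑ c, ∫ x, pdB ψ b c x ^ 2 ∂gp ι d)) := by
  set n := famDim ι d with hn
  set a : Space n → ℝ := fun z => φ (emb ι d z) with ha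
  set g : Space n → ℝ := fun z => ψ (emb ι d z) with hg
  have han : Nice a := nice_emb hφ
  have hgn : Nice g := nice_emb hψ
  set F : Fin n → Space n → ℝ := fun j z => fderiv ℝ a z (ev j) with hF
  set G : Fin n → Space n → ℝ := fun j z => fderiv ℝ g z (ev j) with hG
  have hFc : ∀ j, Continuous (F j) := fun j => han.cont_deriv _
  have hFg : ∀ j, Grow (F j) := fun j => han.grow_deriv _
  have hGc : ∀ j, Continuous (G j) := fun j => hgn.cont_deriv _
  have hGg : ∀ j, Grow (G j) := fun j => hgn.grow_deriv _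
  -- one correlation
  have hmixc : ∀ t : ℝ, Continuous fun q : Space n × Space n =>
      t • q.1 + Real.sqrt (1 - t ^ 2) • q.2 := fun t => by fun_prop
  have hPt : ∀ j t, t ∈ Icc (0 : ℝ) 1 → (∀ z, Integrable
      (fun z' => F j (t • z + Real.sqrt (1 - t ^ 2) • z')) (gam n)) ∧
      Continuous (Pt t (F j)) ∧ Grow (Pt t (F j)) := by
    intro j t ht
    have hi : ∀ z, Integrable (fun z' => F j (t • z + Real.sqrt (1 - t ^ 2) • z')) (gam n) :=
      fun z => gam_int ((hFc j).comp (by fun_prop)) (grow_comp (hFg j) _ _)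
    obtain ⟨C, k, hC⟩ := hFg j
    have hb : ∀ z z', |F j (t • z + Real.sqrt (1 - t ^ 2) • z')|
        ≤ |C| * (1 + ‖z‖) ^ k * (1 + ‖z'‖) ^ k := fun z z' => by
      refine (hC _).trans ?_
      rw [mul_assoc, ← mul_pow]
      refine mul_le_mul (le_abs_self C) (pow_le_pow_left₀ (by positivity) ?_ k) (by positivity)
        (abs_nonneg C)
      have h1 : ‖t • z + Real.sqrt (1 - t ^ 2) • z'‖ ≤ ‖z‖ + ‖z'‖ := by
        refine (norm_add_le _ _).trans (add_le_add ?_ ?_)
        · rw [norm_smul, Real.norm_eq_abs, abs_of_nonneg ht.1]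
          exact mul_le_of_le_one_left (norm_nonneg _) ht.2
        · rw [norm_smul, Real.norm_eq_abs, abs_of_nonneg (Real.sqrt_nonneg _)]
          exact mul_le_of_le_one_left (norm_nonneg _) (Real.sqrt_le_one.2 (by nlinarith [ht.1]))
      nlinarith [mul_nonneg (norm_nonneg z) (norm_nonneg z')]
    refine ⟨hi, ?_, ⟨|C| * ∫ z', (1 + ‖z'‖) ^ k ∂gam n, k, fun z => ?_⟩⟩
    · refine continuous_iff_continuousAt.2 fun z₀ => continuousAt_of_dominated
        (bound := fun z' => |C| * (2 + ‖z₀‖) ^ k * (1 + ‖z'‖) ^ k)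
        (Filter.Eventually.of_forall fun z => (hi z).aestronglyMeasurable) ?_
        ((int_poly k).const_mul _) (ae_of_all _ fun z' =>
          ((hFc j).comp (by fun_prop : Continuous fun z : Space n =>
            t • z + Real.sqrt (1 - t ^ 2) • z')).continuousAt)
      filter_upwards [Metric.ball_mem_nhds z₀ one_pos] with z hz
      refine ae_of_all _ fun z' => (hb z z').trans ?_
      rw [mem_ball_iff_norm] at hz
      have h1 := norm_le_norm_add_norm_sub' z z₀
      gcongr |C| * ?_ * _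
      exact pow_le_pow_left₀ (by positivity) (by linarith) k
    · refine (norm_integral_le_of_norm_le ((int_poly k).const_mul (|C| * (1 + ‖z‖) ^ k))
        (ae_of_all _ fun z' => hb z z')).trans_eq (by rw [integral_const_mul]; ring)
  -- the exact field is the integral over the correlation
  have hGt : ∀ z j, Gt a z j = ∫ t in (0 : ℝ)..1, Pt t (F j) z := fun z j => by
    have := unit_prob
    show (∫ p, F j (mix z p) ∂tg n) = _
    rw [integral_prod _ (mix_int (hFc j) (hFg j) z), intervalIntegral.integral_of_le zero_le_one,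
      integral_Ioc_eq_integral_Ioo]
    rfl
  -- the node sum
  set A : Fin n → Space n → ℝ := fun j z => ∑ l, N.w l * Pt (N.t l) (F j) z with hA
  have hAc : ∀ j, Continuous (A j) := fun j =>
    continuous_finsetSum _ fun l _ => continuous_const.mul (hPt j _ (hN.2.1 l)).2.1
  have hAg : ∀ j, Grow (A j) := fun j =>
    grow_finsum _ fun l => grow_mul (grow_const _) (hPt j _ (hN.2.1 l)).2.2
  have hnode : ∫ x, ∫ x', nodePair N φ ψ x x' ∂gp ι d ∂gp ι d
      = ∫ z, ∑ j, A j z * G j z ∂gam n := by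
    rw [integral_gp_pair]
    refine integral_congr_ae (ae_of_all _ fun z => ?_)
    have e1 : ∀ z', nodePair N φ ψ (emb ι d z) (emb ι d z')
        = ∑ j, ∑ l, N.w l * F j (N.t l • z + Real.sqrt (1 - N.t l ^ 2) • z') * G j z := fun z' => by
      rw [Finset.sum_comm]
      refine Finset.sum_congr rfl fun l _ => ?_
      simp only [← emb_mix, ← grad_pair hφ hψ, Finset.mul_sum, mul_assoc, hF, hG, ha, hg]
      rfl
    simp only [e1]
    rw [integral_finsetSum _ fun j _ => integrable_finsetSum _ fun l _ =>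
      (((hPt j _ (hN.2.1 l)).1 z).const_mul _).mul_const _]
    refine Finset.sum_congr rfl fun j _ => ?_
    rw [integral_finsetSum _ fun l _ => (((hPt j _ (hN.2.1 l)).1 z).const_mul _).mul_const _,
      Finset.sum_mul]
    refine Finset.sum_congr rfl fun l _ => ?_
    rw [integral_mul_const, integral_const_mul]
    rfl
  have hcov : (∫ x, φ x * ψ x ∂gp ι d) - (∫ x, φ x ∂gp ι d) * (∫ x, ψ x ∂gp ι d)
      = ∫ z, ∑ j, Gt a z j * G j z ∂gam n := by
    simp only [integral_gp]
    exact cov_nice han hgn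
  have hBc : ∀ j, Continuous (fun z => Gt a z j) := fun j =>
    (mixAvg_reg (hFc j) (hFg j)).1
  have hBg : ∀ j, Grow (fun z => Gt a z j) := fun j => (mixAvg_reg (hFc j) (hFg j)).2
  have hdc : ∀ j, Continuous fun z => Gt a z j - A j z := fun j => (hBc j).sub (hAc j)
  have hdg : ∀ j, Grow fun z => Gt a z j - A j z := fun j =>
    grow_add (hBg j) (grow_mono (hAg j) fun z => (norm_neg _).le)
  rw [hcov, hnode, ← integral_sub
    (gam_int (continuous_finsetSum _ fun j _ => (hBc j).fun_mul (hGc j))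
      (grow_finsum _ fun j => grow_mul (hBg j) (hGg j)))
    (gam_int (continuous_finsetSum _ fun j _ => (hAc j).fun_mul (hGc j))
      (grow_finsum _ fun j => grow_mul (hAg j) (hGg j)))]
  simp only [← Finset.sum_sub_distrib, ← sub_mul]
  rw [integral_finsetSum _ fun j _ => gam_int ((hdc j).fun_mul (hGc j))
    (grow_mul (hdg j) (hGg j))]
  have hone : ∀ j, |∫ z, (Gt a z j - A j z) * G j z ∂gam n|
      ≤ e * (Real.sqrt (∫ z, F j z ^ 2 ∂gam n) * Real.sqrt (∫ z, G j z ^ 2 ∂gam n)) := fun j => by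
    have h1 := sq_integral_mul_le (μ := gam n) (u := fun z => Gt a z j - A j z) (v := G j)
      (gam_int ((hdc j).pow 2) (grow_pow (hdg j) 2)) (gam_int ((hGc j).pow 2) (grow_pow (hGg j) 2))
      (gam_int ((hdc j).fun_mul (hGc j)) (grow_mul (hdg j) (hGg j)))
    have h2 : ∫ z, (Gt a z j - A j z) ^ 2 ∂gam n ≤ e ^ 2 * ∫ z, F j z ^ 2 ∂gam n := by
      refine le_trans (le_of_eq (integral_congr_ae (ae_of_all _ fun z => ?_)))
        (hN.2.2 n (F j) (hFc j) (hFg j))
      simp only [hA, ← hGt]
      ring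
    refine abs_le_of_sq_le_sq ?_ (by have := hN.1; positivity)
    refine h1.trans ((mul_le_mul_of_nonneg_right h2 (integral_nonneg fun z => sq_nonneg _)).trans_eq
      ?_)
    rw [mul_pow, mul_pow, Real.sq_sqrt (integral_nonneg fun z => sq_nonneg _),
      Real.sq_sqrt (integral_nonneg fun z => sq_nonneg _)]
    ring
  refine (Finset.abs_sum_le_sum_abs _ _).trans ((Finset.sum_le_sum fun j _ => hone j).trans ?_)
  rw [← Finset.mul_sum]
  refine mul_le_mul_of_nonneg_left ((Real.sum_sqrt_mul_sqrt_le _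
    (fun j => integral_nonneg fun z => sq_nonneg _)
    (fun j => integral_nonneg fun z => sq_nonneg _)).trans_eq ?_) hN.1
  have key : ∀ f : (ι → Space d) → ℝ, PG f →
      ∑ j, ∫ z, fderiv ℝ (fun z => f (emb ι d z)) z (ev j) ^ 2 ∂gam n
        = ∑ b, ∑ c, ∫ x, pdB f b c x ^ 2 ∂gp ι d := fun f hf => by
    have hb : ∀ b c, Integrable (fun z => pdB f b c (emb ι d z) ^ 2) (gam n) := fun b c => by
      have h := nice_emb (hf.fderiv_apply (Pi.single b (ev c)))
      exact gam_int (h.cont.pow 2) (grow_pow h.grow 2)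
    have hd : ∀ j, Integrable (fun z => fderiv ℝ (fun z => f (emb ι d z)) z (ev j) ^ 2) (gam n) :=
      fun j => gam_int (((nice_emb hf).cont_deriv _).pow 2) (grow_pow ((nice_emb hf).grow_deriv _) 2)
    rw [← integral_finsetSum _ fun j _ => hd j]
    simp only [sq, grad_pair hf hf]
    simp only [← sq]
    rw [integral_finsetSum _ fun b _ => integrable_finsetSum _ fun c _ => hb b c]
    simp only [integral_finsetSum _ fun c _ => hb _ c, integral_gp]
    rfl
  rw [key φ hφ, key ψ hψ]

/-- The step for families of entries: the covariance pairing becomes the mean of the node sum. -/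
theorem step_nodes {m : ℕ} {N : Nodes m} {e : ℝ} (hN : QuadOK N e) {K : Type} [Fintype K]
    {Y A : K → (ι → Space d) → ℝ} (hY : ∀ k, PG (Y k)) (hA : ∀ k, PG (A k)) :
    |(∑ k, ∫ x, Y k x * A k x ∂gp ι d) - (∑ k, (∫ x, Y k x ∂gp ι d) * ∫ x, A k x ∂gp ι d)
        - ∑ k, ∫ x, ∫ x', nodePair N (Y k) (A k) x x' ∂gp ι d ∂gp ι d|
      ≤ e * (Real.sqrt (∑ k, ∑ b, ∑ c, ∫ x, pdB (Y k) b c x ^ 2 ∂gp ι d)
        * Real.sqrt (∑ k, ∑ b, ∑ c, ∫ x, pdB (A k) b c x ^ 2 ∂gp ι d)) := by
  rw [← Finset.sum_sub_distrib, ← Finset.sum_sub_distrib]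
  refine (Finset.abs_sum_le_sum_abs _ _).trans
    ((Finset.sum_le_sum fun k _ => cov_nodes hN (hY k) (hA k)).trans ?_)
  rw [← Finset.mul_sum]
  exact mul_le_mul_of_nonneg_left (Real.sum_sqrt_mul_sqrt_le _
    (fun k => Finset.sum_nonneg fun b _ => Finset.sum_nonneg fun c _ =>
      integral_nonneg fun x => sq_nonneg _)
    (fun k => Finset.sum_nonneg fun b _ => Finset.sum_nonneg fun c _ =>
      integral_nonneg fun x => sq_nonneg _)) hN.1

end Vale.Agent.P347.Zero
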