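import Vale.Agent.P347.Zero.PinsC

/-!
The two rules that the vertices use: smoothing of a scalar field by correlations bounded away from
one, and the gate in several directions at once.
-/

noncomputable section

open MeasureTheory ProbabilityTheory
open scoped RealInnerProductSpace

namespace Vale.Agent.P347.Zero

/-- Correlations at most `1 - t` recover a field up to `t ^ N` times its derivatives. -/
def SmoothRule : Prop :=
  ∀ N : ℕ, 1 ≤ N → ∃ (m : ℕ) (C : ℝ), ∀ t : ℝ, 0 < t → t ≤ 1 / 4 → ∃ b r : Fin m → ℝ,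
    (∀ l, 0 ≤ r l ∧ r l ≤ 1 - t) ∧ ∑ l, |b l| ≤ C ∧
      ∀ (n : ℕ) (f : Space n → ℝ), Smooth f →
        ∫ x, ((∑ l, b l * Pt (r l) f x) - f x) ^ 2 ∂gam n
          ≤ (C * t ^ N) ^ 2 * ∑ k ∈ Finset.range (2 * N + 1),
              ∫ x, ∑ idx : Fin k → Fin n,
                iteratedFDeriv ℝ k f x (fun j => ev (idx j)) ^ 2 ∂gam n

/-- A combination of values at shifted points extracts the derivative in `k` independent directions
to any order. -/
def GateMulti : Prop :=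
  ∀ k N : ℕ, 1 ≤ N → ∃ (m : ℕ) (C : ℝ), ∀ ρ : ℝ, 0 < ρ → ρ ≤ 1 / 2 →
    ∃ (b : Fin m → ℝ) (c : Fin m → Fin k → ℝ),
      (∀ l, ∑ i, c l i ^ 2 ≤ 1 / 2) ∧ ∑ l, |b l| ≤ C / ρ ^ k ∧
        ∀ (n : ℕ) (f : Space n → ℝ), Smooth f →
          ∫ A, ((∑ l, b l * ∫ z, f ((∑ i, c l i • A i) +
                Real.sqrt (1 - ∑ i, c l i ^ 2) • z) ∂gam n)
              - ∫ z, iteratedFDeriv ℝ k f z A ∂gam n) ^ 2 ∂gp (Fin k) n
            ≤ (C * ρ ^ N) ^ 2 * ∫ x, f x ^ 2 ∂gam n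

end Vale.Agent.P347.Zero
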