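import Vale.Agent.P347.Zero.GateTaylor
import Vale.Agent.P347.Zero.AvgStep
import Vale.Agent.P347.Zero.Apply
import Vale.Agent.P347.Zero.VertexPins

/-!
The gate: a combination of values of a smooth scalar function at points slightly moved along a few
independent directions gives the mixed derivative to any order, in mean square, with a constant
that does not see the dimension.
-/

noncomputable section

open MeasureTheory ProbabilityTheory Filter Topology Set
open scoped RealInnerProductSpace

namespace Vale.Agent.P347.Zero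

namespace GateAux

variable {n : ℕ} {ι : Type} [Fintype ι] [DecidableEq ι]

theorem pg_of_smooth {f : Space n → ℝ} (hf : Smooth f) : PG f := fun k => ⟨(hf k).1, (hf k).2⟩

theorem smooth_of_pg {f : Space n → ℝ} (hf : PG f) : Smooth f := fun k => ⟨(hf k).1, (hf k).2⟩

theorem pg_linear {E : Type} [NormedAddCommGroup E] [NormedSpace ℝ E] (φ : E →L[ℝ] ℝ) :
    PG fun x => φ x := by
  intro k
  refine ⟨φ.contDiff, ‖φ‖, 1, fun x => ?_⟩
  rw [pow_one]
  cases k with
  | zero =>
    rw [norm_iteratedFDeriv_zero]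
    nlinarith [φ.le_opNorm x, norm_nonneg φ]
  | succ k =>
    rw [← norm_iteratedFDeriv_fderiv,
      show fderiv ℝ (fun x => φ x) = fun _ : E => φ from funext fun y => φ.fderiv]
    cases k with
    | zero =>
      rw [norm_iteratedFDeriv_zero]
      nlinarith [norm_nonneg x, norm_nonneg φ]
    | succ k =>
      rw [iteratedFDeriv_const_of_ne (Nat.succ_ne_zero k)]
      simpa using mul_nonneg (norm_nonneg φ) (by positivity : (0 : ℝ) ≤ 1 + ‖x‖)

theorem pg_prod {E : Type} [NormedAddCommGroup E] [NormedSpace ℝ E] {α : Type} (s : Finset α)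
    {f : α → E → ℝ} (hf : ∀ a ∈ s, PG (f a)) : PG fun x => ∏ a ∈ s, f a x := by
  classical
  induction s using Finset.induction_on with
  | empty => simpa using pg_const (E := E) 1
  | insert a s ha ih =>
    simp only [Finset.prod_insert ha]
    exact (hf a (Finset.mem_insert_self a s)).mul
      (ih fun b hb => hf b (Finset.mem_insert_of_mem hb))

theorem pg_coord (b : ι) (c : Fin n) : PG fun X : ι → Space n => X b c := by
  have h := pg_linear ((EuclideanSpace.proj c : Space n →L[ℝ] ℝ).comp
    (ContinuousLinearMap.proj (R := ℝ) (φ := fun _ : ι => Space n) b))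
  simpa using h

/-- A combination of the blocks. -/
def row (a : ι → ℝ) : (ι → Space n) →L[ℝ] Space n :=
  ∑ i, a i • ContinuousLinearMap.proj (R := ℝ) (φ := fun _ : ι => Space n) i

omit [DecidableEq ι] in
theorem row_apply (a : ι → ℝ) (X : ι → Space n) : row a X = ∑ i, a i • X i := by
  simp [row]

/-! ### Functions of the blocks -/

/-- Continuous, of polynomial growth, on blocks. -/
def CGp (F : (ι → Space n) → ℝ) : Prop := CG fun z => F (emb ι n z)

omit [DecidableEq ι] in
theorem CGp.int {F : (ι → Space n) → ℝ} (hF : CGp F) : Integrable F (gp ι n) :=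
  integrable_gp_iff.2 (gam_int hF.1 hF.2)

omit [DecidableEq ι] in
theorem cgp_pg {F : (ι → Space n) → ℝ} (hF : PG F) : CGp F :=
  ⟨(AvgAux.nice_emb hF).cont, (AvgAux.nice_emb hF).grow⟩

omit [DecidableEq ι] in
theorem CGp.mul {F G : (ι → Space n) → ℝ} (hF : CGp F) (hG : CGp G) :
    CGp fun X => F X * G X := ⟨hF.1.mul hG.1, grow_mul hF.2 hG.2⟩

omit [DecidableEq ι] in
theorem CGp.sum {α : Type} [Fintype α] {F : α → (ι → Space n) → ℝ} (hF : ∀ a, CGp (F a)) :
    CGp fun X => ∑ a, F a X :=
  ⟨continuous_finsetSum _ fun a _ => (hF a).1, grow_finsum _ fun a => (hF a).2⟩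

omit [DecidableEq ι] in
theorem cgp_row {g : Space n → ℝ} (hg : CG g) (a : ι → ℝ) : CGp fun X => g (row a X) := by
  set L : Space (famDim ι n) →L[ℝ] Space n := (row a).comp (emb ι n).toContinuousLinearMap
  obtain ⟨C, k, hC⟩ := hg.2
  refine ⟨hg.1.comp L.continuous, |C| * (1 + ‖L‖) ^ k, k, fun z => (hC (L z)).trans ?_⟩
  rw [mul_assoc, ← mul_pow]
  refine mul_le_mul (le_abs_self C) (pow_le_pow_left₀ (by positivity) ?_ k) (by positivity)
    (abs_nonneg C)
  nlinarith [L.le_opNorm z, norm_nonneg L, norm_nonneg z]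

omit [DecidableEq ι] in
/-- The last block integrated first. -/
theorem gp_opt {F : (Option ι → Space n) → ℝ} (hF : CGp F) :
    ∫ X, F X ∂gp (Option ι) n = ∫ A, ∫ z, F (fun o => o.elim z A) ∂gam n ∂gp ι n := by
  set e := MeasurableEquiv.piOptionEquivProd (fun _ : Option ι => Space n) with he
  have hmp : MeasurePreserving e.symm ((gp ι n).prod (gam n)) (gp (Option ι) n) :=
    ⟨e.symm.measurable, Measure.pi_map_piOptionEquivProd fun _ => gam n⟩
  have hi : Integrable (fun q => F (e.symm q)) ((gp ι n).prod (gam n)) :=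
    (hmp.integrable_comp_emb e.symm.measurableEmbedding).2 hF.int
  rw [← hmp.integral_comp' F, integral_prod _ hi]
  refine integral_congr_ae (ae_of_all _ fun A => integral_congr_ae (ae_of_all _ fun z => ?_))
  refine congrArg F (funext fun o => ?_)
  cases o <;> rfl

/-- One unit row has the Gaussian law. -/
theorem row_one {g : Space n → ℝ} (hg : CG g) {a : ι → ℝ} (ha : ∑ i, a i ^ 2 = 1) :
    ∫ X, g (row a X) ∂gp ι n = ∫ x, g x ∂gam n := by
  have hM : ∀ b b' : Unit, ∑ i, a i * a i = if b = b' then 1 else 0 := fun b b' => by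
    simpa [sq] using ha
  have h1 := mixB_mp (d := n) (M := fun _ : Unit => a) hM
  have h2 : MeasurePreserving (fun Y : Unit → Space n => Y ()) (gp Unit n) (gam n) :=
    measurePreserving_eval (μ := fun _ : Unit => gam n) ()
  have h := (h2.comp h1).map_eq
  rw [← h, integral_map (h2.comp h1).measurable.aemeasurable hg.1.aestronglyMeasurable]
  refine integral_congr_ae (ae_of_all _ fun X => ?_)
  simp only [Function.comp_apply, mixB_apply, row_apply]

/-- Two unit rows at inner product `u` see the correlation at `u`. -/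
theorem row_two {f : Space n → ℝ} (hf : CG f) {a b : ι → ℝ} (ha : ∑ i, a i ^ 2 = 1)
    (hb : ∑ i, b i ^ 2 = 1) {u : ℝ} (hu : ∑ i, a i * b i = u) (hu0 : 0 ≤ u) (hu1 : u < 1) :
    ∫ X, f (row a X) * f (row b X) ∂gp ι n = corr f u := by
  set v := Real.sqrt (1 - u ^ 2) with hv
  have hv0 : 0 < v := Real.sqrt_pos.2 (by nlinarith)
  have hvv : v * v = 1 - u ^ 2 := Real.mul_self_sqrt (by nlinarith)
  set r : ι → ℝ := fun i => (b i - u * a i) / v with hr
  have hra : ∑ i, a i * r i = 0 := by
    simp only [hr, mul_div_assoc', mul_sub]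
    rw [← Finset.sum_div, Finset.sum_sub_distrib, hu,
      show ∑ i, a i * (u * a i) = u * ∑ i, a i ^ 2 by
        rw [Finset.mul_sum]; exact Finset.sum_congr rfl fun i _ => by ring, ha]
    simp
  have hrr : ∑ i, r i * r i = 1 := by
    have e : ∀ i, r i * r i = (b i ^ 2 - 2 * u * (a i * b i) + u ^ 2 * a i ^ 2) / (v * v) :=
      fun i => by simp only [hr]; field_simp; ring
    simp only [e]
    rw [← Finset.sum_div, Finset.sum_add_distrib, Finset.sum_sub_distrib, ← Finset.mul_sum,
      ← Finset.mul_sum, ha, hb, hu, hvv, div_eq_one_iff_eq (by nlinarith)]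
    ring
  have hM : ∀ p q : Fin 2, ∑ i, ![a, r] p i * ![a, r] q i = if p = q then 1 else 0 := by
    simp only [Fin.forall_fin_two, Matrix.cons_val_zero, Matrix.cons_val_one, Fin.zero_eq_one_iff,
      Fin.one_eq_zero_iff, if_true]
    refine ⟨⟨by simpa [sq] using ha, by simpa using hra⟩, ⟨?_, by simpa using hrr⟩⟩
    simpa [mul_comm] using hra
  have h1 := mixB_mp (d := n) (M := ![a, r]) hM
  have h2 : MeasurePreserving (fun Y : Fin 2 → Space n => (Y 0, Y 1)) (gp (Fin 2) n)
      ((gam n).prod (gam n)) :=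
    measurePreserving_piFinTwo fun _ : Fin 2 => gam n
  have h := (h2.comp h1).map_eq
  set Φ : Space n × Space n → ℝ := fun q => f q.1 * f (u • q.1 + v • q.2) with hΦ
  have hΦc : Continuous Φ := (hf.1.comp continuous_fst).mul (hf.1.comp (by fun_prop))
  have hpt : ∀ X : ι → Space n, Φ ((mixB n ![a, r] X) 0, (mixB n ![a, r] X) 1)
      = f (row a X) * f (row b X) := fun X => by
    have e : ∀ i, u * a i + v * r i = b i := fun i => by
      simp only [hr]; field_simp; ring
    simp only [hΦ, mixB_apply, row_apply, Matrix.cons_val_zero, Matrix.cons_val_one,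
      Finset.smul_sum, smul_smul, ← Finset.sum_add_distrib, ← add_smul, e]
  have hΦi : Integrable Φ ((gam n).prod (gam n)) := by
    obtain ⟨C, k, hC0, hC⟩ := hf.bound
    obtain ⟨D, l, hD⟩ := hf.2
    refine Integrable.mono' ((Integrable.mul_prod (int_poly (l + k)) (int_poly k)).const_mul (|D| * C))
      hΦc.aestronglyMeasurable (ae_of_all _ fun q => ?_)
    rw [Real.norm_eq_abs, abs_mul]
    refine (mul_le_mul ((hD q.1).trans (mul_le_mul_of_nonneg_right (le_abs_self D) (by positivity)))
      (hC u ⟨hu0, hu1.le⟩ q.1 q.2) (abs_nonneg _) (by positivity)).trans_eq ?_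
    ring
  calc ∫ X, f (row a X) * f (row b X) ∂gp ι n
      = ∫ q, Φ q ∂(gam n).prod (gam n) := by
        rw [← h, integral_map (h2.comp h1).measurable.aemeasurable hΦc.aestronglyMeasurable]
        exact integral_congr_ae (ae_of_all _ fun X => (hpt X).symm)
    _ = corr f u := by
        rw [integral_prod _ hΦi]
        exact integral_congr_ae (ae_of_all _ fun x => by simp only [hΦ, Pt, ← hv, integral_const_mul])

/-- Stein's identity once at each of `k` distinct blocks. -/
theorem stein_many : ∀ (k : ℕ) {g : Space n → ℝ}, PG g → ∀ (a : ι → ℝ) (e : Fin k → ι),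
    Function.Injective e → ∀ idx : Fin k → Fin n,
      ∫ X, (∏ i, X (e i) (idx i)) * g (row a X) ∂gp ι n
        = (∏ i, a (e i)) * ∫ X, ent k idx g (row a X) ∂gp ι n := by
  intro k
  induction k with
  | zero => intro g _ a e _ idx; simp [ent_zero]
  | succ k ih =>
    intro g hg a e he idx
    set j := e (Fin.last k) with hj
    set v := ev (idx (Fin.last k)) with hv
    set P : (ι → Space n) → ℝ := fun X => ∏ i : Fin k, X (e i.castSucc) (idx i.castSucc) with hP
    have hPp : PG P := pg_prod _ fun i _ => pg_coord _ _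
    have hgr : PG fun X => g (row a X) := hg.comp_clm (row a)
    have hd : ∀ X, pdB (fun X => P X * g (row a X)) j (idx (Fin.last k)) X
        = a j * (P X * fderiv ℝ g (row a X) v) := by
      intro X
      have h0 : fderiv ℝ P X (Pi.single j v) = 0 := by
        rw [← (hPp.diff X).lineDeriv_eq_fderiv, lineDeriv]
        have e1 : ∀ t : ℝ, P (X + t • Pi.single (M := fun _ => Space n) j v) = P X := fun t => by
          refine Finset.prod_congr rfl fun i _ => ?_
          have : e i.castSucc ≠ j := fun h => (Fin.castSucc_lt_last i).ne (he h)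
          simp [this]
        simp only [e1, deriv_const]
      have h1 : row a (Pi.single j v) = a j • v := by
        simp [row_apply, Pi.single_apply]
      have h2 : fderiv ℝ (fun X => g (row a X)) X (Pi.single j v)
          = fderiv ℝ g (row a X) (a j • v) := by
        rw [← h1]
        have h3 := ((hg.diff (row a X)).hasFDerivAt.comp X (row a).hasFDerivAt).fderiv
        simp only [Function.comp_def] at h3
        rw [h3]
        rfl
      unfold pdB
      rw [fderiv_fun_mul (hPp.diff X) (hgr.diff X)]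
      simp only [add_apply, smul_apply, smul_eq_mul]
      rw [← hv, h0, h2, map_smul, smul_eq_mul]
      ring
    have hswap : ∀ x, ent k (fun i => idx i.castSucc) (fun y => fderiv ℝ g y v) x
        = ent (k + 1) idx g x := fun x => by
      have h := (hg (k + 1)).1
      have h' : ContDiff ℝ (k : ℕ) (fderiv ℝ g) := h.fderiv_right (by push_cast; rfl)
      simp only [ent, iteratedFDeriv_succ_apply_right]
      rw [iteratedFDeriv_clm_apply_const_apply h' le_rfl]
      rfl
    have e0 : ∀ X : ι → Space n, (∏ i, X (e i) (idx i)) * g (row a X)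
        = X j (idx (Fin.last k)) * (P X * g (row a X)) := fun X => by
      rw [Fin.prod_univ_castSucc]; simp only [hP, hj]; ring
    simp only [e0]
    rw [gp_stein (hPp.mul hgr)]
    simp only [hd]
    rw [integral_const_mul, ih (hg.fderiv_apply v) a (fun i => e i.castSucc)
      (he.comp (Fin.castSucc_injective k)), Fin.prod_univ_castSucc]
    simp only [hswap, hj]
    ring

/-! ### The averages along the directions -/

variable {k : ℕ}

/-- The value moved along the directions, averaged over the rest. -/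
def tgate (c : Fin k → ℝ) (f : Space n → ℝ) (A : Fin k → Space n) : ℝ :=
  ∫ z, f ((∑ i, c i • A i) + Real.sqrt (1 - ∑ i, c i ^ 2) • z) ∂gam n

/-- The mean of the derivative at the directions. -/
def dgate (f : Space n → ℝ) (A : Fin k → Space n) : ℝ :=
  ∫ z, iteratedFDeriv ℝ k f z A ∂gam n

theorem cgp_tgate {f : Space n → ℝ} (hf : CG f) {c : Fin k → ℝ} (hc : ∑ i, c i ^ 2 < 1) :
    CGp (tgate c f) := by
  set s := Real.sqrt (1 - ∑ i, c i ^ 2) with hs
  have hs1 : |s| ≤ 1 := by
    rw [abs_of_nonneg (Real.sqrt_nonneg _)]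
    exact Real.sqrt_le_one.2 (by linarith [Finset.sum_nonneg fun i (_ : i ∈ Finset.univ) => sq_nonneg (c i)])
  have hn := nice_sm hf.1 hf.2 (r := s) (Real.sqrt_pos.2 (by linarith)).ne' hs1
  have e : tgate c f = fun A => sm s f (row c A) := funext fun A => by
    simp only [tgate, sm, row_apply, hs]
  rw [e]
  exact cgp_row (cg_of_nice hn) c

theorem dgate_eq {f : Space n → ℝ} (hf : Smooth f) (A : Fin k → Space n) :
    dgate f A = ∑ idx : Fin k → Fin n, (∫ z, ent k idx f z ∂gam n) * ∏ i, A i (idx i) := by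
  have e : ∀ z, iteratedFDeriv ℝ k f z A
      = ∑ idx : Fin k → Fin n, (∏ i, A i (idx i)) * ent k idx f z := by
    intro z
    have hA : A = fun i => ∑ c, A i c • ev c := funext fun i => by
      ext c; simp [ev, Pi.single_apply]
    conv_lhs => rw [hA, (iteratedFDeriv ℝ k f z).map_sum]
    refine Finset.sum_congr rfl fun idx _ => ?_
    rw [(iteratedFDeriv ℝ k f z).map_smul_univ (fun i => A i (idx i)) fun i => ev (idx i), smul_eq_mul]
    rfl
  simp only [dgate, e]
  rw [integral_finsetSum _ fun idx _ =>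
    (gam_int (cg_ent hf k idx).1 (cg_ent hf k idx).2).const_mul _]
  exact Finset.sum_congr rfl fun idx _ => by rw [integral_const_mul, mul_comm]

theorem cgp_dgate {f : Space n → ℝ} (hf : Smooth f) : CGp (dgate (k := k) f) := by
  rw [funext fun A => dgate_eq (k := k) hf A]
  exact cgp_pg (PG.sum _ fun idx _ => (pg_prod _ fun i _ => pg_coord i (idx i)).const_mul _)

theorem phi_zero (f : Space n → ℝ) :
    phi k f 0 = ∑ idx : Fin k → Fin n, (∫ z, ent k idx f z ∂gam n) ^ 2 := by
  simp only [phi, corr_zero]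

/-- The square of the target. -/
theorem dgate_sq {f : Space n → ℝ} (hf : Smooth f) :
    ∫ A, dgate f A * dgate f A ∂gp (Fin k) n = phi k f 0 := by
  set W : (Fin k → Fin n) → (Fin k → Fin n) → (Fin k → Space n) → ℝ := fun p q A =>
    ∏ i, A i (p i) * A i (q i) with hW
  have hW1 : ∀ p q, Integrable (W p q) (gp (Fin k) n) ∧
      ∫ A, W p q A ∂gp (Fin k) n = ∏ i, if p i = q i then (1 : ℝ) else 0 := fun p q => by
    refine ⟨Integrable.fintype_prod (f := fun i (z : Space n) => z (p i) * z (q i))
      fun i => (gam_coord_prod _ _).1, ?_⟩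
    rw [hW, integral_fintype_prod_eq_prod (𝕜 := ℝ) (E := fun _ : Fin k => Space n)
      (fun i z => z (p i) * z (q i))]
    exact Finset.prod_congr rfl fun i _ => (gam_coord_prod _ _).2
  set m := fun idx : Fin k → Fin n => ∫ z, ent k idx f z ∂gam n with hm
  have e : ∀ A, dgate f A * dgate f A = ∑ p, ∑ q, m p * m q * W p q A := fun A => by
    rw [dgate_eq hf, Finset.sum_mul_sum]
    refine Finset.sum_congr rfl fun p _ => Finset.sum_congr rfl fun q _ => ?_
    simp only [hW, hm, Finset.prod_mul_distrib]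
    ring
  simp only [e]
  rw [integral_finsetSum _ fun p _ => integrable_finsetSum _ fun q _ => (hW1 p q).1.const_mul _,
    phi_zero]
  refine Finset.sum_congr rfl fun p _ => ?_
  rw [integral_finsetSum _ fun q _ => (hW1 p q).1.const_mul _, Finset.sum_eq_single p]
  · rw [integral_const_mul, (hW1 p p).2]
    simp [hm, sq]
  · intro q _ hq
    rw [integral_const_mul, (hW1 p q).2]
    obtain ⟨i, hi⟩ := Function.ne_iff.1 hq
    rw [Finset.prod_eq_zero (Finset.mem_univ i) (if_neg (Ne.symm hi)), mul_zero]
  · simp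

/-- The value against the target. -/
theorem tgate_cross {f : Space n → ℝ} (hf : Smooth f) {c : Fin k → ℝ} (hc : ∑ i, c i ^ 2 < 1) :
    ∫ A, tgate c f A * dgate f A ∂gp (Fin k) n = (∏ i, c i) * phi k f 0 := by
  set a : Option (Fin k) → ℝ := fun o => o.elim (Real.sqrt (1 - ∑ i, c i ^ 2)) c with ha
  have ha1 : ∑ o, a o ^ 2 = 1 := by
    rw [Fintype.sum_option]
    simp only [ha, Option.elim_none, Option.elim_some]
    rw [Real.sq_sqrt (by linarith)]
    ring
  have hone : ∀ idx : Fin k → Fin n, ∫ A, (∏ i, A i (idx i)) * tgate c f A ∂gp (Fin k) n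
      = (∏ i, c i) * ∫ z, ent k idx f z ∂gam n := fun idx => by
    have h := stein_many k (pg_of_smooth hf) a some (Option.some_injective _) idx
    rw [row_one (cg_ent hf k idx) ha1] at h
    rw [gp_opt (F := fun X : Option (Fin k) → Space n => (∏ i, X (some i) (idx i)) * f (row a X))
      ((cgp_pg (pg_prod Finset.univ fun i _ => pg_coord (some i) (idx i))).mul
        (cgp_row (cg_smooth hf) a))] at h
    simp only [ha, Option.elim_some] at h
    rw [← h]
    refine integral_congr_ae (ae_of_all _ fun A => ?_)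
    simp only [tgate, ← integral_const_mul, row_apply, Fintype.sum_option, Option.elim_none,
      Option.elim_some]
    exact integral_congr_ae (ae_of_all _ fun z => by simp only [add_comm])
  simp only [dgate_eq hf, Finset.mul_sum]
  rw [integral_finsetSum _ fun idx _ => ((cgp_tgate (cg_smooth hf) hc).mul
    ((cgp_pg ((pg_prod Finset.univ fun i _ => pg_coord i (idx i)).const_mul _)))).int, phi_zero,
    Finset.mul_sum]
  refine Finset.sum_congr rfl fun idx _ => ?_
  rw [sq, mul_left_comm, ← hone idx, ← integral_const_mul]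
  exact integral_congr_ae (ae_of_all _ fun A => by ring)

/-- Two values. -/
theorem tgate_gram {f : Space n → ℝ} (hf : CG f) {c c' : Fin k → ℝ} (hc : ∑ i, c i ^ 2 < 1)
    (hc' : ∑ i, c' i ^ 2 < 1) {u : ℝ} (hu : ∑ i, c i * c' i = u) (hu0 : 0 ≤ u) (hu1 : u < 1) :
    ∫ A, tgate c f A * tgate c' f A ∂gp (Fin k) n = corr f u := by
  set s := Real.sqrt (1 - ∑ i, c i ^ 2) with hs
  set s' := Real.sqrt (1 - ∑ i, c' i ^ 2) with hs'
  set a : Option (Option (Fin k)) → ℝ := fun o => o.elim 0 fun p => p.elim s c with ha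
  set b : Option (Option (Fin k)) → ℝ := fun o => o.elim s' fun p => p.elim 0 c' with hb
  have ha1 : ∑ o, a o ^ 2 = 1 := by
    simp only [Fintype.sum_option, ha, Option.elim_none, Option.elim_some]
    rw [hs, Real.sq_sqrt (by linarith)]
    ring
  have hb1 : ∑ o, b o ^ 2 = 1 := by
    simp only [Fintype.sum_option, hb, Option.elim_none, Option.elim_some]
    rw [hs', Real.sq_sqrt (by linarith)]
    ring
  have hab : ∑ o, a o * b o = u := by
    simp [Fintype.sum_option, ha, hb, hu]
  rw [← row_two hf ha1 hb1 hab hu0 hu1, gp_opt ((cgp_row hf a).mul (cgp_row hf b))]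
  set a₀ : Option (Fin k) → ℝ := fun p => p.elim s c
  set b₀ : Option (Fin k) → ℝ := fun p => p.elim 0 c'
  set s1 := nice_sm hf.1 hf.2 (r := s') (Real.sqrt_pos.2 (by linarith)).ne' (by
    rw [abs_of_nonneg (Real.sqrt_nonneg _)]
    exact Real.sqrt_le_one.2 (by linarith [Finset.sum_nonneg fun i (_ : i ∈ Finset.univ) => sq_nonneg (c' i)]))
  have e : ∀ Y : Option (Fin k) → Space n,
      ∫ z, f (row a fun o => o.elim z Y) * f (row b fun o => o.elim z Y) ∂gam n
        = f (row a₀ Y) * sm s' f (row b₀ Y) := fun Y => by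
    have e1 : ∀ z, row a (fun o => o.elim z Y) = row a₀ Y := fun z => by
      simp [row_apply, Fintype.sum_option, ha, a₀]
    have e2 : ∀ z, row b (fun o => o.elim z Y) = row b₀ Y + s' • z := fun z => by
      simp [row_apply, Fintype.sum_option, hb, b₀, add_comm]
    simp only [e1, e2, integral_const_mul, sm]
  simp only [e]
  rw [gp_opt ((cgp_row hf a₀).mul (cgp_row (cg_of_nice s1) b₀))]
  refine integral_congr_ae (ae_of_all _ fun A => ?_)
  have e3 : ∀ z, row a₀ (fun o => o.elim z A) = (∑ i, c i • A i) + s • z := fun z => by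
    simp [row_apply, Fintype.sum_option, a₀, add_comm]
  have e4 : ∀ z, row b₀ (fun o => o.elim z A) = ∑ i, c' i • A i := fun z => by
    simp [row_apply, Fintype.sum_option, b₀]
  simp only [e3, e4, integral_mul_const]
  rfl

/-! ### The rule -/

/-- Weights on fixed nodes reproducing the derivative at zero. -/
theorem exists_gate_coeff (K : ℕ) :
    ∃ β : Fin K → ℝ, ∀ p < K, ∑ i, β i * (((i : ℕ) + 1 : ℝ) / K) ^ p = if p = 1 then 1 else 0 := by
  set v : Fin K → ℝ := fun i => ((i : ℕ) + 1 : ℝ) / K with hv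
  have hinj : Set.InjOn v (↑(Finset.univ : Finset (Fin K))) := fun i _ j _ h => by
    have hk : (K : ℝ) ≠ 0 := by
      have := i.pos
      positivity
    simp only [hv, div_left_inj' hk, add_left_inj, Nat.cast_inj] at h
    exact Fin.ext h
  refine ⟨fun i => (Lagrange.basis Finset.univ v i).coeff 1, fun p hp => ?_⟩
  have hdeg : (Polynomial.X ^ p : Polynomial ℝ).degree
      < ((Finset.univ : Finset (Fin K)).card : WithBot ℕ) := by
    rw [Polynomial.degree_X_pow, Finset.card_univ, Fintype.card_fin]
    exact_mod_cast hp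
  have hx := congrArg (fun q => Polynomial.coeff q 1)
    (Lagrange.eq_interpolate (s := Finset.univ) hinj hdeg)
  simp only [Lagrange.interpolate_apply, Polynomial.finsetSum_coeff, Polynomial.coeff_C_mul,
    Polynomial.coeff_X_pow, Polynomial.eval_pow, Polynomial.eval_X] at hx
  simp only [eq_comm (a := p)]
  rw [hx]
  exact Finset.sum_congr rfl fun i _ => mul_comm _ _

/-- The rule on the product grid. -/
theorem gate_grid (k N : ℕ) : ∃ (L : Type) (_ : Fintype L) (C : ℝ), ∀ ρ : ℝ, 0 < ρ → ρ ≤ 1 / 2 →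
    ∃ (b : L → ℝ) (c : L → Fin k → ℝ),
      (∀ l i, 0 < c l i ∧ c l i ≤ ρ) ∧ (∀ l, ∑ i, c l i ^ 2 ≤ 1 / 2) ∧
        ∑ l, |b l| ≤ C / ρ ^ k ∧
          ∀ (n : ℕ) (f : Space n → ℝ), Smooth f →
            ∫ A, ((∑ l, b l * tgate (c l) f A) - dgate f A) ^ 2 ∂gp (Fin k) n
              ≤ (C * ρ ^ N) ^ 2 * ∫ x, f x ^ 2 ∂gam n := by
  set K := N + k + 2 with hK
  obtain ⟨β, hβ⟩ := exists_gate_coeff K
  set B := ((k : ℝ) + 1) * ∑ i, |β i| with hB
  refine ⟨Fin k → Fin K, inferInstance, (1 + (2 * (K : ℝ) + 2) ^ K) * B ^ k, ?_⟩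
  intro ρ hρ hρ2
  set τ := ρ / ((k : ℝ) + 1) with hτ
  set nd : Fin K → ℝ := fun i => τ * (((i : ℕ) + 1 : ℝ) / K) with hnd
  set bb : Fin K → ℝ := fun i => β i / τ with hbb
  have hk1 : (0 : ℝ) < (k : ℝ) + 1 := by positivity
  have hτ0 : 0 < τ := div_pos hρ hk1
  have hτρ : τ ≤ ρ := div_le_self hρ.le (by linarith [(Nat.cast_nonneg k : (0 : ℝ) ≤ k)])
  have hK0 : (0 : ℝ) < K := by rw [hK]; positivity
  have hmom : ∀ p < K, ∑ i, bb i * nd i ^ p = if p = 1 then 1 else 0 := fun p hp => by
    have e : ∀ i, bb i * nd i ^ p = τ ^ p / τ * (β i * (((i : ℕ) + 1 : ℝ) / K) ^ p) := fun i => by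
      simp only [hbb, hnd, mul_pow]; ring
    simp only [e, ← Finset.mul_sum, hβ p hp]
    split_ifs with h
    · subst h; field_simp
    · simp
  have hnd1 : ∀ i, 0 < nd i ∧ nd i ≤ τ := fun i => by
    refine ⟨by simp only [hnd]; positivity, mul_le_of_le_one_right hτ0.le ?_⟩
    rw [div_le_one hK0]
    exact_mod_cast Nat.succ_le_of_lt i.isLt
  set b : (Fin k → Fin K) → ℝ := fun l => ∏ i, bb (l i) with hb
  set c : (Fin k → Fin K) → Fin k → ℝ := fun l i => nd (l i) with hc
  have hpair : ∀ l l', (∑ i, c l i * c l' i) ≤ ρ ^ 2 := fun l l' => by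
    refine (Finset.sum_le_sum (g := fun _ => τ ^ 2) fun i _ => ?_).trans ?_
    · rw [sq]
      exact mul_le_mul (hnd1 _).2 (hnd1 _).2 (hnd1 _).1.le hτ0.le
    · rw [Finset.sum_const, Finset.card_univ, Fintype.card_fin, nsmul_eq_mul, hτ, div_pow,
        mul_div_assoc', div_le_iff₀ (by positivity)]
      nlinarith [sq_nonneg ρ, sq_nonneg (k : ℝ), mul_nonneg (sq_nonneg ρ) (sq_nonneg (k : ℝ)),
        mul_nonneg (sq_nonneg ρ) (Nat.cast_nonneg (α := ℝ) k)]
  have hρ4 : ρ ^ 2 ≤ 1 / 4 := by nlinarith
  have hsq : ∀ l, ∑ i, c l i ^ 2 ≤ 1 / 2 := fun l => by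
    simpa only [sq] using le_trans (hpair l l) (by linarith)
  have hsb : ∑ l, |b l| = (B / ρ) ^ k := by
    have e : ∀ l, |b l| = ∏ i, |bb (l i)| := fun l => by rw [hb]; exact Finset.abs_prod _ _
    simp only [e]
    rw [← Fintype.prod_sum fun (_ : Fin k) j => |bb j|, Finset.prod_const, Finset.card_univ,
      Fintype.card_fin, hB, hbb]
    simp only [abs_div, abs_of_pos hτ0, ← Finset.sum_div]
    rw [hτ]
    field_simp
  have hB0 : 0 ≤ B := by positivity
  have hM1 : (1 : ℝ) ≤ (2 * (K : ℝ) + 2) ^ K :=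
    one_le_pow₀ (by linarith [(Nat.cast_nonneg K : (0 : ℝ) ≤ K)])
  refine ⟨b, c, fun l i => ⟨(hnd1 _).1, (hnd1 _).2.trans hτρ⟩, hsq, ?_, fun n f hf => ?_⟩
  · rw [hsb, div_pow, mul_div_assoc]
    exact le_mul_of_one_le_left (by positivity) (by linarith)
  set E := ∫ x, f x ^ 2 ∂gam n with hE
  have hE0 : 0 ≤ E := integral_nonneg fun x => sq_nonneg _
  set a := phi k f 0 with ha
  set u : (Fin k → Fin K) → (Fin k → Fin K) → ℝ := fun l l' => ∑ i, c l i * c l' i with hu
  have hu0 : ∀ l l', 0 ≤ u l l' := fun l l' =>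
    Finset.sum_nonneg fun i _ => mul_nonneg (hnd1 _).1.le (hnd1 _).1.le
  have hlt : ∀ l, ∑ i, c l i ^ 2 < 1 := fun l => (hsq l).trans_lt (by norm_num)
  -- cross term
  have hcross : ∑ l, b l * ∏ i, c l i = 1 := by
    simp only [hb, hc, ← Finset.prod_mul_distrib]
    rw [← Fintype.prod_sum fun (_ : Fin k) j => bb j * nd j]
    refine Finset.prod_eq_one fun i _ => ?_
    simpa using hmom 1 (by omega)
  -- expansion of the square
  have hexp : ∫ A, ((∑ l, b l * tgate (c l) f A) - dgate f A) ^ 2 ∂gp (Fin k) n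
      = (∑ l, ∑ l', b l * b l' * corr f (u l l')) - a := by
    have hT : ∀ l, CGp (tgate (c l) f) := fun l => cgp_tgate (cg_smooth hf) (hlt l)
    have hD := cgp_dgate (k := k) hf
    have i1 : ∀ l l', Integrable (fun A => b l * b l' * (tgate (c l) f A * tgate (c l') f A))
        (gp (Fin k) n) := fun l l' => ((hT l).mul (hT l')).int.const_mul _
    have i2 : ∀ l, Integrable (fun A => b l * (tgate (c l) f A * dgate f A)) (gp (Fin k) n) :=
      fun l => ((hT l).mul hD).int.const_mul _
    have i1' : Integrable (fun A => ∑ l, ∑ l', b l * b l' * (tgate (c l) f A * tgate (c l') f A))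
        (gp (Fin k) n) :=
      integrable_finsetSum _ fun l _ => integrable_finsetSum _ fun l' _ => i1 l l'
    have i2' : Integrable (fun A => 2 * ∑ l, b l * (tgate (c l) f A * dgate f A)) (gp (Fin k) n) :=
      (integrable_finsetSum _ fun l _ => i2 l).const_mul 2
    have e : ∀ A, ((∑ l, b l * tgate (c l) f A) - dgate f A) ^ 2
        = (∑ l, ∑ l', b l * b l' * (tgate (c l) f A * tgate (c l') f A))
          - 2 * (∑ l, b l * (tgate (c l) f A * dgate f A)) + dgate f A * dgate f A := fun A => by
      rw [sub_sq, sq, sq, Finset.sum_mul_sum, mul_assoc, Finset.sum_mul]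
      congr 2
      · exact Finset.sum_congr rfl fun l _ => Finset.sum_congr rfl fun l' _ => by ring
      · congr 1
        exact Finset.sum_congr rfl fun l _ => by ring
    have i12 : Integrable (fun A => (∑ l, ∑ l', b l * b l' * (tgate (c l) f A * tgate (c l') f A))
        - 2 * ∑ l, b l * (tgate (c l) f A * dgate f A)) (gp (Fin k) n) := i1'.sub i2'
    simp only [e]
    rw [integral_add i12 (hD.mul hD).int, integral_sub i1' i2', dgate_sq hf, integral_const_mul,
      integral_finsetSum _ fun l _ => integrable_finsetSum _ fun l' _ => i1 l l',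
      integral_finsetSum _ fun l _ => i2 l]
    have e1 : ∀ l, ∫ A, ∑ l', b l * b l' * (tgate (c l) f A * tgate (c l') f A) ∂gp (Fin k) n
        = ∑ l', b l * b l' * corr f (u l l') := fun l => by
      rw [integral_finsetSum _ fun l' _ => i1 l l']
      refine Finset.sum_congr rfl fun l' _ => ?_
      rw [integral_const_mul, tgate_gram (cg_smooth hf) (hlt l) (hlt l') rfl (hu0 l l')
        ((hpair l l').trans_lt (by linarith))]
    have e2 : ∑ l, ∫ A, b l * (tgate (c l) f A * dgate f A) ∂gp (Fin k) n = a := by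
      refine (Finset.sum_congr rfl fun l _ => show _ = b l * (∏ i, c l i) * a by
        rw [integral_const_mul, tgate_cross hf (hlt l), ← ha, mul_assoc]).trans ?_
      rw [← Finset.sum_mul, hcross, one_mul]
    simp only [e1, e2]
    ring
  -- the polynomial part
  have hpoly : ∀ j < K, ∑ l, ∑ l', b l * b l' * u l l' ^ j
      = if j = k then (k.factorial : ℝ) else 0 := by
    intro j hj
    have e : ∑ l, ∑ l', b l * b l' * u l l' ^ j
        = ∑ σ : Fin j → Fin k, (∑ l, b l * ∏ t, c l (σ t)) ^ 2 := by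
      simp only [sq, Finset.sum_mul_sum]
      simp only [hu, Fintype.sum_pow, Finset.mul_sum]
      rw [Finset.sum_comm_cycle]
      refine Finset.sum_congr rfl fun σ _ => Finset.sum_congr rfl fun l _ =>
        Finset.sum_congr rfl fun l' _ => ?_
      rw [Finset.prod_mul_distrib]
      ring
    rw [e]
    have hσ : ∀ σ : Fin j → Fin k, ∑ l, b l * ∏ t, c l (σ t)
        = if Function.Bijective σ then 1 else 0 := by
      intro σ
      have e1 : ∀ l, b l * ∏ t, c l (σ t)
          = ∏ i, bb (l i) * nd (l i) ^ (Finset.univ.filter fun t => σ t = i).card := fun l => by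
        rw [← Finset.prod_fiberwise Finset.univ σ fun t => c l (σ t), hb, ← Finset.prod_mul_distrib]
        refine Finset.prod_congr rfl fun i _ => ?_
        rw [Finset.prod_congr rfl fun t ht => show c l (σ t) = c l i by
          rw [(Finset.mem_filter.1 ht).2], Finset.prod_const]
      simp only [e1]
      rw [← Fintype.prod_sum fun i m => bb m * nd m ^ (Finset.univ.filter fun t => σ t = i).card,
        Finset.prod_congr rfl fun i _ => hmom _ (lt_of_le_of_lt (Finset.card_le_univ _) (by simpa using hj))]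
      split_ifs with h
      · refine Finset.prod_eq_one fun i _ => if_pos (Finset.card_eq_one.2 ?_)
        obtain ⟨t, rfl⟩ := h.2 i
        exact ⟨t, by ext t'; simp [h.1.eq_iff]⟩
      · refine Finset.prod_eq_zero_iff.2 ?_
        by_contra hne
        push Not at hne
        refine h ⟨fun t t' htt => ?_, fun i => ?_⟩
        · have h1 : (Finset.univ.filter fun x => σ x = σ t).card = 1 := by
            by_contra h2
            exact hne _ (Finset.mem_univ _) (if_neg h2)
          exact Finset.card_le_one.1 h1.le t (by simp) t' (by simp [htt])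
        · have h1 : (Finset.univ.filter fun x => σ x = i).card = 1 := by
            by_contra h2
            exact hne _ (Finset.mem_univ _) (if_neg h2)
          obtain ⟨t, ht⟩ := Finset.card_pos.1 (by omega : 0 < (Finset.univ.filter fun x => σ x = i).card)
          exact ⟨t, (Finset.mem_filter.1 ht).2⟩
    simp only [hσ, ite_pow, one_pow, zero_pow two_ne_zero, Finset.sum_boole]
    split_ifs with h
    · subst j
      rw [show k.factorial = Fintype.card (Equiv.Perm (Fin k)) by
        rw [Fintype.card_perm, Fintype.card_fin], ← Fintype.card_subtype]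
      exact congrArg _ (Fintype.card_congr
        ⟨fun σ => Equiv.ofBijective σ.1 σ.2, fun p => ⟨p, p.bijective⟩,
          fun σ => rfl, fun p => Equiv.ext fun i => rfl⟩)
    · rw [Nat.cast_eq_zero, Finset.card_eq_zero, Finset.filter_eq_empty_iff]
      intro σ _ hs
      exact h (by simpa using Fintype.card_of_bijective hs)
  set P : ℝ → ℝ := fun x => ∑ i ∈ Finset.range K, phi (0 + i) f 0 * x ^ i / i.factorial with hP
  have hmain : ∑ l, ∑ l', b l * b l' * P (u l l') = a := by
    have e : ∀ l l', b l * b l' * P (u l l')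
        = ∑ i ∈ Finset.range K, phi i f 0 / i.factorial * (b l * b l' * u l l' ^ i) := fun l l' => by
      simp only [hP, Finset.mul_sum, zero_add]
      exact Finset.sum_congr rfl fun i _ => by ring
    simp only [e]
    rw [Finset.sum_comm_cycle]
    simp only [← Finset.mul_sum]
    rw [Finset.sum_congr rfl fun i hi => by rw [hpoly i (Finset.mem_range.1 hi)],
      Finset.sum_eq_single_of_mem k (Finset.mem_range.2 (by omega)) fun i _ hik => by simp [hik],
      if_pos rfl, ha]
    field_simp
  set M := (2 * (K : ℝ) + 2) ^ K * E with hM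
  have hrem : ∀ l l', |corr f (u l l') - P (u l l')| ≤ M * (ρ ^ 2) ^ K := fun l l' => by
    have h := phi_taylor hf (K := K) (M := M) (ρ := ρ ^ 2) (by linarith)
      (fun x hx => phi_le hf K hx.1 (hx.2.trans (by linarith))) K 0 (zero_add K) (u l l')
      ⟨hu0 l l', hpair l l'⟩
    rw [phi_zero_order] at h
    exact h.trans (mul_le_mul_of_nonneg_left (pow_le_pow_left₀ (hu0 l l') (hpair l l') K)
      (by positivity))
  have hfin : (∑ l, ∑ l', b l * b l' * corr f (u l l')) - a
      ≤ ((B / ρ) ^ k) ^ 2 * (M * (ρ ^ 2) ^ K) := by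
    rw [← hmain, ← Finset.sum_sub_distrib, ← hsb, sq, Finset.sum_mul_sum, Finset.sum_mul]
    refine Finset.sum_le_sum fun l _ => ?_
    rw [← Finset.sum_sub_distrib, Finset.sum_mul]
    refine Finset.sum_le_sum fun l' _ => ?_
    rw [← mul_sub]
    refine (le_abs_self _).trans ?_
    rw [abs_mul, abs_mul]
    exact mul_le_mul_of_nonneg_left (hrem l l') (by positivity)
  rw [hexp]
  refine hfin.trans ?_
  have e : ((B / ρ) ^ k) ^ 2 * (M * (ρ ^ 2) ^ K)
      = (2 * (K : ℝ) + 2) ^ K * (B ^ k * ρ ^ N) ^ 2 * E * ρ ^ 4 := by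
    rw [hM, hK, div_pow]
    field_simp
    ring
  rw [e]
  have h4 : ρ ^ 4 ≤ 1 := pow_le_one₀ hρ.le (by linarith)
  have h5 : (2 * (K : ℝ) + 2) ^ K ≤ (1 + (2 * (K : ℝ) + 2) ^ K) ^ 2 := by nlinarith
  calc (2 * (K : ℝ) + 2) ^ K * (B ^ k * ρ ^ N) ^ 2 * E * ρ ^ 4
      ≤ (1 + (2 * (K : ℝ) + 2) ^ K) ^ 2 * (B ^ k * ρ ^ N) ^ 2 * E * 1 := by gcongr
    _ = _ := by ring

end GateAux

open GateAux

/-- The gate in several directions. -/
theorem gateMulti : GateMulti := by
  intro k N _
  obtain ⟨L, hL, C, h⟩ := gate_grid k N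
  refine ⟨Fintype.card L, C, fun ρ h1 h2 => ?_⟩
  obtain ⟨b, c, -, hc, hb, hf⟩ := h ρ h1 h2
  set e := (Fintype.equivFin L).symm
  refine ⟨b ∘ e, c ∘ e, fun l => hc (e l), ?_, fun n f hs => ?_⟩
  · simpa only [Function.comp_apply, e.sum_comp (fun l => |b l|)] using hb
  · simp only [Function.comp_apply]
    have e1 : ∀ A : Fin k → Space n,
        (∑ x, b (e x) * ∫ z, f ((∑ i, c (e x) i • A i) +
          Real.sqrt (1 - ∑ i, c (e x) i ^ 2) • z) ∂gam n) = ∑ l, b l * tgate (c l) f A := fun A =>
      e.sum_comp fun l => b l * tgate (c l) f A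
    simp only [e1]
    exact hf n f hs

/-- The gate in one direction. -/
theorem gateRule : GateRule := by
  intro N _
  obtain ⟨L, hL, C, h⟩ := gate_grid 1 N
  refine ⟨Fintype.card L, C, fun ρ h1 h2 => ?_⟩
  obtain ⟨b, c, hr, hc, hb, hf⟩ := h ρ h1 h2
  set e := (Fintype.equivFin L).symm
  refine ⟨b ∘ e, fun l => c (e l) 0, fun l => hr (e l) 0, ?_, fun n f hs => ?_⟩
  · simpa only [Function.comp_apply, e.sum_comp (fun l => |b l|), pow_one] using hb
  · refine le_trans (le_of_eq ?_) (hf n f hs)
    have h2 : MeasurePreserving (fun A : Fin 1 → Space n => A 0) (gp (Fin 1) n) (gam n) :=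
      measurePreserving_eval (μ := fun _ : Fin 1 => gam n) 0
    simp only [Function.comp_apply]
    set F : Space n → ℝ := fun x => ((∑ l, b (e l) * Pt (c (e l) 0) f x)
      - ∫ z, fderiv ℝ f z x ∂gam n) ^ 2
    have e1 : ∀ A : Fin 1 → Space n,
        F (A 0) = ((∑ l, b l * tgate (c l) f A) - dgate f A) ^ 2 := fun A => by
      have e2 : ∀ l, tgate (c l) f A = Pt (c l 0) f (A 0) := fun l => by
        simp [tgate, Pt]
      have e3 : dgate f A = ∫ z, fderiv ℝ f z (A 0) ∂gam n := by
        simp [dgate, iteratedFDeriv_one_apply]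
      simp only [F, e2, e3, e.sum_comp fun l => b l * Pt (c l 0) f (A 0)]
    have hFc : Continuous F := by
      have hd : Continuous fun x => ∫ z, fderiv ℝ f z x ∂gam n := by
        have hfi : Integrable (fun z => fderiv ℝ f z) (gam n) := by
          have hn := nice_ent hs 0 Fin.elim0
          rw [ent_zero] at hn
          refine Integrable.mono' (gam_int ((hn.1.continuous_fderiv one_ne_zero).norm)
            (grow_norm hn.2)) (hn.1.continuous_fderiv one_ne_zero).aestronglyMeasurable
            (ae_of_all _ fun z => le_rfl)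
        simp only [← ContinuousLinearMap.integral_apply hfi]
        exact ContinuousLinearMap.continuous _
      exact ((continuous_finsetSum _ fun l _ => continuous_const.mul
        (pt_cg (cg_smooth hs) ⟨(hr (e l) 0).1.le, (hr (e l) 0).2.trans (by linarith)⟩).1).sub
        hd).pow 2
    rw [← h2.map_eq, integral_map h2.measurable.aemeasurable hFc.aestronglyMeasurable]
    exact integral_congr_ae (ae_of_all _ e1)

end Vale.Agent.P347.Zero
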