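import Vale.Agent.P347.Basics
import Vale.Agent.P347.Poincare

/-!
The divergence `dlt` of the standard Gaussian measure: its isometry for continuously differentiable
fields (C1), and the universal bound on the variance of `tr (K Df)` that follows from it (C4).
-/

noncomputable section

open MeasureTheory Filter Topology
open scoped RealInnerProductSpace

namespace Vale.Agent.P347.Zero

variable {d : ℕ}

/-- The trace of an endomorphism. -/
def trc (T : Space d →L[ℝ] Space d) : ℝ := ∑ i, T (ev i) i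

/-- The squared Hilbert-Schmidt norm. -/
def hs2 (T : Space d →L[ℝ] Space d) : ℝ := ∑ j, ‖T (ev j)‖ ^ 2

/-- The Gaussian divergence. -/
def dlt (u : Space d → Space d) (x : Space d) : ℝ := ⟪x, u x⟫ - trc (fderiv ℝ u x)

theorem coord_inner (x : Space d) (i : Fin d) : ⟪ev i, x⟫ = x i := by
  simp [EuclideanSpace.inner_single_left]

theorem hs2_eq (T : Space d →L[ℝ] Space d) : hs2 T = ∑ i, ∑ j, (T (ev j) i) ^ 2 := by
  simp only [hs2, EuclideanSpace.real_norm_sq_eq]
  exact Finset.sum_comm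

theorem star_coord (T : Space d →L[ℝ] Space d) (v : Space d) (j : Fin d) :
    (star T) v j = ⟪v, T (ev j)⟫ := by
  rw [← coord_inner ((star T) v) j, ContinuousLinearMap.star_eq_adjoint,
    ContinuousLinearMap.adjoint_inner_right, real_inner_comm]

theorem hs2_star (T : Space d →L[ℝ] Space d) : hs2 (star T) = hs2 T := by
  rw [hs2_eq, hs2_eq, Finset.sum_comm]
  exact Finset.sum_congr rfl fun i _ => Finset.sum_congr rfl fun j _ => by
    rw [star_coord, coord_inner]

theorem hs2_nonneg (T : Space d →L[ℝ] Space d) : 0 ≤ hs2 T :=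
  Finset.sum_nonneg fun _ _ => sq_nonneg _

theorem norm_star_sq_le (T : Space d →L[ℝ] Space d) (v : Space d) :
    ‖(star T) v‖ ^ 2 ≤ hs2 T * ‖v‖ ^ 2 := by
  rw [EuclideanSpace.real_norm_sq_eq, hs2, Finset.sum_mul]
  refine Finset.sum_le_sum fun j _ => ?_
  rw [star_coord, ← sq_abs, ← mul_pow, mul_comm ‖T (ev j)‖]
  exact pow_le_pow_left₀ (abs_nonneg _) (abs_real_inner_le_norm _ _) 2

theorem norm_apply_sq_le (T : Space d →L[ℝ] Space d) (v : Space d) :
    ‖T v‖ ^ 2 ≤ hs2 T * ‖v‖ ^ 2 := by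
  simpa [hs2_star] using norm_star_sq_le (star T) v

theorem hs2_comp_le (K T : Space d →L[ℝ] Space d) : hs2 (K.comp T) ≤ hs2 K * ‖T‖ ^ 2 := by
  rw [← hs2_star (K.comp T), ← hs2_star K, hs2, hs2, Finset.sum_mul]
  refine Finset.sum_le_sum fun i _ => ?_
  have e : star (K.comp T) = (star T).comp (star K) := by
    simp only [ContinuousLinearMap.star_eq_adjoint, ContinuousLinearMap.adjoint_comp]
  rw [e, ContinuousLinearMap.comp_apply, mul_comm, ← mul_pow]
  refine pow_le_pow_left₀ (norm_nonneg _) (((star T).le_opNorm _).trans_eq ?_) 2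
  rw [ContinuousLinearMap.star_eq_adjoint, LinearIsometryEquiv.norm_map]

/-- `tr (T T) ≤ |T|_HS²`. -/
theorem trc_comp_self_le (T : Space d →L[ℝ] Space d) :
    ∑ i, ∑ j, T (ev j) i * T (ev i) j ≤ hs2 T := by
  have h : ∀ i j, T (ev j) i * T (ev i) j ≤ (T (ev j) i ^ 2 + T (ev i) j ^ 2) / 2 := fun i j => by
    nlinarith [sq_nonneg (T (ev j) i - T (ev i) j)]
  refine (Finset.sum_le_sum fun i _ => Finset.sum_le_sum fun j _ => h i j).trans_eq ?_
  simp only [add_div, Finset.sum_add_distrib]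
  rw [Finset.sum_comm (f := fun i j => T (ev i) j ^ 2 / 2), hs2_eq]
  simp only [← Finset.sum_div]
  ring

/-! ### Functions with derivative of polynomial growth -/

theorem grow_const {β : Type} [NormedAddCommGroup β] (c : β) : Grow fun _ : Space d => c :=
  ⟨‖c‖, 0, fun x => by simp⟩

theorem grow_add {β : Type} [NormedAddCommGroup β] {f g : Space d → β} (hf : Grow f) (hg : Grow g) :
    Grow fun x => f x + g x := by
  obtain ⟨A, a, hA⟩ := hf
  obtain ⟨B, b, hB⟩ := hg
  refine ⟨|A| + |B|, a + b, fun x => (norm_add_le _ _).trans ?_⟩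
  have h1 : (1 : ℝ) ≤ 1 + ‖x‖ := by linarith [norm_nonneg x]
  rw [add_mul]
  exact add_le_add
    ((hA x).trans (mul_le_mul (le_abs_self A) (pow_le_pow_right₀ h1 (by omega)) (by positivity)
      (abs_nonneg A)))
    ((hB x).trans (mul_le_mul (le_abs_self B) (pow_le_pow_right₀ h1 (by omega)) (by positivity)
      (abs_nonneg B)))

theorem grow_mono {β γ : Type} [Norm β] [Norm γ] {f : Space d → β} {g : Space d → γ} (hg : Grow g)
    (h : ∀ x, ‖f x‖ ≤ ‖g x‖) : Grow f := by
  obtain ⟨C, k, hC⟩ := hg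
  exact ⟨C, k, fun x => (h x).trans (hC x)⟩

theorem grow_norm {β : Type} [NormedAddCommGroup β] {f : Space d → β} (hf : Grow f) :
    Grow fun x => ‖f x‖ := grow_mono hf fun _ => (norm_norm _).le

theorem grow_pow {f : Space d → ℝ} (hf : Grow f) : ∀ n : ℕ, Grow fun x => f x ^ n
  | 0 => by simpa using grow_const (1 : ℝ)
  | n + 1 => by
    simp only [pow_succ]
    exact grow_mul (grow_pow hf n) hf

theorem grow_coord (i : Fin d) : Grow fun x : Space d => x i :=
  grow_mono (grow_inner (ev i)) fun x => by rw [coord_inner]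

theorem grow_id : Grow fun x : Space d => x :=
  ⟨1, 1, fun x => by simp only [one_mul, pow_one]; linarith⟩

theorem grow_finsum {ι : Type*} (s : Finset ι) {f : ι → Space d → ℝ} (hf : ∀ i, Grow (f i)) :
    Grow fun x => ∑ i ∈ s, f i x := by
  classical
  induction s using Finset.induction with
  | empty => simpa using grow_const (0 : ℝ)
  | insert a s ha ih => simp only [Finset.sum_insert ha]; exact grow_add (hf a) ih

theorem gam_int {F : Space d → ℝ} (hF : Continuous F) (hg : Grow F) : Integrable F (gam d) :=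
  tame_integrable hF.measurable (tame_of_grow hg)

/-- Continuously differentiable with derivative of polynomial growth. -/
def Nice (φ : Space d → ℝ) : Prop := ContDiff ℝ 1 φ ∧ Grow fun x => fderiv ℝ φ x

theorem Nice.cont {φ : Space d → ℝ} (h : Nice φ) : Continuous φ := h.1.continuous

theorem Nice.diff {φ : Space d → ℝ} (h : Nice φ) : Differentiable ℝ φ :=
  h.1.differentiable one_ne_zero

theorem Nice.grow {φ : Space d → ℝ} (h : Nice φ) : Grow φ := grow_of_fderiv h.1 h.2

theorem Nice.cont_deriv {φ : Space d → ℝ} (h : Nice φ) (e : Space d) :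
    Continuous fun x => fderiv ℝ φ x e :=
  (h.1.continuous_fderiv one_ne_zero).clm_apply continuous_const

theorem Nice.grow_deriv {φ : Space d → ℝ} (h : Nice φ) (e : Space d) :
    Grow fun x => fderiv ℝ φ x e := by
  refine grow_mono (grow_mul (grow_norm h.2) (grow_const ‖e‖)) fun x => ?_
  rw [norm_mul, norm_norm, norm_norm]
  exact (fderiv ℝ φ x).le_opNorm e

theorem Nice.of_bound {φ : Space d → ℝ} (h : ContDiff ℝ 1 φ) {G : Space d → ℝ} (hG : Grow G)
    (hb : ∀ x, ‖fderiv ℝ φ x‖ ≤ G x) : Nice φ :=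
  ⟨h, grow_mono hG fun x => (hb x).trans (le_abs_self _)⟩

theorem Nice.mul {φ ψ : Space d → ℝ} (hφ : Nice φ) (hψ : Nice ψ) :
    Nice fun x => φ x * ψ x := by
  refine Nice.of_bound (hφ.1.mul hψ.1) (G := fun x => ‖φ x‖ * ‖fderiv ℝ ψ x‖
    + ‖ψ x‖ * ‖fderiv ℝ φ x‖) (grow_add (grow_mul (grow_norm hφ.grow) (grow_norm hψ.2))
      (grow_mul (grow_norm hψ.grow) (grow_norm hφ.2))) fun x => ?_
  rw [fderiv_fun_mul (hφ.diff x) (hψ.diff x)]
  exact (norm_add_le _ _).trans (add_le_add (norm_smul _ _).le (norm_smul _ _).le)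

theorem Nice.sub {φ ψ : Space d → ℝ} (hφ : Nice φ) (hψ : Nice ψ) :
    Nice fun x => φ x - ψ x := by
  refine Nice.of_bound (hφ.1.sub hψ.1) (grow_add (grow_norm hφ.2) (grow_norm hψ.2)) fun x => ?_
  rw [fderiv_fun_sub (hφ.diff x) (hψ.diff x)]
  exact norm_sub_le _ _

theorem nice_inner (k : Space d) : Nice fun x : Space d => ⟪k, x⟫ := by
  refine Nice.of_bound (innerSL ℝ k).contDiff (grow_const ‖innerSL ℝ k‖) fun x => ?_
  rw [show (fun x : Space d => ⟪k, x⟫) = ⇑(innerSL ℝ k) from rfl,
    ((innerSL ℝ k).hasFDerivAt (x := x)).fderiv]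

theorem nice_coord (i : Fin d) : Nice fun x : Space d => x i := by
  simpa only [coord_inner] using nice_inner (ev i)

theorem fderiv_coord (i : Fin d) (x v : Space d) :
    fderiv ℝ (fun y : Space d => y i) x v = v i := by
  rw [show (fun y : Space d => y i) = fun y => ⟪ev i, y⟫ by simp only [coord_inner],
    show (fun y : Space d => ⟪ev i, y⟫) = ⇑(innerSL ℝ (ev i)) from rfl,
    ((innerSL ℝ (ev i)).hasFDerivAt (x := x)).fderiv, innerSL_apply_apply, coord_inner]

/-- Stein's identity. -/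
theorem gStein {φ : Space d → ℝ} (hφ : Nice φ) (e : Space d) :
    ∫ x, ⟪e, x⟫ * φ x ∂gam d = ∫ x, fderiv ℝ φ x e ∂gam d := by
  have h := steinMu d 0 (Pot.zero d) φ e hφ.1 hφ.2
  rw [mu_zero] at h
  simpa [Pot.zero] using h

/-- Stein's identity for a coordinate and a product. -/
theorem gStein_mul {φ ψ : Space d → ℝ} (hφ : Nice φ) (hψ : Nice ψ) (i : Fin d) :
    ∫ x, x i * (φ x * ψ x) ∂gam d
      = (∫ x, fderiv ℝ φ x (ev i) * ψ x ∂gam d) + ∫ x, φ x * fderiv ℝ ψ x (ev i) ∂gam d := by
  have h := gStein (hφ.mul hψ) (ev i)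
  simp only [coord_inner] at h
  have i1 : Integrable (fun x => fderiv ℝ φ x (ev i) * ψ x) (gam d) :=
    gam_int ((hφ.cont_deriv _).mul hψ.cont) (grow_mul (hφ.grow_deriv _) hψ.grow)
  have i2 : Integrable (fun x => φ x * fderiv ℝ ψ x (ev i)) (gam d) :=
    gam_int (hφ.cont.mul (hψ.cont_deriv _)) (grow_mul hφ.grow (hψ.grow_deriv _))
  rw [h, ← integral_add i1 i2]
  refine integral_congr_ae (ae_of_all _ fun x => ?_)
  beta_reduce
  rw [fderiv_fun_mul (hφ.diff x) (hψ.diff x)]
  simp
  ring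

theorem gPoincare {φ : Space d → ℝ} (hφ : Nice φ) :
    var (gam d) φ ≤ ∫ x, ‖fderiv ℝ φ x‖ ^ 2 ∂gam d := by
  have h := poincareMu d 0 (Pot.zero d) φ hφ.1 hφ.2
  rwa [mu_zero] at h

/-! ### Mollification -/

theorem shift_le {G : Space d → ℝ} (hG : Grow G) : ∃ (C : ℝ) (k : ℕ), 0 ≤ C ∧
    ∀ r : ℝ, |r| ≤ 1 → ∀ x ξ, |G (x + r • ξ)| ≤ C * (1 + ‖x‖) ^ k * (1 + ‖ξ‖) ^ k := by
  obtain ⟨C, k, hC⟩ := hG
  refine ⟨|C|, k, abs_nonneg C, fun r hr x ξ => (hC _).trans ?_⟩
  rw [mul_assoc, ← mul_pow]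
  refine mul_le_mul (le_abs_self C) (pow_le_pow_left₀ (by positivity) ?_ k) (by positivity)
    (abs_nonneg C)
  have h1 : ‖x + r • ξ‖ ≤ ‖x‖ + ‖ξ‖ := (norm_add_le _ _).trans (add_le_add le_rfl (by
    rw [norm_smul, Real.norm_eq_abs]
    exact mul_le_of_le_one_left (norm_nonneg ξ) hr))
  nlinarith [norm_nonneg x, norm_nonneg ξ, mul_nonneg (norm_nonneg x) (norm_nonneg ξ)]

theorem int_poly (k : ℕ) : Integrable (fun x : Space d => (1 + ‖x‖) ^ k) (gam d) :=
  gam_int (by fun_prop) (grow_pow (grow_add (grow_const 1) (grow_norm grow_id)) k)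

theorem sm_le {G : Space d → ℝ} (hG : Grow G) : ∃ (C : ℝ) (k : ℕ),
    ∀ r : ℝ, |r| ≤ 1 → ∀ x, |sm r G x| ≤ C * (1 + ‖x‖) ^ k := by
  obtain ⟨C, k, hC0, hC⟩ := shift_le hG
  refine ⟨C * ∫ ξ, (1 + ‖ξ‖) ^ k ∂gam d, k, fun r hr x => ?_⟩
  refine (norm_integral_le_of_norm_le ((int_poly k).const_mul (C * (1 + ‖x‖) ^ k))
    (ae_of_all _ fun ξ => (Real.norm_eq_abs _).trans_le (hC r hr x ξ))).trans_eq ?_
  rw [integral_const_mul]
  ring

theorem tendsto_sm {G : Space d → ℝ} (hGc : Continuous G) (hG : Grow G) (x : Space d)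
    {r : ℕ → ℝ} (hr : ∀ n, |r n| ≤ 1) (h0 : Tendsto r atTop (𝓝 0)) :
    Tendsto (fun n => sm (r n) G x) atTop (𝓝 (G x)) := by
  obtain ⟨C, k, -, hC⟩ := shift_le hG
  have h : Tendsto (fun n => ∫ ξ, G (x + r n • ξ) ∂gam d) atTop (𝓝 (∫ _, G x ∂gam d)) := by
    refine tendsto_integral_of_dominated_convergence _
      (fun n => (by fun_prop : Continuous fun ξ => G (x + r n • ξ)).aestronglyMeasurable)
      ((int_poly k).const_mul (C * (1 + ‖x‖) ^ k)) (fun n => ae_of_all _ fun ξ => hC _ (hr n) x ξ)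
      (ae_of_all _ fun ξ => ?_)
    have h1 : Tendsto (fun n => x + r n • ξ) atTop (𝓝 (x + (0 : ℝ) • ξ)) :=
      tendsto_const_nhds.add (h0.smul_const ξ)
    rw [zero_smul, add_zero] at h1
    exact (hGc.tendsto x).comp h1
  simpa [sm] using h

theorem continuous_sm {G : Space d → ℝ} (hGc : Continuous G) (hG : Grow G) {r : ℝ} (hr : r ≠ 0) :
    Continuous (sm r G) :=
  (differentiable_sm hr hGc.measurable (tame_of_grow hG)).continuous

theorem tendsto_integral_sm {F G : Space d → ℝ} (hFc : Continuous F) (hF : Grow F)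
    (hGc : Continuous G) (hG : Grow G) {r : ℕ → ℝ} (hr : ∀ n, |r n| ≤ 1) (hr0 : ∀ n, r n ≠ 0)
    (h0 : Tendsto r atTop (𝓝 0)) :
    Tendsto (fun n => ∫ x, F x * sm (r n) G x ∂gam d) atTop (𝓝 (∫ x, F x * G x ∂gam d)) := by
  obtain ⟨C, k, hC⟩ := sm_le hG
  refine tendsto_integral_of_dominated_convergence (fun x => ‖F x‖ * (C * (1 + ‖x‖) ^ k))
    (fun n => (hFc.mul (continuous_sm hGc hG (hr0 n))).aestronglyMeasurable)
    (gam_int (by fun_prop) (grow_mul (grow_norm hF) (grow_mul (grow_const C)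
      (grow_pow (grow_add (grow_const 1) (grow_norm grow_id)) k))))
    (fun n => ae_of_all _ fun x => ?_)
    (ae_of_all _ fun x => (tendsto_sm hGc hG x hr h0).const_mul (F x))
  rw [norm_mul]
  exact mul_le_mul_of_nonneg_left (hC _ (hr n) x) (norm_nonneg _)

/-- The derivative commutes with mollification. -/
theorem fderiv_sm_eq {b : Space d → ℝ} (hb : Nice b) {r : ℝ} (hr : r ≠ 0) (x e : Space d) :
    fderiv ℝ (sm r b) x e = sm r (fun y => fderiv ℝ b y e) x := by
  obtain ⟨D, hD, he⟩ := hasFDerivAt_sm hr hb.cont.measurable (tame_of_grow hb.grow) x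
  rw [hD.fderiv, he]
  have hd1 : ∀ ξ, HasFDerivAt (fun ξ => b (x + r • ξ)) (r • fderiv ℝ b (x + r • ξ)) ξ := fun ξ => by
    have h2 := (hb.diff (x + r • ξ)).hasFDerivAt.comp ξ
      (((hasFDerivAt_id ξ).const_smul r).const_add x)
    refine h2.congr_fderiv ?_
    ext v
    simp
  have hn : Nice fun ξ => b (x + r • ξ) := by
    refine ⟨hb.1.comp (contDiff_const.add (contDiff_id.const_smul r)), ?_⟩
    obtain ⟨C, k, hC⟩ := hb.2
    refine ⟨|r| * (|C| * (1 + ‖x‖ + |r|) ^ k), k, fun ξ => ?_⟩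
    beta_reduce
    rw [(hd1 ξ).fderiv, norm_smul, Real.norm_eq_abs, mul_assoc |r|, mul_assoc |C|, ← mul_pow]
    refine mul_le_mul_of_nonneg_left ((hC _).trans ?_) (abs_nonneg r)
    refine mul_le_mul (le_abs_self C) (pow_le_pow_left₀ (by positivity) ?_ k) (by positivity)
      (abs_nonneg C)
    have h1 := norm_add_le x (r • ξ)
    rw [norm_smul, Real.norm_eq_abs] at h1
    nlinarith [norm_nonneg x, norm_nonneg ξ, abs_nonneg r,
      mul_nonneg (norm_nonneg x) (norm_nonneg ξ)]
  have h3 := gStein hn e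
  simp only [(hd1 _).fderiv, smul_apply, smul_eq_mul] at h3
  simp only [mul_comm _ ⟪e, _⟫]
  rw [h3, integral_const_mul, ← mul_assoc, inv_mul_cancel₀ hr, one_mul, sm]

theorem grow_sm {G : Space d → ℝ} (hG : Grow G) {r : ℝ} (hr : |r| ≤ 1) : Grow (sm r G) := by
  obtain ⟨C, k, hC⟩ := sm_le hG
  exact ⟨C, k, fun x => by rw [Real.norm_eq_abs]; exact hC r hr x⟩

theorem nice_sm {G : Space d → ℝ} (hGc : Continuous G) (hG : Grow G) {r : ℝ} (hr0 : r ≠ 0)
    (hr : |r| ≤ 1) : Nice (sm r G) := by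
  have hm := hGc.measurable
  refine Nice.of_bound (by exact_mod_cast contDiff_sm hr0 1 hm (tame_of_grow hG))
    (G := fun x => ∑ i, |fderiv ℝ (sm r G) x (ev i)|) (grow_finsum _ fun i => ?_) fun x => ?_
  · refine grow_norm (f := fun x => fderiv ℝ (sm r G) x (ev i)) ?_
    simp only [fderiv_sm hr0 hm (tame_of_grow hG), sub_eq_add_neg, mul_add]
    refine grow_add (grow_mul (grow_const _) (grow_sm (grow_mul hG (grow_inner _)) hr))
      (grow_mul (grow_const _) (grow_mono (grow_mul (grow_inner (ev i)) (grow_sm hG hr))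
        fun x => (norm_neg _).le))
  · refine ContinuousLinearMap.opNorm_le_bound _ (Finset.sum_nonneg fun i _ => abs_nonneg _)
      fun v => ?_
    have e : v = ∑ i, v i • ev i := by
      ext j
      simp [Pi.single_apply]
    conv_lhs => rw [e, map_sum]
    refine (norm_sum_le _ _).trans ?_
    rw [Finset.sum_mul]
    refine Finset.sum_le_sum fun i _ => ?_
    rw [map_smul, norm_smul, mul_comm, Real.norm_eq_abs, Real.norm_eq_abs]
    exact mul_le_mul_of_nonneg_left (P245.abs_coord_le v i) (abs_nonneg _)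

/-! ### C1: the isometry -/

/-- The isometry for two scalar functions and two coordinates. -/
theorem isometry_pair {a b : Space d → ℝ} (ha : Nice a) (hb : Nice b) (i j : Fin d) :
    ∫ x, (x i * a x - fderiv ℝ a x (ev i)) * (x j * b x - fderiv ℝ b x (ev j)) ∂gam d
      = (if i = j then ∫ x, a x * b x ∂gam d else 0)
        + ∫ x, fderiv ℝ a x (ev j) * fderiv ℝ b x (ev i) ∂gam d := by
  set F := fun x : Space d => x i * a x - fderiv ℝ a x (ev i) with hF
  have hFc : Continuous F := ((nice_coord i).cont.mul ha.cont).sub (ha.cont_deriv _)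
  have hFg : Grow F := by
    simp only [hF, sub_eq_add_neg]
    exact grow_add (grow_mul (grow_coord i) ha.grow)
      (grow_mono (ha.grow_deriv (ev i)) fun x => (norm_neg _).le)
  set r := fun n : ℕ => (1 : ℝ) / (n + 1) with hr
  have hr0 : ∀ n, r n ≠ 0 := fun n => by simp only [hr]; positivity
  have hr1 : ∀ n, |r n| ≤ 1 := fun n => by
    simp only [hr]
    rw [abs_of_nonneg (by positivity), div_le_one (by positivity)]
    linarith [Nat.cast_nonneg (α := ℝ) n]
  have hrt : Tendsto r atTop (𝓝 0) := tendsto_one_div_add_atTop_nhds_zero_nat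
  have key : ∀ n, (∫ x, F x * x j * sm (r n) b x ∂gam d)
      - ∫ x, F x * sm (r n) (fun y => fderiv ℝ b y (ev j)) x ∂gam d
      = (if i = j then ∫ x, a x * sm (r n) b x ∂gam d else 0)
        + ∫ x, fderiv ℝ a x (ev j) * sm (r n) (fun y => fderiv ℝ b y (ev i)) x ∂gam d := by
    intro n
    set s := r n
    set B := sm s b
    set bj := sm s (fun y => fderiv ℝ b y (ev j))
    set bi := sm s (fun y => fderiv ℝ b y (ev i))
    have hB : Nice B := nice_sm hb.cont hb.grow (hr0 n) (hr1 n)
    have hbj : Nice bj := nice_sm (hb.cont_deriv _) (hb.grow_deriv _) (hr0 n) (hr1 n)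
    have hbi : Nice bi := nice_sm (hb.cont_deriv _) (hb.grow_deriv _) (hr0 n) (hr1 n)
    have eB : ∀ x e, fderiv ℝ B x e = sm s (fun y => fderiv ℝ b y e) x := fun x e =>
      fderiv_sm_eq hb (hr0 n) x e
    have sym : ∀ x, fderiv ℝ bj x (ev i) = fderiv ℝ bi x (ev j) := fun x => by
      have h2 : ContDiffAt ℝ 2 B x :=
        (by exact_mod_cast contDiff_sm (hr0 n) 2 hb.cont.measurable (tame_of_grow hb.grow) :
          ContDiff ℝ 2 B).contDiffAt
      have hd : DifferentiableAt ℝ (fderiv ℝ B) x :=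
        (h2.fderiv_right (m := 1) (by norm_num)).differentiableAt one_ne_zero
      have e1 : ∀ v w : Space d, fderiv ℝ (sm s (fun y => fderiv ℝ b y v)) x w
          = fderiv ℝ (fderiv ℝ B) x w v := fun v w => by
        rw [← funext fun z => eB z v, fderiv_clm_apply hd (differentiableAt_const v)]
        simp
      rw [e1, e1, (h2.isSymmSndFDerivAt (by simp)) (ev i) (ev j)]
    set φ := fun x : Space d => x j * B x - bj x with hφ
    have hφn : Nice φ := ((nice_coord j).mul hB).sub hbj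
    have hdφ : ∀ x, fderiv ℝ φ x (ev i)
        = (if i = j then B x else 0) + x j * bi x - fderiv ℝ bi x (ev j) := fun x => by
      rw [hφ, fderiv_fun_sub (((nice_coord j).mul hB).diff x) (hbj.diff x),
        fderiv_fun_mul ((nice_coord j).diff x) (hB.diff x)]
      simp only [sub_apply, add_apply, smul_apply, smul_eq_mul, fderiv_coord, eB, sym x]
      rcases eq_or_ne i j with h | h
      · simp [h, bi]; ring
      · simp [h, Ne.symm h, bi]
    have s1 := gStein_mul ha hφn i
    have s2 := gStein_mul ha hbi j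
    have g1 : ∀ {p q : Space d → ℝ}, Continuous p → Continuous q → Grow p → Grow q →
        Integrable (fun x => p x * q x) (gam d) := fun hp hq hp' hq' =>
      gam_int (hp.mul hq) (grow_mul hp' hq')
    have L : (∫ x, F x * x j * B x ∂gam d) - ∫ x, F x * bj x ∂gam d
        = ∫ x, a x * fderiv ℝ φ x (ev i) ∂gam d := by
      rw [← integral_sub (g1 (show Continuous fun x => F x * x j from hFc.mul (nice_coord j).cont)
        hB.cont (grow_mul hFg (grow_coord j)) hB.grow) (g1 hFc hbj.cont hFg hbj.grow)]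
      have e : ∀ x, F x * x j * B x - F x * bj x
          = x i * (a x * φ x) - fderiv ℝ a x (ev i) * φ x := fun x => by
        simp only [hF, hφ]; ring
      simp only [e]
      have j1 : Integrable (fun x => x i * (a x * φ x)) (gam d) :=
        g1 (nice_coord i).cont (ha.cont.mul hφn.cont) (grow_coord i) (grow_mul ha.grow hφn.grow)
      have j2 : Integrable (fun x => fderiv ℝ a x (ev i) * φ x) (gam d) :=
        g1 (ha.cont_deriv _) hφn.cont (ha.grow_deriv _) hφn.grow
      rw [integral_sub j1 j2]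
      linarith
    rw [L]
    have e2 : ∀ x, a x * fderiv ℝ φ x (ev i) = a x * (if i = j then B x else 0)
        + (x j * (a x * bi x) - a x * fderiv ℝ bi x (ev j)) := fun x => by rw [hdφ]; ring
    simp only [e2]
    have ia : Integrable (fun x => x j * (a x * bi x)) (gam d) :=
      g1 (nice_coord j).cont (ha.cont.mul hbi.cont) (grow_coord j) (grow_mul ha.grow hbi.grow)
    have ib : Integrable (fun x => a x * fderiv ℝ bi x (ev j)) (gam d) :=
      g1 ha.cont (hbi.cont_deriv _) ha.grow (hbi.grow_deriv _)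
    rcases eq_or_ne i j with h | h
    · simp only [h, ↓reduceIte]
      rw [integral_add (g1 ha.cont hB.cont ha.grow hB.grow)
        (by subst h; exact ia.sub ib), integral_sub ia ib]
      subst h
      linarith
    · simp only [h, ↓reduceIte, mul_zero, zero_add]
      rw [integral_sub ia ib]
      linarith
  have l1 := tendsto_integral_sm (hFc.mul (nice_coord j).cont) (grow_mul hFg (grow_coord j))
    hb.cont hb.grow hr1 hr0 hrt
  have l2 := tendsto_integral_sm hFc hFg (hb.cont_deriv (ev j)) (hb.grow_deriv _) hr1 hr0 hrt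
  have l3 := tendsto_integral_sm (ha.cont_deriv (ev j)) (ha.grow_deriv _) (hb.cont_deriv (ev i))
    (hb.grow_deriv _) hr1 hr0 hrt
  have l4 : Tendsto (fun n => if i = j then ∫ x, a x * sm (r n) b x ∂gam d else 0) atTop
      (𝓝 (if i = j then ∫ x, a x * b x ∂gam d else 0)) := by
    split_ifs with h
    · exact tendsto_integral_sm ha.cont ha.grow hb.cont hb.grow hr1 hr0 hrt
    · exact tendsto_const_nhds
  have h := tendsto_nhds_unique ((l1.sub l2).congr key) (l4.add l3)
  simp only [Pi.mul_apply] at h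
  have j1 : Integrable (fun x => F x * x j * b x) (gam d) :=
    gam_int ((hFc.mul (nice_coord j).cont).mul hb.cont)
      (grow_mul (grow_mul hFg (grow_coord j)) hb.grow)
  have j2 : Integrable (fun x => F x * fderiv ℝ b x (ev j)) (gam d) :=
    gam_int (hFc.mul (hb.cont_deriv _)) (grow_mul hFg (hb.grow_deriv _))
  rw [← integral_sub j1 j2] at h
  rw [← h]
  refine integral_congr_ae (ae_of_all _ fun x => ?_)
  simp only [hF]
  ring

theorem fderiv_comp_coord {u : Space d → Space d} (hu : Differentiable ℝ u) (i : Fin d)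
    (x v : Space d) : fderiv ℝ (fun y => u y i) x v = fderiv ℝ u x v i := by
  have h := ((PiLp.proj (𝕜 := ℝ) 2 (fun _ : Fin d => ℝ) i).hasFDerivAt.comp x (hu x).hasFDerivAt)
  exact congrFun (congrArg DFunLike.coe h.fderiv) v

theorem nice_comp_inner {u : Space d → Space d} (hu : ContDiff ℝ 1 u)
    (hg : Grow fun x => fderiv ℝ u x) (k : Space d) : Nice fun y => ⟪k, u y⟫ := by
  refine Nice.of_bound ((innerSL ℝ k).contDiff.comp hu) (grow_mul (grow_const ‖innerSL ℝ k‖)
    (grow_norm hg)) fun x => ?_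
  rw [show (fun y => ⟪k, u y⟫) = ⇑(innerSL ℝ k) ∘ u from rfl,
    ((innerSL ℝ k).hasFDerivAt.comp x (hu.differentiable one_ne_zero x).hasFDerivAt).fderiv]
  exact ContinuousLinearMap.opNorm_comp_le _ _

theorem nice_comp_coord {u : Space d → Space d} (hu : ContDiff ℝ 1 u)
    (hg : Grow fun x => fderiv ℝ u x) (i : Fin d) : Nice fun y => u y i := by
  simpa only [coord_inner] using nice_comp_inner hu hg (ev i)

theorem cont_dlt {u : Space d → Space d} (hu : ContDiff ℝ 1 u) : Continuous (dlt u) := by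
  have := hu.continuous
  have h2 : ∀ i : Fin d, Continuous fun x => fderiv ℝ u x (ev i) := fun i =>
    (hu.continuous_fderiv one_ne_zero).clm_apply continuous_const
  unfold dlt trc
  fun_prop

theorem dlt_eq {u : Space d → Space d} (hu : Differentiable ℝ u) (x : Space d) :
    dlt u x = ∑ i, (x i * u x i - fderiv ℝ (fun y => u y i) x (ev i)) := by
  simp only [dlt, trc, fderiv_comp_coord hu, Finset.sum_sub_distrib, PiLp.inner_apply,
    RCLike.inner_apply, conj_trivial, mul_comm]

theorem grow_dlt {u : Space d → Space d} (hu : ContDiff ℝ 1 u)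
    (hg : Grow fun x => fderiv ℝ u x) : Grow (dlt u) := by
  simp only [funext (dlt_eq (hu.differentiable one_ne_zero)), sub_eq_add_neg]
  exact grow_finsum _ fun i => grow_add (grow_mul (grow_coord i) (nice_comp_coord hu hg i).grow)
    (grow_mono ((nice_comp_coord hu hg i).grow_deriv _) fun x => (norm_neg _).le)

/-- C1, the isometry. -/
theorem dlt_isometry {u : Space d → Space d} (hu : ContDiff ℝ 1 u)
    (hg : Grow fun x => fderiv ℝ u x) :
    ∫ x, dlt u x ^ 2 ∂gam d = (∫ x, ‖u x‖ ^ 2 ∂gam d)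
      + ∫ x, ∑ i, ∑ j, fderiv ℝ u x (ev j) i * fderiv ℝ u x (ev i) j ∂gam d := by
  have hd := hu.differentiable one_ne_zero
  have hn := nice_comp_coord hu hg
  set T := fun (i : Fin d) (x : Space d) => x i * u x i - fderiv ℝ (fun y => u y i) x (ev i) with hT
  have hTc : ∀ i, Continuous (T i) := fun i =>
    ((nice_coord i).cont.mul (hn i).cont).sub ((hn i).cont_deriv _)
  have hTg : ∀ i, Grow (T i) := fun i => by
    simp only [hT, sub_eq_add_neg]
    exact grow_add (grow_mul (grow_coord i) (hn i).grow)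
      (grow_mono ((hn i).grow_deriv _) fun x => (norm_neg _).le)
  have hiT : ∀ i j, Integrable (fun x => T i x * T j x) (gam d) := fun i j =>
    gam_int ((hTc i).mul (hTc j)) (grow_mul (hTg i) (hTg j))
  have e : ∀ x, dlt u x ^ 2 = ∑ i, ∑ j, T i x * T j x := fun x => by
    rw [dlt_eq hd, sq, Finset.sum_mul_sum]
  simp only [e]
  rw [integral_finsetSum _ fun i _ => integrable_finsetSum _ fun j _ => hiT i j]
  rw [Finset.sum_congr rfl fun i _ => integral_finsetSum _ fun j _ => hiT i j]
  simp only [hT, isometry_pair (hn _) (hn _), Finset.sum_add_distrib]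
  have i1 : ∀ i, Integrable (fun x => u x i * u x i) (gam d) := fun i =>
    gam_int ((hn i).cont.mul (hn i).cont) (grow_mul (hn i).grow (hn i).grow)
  have i2 : ∀ i j, Integrable (fun x => fderiv ℝ (fun y => u y i) x (ev j) *
      fderiv ℝ (fun y => u y j) x (ev i)) (gam d) := fun i j =>
    gam_int (((hn i).cont_deriv _).mul ((hn j).cont_deriv _))
      (grow_mul ((hn i).grow_deriv _) ((hn j).grow_deriv _))
  congr 1
  · rw [show (fun x => ‖u x‖ ^ 2) = fun x => ∑ i, u x i * u x i from funext fun x => by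
      rw [EuclideanSpace.real_norm_sq_eq]; simp only [sq]]
    rw [integral_finsetSum _ fun i _ => i1 i]
    exact Finset.sum_congr rfl fun i _ => by simp
  · simp only [← fderiv_comp_coord hd]
    rw [integral_finsetSum _ fun i _ => integrable_finsetSum _ fun j _ => i2 i j]
    exact Finset.sum_congr rfl fun i _ => (integral_finsetSum _ fun j _ => i2 i j).symm

theorem hs2_cont_grow {u : Space d → Space d} (hu : ContDiff ℝ 1 u)
    (hg : Grow fun x => fderiv ℝ u x) :
    Continuous (fun x => hs2 (fderiv ℝ u x)) ∧ Grow fun x => hs2 (fderiv ℝ u x) := by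
  have h2 : ∀ i : Fin d, Continuous fun x => fderiv ℝ u x (ev i) := fun i =>
    (hu.continuous_fderiv one_ne_zero).clm_apply continuous_const
  refine ⟨by unfold hs2; fun_prop, grow_finsum _ fun j => grow_pow ?_ 2⟩
  refine grow_mono (grow_mul (grow_norm hg) (grow_const ‖ev j‖)) fun x => ?_
  rw [norm_norm, norm_mul, norm_norm, norm_norm]
  exact (fderiv ℝ u x).le_opNorm _

/-- C1, the bound. -/
theorem dlt_sq_le {u : Space d → Space d} (hu : ContDiff ℝ 1 u)
    (hg : Grow fun x => fderiv ℝ u x) :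
    ∫ x, dlt u x ^ 2 ∂gam d ≤ (∫ x, ‖u x‖ ^ 2 ∂gam d) + ∫ x, hs2 (fderiv ℝ u x) ∂gam d := by
  rw [dlt_isometry hu hg]
  have hn := nice_comp_coord hu hg
  refine add_le_add le_rfl (integral_mono ?_ (gam_int (hs2_cont_grow hu hg).1
    (hs2_cont_grow hu hg).2) fun x => trc_comp_self_le _)
  simp only [← fderiv_comp_coord (hu.differentiable one_ne_zero)]
  exact integrable_finsetSum _ fun i _ => integrable_finsetSum _ fun j _ =>
    gam_int (((hn i).cont_deriv _).mul ((hn j).cont_deriv _))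
      (grow_mul ((hn i).grow_deriv _) ((hn j).grow_deriv _))

/-- The rows of an operator field. -/
def row (M : Space d → (Space d →L[ℝ] Space d)) (i : Fin d) (x : Space d) : Space d :=
  (star (M x)) (ev i)

/-- The divergence of an operator field, row by row. -/
def dltM (M : Space d → (Space d →L[ℝ] Space d)) (x : Space d) : Space d :=
  WithLp.toLp 2 fun i => dlt (row M i) x

theorem row_spec {M : Space d → (Space d →L[ℝ] Space d)} (hM : ContDiff ℝ 1 M)
    (hg : Grow fun x => fderiv ℝ M x) (i : Fin d) :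
    ContDiff ℝ 1 (row M i) ∧ (Grow fun x => fderiv ℝ (row M i) x) ∧
      ∀ x v j, fderiv ℝ (row M i) x v j = fderiv ℝ M x v (ev j) i := by
  let S : (Space d →L[ℝ] Space d) →L[ℝ] (Space d →L[ℝ] Space d) :=
    (ContinuousLinearMap.adjoint (𝕜 := ℝ) (E := Space d)
      (F := Space d)).toLinearIsometry.toContinuousLinearMap
  let L : (Space d →L[ℝ] Space d) →L[ℝ] Space d :=
    (ContinuousLinearMap.apply ℝ (Space d) (ev i)).comp S
  have e : row M i = ⇑L ∘ M := rfl
  have hf : ∀ x, fderiv ℝ (row M i) x = L.comp (fderiv ℝ M x) := fun x => by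
    rw [e]
    exact (L.hasFDerivAt.comp x (hM.differentiable one_ne_zero x).hasFDerivAt).fderiv
  refine ⟨L.contDiff.comp hM, grow_mono (grow_mul (grow_const ‖L‖)
      (grow_mono hg fun x => (abs_norm (fderiv ℝ M x)).le :
        Grow fun x => ‖fderiv ℝ M x‖)) fun x => ?_,
    fun x v j => ?_⟩
  · rw [hf, norm_mul]
    exact (ContinuousLinearMap.opNorm_comp_le _ _).trans
      (mul_le_mul (le_abs_self _) (le_abs_self _) (norm_nonneg _) (abs_nonneg _))
  · rw [hf, ContinuousLinearMap.comp_apply]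
    exact (star_coord (fderiv ℝ M x v) (ev i) j).trans (coord_inner _ _)

/-- C1 for operator fields. -/
theorem dltM_sq_le {M : Space d → (Space d →L[ℝ] Space d)} (hM : ContDiff ℝ 1 M)
    (hg : Grow fun x => fderiv ℝ M x) :
    ∫ x, ‖dltM M x‖ ^ 2 ∂gam d
      ≤ (∫ x, hs2 (M x) ∂gam d) + ∫ x, ∑ j, hs2 (fderiv ℝ M x (ev j)) ∂gam d := by
  have h := fun i => row_spec hM hg i
  have hn : ∀ i k, Nice fun y => row M i y k := fun i k => nice_comp_coord (h i).1 (h i).2.1 k
  have i1 : ∀ i, Integrable (fun x => ‖row M i x‖ ^ 2) (gam d) := fun i => by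
    simp only [EuclideanSpace.real_norm_sq_eq]
    exact integrable_finsetSum _ fun k _ => gam_int ((hn i k).cont.pow 2) (grow_pow (hn i k).grow 2)
  have i2 : ∀ i, Integrable (fun x => hs2 (fderiv ℝ (row M i) x)) (gam d) := fun i =>
    gam_int (hs2_cont_grow (h i).1 (h i).2.1).1 (hs2_cont_grow (h i).1 (h i).2.1).2
  have e1 : ∀ x, hs2 (M x) = ∑ i, ‖row M i x‖ ^ 2 := fun x => by rw [← hs2_star]; rfl
  have e2 : ∀ x, ∑ j, hs2 (fderiv ℝ M x (ev j)) = ∑ i, hs2 (fderiv ℝ (row M i) x) := fun x => by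
    simp only [hs2_eq]
    rw [Finset.sum_comm]
    refine Finset.sum_congr rfl fun i _ => ?_
    rw [Finset.sum_comm]
    exact Finset.sum_congr rfl fun j _ => Finset.sum_congr rfl fun k _ => by rw [(h i).2.2]
  have i3 : ∀ i, Integrable (fun x => dlt (row M i) x ^ 2) (gam d) := fun i =>
    gam_int ((cont_dlt (h i).1).pow 2) (grow_pow (grow_dlt (h i).1 (h i).2.1) 2)
  have e3 : ∀ x, ‖dltM M x‖ ^ 2 = ∑ i, dlt (row M i) x ^ 2 := fun x => by
    rw [dltM, EuclideanSpace.real_norm_sq_eq]
  simp only [e1, e2, e3]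
  rw [integral_finsetSum _ fun i _ => i3 i, integral_finsetSum _ fun i _ => i1 i,
    integral_finsetSum _ fun i _ => i2 i, ← Finset.sum_add_distrib]
  exact Finset.sum_le_sum fun i _ => dlt_sq_le (h i).1 (h i).2.1

/-! ### C4: the universal bound -/

theorem integral_inner_sq (k : Space d) : ∫ x, ⟪k, x⟫ ^ 2 ∂gam d = ‖k‖ ^ 2 := by
  have h := gStein (nice_inner k) k
  have e : ∀ x : Space d, fderiv ℝ (fun y : Space d => ⟪k, y⟫) x k = ‖k‖ ^ 2 := fun x => by
    rw [show (fun y : Space d => ⟪k, y⟫) = ⇑(innerSL ℝ k) from rfl,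
      ((innerSL ℝ k).hasFDerivAt (x := x)).fderiv, innerSL_apply_apply, real_inner_self_eq_norm_sq]
  simp only [e, ← sq] at h
  rw [h]
  simp

theorem nice_normSq (L : Space d →L[ℝ] Space d) : Nice fun x => ‖L x‖ ^ 2 := by
  refine Nice.of_bound ((contDiff_norm_sq ℝ).comp L.contDiff)
    (G := fun x => 2 * ‖L x‖ * ‖L‖) (grow_mul (grow_mul (grow_const 2)
      (grow_norm (grow_mono (grow_mul (grow_const ‖L‖) (grow_norm grow_id)) fun x => ?_)))
      (grow_const ‖L‖)) fun x => ?_
  · rw [norm_mul, norm_norm, norm_norm]; exact L.le_opNorm x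
  · rw [(L.hasFDerivAt.norm_sq).fderiv]
    refine ContinuousLinearMap.opNorm_le_bound _ (by positivity) fun v => ?_
    rw [Real.norm_eq_abs]
    simp only [smul_apply, ContinuousLinearMap.comp_apply, innerSL_apply_apply, nsmul_eq_mul]
    rw [abs_mul, Nat.cast_ofNat, abs_two, mul_assoc, mul_assoc]
    refine mul_le_mul_of_nonneg_left ((abs_real_inner_le_norm _ _).trans ?_) two_pos.le
    exact mul_le_mul_of_nonneg_left (L.le_opNorm v) (norm_nonneg _)

theorem integral_normSq (L : Space d →L[ℝ] Space d) : ∫ x, ‖L x‖ ^ 2 ∂gam d = hs2 L := by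
  have e : ∀ x, ‖L x‖ ^ 2 = ∑ i, ⟪(star L) (ev i), x⟫ ^ 2 := fun x => by
    rw [EuclideanSpace.real_norm_sq_eq]
    refine Finset.sum_congr rfl fun i _ => ?_
    rw [ContinuousLinearMap.star_eq_adjoint, ContinuousLinearMap.adjoint_inner_left, coord_inner]
  simp only [e]
  rw [integral_finsetSum _ fun i _ => gam_int (by fun_prop) (grow_pow (grow_inner _) 2),
    ← hs2_star L, hs2]
  exact Finset.sum_congr rfl fun i _ => integral_inner_sq _

theorem var_eq {f : Space d → ℝ} (hc : Continuous f) (hg : Grow f) :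
    var (gam d) f = (∫ x, f x ^ 2 ∂gam d) - (∫ x, f x ∂gam d) ^ 2 := by
  have h := var_mu (Pot.zero d) hc.measurable (tame_of_grow hg)
  rwa [mu_zero] at h

theorem integral_normFour (L : Space d →L[ℝ] Space d) :
    ∫ x, ‖L x‖ ^ 4 ∂gam d ≤ 5 * hs2 L ^ 2 := by
  have hq := nice_normSq L
  have hv : var (gam d) (fun x => ‖L x‖ ^ 2) ≤ 4 * hs2 L ^ 2 := by
    refine (gPoincare hq).trans ?_
    refine (integral_mono (gam_int (((hq.1.continuous_fderiv one_ne_zero).norm).pow 2)
      (grow_pow (grow_norm hq.2) 2)) ((gam_int hq.cont hq.grow).const_mul (4 * hs2 L))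
      fun x => ?_).trans_eq (by rw [integral_const_mul, integral_normSq]; ring)
    have h1 : ‖fderiv ℝ (fun x => ‖L x‖ ^ 2) x‖ ≤ 2 * ‖(star L) (L x)‖ := by
      rw [(L.hasFDerivAt.norm_sq).fderiv]
      refine ContinuousLinearMap.opNorm_le_bound _ (by positivity) fun v => ?_
      rw [Real.norm_eq_abs]
      simp only [smul_apply, ContinuousLinearMap.comp_apply, innerSL_apply_apply, nsmul_eq_mul]
      rw [abs_mul, Nat.cast_ofNat, abs_two, mul_assoc, ← ContinuousLinearMap.adjoint_inner_left,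
        ← ContinuousLinearMap.star_eq_adjoint]
      exact mul_le_mul_of_nonneg_left (abs_real_inner_le_norm _ _) two_pos.le
    refine (pow_le_pow_left₀ (norm_nonneg _) h1 2).trans ?_
    rw [mul_pow, mul_assoc (4 : ℝ)]
    exact (by norm_num : (2 : ℝ) ^ 2 = 4) ▸
      mul_le_mul_of_nonneg_left (norm_star_sq_le L (L x)) (by norm_num)
  have i4 : Integrable (fun x => (‖L x‖ ^ 2) ^ 2) (gam d) :=
    gam_int (hq.cont.pow 2) (grow_pow hq.grow 2)
  rw [var_eq hq.cont hq.grow, integral_normSq] at hv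
  simp only [← pow_mul] at hv
  linarith

/-- C4: `Var tr (K Df) ≤ 18 |K|_HS² (E |Df|⁴)^(1/2)` for every continuously differentiable field. -/
theorem var_trc_le {f : Space d → Space d} (hf : ContDiff ℝ 1 f)
    (hg : Grow fun x => fderiv ℝ f x) (K : Space d →L[ℝ] Space d) :
    var (gam d) (fun x => trc (K.comp (fderiv ℝ f x)))
      ≤ 18 * hs2 K * √(∫ x, ‖fderiv ℝ f x‖ ^ 4 ∂gam d) := by
  set a2 := √(∫ x, ‖fderiv ℝ f x‖ ^ 4 ∂gam d) with ha2
  set H := hs2 K with hH
  have hH0 : 0 ≤ H := hs2_nonneg K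
  have hDc : Continuous fun x => ‖fderiv ℝ f x‖ := (hf.continuous_fderiv one_ne_zero).norm
  have hDg : Grow fun x => ‖fderiv ℝ f x‖ := grow_norm hg
  have hfd := hf.differentiable one_ne_zero
  have hfG : Grow f := by
    refine grow_mono (grow_finsum Finset.univ fun i =>
      grow_norm (nice_comp_coord hf hg i).grow) fun x => ?_
    rw [Real.norm_eq_abs, abs_of_nonneg (Finset.sum_nonneg fun i _ => norm_nonneg _)]
    have e : f x = ∑ i, (f x i) • ev i := by
      ext j
      simp [Pi.single_apply]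
    conv_lhs => rw [e]
    refine (norm_sum_le _ _).trans_eq (Finset.sum_congr rfl fun i _ => ?_)
    simp [norm_smul]
  have hfi : Integrable f (gam d) :=
    (integrable_norm_iff hf.continuous.aestronglyMeasurable).1
      (gam_int hf.continuous.norm (grow_norm hfG))
  have h2le : ∫ x, ‖fderiv ℝ f x‖ ^ 2 ∂gam d ≤ a2 := by
    rw [ha2]
    refine Real.le_sqrt_of_sq_le ?_
    have h := var_eq (f := fun x => ‖fderiv ℝ f x‖ ^ 2) (hDc.pow 2) (grow_pow hDg 2)
    have h0 := var_nonneg (gam d) fun x => ‖fderiv ℝ f x‖ ^ 2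
    simp only [← pow_mul] at h
    linarith
  have iD2 : Integrable (fun x => ‖fderiv ℝ f x‖ ^ 2) (gam d) :=
    gam_int (hDc.pow 2) (grow_pow hDg 2)
  set c := ∫ x, f x ∂gam d with hcdef
  set u := fun x => K (f x - c) with hu_def
  have hud : ∀ x, fderiv ℝ u x = K.comp (fderiv ℝ f x) := fun x =>
    (K.hasFDerivAt.comp x ((hfd x).hasFDerivAt.sub_const c)).fderiv
  have hu : ContDiff ℝ 1 u := K.contDiff.comp (hf.sub contDiff_const)
  have hug : Grow fun x => fderiv ℝ u x := by
    refine grow_mono (grow_mul (grow_const ‖K‖) hDg) fun x => ?_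
    rw [hud, norm_mul, norm_norm, norm_norm]
    exact ContinuousLinearMap.opNorm_comp_le _ _
  -- the size of `u`
  have hu2 : ∫ x, ‖u x‖ ^ 2 ∂gam d ≤ H * a2 := by
    have e : ∀ x, ‖u x‖ ^ 2 = ∑ i, (⟪(star K) (ev i), f x⟫ - ⟪(star K) (ev i), c⟫) ^ 2 :=
        fun x => by
      rw [EuclideanSpace.real_norm_sq_eq]
      refine Finset.sum_congr rfl fun i _ => ?_
      rw [← inner_sub_right, ContinuousLinearMap.star_eq_adjoint,
        ContinuousLinearMap.adjoint_inner_left, coord_inner]
    have hk : ∀ i, Nice fun x => ⟪(star K) (ev i), f x⟫ := fun i => nice_comp_inner hf hg _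
    simp only [e]
    have ik : ∀ i, Integrable (fun x => (⟪(star K) (ev i), f x⟫ - ⟪(star K) (ev i), c⟫) ^ 2)
        (gam d) := fun i => gam_int (((hk i).cont.sub continuous_const).pow 2)
      (grow_pow (grow_sub_const (hk i).grow _) 2)
    rw [integral_finsetSum _ fun i _ => ik i, hH, ← hs2_star K, hs2, Finset.sum_mul]
    refine Finset.sum_le_sum fun i _ => ?_
    have h := gPoincare (hk i)
    rw [var, integral_inner hfi, ← hcdef] at h
    refine h.trans (le_trans (integral_mono
      (gam_int (((hk i).1.continuous_fderiv one_ne_zero).norm.pow 2)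
      (grow_pow (grow_norm (hk i).2) 2)) (iD2.const_mul
        (‖(star K) (ev i)‖ ^ 2)) fun x => ?_) ?_)
    · rw [← mul_pow]
      refine pow_le_pow_left₀ (norm_nonneg _) ?_ 2
      rw [show (fun y => ⟪(star K) (ev i), f y⟫) = ⇑(innerSL ℝ ((star K) (ev i))) ∘ f from rfl,
        ((innerSL ℝ ((star K) (ev i))).hasFDerivAt.comp x (hfd x).hasFDerivAt).fderiv]
      refine (ContinuousLinearMap.opNorm_comp_le _ _).trans ?_
      rw [innerSL_apply_norm]
    · rw [integral_const_mul]
      exact mul_le_mul_of_nonneg_left h2le (sq_nonneg _)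
  -- the divergence
  have hB : ∫ x, dlt u x ^ 2 ∂gam d ≤ 2 * H * a2 := by
    refine (dlt_sq_le hu hug).trans ?_
    have h1 : ∫ x, hs2 (fderiv ℝ u x) ∂gam d ≤ H * a2 := by
      refine (integral_mono (gam_int (hs2_cont_grow hu hug).1 (hs2_cont_grow hu hug).2)
        (iD2.const_mul H) fun x => ?_).trans ?_
      · rw [hud]; exact hs2_comp_le K _
      · rw [integral_const_mul]; exact mul_le_mul_of_nonneg_left h2le hH0
    linarith
  -- the linear part
  set A := fun x => ⟪x, u x⟫ with hAdef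
  have hun := nice_comp_coord hu hug
  have hdA : ∀ x v, fderiv ℝ A x v = ⟪x, fderiv ℝ u x v⟫ + ⟪v, u x⟫ := fun x v => by
    refine (fderiv_inner_apply ℝ (f := fun y : Space d => y) differentiableAt_id
      (hu.differentiable one_ne_zero x) v).trans ?_
    simp
  have hA : Nice A := by
    refine Nice.of_bound (contDiff_id.inner ℝ hu) (G := fun x => ‖u x‖ + ‖x‖ * ‖fderiv ℝ u x‖)
      (grow_add ?_ (grow_mul (grow_norm grow_id) (grow_norm hug))) fun x => ?_
    · refine grow_mono (grow_mul (grow_const ‖K‖) (grow_add (grow_norm hfG) (grow_const ‖c‖)))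
        fun x => ?_
      rw [norm_norm, norm_mul, norm_norm, Real.norm_eq_abs, abs_of_nonneg (by positivity)]
      exact (K.le_opNorm _).trans (mul_le_mul_of_nonneg_left (norm_sub_le _ _) (norm_nonneg _))
    · refine ContinuousLinearMap.opNorm_le_bound _ (by positivity) fun v => ?_
      rw [hdA]
      refine (abs_add_le _ _).trans ?_
      rw [add_mul, add_comm]
      refine add_le_add ((abs_real_inner_le_norm _ _).trans (mul_comm _ _).le) ?_
      rw [mul_assoc]
      exact (abs_real_inner_le_norm _ _).trans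
        (mul_le_mul_of_nonneg_left ((fderiv ℝ u x).le_opNorm v) (norm_nonneg _))
  have hvA : var (gam d) A ≤ 7 * H * a2 := by
    have hL4c : Continuous fun x => ‖(star K) x‖ ^ 2 := (nice_normSq (star K)).cont
    have hL4g : Grow fun x => ‖(star K) x‖ ^ 2 := (nice_normSq (star K)).grow
    have h1 : ∀ x, ‖fderiv ℝ A x‖ ^ 2
        ≤ 2 * ‖u x‖ ^ 2 + 2 * (‖fderiv ℝ f x‖ ^ 2 * ‖(star K) x‖ ^ 2) := fun x => by
      have h : ‖fderiv ℝ A x‖ ≤ ‖u x‖ + ‖fderiv ℝ f x‖ * ‖(star K) x‖ := by
        refine ContinuousLinearMap.opNorm_le_bound _ (by positivity) fun v => ?_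
        rw [hdA, hud, ContinuousLinearMap.comp_apply,
          ← ContinuousLinearMap.adjoint_inner_left, ← ContinuousLinearMap.star_eq_adjoint]
        refine (abs_add_le _ _).trans ?_
        rw [add_mul, add_comm]
        refine add_le_add ((abs_real_inner_le_norm _ _).trans (mul_comm _ _).le) ?_
        refine (abs_real_inner_le_norm _ _).trans ((mul_le_mul_of_nonneg_left
          ((fderiv ℝ f x).le_opNorm v) (norm_nonneg _)).trans_eq (by ring))
      nlinarith [pow_le_pow_left₀ (norm_nonneg _) h 2,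
        sq_nonneg (‖u x‖ - ‖fderiv ℝ f x‖ * ‖(star K) x‖)]
    have iu : Integrable (fun x => ‖u x‖ ^ 2) (gam d) := gam_int (hu.continuous.norm.pow 2)
      (grow_pow (grow_norm (by
        refine grow_mono (grow_mul (grow_const ‖K‖) (grow_add (grow_norm hfG) (grow_const ‖c‖)))
          fun x => ?_
        rw [norm_mul, norm_norm, Real.norm_eq_abs, abs_of_nonneg (by positivity)]
        exact (K.le_opNorm _).trans
          (mul_le_mul_of_nonneg_left (norm_sub_le _ _) (norm_nonneg _)))) 2)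
    have ip : Integrable (fun x => ‖fderiv ℝ f x‖ ^ 2 * ‖(star K) x‖ ^ 2) (gam d) :=
      gam_int ((hDc.pow 2).mul hL4c) (grow_mul (grow_pow hDg 2) hL4g)
    have hp : ∫ x, ‖fderiv ℝ f x‖ ^ 2 * ‖(star K) x‖ ^ 2 ∂gam d ≤ 5 / 2 * H * a2 := by
      have h := sq_integral_mul_le
        (gam_int ((hDc.pow 2).pow 2) (grow_pow (grow_pow hDg 2) 2))
        (gam_int (hL4c.pow 2) (grow_pow hL4g 2)) ip
      simp only [Pi.pow_apply, ← pow_mul] at h
      have h4 := integral_normFour (star K)
      rw [hs2_star] at h4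
      have e : a2 ^ 2 = ∫ x, ‖fderiv ℝ f x‖ ^ 4 ∂gam d :=
        Real.sq_sqrt (integral_nonneg fun x => by positivity)
      refine le_of_sq_le_sq ?_ (by positivity) 
      refine h.trans
        ((mul_le_mul_of_nonneg_left h4 (integral_nonneg fun x => by positivity)).trans ?_)
      rw [mul_pow, mul_pow, e]
      have : 0 ≤ H ^ 2 * ∫ x, ‖fderiv ℝ f x‖ ^ 4 ∂gam d :=
        mul_nonneg (sq_nonneg _) (integral_nonneg fun x => by positivity)
      nlinarith
    refine (gPoincare hA).trans ((integral_mono (gam_int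
      ((hA.1.continuous_fderiv one_ne_zero).norm.pow 2) (grow_pow (grow_norm hA.2) 2))
      ((iu.const_mul 2).add (ip.const_mul 2)) h1).trans ?_)
    simp only [Pi.add_apply]
    rw [integral_add (iu.const_mul 2) (ip.const_mul 2), integral_const_mul, integral_const_mul]
    linarith
  -- assembly
  set B := dlt u with hBdef
  have hBc : Continuous B := cont_dlt hu
  have hBg : Grow B := grow_dlt hu hug
  have eF : (fun x => trc (K.comp (fderiv ℝ f x))) = fun x => A x - B x := funext fun x => by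
    simp only [hAdef, hBdef, dlt, hud]; ring
  rw [eF]
  have iA := gam_int hA.cont hA.grow
  have iB := gam_int hBc hBg
  have iA2 : Integrable (fun x => (A x - ∫ y, A y ∂gam d) ^ 2) (gam d) :=
    gam_int ((hA.cont.sub continuous_const).pow 2) (grow_pow (grow_sub_const hA.grow _) 2)
  have iB2 : Integrable (fun x => (B x - ∫ y, B y ∂gam d) ^ 2) (gam d) :=
    gam_int ((hBc.sub continuous_const).pow 2) (grow_pow (grow_sub_const hBg _) 2)
  have hvB : var (gam d) B ≤ ∫ x, B x ^ 2 ∂gam d := by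
    rw [var_eq hBc hBg]; linarith [sq_nonneg (∫ x, B x ∂gam d)]
  have hfin : var (gam d) (fun x => A x - B x) ≤ 2 * var (gam d) A + 2 * var (gam d) B := by
    simp only [var]
    rw [integral_sub iA iB, ← integral_const_mul, ← integral_const_mul,
      ← integral_add (iA2.const_mul 2) (iB2.const_mul 2)]
    refine integral_mono_of_nonneg (ae_of_all _ fun x => sq_nonneg _)
      ((iA2.const_mul 2).add (iB2.const_mul 2)) (ae_of_all _ fun x => ?_)
    nlinarith [sq_nonneg ((A x - ∫ y, A y ∂gam d) + (B x - ∫ y, B y ∂gam d))]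
  linarith

/-- C4 for standard deviations. -/
theorem sd_trc_le {f : Space d → Space d} (hf : ContDiff ℝ 1 f)
    (hg : Grow fun x => fderiv ℝ f x) (K : Space d →L[ℝ] Space d) :
    √(var (gam d) (fun x => trc (K.comp (fderiv ℝ f x))))
      ≤ 5 * √(hs2 K) * (∫ x, ‖fderiv ℝ f x‖ ^ 4 ∂gam d) ^ (1 / 4 : ℝ) := by
  have h0 : 0 ≤ ∫ x, ‖fderiv ℝ f x‖ ^ 4 ∂gam d := integral_nonneg fun x => by positivity
  refine Real.sqrt_le_iff.2 ⟨by positivity, (var_trc_le hf hg K).trans ?_⟩
  rw [mul_pow, mul_pow, Real.sq_sqrt (hs2_nonneg K), ← Real.rpow_natCast (_ ^ (1 / 4 : ℝ)) 2,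
    ← Real.rpow_mul h0, Real.sqrt_eq_rpow]
  norm_num
  exact mul_le_mul_of_nonneg_right (mul_le_mul_of_nonneg_right (by norm_num) (hs2_nonneg K))
    (Real.rpow_nonneg h0 _)

end Vale.Agent.P347.Zero
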