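import Vale.Agent.P347.Zero.VtxBasic
import Vale.Agent.P347.Zero.Matched
import Vale.Agent.P347.Zero.VertexPins
import Vale.Agent.P347.Zero.Universal
import Vale.Agent.P347.QuadOperator

/-!
Correlations bounded away from one recover a smooth field to any order in the distance: the
expansion of the Ornstein-Uhlenbeck flow in time, and weights that kill its first terms.
-/

noncomputable section

open MeasureTheory ProbabilityTheory Filter Topology Set
open scoped RealInnerProductSpace ContDiff Nat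

namespace Vale.Agent.P347.Zero

namespace PGv

variable {E F : Type} [NormedAddCommGroup E] [NormedSpace ℝ E] [NormedAddCommGroup F]
  [NormedSpace ℝ F]

theorem fderiv' {f : E → F} (hf : PGv f) : PGv fun x => fderiv ℝ f x := fun k => by
  obtain ⟨c, n, hb⟩ := (hf (k + 1)).2
  refine ⟨(hf (k + 1)).1.fderiv_right (by simp), c, n, fun x => ?_⟩
  rw [norm_iteratedFDeriv_fderiv]
  exact hb x

theorem mul {f g : E → ℝ} (hf : PGv f) (hg : PGv g) : PGv fun x => f x * g x := fun k => by
  obtain ⟨a, m, ha, hfb⟩ := bound_all hf k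
  obtain ⟨b, n, hb, hgb⟩ := bound_all hg k
  refine ⟨(hf k).1.mul (hg k).1,
    ∑ i ∈ Finset.range (k + 1), (k.choose i : ℝ) * (a * b), m + n, fun x => ?_⟩
  refine (norm_iteratedFDeriv_mul_le (hf k).1 (hg k).1 x le_rfl).trans ?_
  rw [Finset.sum_mul]
  refine Finset.sum_le_sum fun i hi => ?_
  have hi' : i ≤ k := Nat.le_of_lt_succ (Finset.mem_range.1 hi)
  rw [mul_assoc, mul_assoc]
  refine mul_le_mul_of_nonneg_left ?_ (Nat.cast_nonneg _)
  refine (mul_le_mul (hfb i hi' x) (hgb (k - i) (Nat.sub_le _ _) x) (norm_nonneg _)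
    (by positivity)).trans_eq ?_
  rw [pow_add]
  ring

end PGv

namespace Smo

variable {n : ℕ}

theorem pg_of_smooth {f : Space n → ℝ} (hf : Smooth f) : PGv f := hf

theorem cont {f : Space n → ℝ} (hf : PGv f) : Continuous f := (hf 0).1.continuous

theorem grow {f : Space n → ℝ} (hf : PGv f) : Grow f := by
  obtain ⟨c, k, hb⟩ := (hf 0).2
  exact ⟨c, k, fun x => by have := hb x; rwa [norm_iteratedFDeriv_zero] at this⟩

theorem int {f : Space n → ℝ} (hf : PGv f) : Integrable f (gam n) := gam_int (cont hf) (grow hf)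

theorem int_sq {f : Space n → ℝ} (hf : PGv f) : Integrable (fun x => f x ^ 2) (gam n) :=
  gam_int ((cont hf).pow 2) (grow_pow (grow hf) 2)

theorem nice {f : Space n → ℝ} (hf : PGv f) : Nice f := by
  obtain ⟨c, k, hb⟩ := (hf 1).2
  exact ⟨(hf 1).1, c, k, fun x => by have := hb x; rwa [norm_iteratedFDeriv_one] at this⟩

theorem pg_coord (c : Fin n) : PGv fun x : Space n => x c :=
  PGv.linear (EuclideanSpace.proj c : Space n →L[ℝ] ℝ)

/-- The derivative in a coordinate. -/
def gd (c : Fin n) (f : Space n → ℝ) : Space n → ℝ := fun x => fderiv ℝ f x (ev c)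

theorem pg_gd {f : Space n → ℝ} (hf : PGv f) (c : Fin n) : PGv (gd c f) :=
  PGv.clm hf.fderiv' (ContinuousLinearMap.apply ℝ ℝ (ev c))

theorem fderiv_sum {f : Space n → ℝ} (x v : Space n) :
    fderiv ℝ f x v = ∑ c, v c * gd c f x := by
  have hv : v = ∑ c, v c • ev c := by
    ext i; simp [Finset.sum_apply, Pi.single_apply]
  conv_lhs => rw [hv]
  simp [map_sum, gd]

theorem gd_comm {f : Space n → ℝ} (hf : PGv f) (c b : Fin n) : gd c (gd b f) = gd b (gd c f) := by
  funext x
  have h2 : DifferentiableAt ℝ (fderiv ℝ f) x :=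
    ((hf.fderiv' 1).1.differentiable (by norm_num)) x
  have e : ∀ u w : Fin n, gd u (gd w f) x = fderiv ℝ (fderiv ℝ f) x (ev u) (ev w) := fun u w => by
    show fderiv ℝ (fun y => fderiv ℝ f y (ev w)) x (ev u) = _
    rw [fderiv_clm_apply h2 (differentiableAt_const _)]
    simp
  rw [e, e]
  exact ((hf 2).1.contDiffAt (x := x)).isSymmSndFDerivAt (by simp) (ev c) (ev b)

/-- The generator of the flow. -/
def lOp (f : Space n → ℝ) : Space n → ℝ :=
  fun x => ∑ c, (gd c (gd c f) x + -1 * (x c * gd c f x))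

theorem pg_lOp {f : Space n → ℝ} (hf : PGv f) : PGv (lOp f) :=
  PGv.sum _ fun c _ => (pg_gd (pg_gd hf c) c).add
    ((PGv.const _).mul ((pg_coord c).mul (pg_gd hf c)))

/-- Iterates of the generator. -/
def lN : ℕ → (Space n → ℝ) → Space n → ℝ
  | 0, f => f
  | m + 1, f => lN m (lOp f)

theorem pg_lN : ∀ (m : ℕ) {f : Space n → ℝ}, PGv f → PGv (lN m f)
  | 0, _, hf => hf
  | m + 1, _, hf => pg_lN m (pg_lOp hf)

theorem gd_add {f g : Space n → ℝ} (hf : PGv f) (hg : PGv g) (a : ℝ) (c : Fin n) :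
    gd c (fun x => f x + a * g x) = fun x => gd c f x + a * gd c g x := by
  funext x
  show fderiv ℝ (fun y => f y + a * g y) x (ev c) = _
  rw [fderiv_fun_add ((nice hf).diff x) (((nice hg).diff x).const_mul a),
    fderiv_const_mul ((nice hg).diff x)]
  rfl

theorem gd_lOp {f : Space n → ℝ} (hf : PGv f) (c : Fin n) :
    gd c (lOp f) = fun x => lOp (gd c f) x + -1 * gd c f x := by
  funext x
  have hT : ∀ b, PGv fun y : Space n => gd b (gd b f) y + -1 * (y b * gd b f y) := fun b =>
    (pg_gd (pg_gd hf b) b).add ((PGv.const _).mul ((pg_coord b).mul (pg_gd hf b)))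
  show fderiv ℝ (fun y => ∑ b, (gd b (gd b f) y + -1 * (y b * gd b f y))) x (ev c) = _
  rw [fderiv_fun_sum fun b _ => (nice (hT b)).diff x, _root_.sum_apply]
  have e : ∀ b, fderiv ℝ (fun y => gd b (gd b f) y + -1 * (y b * gd b f y)) x (ev c)
      = gd b (gd b (gd c f)) x + -1 * (x b * gd b (gd c f) x)
        + -1 * (if b = c then gd b f x else 0) := fun b => by
    have h1 := congrFun (gd_add (pg_gd (pg_gd hf b) b) ((pg_coord b).mul (pg_gd hf b)) (-1) c) x
    refine h1.trans ?_
    have h2 : gd c (fun y : Space n => y b * gd b f y) x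
        = x b * gd c (gd b f) x + (if b = c then 1 else 0) * gd b f x := by
      show fderiv ℝ (fun y : Space n => y b * gd b f y) x (ev c) = _
      rw [fderiv_fun_mul ((nice (pg_coord b)).diff x) ((nice (pg_gd hf b)).diff x)]
      simp [fderiv_coord, gd]
    have h3 : gd c (gd b (gd b f)) = gd b (gd b (gd c f)) := by
      rw [gd_comm (pg_gd hf b) c b, gd_comm hf c b]
    rw [h2, h3, gd_comm hf c b]
    split_ifs <;> ring
  simp only [e, Finset.sum_add_distrib, ← Finset.mul_sum, lOp, Finset.sum_ite_eq',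
    Finset.mem_univ, if_true]

/-! ### Square means of derivatives -/

/-- The square mean of the derivatives of a given order. -/
def eK : ℕ → (Space n → ℝ) → ℝ
  | 0, f => ∫ x, f x ^ 2 ∂gam n
  | k + 1, f => ∑ c, eK k (gd c f)

theorem eK_nonneg : ∀ (k : ℕ) (f : Space n → ℝ), 0 ≤ eK k f
  | 0, _ => integral_nonneg fun _ => sq_nonneg _
  | k + 1, f => Finset.sum_nonneg fun c _ => eK_nonneg k (gd c f)

/-- The generator is symmetric. -/
theorem lOp_pair {f ψ : Space n → ℝ} (hf : PGv f) (hψ : PGv ψ) :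
    ∫ x, lOp f x * ψ x ∂gam n = -∑ c, ∫ x, gd c f x * gd c ψ x ∂gam n := by
  have i1 : ∀ c, Integrable (fun x => gd c (gd c f) x * ψ x) (gam n) := fun c =>
    int ((pg_gd (pg_gd hf c) c).mul hψ)
  have i2 : ∀ c, Integrable (fun x : Space n => x c * (gd c f x * ψ x)) (gam n) := fun c =>
    int ((pg_coord c).mul ((pg_gd hf c).mul hψ))
  have e : ∀ x, lOp f x * ψ x
      = ∑ c, (gd c (gd c f) x * ψ x - x c * (gd c f x * ψ x)) := fun x => by
    rw [lOp, Finset.sum_mul]
    exact Finset.sum_congr rfl fun c _ => by ring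
  simp only [e]
  rw [integral_finsetSum _ (f := fun c x => gd c (gd c f) x * ψ x - x c * (gd c f x * ψ x))
    fun c _ => (i1 c).sub (i2 c), ← Finset.sum_neg_distrib]
  refine Finset.sum_congr rfl fun c _ => ?_
  rw [integral_sub (i1 c) (i2 c), gStein_mul (nice (pg_gd hf c)) (nice hψ) c]
  simp [gd]

/-- The square mean of the generator. -/
theorem lOp_sq {f : Space n → ℝ} (hf : PGv f) : eK 0 (lOp f) = eK 2 f + eK 1 f := by
  show ∫ x, lOp f x ^ 2 ∂gam n = (∑ c, ∑ b, eK 0 (gd b (gd c f))) + ∑ c, eK 0 (gd c f)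
  simp only [sq, eK]
  rw [lOp_pair hf (pg_lOp hf), ← Finset.sum_neg_distrib, ← Finset.sum_add_distrib]
  refine Finset.sum_congr rfl fun c _ => ?_
  have hg := pg_gd hf c
  simp only [gd_lOp hf c]
  have e : ∀ x, gd c f x * (lOp (gd c f) x + -1 * gd c f x)
      = lOp (gd c f) x * gd c f x - gd c f x * gd c f x := fun x => by ring
  simp only [e]
  rw [integral_sub (int ((pg_lOp hg).mul hg)) (int (hg.mul hg)), lOp_pair hg hg]
  ring

theorem eK_lOp : ∀ (j : ℕ) (a : ℝ) {f : Space n → ℝ}, PGv f →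
    eK j (fun x => lOp f x + a * f x)
      ≤ 2 * eK (j + 2) f + 2 * eK (j + 1) f + 2 * (a - j) ^ 2 * eK j f
  | 0, a, f, hf => by
    show ∫ x, (lOp f x + a * f x) ^ 2 ∂gam n ≤ _
    rw [show (2 : ℝ) * eK (0 + 2) f + 2 * eK (0 + 1) f = 2 * eK 0 (lOp f) by rw [lOp_sq hf]; ring]
    simp only [eK, Nat.cast_zero, sub_zero, ← integral_const_mul]
    rw [← integral_add ((int_sq (pg_lOp hf)).const_mul 2) ((int_sq hf).const_mul _)]
    refine integral_mono (int_sq ((pg_lOp hf).add ((PGv.const a).mul hf)))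
      (((int_sq (pg_lOp hf)).const_mul 2).add ((int_sq hf).const_mul _)) fun x => ?_
    show (lOp f x + a * f x) ^ 2 ≤ 2 * lOp f x ^ 2 + 2 * a ^ 2 * f x ^ 2
    nlinarith [sq_nonneg (lOp f x - a * f x)]
  | j + 1, a, f, hf => by
    show (∑ c, eK j (gd c fun x => lOp f x + a * f x)) ≤ 2 * (∑ c, eK (j + 2) (gd c f))
      + 2 * (∑ c, eK (j + 1) (gd c f)) + 2 * (a - (j + 1 : ℕ)) ^ 2 * ∑ c, eK j (gd c f)
    simp only [Finset.mul_sum, ← Finset.sum_add_distrib]
    refine Finset.sum_le_sum fun c _ => ?_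
    have h1 := eK_lOp j (a - 1) (pg_gd hf c)
    rw [gd_add (pg_lOp hf) hf a c, gd_lOp hf c]
    rw [show (fun x => lOp (gd c f) x + -1 * gd c f x + a * gd c f x)
      = fun x => lOp (gd c f) x + (a - 1) * gd c f x by funext x; ring]
    refine h1.trans_eq ?_
    push_cast
    ring

theorem eK_lN : ∀ (m j : ℕ), ∃ C : ℝ, 0 ≤ C ∧ ∀ {n : ℕ} {f : Space n → ℝ}, PGv f →
    eK j (lN m f) ≤ C * ∑ i ∈ Finset.range (j + 2 * m + 1), eK i f
  | 0, j => ⟨1, zero_le_one, fun {n f} _ => by
      rw [one_mul]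
      exact Finset.single_le_sum (f := fun i => eK i f) (fun i _ => eK_nonneg i f)
        (Finset.mem_range.2 (by omega))⟩
  | m + 1, j => by
    obtain ⟨C, hC, hb⟩ := eK_lN m j
    refine ⟨C * ∑ i ∈ Finset.range (j + 2 * m + 1), (4 + 2 * (i : ℝ) ^ 2), by positivity,
      fun {n f} hf => (hb (pg_lOp hf)).trans ?_⟩
    rw [mul_assoc, Finset.sum_mul]
    refine mul_le_mul_of_nonneg_left (Finset.sum_le_sum fun i hi => ?_) hC
    have hi' := Finset.mem_range.1 hi
    have hle : ∀ k, k < j + 2 * (m + 1) + 1 →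
        eK k f ≤ ∑ l ∈ Finset.range (j + 2 * (m + 1) + 1), eK l f := fun k hk =>
      Finset.single_le_sum (f := fun l => eK l f) (fun l _ => eK_nonneg l f)
        (Finset.mem_range.2 hk)
    have h1 := eK_lOp i 0 hf
    simp only [zero_mul, add_zero, zero_sub, neg_sq] at h1
    refine h1.trans ?_
    nlinarith [hle i (by omega), hle (i + 1) (by omega), hle (i + 2) (by omega), sq_nonneg (i : ℝ)]

theorem eK_eq : ∀ (k : ℕ) {f : Space n → ℝ}, PGv f →
    ∫ x, ∑ idx : Fin k → Fin n, iteratedFDeriv ℝ k f x (fun j => ev (idx j)) ^ 2 ∂gam n = eK k f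
  | 0, f, hf => by simp [eK]
  | k + 1, f, hf => by
    have e : ∀ x (q : Fin n × (Fin k → Fin n)),
        iteratedFDeriv ℝ (k + 1) f x (fun j => ev (Fin.snoc (α := fun _ => Fin n) q.2 q.1 j))
          = iteratedFDeriv ℝ k (gd q.1 f) x (fun j => ev (q.2 j)) := fun x q => by
      rw [iteratedFDeriv_succ_apply_right]
      have h1 : gd q.1 f = (ContinuousLinearMap.apply ℝ ℝ (ev q.1) : (Space n →L[ℝ] ℝ) →L[ℝ] ℝ)
          ∘ fun y => fderiv ℝ f y := rfl
      rw [h1, ContinuousLinearMap.iteratedFDeriv_comp_left _ (hf.fderiv' k).1.contDiffAt le_rfl]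
      simp only [Fin.snoc_last]
      show _ = (iteratedFDeriv ℝ k (fun x => fderiv ℝ f x) x fun j => ev (q.2 j)) (ev q.1)
      congr 2
      funext i
      simp [Fin.init, Fin.snoc_castSucc]
    have es : ∀ x, ∑ idx : Fin (k + 1) → Fin n,
          iteratedFDeriv ℝ (k + 1) f x (fun j => ev (idx j)) ^ 2
        = ∑ c, ∑ q : Fin k → Fin n, iteratedFDeriv ℝ k (gd c f) x (fun j => ev (q j)) ^ 2 :=
      fun x => by
        rw [← Fintype.sum_prod_type']
        refine (Fintype.sum_equiv (Fin.snocEquiv fun _ => Fin n) _ _ fun q => ?_).symm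
        rw [← e]
        rfl
    simp only [es]
    rw [integral_finsetSum]
    · exact Finset.sum_congr rfl fun c _ => eK_eq k (pg_gd hf c)
    · intro c _
      refine integrable_finsetSum _ fun q _ => ?_
      obtain ⟨a, m, hb⟩ := ((pg_gd hf c) k).2
      refine gam_int ((ContinuousMultilinearMap.apply ℝ (fun _ : Fin k => Space n) ℝ
        (fun j => ev (q j))).continuous.comp
          (((pg_gd hf c) k).1.continuous_iteratedFDeriv le_rfl) |>.pow 2) (grow_pow ⟨a *
            ∏ j, ‖(ev (q j) : Space n)‖, m, fun x => ?_⟩ 2)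
      refine ((iteratedFDeriv ℝ k (gd c f) x).le_opNorm _).trans ?_
      exact (mul_le_mul_of_nonneg_right (hb x) (Finset.prod_nonneg fun j _ => norm_nonneg _)).trans_eq
        (by ring)

/-! ### The flow -/

/-- The average at time `t`. -/
def uT (f : Space n → ℝ) (t : ℝ) (x : Space n) : ℝ := Pt (eT t) f x

/-- The noise at time `t`. -/
def sT (t : ℝ) : ℝ := Real.sqrt (1 - eT t ^ 2)

theorem sT_mem (t : ℝ) : 0 ≤ sT t ∧ sT t ≤ 1 :=
  ⟨Real.sqrt_nonneg _, Real.sqrt_le_one.2 (by linarith [sq_nonneg (eT t)])⟩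

variable {f g : Space n → ℝ}

theorem pg_shift (hf : PGv f) (a : Space n) (s : ℝ) : PGv fun z => f (a + s • z) :=
  hf.comp ((PGv.const a).add (PGv.linear (s • ContinuousLinearMap.id ℝ (Space n))))

theorem norm_point (t : ℝ) (x z : Space n) : ‖eT t • x + sT t • z‖ ≤ ‖x‖ + ‖z‖ := by
  refine (norm_add_le _ _).trans (add_le_add ?_ ?_) <;> rw [norm_smul, Real.norm_eq_abs] <;>
    refine mul_le_of_le_one_left (norm_nonneg _) ?_
  · rw [abs_of_pos (eT_pos t)]; exact eT_le_one t
  · rw [abs_of_nonneg (sT_mem t).1]; exact (sT_mem t).2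

theorem bound (hf : PGv f) : ∃ (C : ℝ) (k : ℕ), 0 ≤ C ∧ ∀ t (x z : Space n),
    |f (eT t • x + sT t • z)| ≤ C * ((1 + ‖x‖) ^ k * (1 + ‖z‖) ^ k) := by
  obtain ⟨C, k, hb⟩ := grow hf
  refine ⟨|C|, k, abs_nonneg C, fun t x z => (hb _).trans ?_⟩
  rw [← mul_pow]
  refine mul_le_mul (le_abs_self C) (pow_le_pow_left₀ (by positivity) ?_ k) (by positivity)
    (abs_nonneg C)
  nlinarith [norm_point t x z, norm_nonneg x, norm_nonneg z,
    mul_nonneg (norm_nonneg x) (norm_nonneg z)]

theorem abs_uT (hf : PGv f) : ∃ (C : ℝ) (k : ℕ), 0 ≤ C ∧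
    ∀ t (x : Space n), |uT f t x| ≤ C * (1 + ‖x‖) ^ k := by
  obtain ⟨C, k, hC, hb⟩ := bound hf
  refine ⟨C * ∫ z : Space n, (1 + ‖z‖) ^ k ∂gam n, k,
    mul_nonneg hC (integral_nonneg fun z => by positivity), fun t x => ?_⟩
  refine (norm_integral_le_of_norm_le (f := fun z => f (eT t • x + sT t • z))
    (((pow_norm_int k).const_mul ((1 + ‖x‖) ^ k)).const_mul C)
    (ae_of_all _ fun z => hb t x z)).trans_eq ?_
  rw [integral_const_mul, integral_const_mul]
  ring

theorem cont_eT : Continuous eT := by unfold eT; fun_prop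

theorem cont_sT : Continuous sT := by unfold sT eT; fun_prop

theorem continuous_uT (hf : PGv f) : Continuous fun p : ℝ × Space n => uT f p.1 p.2 := by
  obtain ⟨C, k, hC, hb⟩ := bound hf
  refine continuous_iff_continuousAt.2 fun p₀ => ?_
  refine continuousAt_of_dominated
    (F := fun (p : ℝ × Space n) (z : Space n) => f (eT p.1 • p.2 + sT p.1 • z))
    (bound := fun z => C * ((2 + ‖p₀.2‖) ^ k * (1 + ‖z‖) ^ k)) ?_ ?_ ?_ ?_
  · exact Eventually.of_forall fun p => (int (pg_shift hf _ _)).aestronglyMeasurable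
  · have he : ∀ᶠ p : ℝ × Space n in 𝓝 p₀, ‖p.2‖ ≤ ‖p₀.2‖ + 1 :=
      ((continuous_snd.norm).tendsto p₀).eventually (eventually_le_nhds (lt_add_one _))
    refine he.mono fun p hp => ae_of_all _ fun z => (hb _ _ z).trans ?_
    refine mul_le_mul_of_nonneg_left (mul_le_mul_of_nonneg_right
      (pow_le_pow_left₀ (by positivity) (by linarith) k) (by positivity)) hC
  · exact ((pow_norm_int k).const_mul _).const_mul C
  · exact ae_of_all _ fun z => ((cont hf).comp
      (((cont_eT.comp continuous_fst).smul continuous_snd).add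
        ((cont_sT.comp continuous_fst).smul continuous_const))).continuousAt

theorem uT_zero (f : Space n → ℝ) (x : Space n) : uT f 0 x = f x := by
  simp [uT, Pt, eT]

theorem hasDerivAt_sT {t : ℝ} (ht : 0 < t) : HasDerivAt sT (eT t ^ 2 / sT t) t := by
  have h1 := hasDerivAt_eT ht
  have hp : 0 < 1 - eT t ^ 2 := sub_pos.2 (eT_lt_one ht)
  refine (((h1.fun_pow 2).const_sub 1).sqrt hp.ne').congr_deriv ?_
  rw [sT]
  have hs := (Real.sqrt_pos.2 hp).ne'
  field_simp
  push_cast
  ring

/-- The time derivative of the average is the average of the generator. -/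
theorem hasDerivAt_uT (hf : PGv f) {t : ℝ} (ht : 0 < t) (x : Space n) :
    HasDerivAt (fun s => uT f s x) (uT (lOp f) t x) t := by
  classical
  set a : ℝ → ℝ := fun s => eT s ^ 2 / sT s
  set G : Space n → ℝ := fun q => 1 + ∑ c, gd c f q * gd c f q
  have hG : PGv G := (PGv.const 1).add (PGv.sum _ fun c _ => (pg_gd hf c).mul (pg_gd hf c))
  have hGc : ∀ q c, |gd c f q| ≤ G q := fun q c => by
    have h1 : gd c f q * gd c f q ≤ ∑ c, gd c f q * gd c f q :=
      Finset.single_le_sum (f := fun c => gd c f q * gd c f q)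
        (fun c _ => mul_self_nonneg _) (Finset.mem_univ c)
    refine abs_le.2 ⟨?_, ?_⟩
    · nlinarith [sq_nonneg (gd c f q + 1)]
    · nlinarith [sq_nonneg (gd c f q - 1)]
  obtain ⟨C, k, hC, hb⟩ := bound hG
  have hσ₀ : 0 < sT (t / 2) := Real.sqrt_pos.2 (sub_pos.2 (eT_lt_one (by linarith)))
  have ha : ∀ s ∈ Ioo (t / 2) (2 * t), |a s| ≤ (sT (t / 2))⁻¹ := fun s hs => by
    have hs0 : 0 < s := (by linarith : (0 : ℝ) < t / 2).trans hs.1
    simp only [a]
    rw [abs_div, abs_of_nonneg (sq_nonneg _), abs_of_nonneg (sT_mem s).1, div_eq_mul_inv]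
    refine (mul_le_of_le_one_left (inv_nonneg.2 (sT_mem s).1) (eT_sq_le s)).trans
      (inv_anti₀ hσ₀ (Real.sqrt_le_sqrt ?_))
    have h2 : eT s ≤ eT (t / 2) := by
      rw [eT, eT, abs_of_pos hs0, abs_of_pos (by linarith : (0 : ℝ) < t / 2)]
      exact Real.exp_le_exp.2 (by linarith [hs.1])
    linarith [pow_le_pow_left₀ (eT_pos s).le h2 2]
  have pgq : ∀ c, PGv fun z => gd c f (eT t • x + sT t • z) := fun c => pg_shift (pg_gd hf c) _ _
  have pgqq : ∀ c, PGv fun z => gd c (gd c f) (eT t • x + sT t • z) := fun c =>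
    pg_shift (pg_gd (pg_gd hf c) c) _ _
  have ip := fun c => int (pgq c)
  have iz := fun c => int ((pg_coord c).mul (pgq c))
  have iq := fun c => int (pgqq c)
  have hd := (hasDerivAt_integral_of_dominated_loc_of_deriv_le (μ := gam n)
    (F := fun s z => f (eT s • x + sT s • z))
    (F' := fun s z => ∑ c, ((-eT s * x c) * gd c f (eT s • x + sT s • z)
      + a s * (z c * gd c f (eT s • x + sT s • z))))
    (bound := fun z => C * (1 + ‖x‖) ^ k * ((n : ℝ) * (‖x‖ + (sT (t / 2))⁻¹))
      * (1 + ‖z‖) ^ (k + 1))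
    (x₀ := t) (Ioo_mem_nhds (show t / 2 < t by linarith) (show t < 2 * t by linarith))
    (Eventually.of_forall fun s => (int (pg_shift hf _ _)).aestronglyMeasurable)
    (int (pg_shift hf _ _)) ?_ (ae_of_all _ fun z s hs => ?_) ((pow_norm_int _).const_mul _)
    (ae_of_all _ fun z s hs => ?_)).2
  rotate_left
  · exact (integrable_finsetSum _ fun c _ =>
      ((ip c).const_mul _).add ((iz c).const_mul _)).aestronglyMeasurable
  · rw [Real.norm_eq_abs]
    set q := eT s • x + sT s • z
    have hGq : |G q| ≤ C * ((1 + ‖x‖) ^ k * (1 + ‖z‖) ^ k) := hb s x z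
    have e2 : ∀ c, |(-eT s * x c) * gd c f q + a s * (z c * gd c f q)|
        ≤ (‖x‖ + (sT (t / 2))⁻¹) * (1 + ‖z‖) * (C * ((1 + ‖x‖) ^ k * (1 + ‖z‖) ^ k)) :=
      fun c => by
      rw [← mul_assoc (a s), ← add_mul, abs_mul]
      refine mul_le_mul ((abs_add_le _ _).trans ?_)
        ((hGc q c).trans ((le_abs_self _).trans hGq)) (abs_nonneg _) (by positivity)
      rw [abs_mul, abs_mul, abs_neg, abs_of_pos (eT_pos s)]
      have h1 : eT s * |x c| ≤ ‖x‖ :=
        (mul_le_of_le_one_left (abs_nonneg _) (eT_le_one s)).trans (P245.abs_coord_le x c)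
      have h2 : |a s| * |z c| ≤ (sT (t / 2))⁻¹ * ‖z‖ :=
        mul_le_mul (ha s hs) (P245.abs_coord_le z c) (abs_nonneg _) (by positivity)
      nlinarith [norm_nonneg x, norm_nonneg z, inv_nonneg.2 hσ₀.le,
        mul_nonneg (norm_nonneg x) (norm_nonneg z)]
    refine ((Finset.abs_sum_le_sum_abs _ _).trans (Finset.sum_le_sum fun c _ => e2 c)).trans_eq ?_
    rw [Finset.sum_const, Finset.card_univ, Fintype.card_fin, nsmul_eq_mul, pow_succ]
    ring
  · have hs0 : 0 < s := (by linarith : (0 : ℝ) < t / 2).trans hs.1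
    have hp := ((hasDerivAt_eT hs0).smul_const x).fun_add ((hasDerivAt_sT hs0).smul_const z)
    have h1 := ((nice hf).diff (eT s • x + sT s • z)).hasFDerivAt.comp_hasDerivAt s hp
    refine h1.congr_deriv ?_
    rw [fderiv_sum]
    refine Finset.sum_congr rfl fun c _ => ?_
    simp [a]
    ring
  refine hd.congr_deriv ?_
  have hs : sT t ≠ 0 := (Real.sqrt_pos.2 (sub_pos.2 (eT_lt_one ht))).ne'
  have hst : ∀ c, ∫ z, z c * gd c f (eT t • x + sT t • z) ∂gam n
      = sT t * ∫ z, gd c (gd c f) (eT t • x + sT t • z) ∂gam n := fun c => by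
    have h1 := gStein (nice (pgq c)) (ev c)
    simp only [coord_inner] at h1
    rw [h1, ← integral_const_mul]
    refine integral_congr_ae (ae_of_all _ fun z => ?_)
    have hl : HasFDerivAt (fun z => eT t • x + sT t • z)
        (sT t • ContinuousLinearMap.id ℝ (Space n)) z :=
      ((hasFDerivAt_id z).const_smul (sT t)).const_add _
    have h2 : HasFDerivAt (fun z => gd c f (eT t • x + sT t • z)) _ z :=
      ((nice (pg_gd hf c)).diff _).hasFDerivAt.comp z hl
    beta_reduce
    rw [h2.fderiv]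
    simp [gd]
  have e : ∀ z, lOp f (eT t • x + sT t • z) = ∑ c, (gd c (gd c f) (eT t • x + sT t • z)
      + ((-eT t * x c) * gd c f (eT t • x + sT t • z)
        + -sT t * (z c * gd c f (eT t • x + sT t • z)))) := fun z => by
    refine Finset.sum_congr rfl fun c _ => ?_
    simp
    ring
  have i3 : ∀ c, Integrable (fun z => (-eT t * x c) * gd c f (eT t • x + sT t • z)
      + -sT t * (z c * gd c f (eT t • x + sT t • z))) (gam n) := fun c =>
    ((ip c).const_mul _).add ((iz c).const_mul _)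
  rw [uT, Pt, ← show sT t = Real.sqrt (1 - eT t ^ 2) from rfl]
  simp only [e]
  rw [integral_finsetSum _ fun c _ => show Integrable (fun z =>
      (-eT t * x c) * gd c f (eT t • x + sT t • z)
        + a t * (z c * gd c f (eT t • x + sT t • z))) (gam n) from
      ((ip c).const_mul _).add ((iz c).const_mul _),
    integral_finsetSum _ fun c _ => show Integrable (fun z => gd c (gd c f) (eT t • x + sT t • z)
      + ((-eT t * x c) * gd c f (eT t • x + sT t • z)
        + -sT t * (z c * gd c f (eT t • x + sT t • z)))) (gam n) from (iq c).add (i3 c)]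
  refine Finset.sum_congr rfl fun c _ => ?_
  rw [integral_add ((ip c).const_mul _) ((iz c).const_mul _), integral_add (iq c) (i3 c),
    integral_add ((ip c).const_mul _) ((iz c).const_mul _), integral_const_mul,
    integral_const_mul, integral_const_mul, hst c]
  have hsq : sT t * sT t = 1 - eT t ^ 2 := Real.mul_self_sqrt (sub_nonneg.2 (eT_sq_le t))
  simp only [a]
  field_simp
  linear_combination (∫ z, gd c (gd c f) (eT t • x + sT t • z) ∂gam n) * hsq

/-- The average contracts square means. -/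
theorem uT_sq (hf : PGv f) (t : ℝ) : ∫ x, uT f t x ^ 2 ∂gam n ≤ ∫ x, f x ^ 2 ∂gam n := by
  have h2 : PGv fun x => f x * f x := hf.mul hf
  have gro : ∀ {g : Space n → ℝ}, PGv g → Grow fun x => uT g t x := fun hg => by
    obtain ⟨C, k, -, hb⟩ := abs_uT hg
    exact ⟨C, k, fun x => hb t x⟩
  have hc : ∀ {g : Space n → ℝ}, PGv g → Continuous fun x => uT g t x := fun hg =>
    (continuous_uT hg).comp (continuous_const.prodMk continuous_id)
  refine (integral_mono (gam_int ((hc hf).pow 2) (grow_pow (gro hf) 2))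
    (gam_int (hc h2) (gro h2)) fun x => ?_).trans_eq ?_
  · have hs := pg_shift hf (eT t • x) (sT t)
    have h1 := sq_integral_mul_le (μ := gam n) (u := fun z => f (eT t • x + sT t • z))
      (v := fun _ => (1 : ℝ)) (int_sq hs) (by simp) (by simpa using int hs)
    simpa [uT, Pt, sT, sq] using h1
  · have h3 := (Qo.marg (p := eT t) (r := sT t) (cont h2) (int h2) (sT_mem t).1
      (by rw [sT, Real.sq_sqrt (sub_nonneg.2 (eT_sq_le t))]; ring)).2
    simpa [uT, Pt, sT, sq] using h3

/-! ### The remainder of the expansion -/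

/-- The remainder of the expansion in time. -/
def rem : ℕ → (Space n → ℝ) → ℝ → Space n → ℝ
  | 0, f, t, x => uT f t x
  | m + 1, f, t, x => rem m f t x - t ^ m / m ! * lN m f x

theorem rem_eq : ∀ (m : ℕ) (f : Space n → ℝ) (t : ℝ) (x : Space n),
    rem m f t x = uT f t x - ∑ i ∈ Finset.range m, t ^ i / i ! * lN i f x
  | 0, f, t, x => by simp [rem]
  | m + 1, f, t, x => by rw [rem, rem_eq m, Finset.sum_range_succ]; ring

theorem continuous_rem (hf : PGv f) : ∀ m, Continuous fun p : ℝ × Space n => rem m f p.1 p.2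
  | 0 => continuous_uT hf
  | m + 1 => (continuous_rem hf m).sub
      (((continuous_fst.pow m).div_const _).mul ((cont (pg_lN m hf)).comp continuous_snd))

theorem abs_rem (hf : PGv f) : ∀ m, ∃ (C : ℝ) (k : ℕ), 0 ≤ C ∧
    ∀ t (x : Space n), |rem m f t x| ≤ C * (1 + |t|) ^ m * (1 + ‖x‖) ^ k
  | 0 => by
    obtain ⟨C, k, hC, hb⟩ := abs_uT hf
    exact ⟨C, k, hC, fun t x => by simpa [rem] using hb t x⟩
  | m + 1 => by
    obtain ⟨C, k, hC, hb⟩ := abs_rem hf m
    obtain ⟨D, l, hb'⟩ := grow (pg_lN m hf)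
    refine ⟨C + |D|, k + l, by positivity, fun t x => ?_⟩
    have hx : (1 : ℝ) ≤ 1 + ‖x‖ := by linarith [norm_nonneg x]
    have ht : (1 : ℝ) ≤ 1 + |t| := by linarith [abs_nonneg t]
    refine (abs_sub _ _).trans ?_
    rw [add_mul, add_mul]
    refine add_le_add ((hb t x).trans ?_) ?_
    · gcongr <;> omega
    · rw [abs_mul, abs_div, abs_pow, Nat.abs_cast]
      calc |t| ^ m / m ! * |lN m f x|
          ≤ (1 + |t|) ^ (m + 1) * (|D| * (1 + ‖x‖) ^ (k + l)) := by
            refine mul_le_mul ?_ ((hb' x).trans (mul_le_mul (le_abs_self D) ?_ (by positivity)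
              (abs_nonneg D))) (abs_nonneg _) (by positivity)
            · refine (div_le_self (by positivity) (by exact_mod_cast m.factorial_pos)).trans ?_
              exact (pow_le_pow_left₀ (abs_nonneg t) (by linarith) m).trans
                (pow_le_pow_right₀ ht (Nat.le_succ m))
            · exact pow_le_pow_right₀ hx (by omega)
        _ = _ := by ring

theorem rem_zero : ∀ (m : ℕ) (f : Space n → ℝ) (x : Space n), rem (m + 1) f 0 x = 0
  | 0, f, x => by simp [rem, uT_zero, lN]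
  | m + 1, f, x => by
    rw [rem, rem_zero m]
    simp

theorem hasDerivAt_rem {t : ℝ} (ht : 0 < t) (x : Space n) : ∀ (m : ℕ) {f : Space n → ℝ}, PGv f →
    HasDerivAt (fun s => rem (m + 1) f s x) (rem m (lOp f) t x) t
  | 0, f, hf => by
    simpa [rem] using (hasDerivAt_uT hf ht x).sub_const (lN 0 f x)
  | m + 1, f, hf => by
    have h1 := hasDerivAt_rem ht x m hf
    have h2 := (((hasDerivAt_id' t).fun_pow (m + 1)).div_const
      (((m + 1)! : ℕ) : ℝ)).mul_const (lN (m + 1) f x)
    refine (h1.fun_sub h2).congr_deriv ?_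
    show _ = rem m (lOp f) t x - t ^ m / m ! * lN m (lOp f) x
    rw [show lN (m + 1) f = lN m (lOp f) from rfl, Nat.factorial_succ, Nat.add_sub_cancel]
    push_cast
    field_simp

theorem rem_integral (hf : PGv f) (m : ℕ) {t : ℝ} (ht : 0 ≤ t) (x : Space n) :
    rem (m + 1) f t x = ∫ s in Ioc 0 t, rem m (lOp f) s x := by
  have h1 := intervalIntegral.integral_eq_sub_of_hasDerivAt_of_le ht
    (f := fun s => rem (m + 1) f s x)
    ((continuous_rem hf (m + 1)).comp (continuous_id.prodMk continuous_const)).continuousOn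
    (fun s hs => hasDerivAt_rem hs.1 x m hf)
    (((continuous_rem (pg_lOp hf) m).comp
      (continuous_id.prodMk continuous_const)).intervalIntegrable _ _)
  rw [rem_zero, sub_zero, intervalIntegral.integral_of_le ht] at h1
  exact h1.symm

theorem rem_int (hf : PGv f) (m : ℕ) (t : ℝ) : Integrable (fun x => rem m f t x ^ 2) (gam n) := by
  obtain ⟨C, k, -, hb⟩ := abs_rem hf m
  exact gam_int (((continuous_rem hf m).comp (continuous_const.prodMk continuous_id)).pow 2)
    (grow_pow ⟨C * (1 + |t|) ^ m, k, fun x => hb t x⟩ 2)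

/-- The remainder in square mean. -/
theorem rem_sq : ∀ (m : ℕ) {f : Space n → ℝ}, PGv f → ∀ t : ℝ, 0 ≤ t →
    ∫ x, rem m f t x ^ 2 ∂gam n ≤ t ^ (2 * m) * eK 0 (lN m f)
  | 0, f, hf, t, _ => by
    rw [mul_zero, pow_zero, one_mul]
    exact uT_sq hf t
  | m + 1, f, hf, t, ht => by
    have : IsFiniteMeasure (volume.restrict (Ioc 0 t)) := ⟨by simp⟩
    have hg := pg_lOp hf
    have ih := rem_sq m hg
    have iU : Integrable (fun p : Space n × ℝ => rem m (lOp f) p.2 p.1 ^ 2)
        ((gam n).prod (volume.restrict (Ioc 0 t))) := by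
      obtain ⟨C, k, hC, hb⟩ := abs_rem hg m
      have hi : Integrable (fun s : ℝ => ((1 + |s|) ^ m) ^ 2) (volume.restrict (Ioc 0 t)) :=
        (Continuous.continuousOn (by fun_prop)).integrableOn_compact isCompact_Icc |>.mono_set
          Ioc_subset_Icc_self
      have hx : Integrable (fun x : Space n => (C * (1 + ‖x‖) ^ k) ^ 2) (gam n) :=
        gam_int (by fun_prop) (grow_pow ⟨C, k, fun x => by
          rw [Real.norm_eq_abs, abs_of_nonneg (by positivity)]⟩ 2)
      refine (hx.mul_prod hi).mono' (((continuous_rem hg m).comp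
        (continuous_snd.prodMk continuous_fst)).pow 2).aestronglyMeasurable (ae_of_all _ fun p => ?_)
      rw [Real.norm_eq_abs, abs_pow, ← mul_pow]
      exact pow_le_pow_left₀ (abs_nonneg _) ((hb p.2 p.1).trans_eq (by ring)) 2
    have hpt : ∀ x, rem (m + 1) f t x ^ 2
        ≤ t * ∫ s in Ioc 0 t, rem m (lOp f) s x ^ 2 := fun x => by
      have hc : Continuous fun s => rem m (lOp f) s x :=
        (continuous_rem hg m).comp (continuous_id.prodMk continuous_const)
      have hI : ∀ {f : ℝ → ℝ}, Continuous f → Integrable f (volume.restrict (Ioc 0 t)) :=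
        fun hf => hf.continuousOn.integrableOn_compact isCompact_Icc |>.mono_set Ioc_subset_Icc_self
      rw [rem_integral hf m ht x]
      have h1 := sq_integral_mul_le (μ := volume.restrict (Ioc 0 t))
        (u := fun s => rem m (lOp f) s x) (v := fun _ => (1 : ℝ))
        (hI (hc.pow 2)) (by simp) (by simpa using hI hc)
      refine le_trans (le_of_eq (by simp)) (h1.trans_eq ?_)
      simp [ht, mul_comm]
    refine (integral_mono (rem_int hf (m + 1) t) (iU.integral_prod_left.const_mul t) hpt).trans ?_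
    rw [integral_const_mul, integral_integral_swap iU]
    refine (mul_le_mul_of_nonneg_left (setIntegral_mono_on iU.integral_prod_right
      (integrableOn_const (C := t ^ (2 * m) * eK 0 (lN (m + 1) f)) measure_Ioc_lt_top.ne)
      measurableSet_Ioc fun s hs => (ih s hs.1.le).trans ?_) ht).trans_eq ?_
    · exact mul_le_mul_of_nonneg_right (pow_le_pow_left₀ hs.1.le hs.2 _) (eK_nonneg _ _)
    · rw [setIntegral_const, Real.volume_real_Ioc_of_le ht, smul_eq_mul]
      ring

end Smo

open Smo in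
/-- Correlations at most `1 - t` recover a field up to `t ^ N` times its derivatives. -/
theorem smoothRule : SmoothRule := by
  intro N hN
  obtain ⟨j, rfl⟩ : ∃ j, N = j + 1 := ⟨N - 1, by omega⟩
  obtain ⟨c, hc⟩ := exists_weights j
  obtain ⟨K, hK, hKb⟩ := eK_lN (j + 1) 0
  set A := (∑ l, c l ^ 2) * (∑ l : Fin (j + 1), (2 * ((l : ℝ) + 1)) ^ (2 * (j + 1))) * K
  have hA : 0 ≤ A := by positivity
  refine ⟨j + 1, ∑ l, |c l| + A + 1, fun t ht ht' => ?_⟩
  set tt : Fin (j + 1) → ℝ := fun l => 2 * t * ((l : ℝ) + 1)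
  have htt : ∀ l, 0 ≤ tt l := fun l => by positivity
  refine ⟨c, fun l => eT (tt l), fun l => ⟨(eT_pos _).le, ?_⟩, by linarith, fun n f hf => ?_⟩
  · show eT (tt l) ≤ 1 - t
    rw [eT, abs_of_nonneg (htt l)]
    have h1 : Real.exp (-(tt l)) ≤ Real.exp (-(2 * t)) :=
      Real.exp_le_exp.2 (neg_le_neg (le_mul_of_one_le_right (by linarith)
        (by linarith [Nat.cast_nonneg (α := ℝ) (l : ℕ)])))
    refine h1.trans ?_
    rw [Real.exp_neg, inv_le_iff_one_le_mul₀ (Real.exp_pos _)]
    nlinarith [Real.add_one_le_exp (2 * t)]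
  have hp := pg_of_smooth hf
  set R : Fin (j + 1) → Space n → ℝ := fun l x => rem (j + 1) f (tt l) x
  have key : ∀ x, (∑ l, c l * Pt (eT (tt l)) f x) - f x = ∑ l, c l * R l x := fun x => by
    show (∑ l, c l * uT f (tt l) x) - f x = _
    simp only [R, rem_eq, mul_sub, Finset.sum_sub_distrib]
    congr 1
    simp only [Finset.mul_sum]
    rw [Finset.sum_comm, Finset.sum_eq_single 0]
    · have h0 := hc 0 (Nat.zero_le j)
      simp only [pow_zero, mul_one, if_true] at h0
      simp [← Finset.sum_mul, h0, lN]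
    · intro i hi hi0
      have hi1 := hc i (Nat.le_of_lt_succ (Finset.mem_range.1 hi))
      rw [if_neg hi0] at hi1
      have e2 : ∀ l : Fin (j + 1), c l * (tt l ^ i / i ! * lN i f x)
          = (2 * t) ^ i / i ! * lN i f x * (c l * ((l : ℝ) + 1) ^ i) := fun l => by
        simp only [tt, mul_pow]
        ring
      simp only [e2, ← Finset.mul_sum, hi1, mul_zero]
    · simp
  simp only [key]
  refine (integral_mono_of_nonneg (ae_of_all _ fun x => sq_nonneg _)
    ((integrable_finsetSum Finset.univ fun l _ => rem_int hp (j + 1) (tt l)).const_mul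
      (∑ l, c l ^ 2)) (ae_of_all _ fun x => Finset.sum_mul_sq_le_sq_mul_sq _ _ _)).trans ?_
  rw [integral_const_mul, integral_finsetSum _ fun l _ => rem_int hp (j + 1) (tt l)]
  have hS : ∑ k ∈ Finset.range (2 * (j + 1) + 1), ∫ x, ∑ idx : Fin k → Fin n,
      iteratedFDeriv ℝ k f x (fun i => ev (idx i)) ^ 2 ∂gam n
        = ∑ k ∈ Finset.range (0 + 2 * (j + 1) + 1), eK k f := by
    rw [zero_add]
    exact Finset.sum_congr rfl fun k _ => eK_eq k hp
  rw [hS]
  refine (mul_le_mul_of_nonneg_left (Finset.sum_le_sum fun l _ =>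
    (rem_sq (j + 1) hp (tt l) (htt l)).trans (mul_le_mul_of_nonneg_left (hKb hp)
      (pow_nonneg (htt l) _))) (Finset.sum_nonneg fun l _ => sq_nonneg _)).trans ?_
  have e : ∀ l, tt l ^ (2 * (j + 1)) = t ^ (2 * (j + 1)) * (2 * ((l : ℝ) + 1)) ^ (2 * (j + 1)) :=
    fun l => by rw [← mul_pow]; congr 1; simp only [tt]; ring
  simp only [e, ← Finset.sum_mul, ← Finset.mul_sum]
  rw [mul_pow _ (t ^ (j + 1)), ← pow_mul t, mul_comm (j + 1) 2]
  have h1 : A ≤ (∑ l, |c l| + A + 1) ^ 2 := by
    have : 0 ≤ ∑ l, |c l| := Finset.sum_nonneg fun l _ => abs_nonneg _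
    nlinarith
  refine le_trans (le_of_eq ?_) (mul_le_mul_of_nonneg_right (mul_le_mul_of_nonneg_right h1
    (pow_nonneg ht.le _)) (Finset.sum_nonneg fun k _ => eK_nonneg k f))
  simp only [A]
  ring

end Vale.Agent.P347.Zero
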