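import Vale.Agent.P347.Zero.VertexApprox
import Vale.Agent.P347.Zero.VtxBasic

/-!
The deviation at a node in units of the strength, as powers of the dimension times the weight.
-/

noncomputable section

open MeasureTheory ProbabilityTheory Set
open scoped RealInnerProductSpace

namespace Vale.Agent.P347.Zero

namespace Vtx

variable {γ H δv b S : ℝ}

theorem node_one_le_d (n : NI γ H δv b S) : (1 : ℝ) ≤ n.q.d := by
  exact_mod_cast le_trans one_le_two n.q.two_le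

theorem node_u (n : NI γ H δv b S) : |n.r * n.a| ≤ 1 := by
  rw [← sq_le_one_iff_abs_le_one]
  linarith [n.var_pos]

theorem node_s_sq (n : NI γ H δv b S) : 0 ≤ 1 - n.a ^ 2 := by
  nlinarith [n.a_mem.1, n.a_mem.2]

theorem node_s_le (n : NI γ H δv b S) : Real.sqrt (1 - n.a ^ 2) ≤ 1 :=
  Real.sqrt_le_one.2 (by nlinarith [sq_nonneg n.a])

theorem node_p_le (n : NI γ H δv b S) : |n.r * n.a * n.a| ≤ 1 := by
  rw [abs_mul]
  refine mul_le_one₀ (node_u n) (abs_nonneg _) ?_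
  rw [abs_of_nonneg (le_trans (by norm_num) n.a_mem.1)]
  exact n.a_mem.2

theorem node_q_le (n : NI γ H δv b S) : |n.r * n.a * Real.sqrt (1 - n.a ^ 2)| ≤ 1 := by
  rw [abs_mul]
  refine mul_le_one₀ (node_u n) (abs_nonneg _) ?_
  rw [abs_of_nonneg (Real.sqrt_nonneg _)]
  exact node_s_le n

/-- The derivatives in the noise stay bounded in units of the strength, uniformly in their
order. -/
theorem node_hs_le {C : ℕ → ℝ} (hC : ∀ j, 0 ≤ C j) (hb : ∀ j (d : ℕ) (h : ℝ) (P : Pot d h) (v : ℝ),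
    0 < v → ∀ a, SplitB (C j * h * v ^ (-((j : ℝ) - 1) / 2)) (driftT P v j a))
    (n : NI γ H δv b S) {k : ℕ} (hk : 1 ≤ k) (p : Space n.q.d) (m : ℕ) {M : ℝ}
    (hM : C (k + m) ≤ M) (a : Space n.q.d) :
    (n.r * n.a * Real.sqrt (1 - n.a ^ 2)) ^ (2 * m) *
        hsT (driftT (n.q.pot p) (1 - (n.r * n.a) ^ 2) (k + m) a)
      ≤ (M * n.q.hs) ^ 2 * (n.q.d : ℝ) ^ (1 + δv * ((k : ℝ) - 1)) := by
  set D := (n.q.d : ℝ) with hD
  set v := 1 - (n.r * n.a) ^ 2 with hv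
  have hD0 : 0 < D := zero_lt_one.trans_le (node_one_le_d n)
  have hv0 : 0 < v := n.var_pos
  have : Nonempty (Fin (k + m)) := ⟨⟨0, by omega⟩⟩
  have h1 : hsT (driftT (n.q.pot p) v (k + m) a)
      ≤ D * (C (k + m) * n.q.hs * v ^ (-(((k + m : ℕ) : ℝ) - 1) / 2)) ^ 2 := by
    simpa using hsT_le_of_split (A := Unit) (hb (k + m) n.q.d n.q.hs (n.q.pot p) v hv0 a)
      ((Equiv.sumComm Unit (Fin (k + m))).trans (Equiv.optionEquivSumPUnit (Fin (k + m))).symm)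
  have hq : (n.r * n.a * Real.sqrt (1 - n.a ^ 2)) ^ (2 * m) ≤ D ^ (-δv * m) := by
    rw [pow_mul, mul_pow, Real.sq_sqrt (node_s_sq n), Real.rpow_mul hD0.le,
      Real.rpow_natCast]
    refine pow_le_pow_left₀ (mul_nonneg (sq_nonneg _) (node_s_sq n)) ?_ m
    exact (mul_le_of_le_one_left (node_s_sq n) (by linarith)).trans n.noise_le
  have hkm : (0 : ℝ) ≤ ((k + m : ℕ) : ℝ) - 1 := by
    rw [sub_nonneg]; exact_mod_cast (by omega : 1 ≤ k + m)
  have hvp : (v ^ (-(((k + m : ℕ) : ℝ) - 1) / 2)) ^ 2 ≤ D ^ (δv * (((k + m : ℕ) : ℝ) - 1)) := by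
    rw [← Real.rpow_natCast (v ^ _) 2, ← Real.rpow_mul hv0.le, Nat.cast_ofNat,
      div_mul_cancel₀ _ (two_ne_zero : (2 : ℝ) ≠ 0), Real.rpow_mul hD0.le, Real.rpow_neg hv0.le,
      ← Real.inv_rpow hv0.le]
    refine Real.rpow_le_rpow (inv_nonneg.2 hv0.le) ?_ hkm
    rw [← inv_inv (D ^ δv), ← Real.rpow_neg hD0.le]
    exact inv_anti₀ (Real.rpow_pos_of_pos hD0 _) n.var_ge
  refine (mul_le_mul hq (h1.trans (le_of_eq (by rw [mul_pow]))) (hsT_nonneg _)
    (Real.rpow_nonneg hD0.le _)).trans ?_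
  have hCM : (C (k + m) * n.q.hs) ^ 2 ≤ (M * n.q.hs) ^ 2 :=
    pow_le_pow_left₀ (mul_nonneg (hC _) n.q.hs_pos.le)
      (mul_le_mul_of_nonneg_right hM n.q.hs_pos.le) 2
  refine (mul_le_mul_of_nonneg_left (mul_le_mul_of_nonneg_left
    (mul_le_mul hCM hvp (sq_nonneg _) (sq_nonneg _)) hD0.le) (Real.rpow_nonneg hD0.le _)).trans_eq ?_
  have e : D ^ (-δv * m) * (D * D ^ (δv * (((k + m : ℕ) : ℝ) - 1)))
      = D ^ (1 + δv * ((k : ℝ) - 1)) := by
    conv_lhs => arg 2; arg 1; rw [← Real.rpow_one D]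
    rw [← Real.rpow_add hD0, ← Real.rpow_add hD0]
    congr 1
    push_cast
    ring
  linear_combination ((M * n.q.hs) ^ 2) * e

/-- The drift at the channel, in units of the strength, has polynomial size in the weight. -/
theorem node_size (n : NI γ H δv b S) (hγ : 0 < γ) (B c : ℝ) (p : Space n.q.d) {Y2 : ℝ}
    (hY2 : Y2 ≤ (n.q.d : ℝ) ^ c * (1 + ‖n.q.P.g (n.q.σ • p)‖) ^ 2) :
    Real.sqrt (4 * (‖driftV (n.q.pot p) (1 - (n.r * n.a) ^ 2, 0)‖ ^ 2
        + n.q.hs ^ 2 * (Y2 + 2 * n.q.d))) / n.q.hs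
      ≤ 20 * (n.q.d : ℝ) ^ (|H| + |B| + |c| + 1) *
          (1 + (n.q.d : ℝ) ^ (-B) * ‖n.q.P.g (n.q.σ • p)‖) := by
  set D := (n.q.d : ℝ) with hD
  set g := ‖n.q.P.g (n.q.σ • p)‖ with hg
  set wt := 1 + D ^ (-B) * g with hwt
  set v := 1 - (n.r * n.a) ^ 2
  have hD1 : 1 ≤ D := node_one_le_d n
  have hD0 : 0 < D := zero_lt_one.trans_le hD1
  have hh := n.q.hs_pos
  have hs1 : n.q.hs ≤ 1 := by
    refine (mul_le_mul_of_nonneg_left ((sq_le_one_iff₀ n.q.σ_pos.le).2 n.q.σ_le)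
      n.q.P.h_nonneg).trans ?_
    rw [mul_one]
    exact n.q.h_le.trans (Real.rpow_le_one_of_one_le_of_nonpos hD1 (by linarith))
  have hw1 : 1 ≤ wt := le_add_of_nonneg_right (mul_nonneg (Real.rpow_nonneg hD0.le _) (norm_nonneg _))
  have hgw : g ≤ D ^ |B| * wt := by
    have : g ≤ D ^ B * wt := by
      rw [hwt, mul_add, mul_one, ← mul_assoc, ← Real.rpow_add hD0, add_neg_cancel, Real.rpow_zero,
        one_mul]
      exact le_add_of_nonneg_left (Real.rpow_nonneg hD0.le _)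
    exact this.trans (mul_le_mul_of_nonneg_right
      (Real.rpow_le_rpow_of_exponent_le hD1 (le_abs_self B)) (zero_le_one.trans hw1))
  set G0 := ‖driftV (n.q.pot p) (v, 0)‖ with hG0
  have hpot : ‖(n.q.pot p).g 0‖ ≤ g := by
    show ‖n.q.σ • n.q.P.g (n.q.σ • p + n.q.σ • 0)‖ ≤ g
    rw [smul_zero, add_zero, norm_smul, Real.norm_of_nonneg n.q.σ_pos.le]
    exact mul_le_of_le_one_left (norm_nonneg _) n.q.σ_le
  have hG : G0 ≤ 2 * (2 * D + g) := by
    have h1 : G0 ^ 2 ≤ 4 * siz (n.q.pot p) :=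
      norm_driftV_zero (n.q.pot p) hs1 n.var_pos (sub_le_self _ (sq_nonneg _))
    have h2 : siz (n.q.pot p) ≤ (2 * D + g) ^ 2 := by
      unfold siz
      nlinarith [pow_le_pow_left₀ (norm_nonneg _) hpot 2, norm_nonneg (n.q.P.g (n.q.σ • p))]
    refine le_of_sq_le_sq ?_ (by positivity)
    rw [mul_pow]
    linarith
  have hY : Real.sqrt (4 * (G0 ^ 2 + n.q.hs ^ 2 * (Y2 + 2 * D))) / n.q.hs
      ≤ 2 * (G0 / n.q.hs + (D ^ |c| * (1 + g) + 2 * D)) := by
    rw [div_le_iff₀ hh, Real.sqrt_le_iff]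
    refine ⟨by positivity, ?_⟩
    have h3 : Y2 + 2 * D ≤ (D ^ |c| * (1 + g) + 2 * D) ^ 2 := by
      have hA : (1 : ℝ) ≤ D ^ |c| := Real.one_le_rpow hD1 (abs_nonneg c)
      have hB : D ^ c ≤ (D ^ |c|) ^ 2 := by
        refine (Real.rpow_le_rpow_of_exponent_le hD1 (le_abs_self c)).trans ?_
        nlinarith
      have hC : Y2 ≤ (D ^ |c| * (1 + g)) ^ 2 := by
        rw [mul_pow]
        exact hY2.trans (mul_le_mul_of_nonneg_right hB (sq_nonneg _))
      have hP : 0 ≤ D ^ |c| * (1 + g) * D := by positivity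
      nlinarith [sq_nonneg (D - 1)]
    rw [mul_pow, mul_pow 2]
    have h4 : G0 ^ 2 + n.q.hs ^ 2 * (Y2 + 2 * D)
        ≤ (G0 / n.q.hs + (D ^ |c| * (1 + g) + 2 * D)) ^ 2 * n.q.hs ^ 2 := by
      rw [add_sq (G0 / n.q.hs), add_mul, add_mul, div_pow, div_mul_cancel₀ _ (by positivity)]
      have : 0 ≤ 2 * (G0 / n.q.hs) * (D ^ |c| * (1 + g) + 2 * D) * n.q.hs ^ 2 := by positivity
      nlinarith [mul_le_mul_of_nonneg_left h3 (sq_nonneg n.q.hs)]
    linarith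
  refine hY.trans ?_
  have hinv : 1 / n.q.hs ≤ D ^ |H| := by
    rw [div_le_iff₀ hh]
    refine le_trans ?_ (mul_le_mul_of_nonneg_left n.q.le_h (Real.rpow_nonneg hD0.le _))
    rw [← hD, ← Real.rpow_add hD0]
    exact Real.one_le_rpow hD1 (by linarith [le_abs_self H])
  have hDp : ∀ {x : ℝ}, x ≤ |H| + |B| + |c| + 1 → D ^ x ≤ D ^ (|H| + |B| + |c| + 1) :=
    fun hx => Real.rpow_le_rpow_of_exponent_le hD1 hx
  set T := D ^ (|H| + |B| + |c| + 1) * wt with hT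
  have t1 : D ^ |H| * D ≤ T := by
    rw [← Real.rpow_add_one hD0.ne']
    exact (hDp (by linarith [abs_nonneg B, abs_nonneg c])).trans
      (le_mul_of_one_le_right (Real.rpow_nonneg hD0.le _) hw1)
  have t2 : D ^ |H| * g ≤ T := by
    refine (mul_le_mul_of_nonneg_left hgw (Real.rpow_nonneg hD0.le _)).trans ?_
    rw [← mul_assoc, ← Real.rpow_add hD0]
    exact mul_le_mul_of_nonneg_right (hDp (by linarith [abs_nonneg c])) (zero_le_one.trans hw1)
  have t3 : D ^ |c| ≤ T :=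
    (hDp (by linarith [abs_nonneg B, abs_nonneg H])).trans
      (le_mul_of_one_le_right (Real.rpow_nonneg hD0.le _) hw1)
  have t4 : D ^ |c| * g ≤ T := by
    refine (mul_le_mul_of_nonneg_left hgw (Real.rpow_nonneg hD0.le _)).trans ?_
    rw [← mul_assoc, ← Real.rpow_add hD0]
    exact mul_le_mul_of_nonneg_right (hDp (by linarith [abs_nonneg H])) (zero_le_one.trans hw1)
  have t5 : D ≤ T := (le_mul_of_one_le_left hD0.le (Real.one_le_rpow hD1 (abs_nonneg H))).trans t1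
  have hG2 : G0 / n.q.hs ≤ 2 * (2 * (D ^ |H| * D) + D ^ |H| * g) := by
    rw [div_eq_mul_one_div]
    refine (mul_le_mul hG hinv (by positivity) (by positivity)).trans_eq ?_
    ring
  nlinarith

end Vtx

end Vale.Agent.P347.Zero
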