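import Vale.Agent.P347.Zero.VertexSub
import Vale.Agent.P347.Zero.SamBasics

/-!
The classes at the substituted noise: the derivatives in the private block stay in the class, so the
average over that block is realised.
-/

noncomputable section

open MeasureTheory ProbabilityTheory Set
open scoped RealInnerProductSpace NNReal

namespace Vale.Agent.P347.Zero

namespace Vtx

variable {γ H B δv b S : ℝ} {C K : Type} [Fintype C] [DecidableEq C] [Fintype K] [DecidableEq K]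
  {J : Type} {f : J → NI γ H δv b S}
  {c₀ : NK γ H δv b S → ℝ} {c : NK γ H δv b S → K → ℝ}

omit [DecidableEq K] in
theorem abs_le_one_of_sum {x : ℝ} {y : K → ℝ} (h : x ^ 2 + ∑ l, y l ^ 2 = 1) :
    |x| ≤ 1 ∧ ∀ l, |y l| ≤ 1 := by
  have h1 : 0 ≤ ∑ l, y l ^ 2 := Finset.sum_nonneg fun l _ => sq_nonneg (y l)
  refine ⟨(sq_le_one_iff_abs_le_one x).1 (by linarith), fun l => ?_⟩
  have h2 := Finset.single_le_sum (f := fun l => y l ^ 2) (fun i _ => sq_nonneg (y i))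
    (Finset.mem_univ l)
  exact (sq_le_one_iff_abs_le_one (y l)).1 (by linarith [sq_nonneg x])

theorem sam_node {k : ℕ} {Y : Fld (NQ B f) C Unit}
    (hsum : ∀ n, c₀ n ^ 2 + ∑ l, c n l ^ 2 = 1) {κ φ θ : ℝ} {o : Option (Fin k)}
    (h : Sam κ φ θ o (vtx k Y)) : Sam κ φ θ o (nodeFld k Y c₀ c) := by
  set C₀ : ℝ := 1 + Fintype.card (C ⊕ Unit)
  refine h.comap (fun n => (mixB ((NQ B f).kdm n) (subM (c₀ n) (c n))).prodMap
    (ContinuousLinearMap.id ℝ _)) (C₀ := C₀) (le_add_of_nonneg_right (Nat.cast_nonneg _)) (fun n z => ?_)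
    (fun n => (mixB_mp (subM_orth (hsum n))).prod (MeasurePreserving.id _)) fun j p x A => rfl
  show ∑ l, ‖mixB _ (subM (c₀ n) (c n)) z.1 l‖ + ∑ l, ‖z.2 l‖ ≤ _
  have hb : ∀ l : C ⊕ Unit,
      ‖mixB _ (subM (c₀ n) (c n)) z.1 l‖ ≤ ∑ x, ‖z.1 x‖ := fun l => by
    rw [mixB_apply]
    refine (norm_sum_le _ _).trans (Finset.sum_le_sum fun x _ => ?_)
    rw [norm_smul, Real.norm_eq_abs]
    exact mul_le_of_le_one_left (norm_nonneg _)
      (subM_abs (abs_le_one_of_sum (hsum n)).1 (abs_le_one_of_sum (hsum n)).2 l x)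
  refine (add_le_add (Finset.sum_le_sum fun l _ => hb l) le_rfl).trans ?_
  rw [Finset.sum_const, Finset.card_univ, nsmul_eq_mul]
  have hz : 0 ≤ ∑ l, ‖z.2 l‖ := Finset.sum_nonneg fun l _ => norm_nonneg _
  have hx : 0 ≤ ∑ x, ‖z.1 x‖ := Finset.sum_nonneg fun l _ => norm_nonneg _
  have hc : (0 : ℝ) ≤ (Fintype.card (C ⊕ Unit) : ℕ) := Nat.cast_nonneg _
  simp only [C₀]
  nlinarith [mul_nonneg hc hz]

theorem gd_node {L : Lad} {r : ℕ} {φ θ : ℝ} {k : ℕ} {Y : Fld (NQ B f) C Unit}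
    (hsum : ∀ n, c₀ n ^ 2 + ∑ l, c n l ^ 2 = 1) (h : Gd L r φ θ univ (vtx k Y)) :
    Gd L r φ θ univ (nodeFld k Y c₀ c) :=
  ⟨h.1.subB _ fun j => mixB_mp (subM_orth (hsum (f j).pub)),
    fun o _ => sam_node hsum (h.2.1 o (mem_univ o)),
    fun r' hr o => sam_node hsum (h.2.2 r' hr o)⟩

theorem gd_scaled {L : Lad} {r : ℕ} {φ θ : ℝ} {I I' : Type} [Fintype I] [DecidableEq I]
    [Fintype I'] [DecidableEq I'] {T : Fld (NQ B f) (Unit ⊕ (C ⊕ K)) I}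
    (h : Gd L r φ θ univ T) (e : I ≃ I') {cc : NK γ H δv b S → ℝ} (hcc : ∀ n, |cc n| ≤ 1)
    (O : Set I') : Gd L r φ θ O (smulF (fun j : J => cc (f j).pub) (reL e T)) := by
  have hev : ∀ η : ℝ, 0 < η →
      (NQ B f).Ev fun j => |cc ((NQ B f).pub j)| ≤ (NQ B f).dd j ^ η := fun η hη =>
    (NQ B f).ev_one_le.mono fun j hd => (hcc _).trans (Real.one_le_rpow hd hη.le)
  refine ⟨(h.1.reL e).smul hev, fun o _ => ?_, fun r' hr o => ?_⟩
  · rw [← e.apply_symm_apply o]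
    exact ((h.2.1 _ (mem_univ _)).reL e).smul hev
  · rw [← e.apply_symm_apply o]
    exact ((h.2.2 r' hr _).reL e).smul hev

theorem dB_scaled {I I' : Type} [Fintype I] [DecidableEq I] [Fintype I'] [DecidableEq I']
    {T : Fld (NQ B f) (Unit ⊕ (C ⊕ K)) I} (hT : Sm T) (e : I ≃ I') (g : J → ℝ)
    (x : Unit ⊕ (C ⊕ K)) :
    dB x (smulF g (reL e T)) = smulF g (reL e.optionCongr (dB x T)) := by
  funext (j : J) p z idx
  show fderiv ℝ (fun y => g j * T j p y ((fun o => idx (some o)) ∘ e)) z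
      (Pi.single x (ev (idx none)))
    = g j * fderiv ℝ (fun y => T j p y fun o => (idx ∘ e.optionCongr) (some o)) z
      (Pi.single x (ev ((idx ∘ e.optionCongr) none)))
  rw [fderiv_const_mul ((hT.pg j p _).diff z)]
  rfl

/-- All derivatives in the private block. -/
theorem gdD_node {L : Lad} {r : ℕ} {Φ : ℝ} {Y : Fld (NQ B f) C Unit} (hY : Sm Y)
    (hsum : ∀ n, c₀ n ^ 2 + ∑ l, c n l ^ 2 = 1)
    (hb : ∀ k : ℕ, 1 ≤ k → Gd L r Φ (-(k : ℝ) * L.w) univ (vtx k Y)) :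
    ∀ (n k : ℕ), 1 ≤ k → ∀ {I : Type} [Fintype I] [DecidableEq I] (e : Option (Fin k) ≃ I)
      (cc : NK γ H δv b S → ℝ), (∀ x, |cc x| ≤ 1) → ∀ O : Set I,
      GdD L r Φ (range Sum.inl) (fun _ => L.w) n (-(k : ℝ) * L.w) O
        (smulF (fun j : J => cc (f j).pub) (reL e (nodeFld k Y c₀ c)))
  | 0, k, hk, _, _, _, e, cc, hcc, O => gd_scaled (gd_node hsum (hb k hk)) e hcc O
  | n + 1, k, hk, I, _, _, e, cc, hcc, O => by
    refine ⟨gd_scaled (gd_node hsum (hb k hk)) e hcc O, ?_⟩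
    rintro _ ⟨⟨⟩, rfl⟩
    rw [dB_scaled (nodeFld_sm k hY c₀ c) e, dB_nodeFld k hY c₀ c]
    have hs : ∀ x : NK γ H δv b S, |cc x * (c₀ x * Real.sqrt (1 - x.a ^ 2))| ≤ 1 := fun x => by
      rw [abs_mul, abs_mul, abs_of_nonneg (Real.sqrt_nonneg _)]
      exact mul_le_one₀ (hcc x) (by positivity) (mul_le_one₀ (abs_le_one_of_sum (hsum x)).1
        (Real.sqrt_nonneg _) (Real.sqrt_le_one.2 (by nlinarith [sq_nonneg x.a])))
    have h := gdD_node hY hsum hb n (k + 1) (Nat.le_add_left 1 k)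
      ((shiftO k).trans e.optionCongr)
      (fun x => cc x * (c₀ x * Real.sqrt (1 - x.a ^ 2))) hs (some '' O)
    rw [show -(k : ℝ) * L.w - L.w = -((k + 1 : ℕ) : ℝ) * L.w by push_cast; ring]
    refine cast (congrArg (fun U => GdD L r Φ (range Sum.inl) (fun _ => L.w) n
      (-((k + 1 : ℕ) : ℝ) * L.w) (some '' O) U) ?_) h
    funext j p z idx
    exact mul_assoc (cc _) _ _

/-- The average over the private block is realised. -/
theorem sam_avg (hV : ValThm) (hA : AvgThm) (L : Lad) (r : ℕ) (γ H B δv S α φ Φ : ℝ) (hγ : 0 < γ)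
    (hδ : 0 < δv) (hδS : δv ≤ S) (hSα : S < 2 * α) (hφ : L.phi r + 8 * L.w ≤ φ) (hφΦ : φ ≤ Φ)
    (hΦ : Φ + 8 * L.w ≤ 2 * φ - L.phi r) (hM : MeanOK γ (L.kap (r + 1)) φ) {J : Type}
    {f : J → NI γ H δv 0 S} {Y : Fld (NQ B f) C Unit} (hY : Pts (L.kap r) α Y)
    (hG : ∀ k : ℕ, 1 ≤ k → Gd L (r + 1) Φ (-(k : ℝ) * L.w) univ (vtx k Y))
    (c₀ : NK γ H δv 0 S → ℝ) (c : NK γ H δv 0 S → K → ℝ)
    (hsum : ∀ n, c₀ n ^ 2 + ∑ l, c n l ^ 2 = 1)
    (hnoise : (NQ B f).Ev fun (j : J) =>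
      16 * ((f j).q.d : ℝ) ^ (-(2 * α)) ≤ c₀ (f j).pub ^ 2 * (1 - (f j).a ^ 2)) :
    Sam (L.kap (r + 1)) φ 0 () (avB (valFld Y c₀ c)) := by
  have hmono : L.phi 0 ≤ L.phi r :=
    monotone_nat_of_le_succ (f := L.phi) (fun m => by linarith [L.gap m, L.w_pos]) (Nat.zero_le r)
  have hv := hV γ H B δv 0 S α (L.kap (r + 1)) (L.kap r) φ φ L.g hγ le_rfl hδ.le hδS hSα L.g_pos
    (by linarith [L.g_lt, L.w_pos]) (by linarith) (L.kap_succ r) hM C K J f Y c₀ c hY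
    (fun j => hsum _) hnoise
  have hsm : Sm (valFld Y c₀ c) := by
    rw [valFld_eq]
    exact (nodeFld_sm 0 hY.1 c₀ c).reL _
  refine hA (NQ B f) L r φ Φ 0 hφ hφΦ hΦ Unit (C ⊕ K) Unit univ () (valFld Y c₀ c) (mem_univ _)
    hsm hv fun u n => ?_
  obtain ⟨⟩ := u
  have hs : ∀ x : NK γ H δv 0 S, |c₀ x * Real.sqrt (1 - x.a ^ 2)| ≤ 1 := fun x => by
    rw [abs_mul, abs_of_nonneg (Real.sqrt_nonneg _)]
    exact mul_le_one₀ (abs_le_one_of_sum (hsum x)).1 (Real.sqrt_nonneg _)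
      (Real.sqrt_le_one.2 (by nlinarith [sq_nonneg x.a]))
  have h := gdD_node hY.1 hsum hG n 1 le_rfl ((shiftO 0).trans oneLeg.optionCongr)
    (fun x => c₀ x * Real.sqrt (1 - x.a ^ 2)) hs (some '' (univ : Set Unit))
  rw [zero_sub, show -L.w = -((1 : ℕ) : ℝ) * L.w by simp]
  refine cast (congrArg (fun U => GdD L (r + 1) Φ (range Sum.inl) (fun _ => L.w) n
    (-((1 : ℕ) : ℝ) * L.w) (some '' (univ : Set Unit)) U) ?_) h
  rw [valFld_eq]
  funext (j : J) p z idx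
  have hd := dB_scaled (nodeFld_sm 0 hY.1 c₀ c) oneLeg (fun _ : J => (1 : ℝ))
    (.inl () : Unit ⊕ (C ⊕ K))
  have e1 : smulF (fun _ : J => (1 : ℝ)) (reL oneLeg (nodeFld 0 Y c₀ c))
      = reL oneLeg (nodeFld 0 Y c₀ c) := by
    funext (j' : J) p' z' idx'
    exact one_mul _
  rw [e1, dB_nodeFld 0 hY.1 c₀ c] at hd
  rw [hd]
  exact (one_mul _).symm

end Vtx

end Vale.Agent.P347.Zero
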