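import Vale.Agent.P347.Zero.VtxBasic

/-!
The derivative tensors of the drift are symmetric: the output leg may be exchanged with any other.
-/

noncomputable section

open MeasureTheory ProbabilityTheory
open scoped RealInnerProductSpace

namespace Vale.Agent.P347.Zero

namespace Vtx

variable {d : ℕ} {h : ℝ} (P : Pot d h) {v : ℝ} (hv : 0 < v)

include hv in
/-- The derivative legs may be permuted. -/
theorem driftT_perm (k : ℕ) (a : Space d) (idx idx' : Option (Fin k) → Fin d)
    (h0 : idx none = idx' none)
    (hp : Multiset.ofList (List.ofFn fun l => idx (some l))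
      = Multiset.ofList (List.ofFn fun l => idx' (some l))) :
    driftT P v k a idx = driftT P v k a idx' := by
  rw [driftT_eq_pK P hv, driftT_eq_pK P hv, h0]
  exact congrArg (v⁻¹ ^ k * ·) (symm_pK P a _ _ (Multiset.coe_eq_coe.1 hp))

/-- The output leg exchanged with the derivative leg `l`. -/
def swapO {k : ℕ} (l : Fin k) : Option (Fin k) ≃ Option (Fin k) := Equiv.swap none (some l)

include hv in
theorem driftT_one_symm (a : Space d) (idx : Option (Fin 1) → Fin d) :
    driftT P v 1 a (idx ∘ swapO 0) = driftT P v 1 a idx := by
  have e : ∀ i c : Fin d, driftT P v 1 a (fun o => o.elim i fun _ => c)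
      = ⟪ev i, fderiv ℝ (fun b => driftV P (v, b)) a (ev c)⟫ := by
    intro i c
    have hd : DifferentiableAt ℝ (fun b => driftV P (v, b)) a :=
      ((contDiff_driftV P hv 1).differentiable (by simp)) a
    have h2 : HasFDerivAt (fun b => driftV P (v, b) i) _ a :=
      (EuclideanSpace.proj (𝕜 := ℝ) i).hasFDerivAt.comp a hd.hasFDerivAt
    show iteratedFDeriv ℝ 1 (post P v fun x => P.g x i) a (fun _ => ev c) = _
    rw [iteratedFDeriv_one_apply, show (post P v fun x => P.g x i) = fun b => driftV P (v, b) i
      from funext fun b => rfl, h2.fderiv]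
    simp [EuclideanSpace.inner_single_left]
  have he : ∀ j : Option (Fin 1) → Fin d, j = fun o => o.elim (j none) fun _ => j (some 0) := by
    intro j
    funext o
    rcases o with _ | l
    · rfl
    · simp [Subsingleton.elim l 0]
  rw [he (idx ∘ swapO 0), e]
  conv_rhs => rw [he idx, e]
  simp only [Function.comp_apply, swapO, Equiv.swap_apply_left, Equiv.swap_apply_right]
  exact hasFDerivAt_driftV_symm P hv a _ _

include hv in
theorem driftT_last_symm : ∀ (k : ℕ) (a : Space d) (idx : Option (Fin (k + 1)) → Fin d),
    driftT P v (k + 1) a (idx ∘ swapO (Fin.last k)) = driftT P v (k + 1) a idx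
  | 0, a, idx => driftT_one_symm P hv a idx
  | k + 1, a, idx => by
    set idx₁ : Option (Fin (k + 1)) → Fin d := fun o => o.elim (idx none) fun l => idx (some l.succ)
    have hsucc : some (Fin.last k).succ = some (Fin.last (k + 1)) := congrArg some (Fin.succ_last k)
    have e1 : idx = fun o => o.elim (idx₁ none) (Fin.cons (idx (some 0)) fun l => idx₁ (some l)) := by
      funext o
      rcases o with _ | l
      · rfl
      · induction l using Fin.cases <;> simp [idx₁]
    have e2 : idx ∘ swapO (Fin.last (k + 1)) = fun o => o.elim ((idx₁ ∘ swapO (Fin.last k)) none)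
        (Fin.cons (idx (some 0)) fun l => (idx₁ ∘ swapO (Fin.last k)) (some l)) := by
      funext o
      rcases o with _ | l
      · simp [idx₁, swapO, hsucc]
      · induction l using Fin.cases with
        | zero =>
          simp only [Function.comp_apply, Option.elim_some, Fin.cons_zero, swapO]
          rw [Equiv.swap_apply_of_ne_of_ne (by simp) (by simp [Fin.ext_iff])]
        | succ l =>
          simp only [Function.comp_apply, Option.elim_some, Fin.cons_succ, swapO]
          by_cases hl : l = Fin.last k
          · subst hl
            simp [idx₁, hsucc]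
          · have h1 : l.succ ≠ Fin.last (k + 1) := by
              rw [← Fin.succ_last]; exact fun hh => hl (Fin.succ_injective _ hh)
            rw [Equiv.swap_apply_of_ne_of_ne (by simp) (by simpa using hl),
              Equiv.swap_apply_of_ne_of_ne (by simp) (by simpa using h1)]
            simp [idx₁]
    rw [e2, ← fderiv_driftT P hv]
    conv_rhs => rw [e1, ← fderiv_driftT P hv]
    rw [show (fun b => driftT P v (k + 1) b (idx₁ ∘ swapO (Fin.last k)))
      = fun b => driftT P v (k + 1) b idx₁ from funext fun b => driftT_last_symm k b idx₁]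

include hv in
/-- The output leg may be exchanged with any other. -/
theorem driftT_swap : ∀ {k : ℕ} (l : Fin k) (a : Space d) (idx : Option (Fin k) → Fin d),
    driftT P v k a (idx ∘ swapO l) = driftT P v k a idx
  | 0, l, _, _ => l.elim0
  | k + 1, l, a, idx => by
    set π : Option (Fin (k + 1)) ≃ Option (Fin (k + 1)) :=
      (Equiv.swap l (Fin.last k)).optionCongr with hπ
    have hn : π none = none := rfl
    have hsm : ∀ x, π (some x) = some (Equiv.swap l (Fin.last k) x) := fun _ => rfl
    have hperm : ∀ j : Option (Fin (k + 1)) → Fin d,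
        driftT P v (k + 1) a (j ∘ π) = driftT P v (k + 1) a j := fun j => by
      refine driftT_perm P hv (k + 1) a _ _ (by rw [Function.comp_apply, hn]) ?_
      rw [Multiset.coe_eq_coe]
      simp only [Function.comp_apply, hsm]
      exact Equiv.Perm.ofFn_comp_perm (Equiv.swap l (Fin.last k)) fun x => j (some x)
    have e : idx ∘ swapO l = ((idx ∘ π) ∘ swapO (Fin.last k)) ∘ π := by
      funext o
      simp only [Function.comp_apply, swapO]
      congr 1
      rcases o with _ | x
      · rw [hn, Equiv.swap_apply_left, Equiv.swap_apply_left, hsm, Equiv.swap_apply_right]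
      · rw [hsm]
        simp only [Equiv.swap_apply_def, Option.some.injEq, reduceCtorEq, if_false]
        split_ifs <;> simp_all [Equiv.swap_apply_def]
    rw [e, hperm, driftT_last_symm P hv, hperm]

variable {γ H B δv b S : ℝ} {C : Type} {J : Type} {f : J → NI γ H δv b S}

theorem vtx_swap {k : ℕ} (l : Fin k) (Y : Fld (NQ B f) C Unit) :
    reL (swapO l) (vtx k Y) = vtx k Y := by
  funext (j : J) p x idx
  show vtx k Y j p x (idx ∘ swapO l) = _
  simp only [vtx]
  congr 2
  exact driftT_swap ((f j).q.pot p) (f j).var_pos l _ idx

end Vtx

end Vale.Agent.P347.Zero
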