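import Vale.Agent.P347.Zero.VertexProg
import Vale.Agent.P347.Zero.VertexGd
import Vale.Agent.P347.Zero.VertexEst
import Vale.Agent.P347.Zero.VertexSym
import Vale.Agent.P347.Zero.SmoothRule
import Vale.Agent.P347.Zero.Gate

/-!
Every derivative of the drift at a computed point is realised: a weighted sum of averaged values
at shifted points, topped up to unit noise.
-/

noncomputable section

open MeasureTheory ProbabilityTheory Set
open scoped RealInnerProductSpace NNReal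

namespace Vale.Agent.P347.Zero

namespace Vtx

theorem cg_vecOf {S : Sys} {C : Type} [Fintype C] {Y : Fld S C Unit} (hY : Sm Y) (i : S.ι)
    (p : Space (S.dm i)) : CG fun x : C → Space (S.dm i) => vecOf Y i p x := by
  obtain ⟨h1, c, n, hc⟩ := pg_vecOf hY i p 0
  exact ⟨h1.continuous, |c|, n, abs_nonneg c, fun x => by
    simpa [norm_iteratedFDeriv_zero] using (hc x).trans
      (mul_le_mul_of_nonneg_right (le_abs_self c) (by positivity))⟩

variable {γ H B δv S α φ Φ : ℝ} {C : Type} [Fintype C] [DecidableEq C] {J : Type}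
  {f : J → NI γ H δv 0 S} {Y : Fld (NQ B f) C Unit}

omit [Fintype C] [DecidableEq C] in
/-- An averaged value is the average of the drift, in units of the strength. -/
theorem avB_valFld {k : ℕ} (c₀ : NK γ H δv 0 S → ℝ)
    (c : NK γ H δv 0 S → Unit ⊕ Fin k → ℝ) (j : J) (p : Space (f j).q.d)
    (ω : C ⊕ (Unit ⊕ Fin k) → Space (f j).q.d) (A : Unit → Space (f j).q.d) :
    apT () (avB (valFld Y c₀ c) j p ω) A
      = (f j).q.hs⁻¹ • nodeV ((f j).q.pot p) (1 - ((f j).r * (f j).a) ^ 2)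
          ((f j).r * (f j).a * (f j).a) ((f j).r * (f j).a * Real.sqrt (1 - (f j).a ^ 2))
          (fun x => vecOf Y j p x) (c₀ (f j).pub) (c (f j).pub) ω := by
  set P := (f j).q.pot p
  set v := 1 - ((f j).r * (f j).a) ^ 2 with hv
  set Z : Space (f j).q.d → Space (f j).q.d := fun z => driftV P (v, ((f j).r * (f j).a * (f j).a) •
      (show Space (f j).q.d from vecOf Y j p (fun l => ω (.inl l))) + ((f j).r * (f j).a * Real.sqrt (1 - (f j).a ^ 2)) •
        (c₀ (f j).pub • z + ∑ l, c (f j).pub l • ω (.inr l))) with hZ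
  have hcg : CG Z := (cg_driftV P (f j).var_pos).comp ((CG.const _).add
    ((((CG.clm (ContinuousLinearMap.id ℝ (Space (f j).q.d))).const_smul _).add (CG.const _)).const_smul _))
  erw [apT_unit]
  unfold nodeV
  show _ = (f j).q.hs⁻¹ • ∫ z, Z z ∂gam (f j).q.d
  refine Eq.trans ?_ ((EuclideanSpace.basisFun (Fin (f j).q.d) ℝ).sum_repr _)
  refine Finset.sum_congr rfl fun (i : Fin (f j).q.d) _ => ?_
  erw [EuclideanSpace.basisFun_repr, EuclideanSpace.basisFun_apply]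
  congr 1
  show ∫ x : Unit → Space (f j).q.d, valFld Y c₀ c j p (Sum.elim x ω) (fun _ => i) ∂gp Unit (f j).q.d
    = ((f j).q.hs⁻¹ • ∫ z, Z z ∂gam (f j).q.d) i
  have e : (fun x : Unit → Space (f j).q.d => valFld Y c₀ c j p (Sum.elim x ω) fun _ => i)
      = fun x => (f j).q.hs⁻¹ * Z (x ()) i := by
    funext x
    simp only [valFld]
    erw [driftT_zero]
    simp only [hZ, smul_add, smul_smul, div_eq_inv_mul, Finset.smul_sum, mul_assoc]
    rfl
  rw [e, integral_const_mul]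
  erw [PiLp.smul_apply]
  rw [smul_eq_mul]
  congr 1
  have hi : CG fun z => Z z i := (CG.coord i).comp hcg
  rw [Loc.eval_integral () (f := fun z => Z z i) hi.1.aestronglyMeasurable]
  exact (EuclideanSpace.proj i : Space (f j).q.d →L[ℝ] ℝ).integral_comp_comm hcg.gam_int

/-- The rules chosen for each key: correlations for the smoothing and shifts for the gates, at a
scale `D ^ (-η)`. -/
structure VRules (γ H δv S η : ℝ) (k N : ℕ) where
  /-- The number of correlations. -/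
  m₁ : ℕ
  /-- The number of shifts. -/
  m₂ : ℕ
  /-- A constant for the smoothing. -/
  C₁ : ℝ
  /-- A constant for the gates. -/
  C₂ : ℝ
  /-- The weights of the correlations. -/
  bS : NK γ H δv 0 S → Fin m₁ → ℝ
  /-- The correlations. -/
  rS : NK γ H δv 0 S → Fin m₁ → ℝ
  /-- The weights of the shifts. -/
  bG : NK γ H δv 0 S → Fin m₂ → ℝ
  /-- The shifts. -/
  cG : NK γ H δv 0 S → Fin m₂ → Fin k → ℝ
  C₁_nonneg : 0 ≤ C₁
  C₂_nonneg : 0 ≤ C₂
  rS_le : ∀ n l, (n.q.d : ℝ) ^ (-η) / 4 ≤ 1 - rS n l ^ 2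
  cG_le : ∀ n l, ∑ i, cG n l i ^ 2 ≤ 1 / 2
  bS_le : ∀ n, ∑ l, |bS n l| ≤ C₁
  bG_le : ∀ n, ∑ l, |bG n l| ≤ C₂ / ((n.q.d : ℝ) ^ (-η) / 4) ^ k
  smooth : ∀ n (d : ℕ) (F : Space d → ℝ), Smooth F →
    ∫ x, ((∑ l, bS n l * Pt (rS n l) F x) - F x) ^ 2 ∂gam d
      ≤ (C₁ * ((n.q.d : ℝ) ^ (-η) / 4) ^ N) ^ 2 * ∑ m ∈ Finset.range (2 * N + 1),
          ∫ x, ∑ w : Fin m → Fin d, iteratedFDeriv ℝ m F x (fun j => ev (w j)) ^ 2 ∂gam d
  gate : ∀ n (d : ℕ) (F : Space d → ℝ), Smooth F →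
    ∫ A, ((∑ l, bG n l * ∫ z, F ((∑ i, cG n l i • A i) +
          Real.sqrt (1 - ∑ i, cG n l i ^ 2) • z) ∂gam d)
        - ∫ z, iteratedFDeriv ℝ k F z A ∂gam d) ^ 2 ∂gp (Fin k) d
      ≤ (C₂ * ((n.q.d : ℝ) ^ (-η) / 4) ^ N) ^ 2 * ∫ x, F x ^ 2 ∂gam d

theorem exists_rules (γ H δv S : ℝ) {η : ℝ} (hη : 0 < η) (k : ℕ) {N : ℕ} (hN : 1 ≤ N) :
    Nonempty (VRules γ H δv S η k N) := by
  obtain ⟨m₁, C₁, hS⟩ := smoothRule N hN
  obtain ⟨m₂, C₂, hG⟩ := gateMulti k N hN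
  set t : NK γ H δv 0 S → ℝ := fun n => (n.q.d : ℝ) ^ (-η) / 4
  have hd : ∀ n : NK γ H δv 0 S, (1 : ℝ) ≤ n.q.d := fun n => by
    exact_mod_cast le_trans one_le_two n.q.two_le
  have ht0 : ∀ n, 0 < t n := fun n =>
    div_pos (Real.rpow_pos_of_pos (zero_lt_one.trans_le (hd n)) _) (by norm_num)
  have ht1 : ∀ n, t n ≤ 1 / 4 := fun n => div_le_div_of_nonneg_right
    (Real.rpow_le_one_of_one_le_of_nonpos (hd n) (by linarith)) (by norm_num)
  choose bS rS hr hbS hSr using fun n => hS (t n) (ht0 n) (ht1 n)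
  choose bG cG hc hbG hGr using fun n => hG (t n) (ht0 n) ((ht1 n).trans (by norm_num))
  refine ⟨⟨m₁, m₂, |C₁|, |C₂|, bS, rS, bG, cG, abs_nonneg _, abs_nonneg _, fun n l => ?_, hc,
    fun n => (hbS n).trans (le_abs_self C₁),
    fun n => (hbG n).trans (div_le_div_of_nonneg_right (le_abs_self C₂) (pow_nonneg (ht0 n).le k)),
    fun n d F hF => ?_, fun n d F hF => ?_⟩⟩
  · show t n ≤ 1 - rS n l ^ 2
    nlinarith [hr n l, ht0 n, mul_le_mul_of_nonneg_left (hr n l).2 (hr n l).1]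
  · rw [mul_pow, sq_abs, ← mul_pow]; exact hSr n d F hF
  · rw [mul_pow, sq_abs, ← mul_pow]; exact hGr n d F hF

variable {η : ℝ} {k N : ℕ} (V : VRules γ H δv S η k N)

/-- The private noise of one correlation. -/
def VRules.c₁ (n : NK γ H δv 0 S) (l : Fin V.m₁) : ℝ := Real.sqrt (1 - V.rS n l ^ 2)

/-- The factor of the private block. -/
def VRules.c₀ (x : Fin V.m₁ × Fin V.m₂) (n : NK γ H δv 0 S) : ℝ :=
  V.c₁ n x.1 * Real.sqrt (1 - ∑ i, V.cG n x.2 i ^ 2)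

/-- The factors of the noise and the inputs. -/
def VRules.cK (x : Fin V.m₁ × Fin V.m₂) (n : NK γ H δv 0 S) : Unit ⊕ Fin k → ℝ :=
  Sum.elim (fun _ => V.rS n x.1) fun i => V.c₁ n x.1 * V.cG n x.2 i

/-- The weight of an averaged value. -/
def VRules.W (n : NK γ H δv 0 S) (x : Fin V.m₁ × Fin V.m₂) : ℝ :=
  V.bS n x.1 * V.bG n x.2 / (Real.sqrt (1 - n.a ^ 2) * V.c₁ n x.1) ^ k

theorem node_key_d (n : NK γ H δv 0 S) : (0 : ℝ) < n.q.d := by
  exact_mod_cast (zero_lt_two.trans_le n.q.two_le : 0 < n.q.d)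

theorem VRules.rS_lt (n : NK γ H δv 0 S) (l : Fin V.m₁) : V.rS n l ^ 2 < 1 := by
  have := V.rS_le n l
  have := Real.rpow_pos_of_pos (node_key_d n) (-η)
  linarith

theorem VRules.sum_one (x : Fin V.m₁ × Fin V.m₂) (n : NK γ H δv 0 S) :
    V.c₀ x n ^ 2 + ∑ l, V.cK x n l ^ 2 = 1 := by
  simp only [VRules.c₀, VRules.cK, VRules.c₁, mul_pow, Fintype.sum_sum_type, Sum.elim_inl,
    Sum.elim_inr, Finset.univ_unique, Finset.sum_singleton,
    Real.sq_sqrt (show 0 ≤ 1 - V.rS n x.1 ^ 2 by linarith [V.rS_lt n x.1]),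
    Real.sq_sqrt (show 0 ≤ 1 - ∑ i, V.cG n x.2 i ^ 2 by linarith [V.cG_le n x.2]), ← Finset.mul_sum]
  ring

theorem VRules.noise (hlt : η < 2 * α - S) (x : Fin V.m₁ × Fin V.m₂) :
    (NQ B f).Ev fun (j : J) =>
      16 * ((f j).q.d : ℝ) ^ (-(2 * α)) ≤ V.c₀ x (f j).pub ^ 2 * (1 - (f j).a ^ 2) :=
  ((NQ B f).ev_le_rpow 512 (η := 2 * α - η - S) (by linarith)).mono fun (j : J) hj => by
    set n := (f j).pub
    set D := ((f j).q.d : ℝ)
    have hD : 0 < D := zero_lt_one.trans_le (node_one_le_d (f j))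
    have hA : D ^ (-η) / 8 ≤ V.c₀ x n ^ 2 := by
      simp only [VRules.c₀, VRules.c₁, mul_pow]
      rw [Real.sq_sqrt (by linarith [V.rS_lt n x.1]), Real.sq_sqrt (by linarith [V.cG_le n x.2])]
      refine le_trans ?_ (mul_le_mul (V.rS_le n x.1)
        (show (1 / 2 : ℝ) ≤ 1 - ∑ i, V.cG n x.2 i ^ 2 by linarith [V.cG_le n x.2]) (by norm_num)
        (by linarith [V.rS_lt n x.1]))
      exact le_of_eq (by show D ^ (-η) / 8 = D ^ (-η) / 4 * (1 / 2); ring)
    refine le_trans ?_ (mul_le_mul hA (f j).noise_ge (by positivity) (sq_nonneg _))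
    have e : D ^ (2 * α - η - S) * D ^ (-(2 * α)) = D ^ (-η) * D ^ (-S) := by
      rw [← Real.rpow_add hD, ← Real.rpow_add hD]; ring_nf
    have := mul_le_mul_of_nonneg_right (show (512 : ℝ) ≤ D ^ (2 * α - η - S) from hj)
      (Real.rpow_nonneg hD.le (-(2 * α)))
    linarith

theorem VRules.bS_sum (j : J) :
    ∑ l, |V.bS (f j).pub l / (Real.sqrt (1 - (f j).a ^ 2) * V.c₁ (f j).pub l) ^ k|
      ≤ V.C₁ * 4 ^ k * ((f j).q.d : ℝ) ^ ((k : ℝ) * ((S + η) / 2)) := by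
  set D := ((f j).q.d : ℝ) with hDdef
  have hD : 0 < D := zero_lt_one.trans_le (node_one_le_d (f j))
  have hden : ∀ l, D ^ (-(S + η) / 2) / 4
      ≤ Real.sqrt (1 - (f j).a ^ 2) * V.c₁ (f j).pub l := fun l => by
    rw [VRules.c₁, ← Real.sqrt_mul (node_s_sq (f j))]
    refine Real.le_sqrt_of_sq_le ?_
    refine le_trans (le_of_eq ?_) (mul_le_mul (f j).noise_ge (V.rS_le (f j).pub l)
      (div_nonneg (Real.rpow_nonneg (Nat.cast_nonneg _) _) (by norm_num)) (node_s_sq (f j)))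
    show _ = D ^ (-S) / 4 * (D ^ (-η) / 4)
    rw [div_pow, ← Real.rpow_natCast (_ ^ _) 2, ← Real.rpow_mul hD.le, div_mul_div_comm,
      ← Real.rpow_add hD]
    norm_num
    ring_nf
  have hpow : ((D ^ (-(S + η) / 2) / 4) ^ k)⁻¹ = 4 ^ k * D ^ ((k : ℝ) * ((S + η) / 2)) := by
    rw [div_pow, inv_div, ← Real.rpow_natCast (D ^ _) k, ← Real.rpow_mul hD.le, div_eq_mul_inv,
      ← Real.rpow_neg hD.le]
    ring_nf
  rw [mul_assoc, ← hpow]
  refine le_trans (Finset.sum_le_sum fun l _ => ?_)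
    ((Finset.sum_mul _ _ _).symm.trans_le (mul_le_mul_of_nonneg_right
      (V.bS_le (f j).pub) (by positivity)))
  rw [abs_div, abs_pow, abs_of_pos (lt_of_lt_of_le (by positivity) (hden l)), div_eq_mul_inv]
  exact mul_le_mul_of_nonneg_left (inv_anti₀ (by positivity)
    (pow_le_pow_left₀ (by positivity) (hden l) k)) (abs_nonneg _)

theorem VRules.W_sum (j : J) : ∑ x, |V.W (f j).pub x|
    ≤ V.C₁ * V.C₂ * 16 ^ k * ((f j).q.d : ℝ) ^ ((k : ℝ) * ((S + η) / 2 + η)) := by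
  have hD : 0 < ((f j).q.d : ℝ) := zero_lt_one.trans_le (node_one_le_d (f j))
  have hG : ∑ l, |V.bG (f j).pub l| ≤ V.C₂ * 4 ^ k * ((f j).q.d : ℝ) ^ ((k : ℝ) * η) := by
    refine (V.bG_le (f j).pub).trans_eq ?_
    show V.C₂ / (((f j).q.d : ℝ) ^ (-η) / 4) ^ k = _
    rw [div_pow, ← Real.rpow_natCast (_ ^ _) k, ← Real.rpow_mul hD.le, neg_mul,
      Real.rpow_neg hD.le, mul_comm η]
    field_simp
  rw [Fintype.sum_prod_type]
  simp only [VRules.W, mul_div_right_comm, abs_mul, ← Finset.mul_sum, ← Finset.sum_mul]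
  refine (mul_le_mul (V.bS_sum j) hG (Finset.sum_nonneg fun l _ => abs_nonneg _)
    (by have := V.C₁_nonneg; positivity)).trans_eq ?_
  rw [mul_mul_mul_comm, ← Real.rpow_add hD, ← mul_add, mul_mul_mul_comm, ← mul_pow]
  norm_num

theorem VRules.small {L : ℝ} (hlt : 3 * η < 2 * L - S) (hk : 1 ≤ k) :
    (NQ B f).Ev fun (j : J) =>
      ∑ x, |((f j).q.d : ℝ) ^ (-((k : ℝ) * L)) * V.W (f j).pub x| ≤ 1 :=
  ((NQ B f).ev_le_rpow (V.C₁ * V.C₂ * 16 ^ k) (η := (k : ℝ) * (L - ((S + η) / 2 + η)))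
    (mul_pos (by exact_mod_cast hk) (by linarith))).mono fun (j : J) hj => by
    set D := ((f j).q.d : ℝ)
    have hD : 0 < D := zero_lt_one.trans_le (node_one_le_d (f j))
    simp only [abs_mul, abs_of_nonneg (Real.rpow_nonneg hD.le _), ← Finset.mul_sum]
    refine (mul_le_mul_of_nonneg_left ((V.W_sum j).trans (mul_le_mul_of_nonneg_right
      (show V.C₁ * V.C₂ * 16 ^ k ≤ D ^ ((k : ℝ) * (L - ((S + η) / 2 + η))) from hj)
      (Real.rpow_nonneg hD.le _))) (Real.rpow_nonneg hD.le _)).trans_eq ?_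
    rw [← Real.rpow_add hD, ← Real.rpow_add hD]
    ring_nf
    exact Real.rpow_zero D

/-- The deviation of one node, in units of the strength. -/
def VRules.dev (Y : Fld (NQ B f) C Unit) (j : J) (p : Space (f j).q.d)
    (ω : Om (f j).q.d C k) : Space (f j).q.d :=
  devV k ((f j).q.pot p) (1 - ((f j).r * (f j).a) ^ 2) ((f j).r * (f j).a * (f j).a)
    ((f j).r * (f j).a * Real.sqrt (1 - (f j).a ^ 2)) ((f j).r * (f j).a)
    (Real.sqrt (1 - (f j).a ^ 2)) (fun x => vecOf Y j p x) (V.bS (f j).pub) (V.rS (f j).pub)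
    (V.bG (f j).pub) (V.cG (f j).pub) ω

omit [DecidableEq C] in
/-- The deviation is a power of the dimension as small as `η N` allows. -/
theorem VRules.dev_bound {cY : ℝ} (hγ : 0 < γ) (hYs : Sm Y) (hY2 : (NQ B f).Ev fun (j : J) => ∀ p,
      ∫ x, ‖vecOf Y j p x‖ ^ 2 ∂gp C (f j).q.d
        ≤ ((f j).q.d : ℝ) ^ cY * (1 + ‖(f j).q.P.g ((f j).q.σ • p)‖) ^ 2) (hk : 1 ≤ k) :
    ∃ K : ℝ, 0 ≤ K ∧ (NQ B f).Ev fun (j : J) => ∀ p,
      Integrable (fun ω => ‖V.dev Y j p ω‖) (gp (C ⊕ (Unit ⊕ Fin k)) (f j).q.d) ∧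
        (∫ ω, ‖V.dev Y j p ω‖ ∂gp (C ⊕ (Unit ⊕ Fin k)) (f j).q.d) / (f j).q.hs
          ≤ K * ((f j).q.d : ℝ) ^ (max |1 + δv * ((k : ℝ) - 1)|
              ((k : ℝ) * ((S + η) / 2) + (|H| + |B| + |cY| + 1)) - η * N) * (NQ B f).wt j p := by
  choose Cd hCd hbd using drift_splitB
  set M := ∑ i ∈ Finset.range (k + 2 * N + 1), Cd i
  have hM : 0 ≤ M := Finset.sum_nonneg fun i _ => hCd i
  set Mx := |H| + |B| + |cY| + 1
  set E := 1 + δv * ((k : ℝ) - 1)
  have h10 := V.C₁_nonneg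
  have h20 := V.C₂_nonneg
  refine ⟨V.C₁ * Real.sqrt ((2 * N + 1 : ℕ) : ℝ) * M + V.C₁ * 4 ^ k * V.C₂ * 20,
    by positivity, (hY2.and (NQ B f).ev_one_le).mono
      fun (j : J) ⟨h3, hd⟩ p => ?_⟩
  set n := (f j).pub
  set D := ((f j).q.d : ℝ)
  have hD : 0 < D := zero_lt_one.trans_le (node_one_le_d (f j))
  have hd1 : 1 ≤ D := node_one_le_d (f j)
  set t := D ^ (-η) / 4
  have ht0 : 0 ≤ t := by positivity
  set u := (f j).r * (f j).a
  set y : (C → Space (f j).q.d) → Space (f j).q.d := fun x => vecOf Y j p x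
  have hs : Real.sqrt (1 - (f j).a ^ 2) ≠ 0 := (Real.sqrt_pos.2 (lt_of_lt_of_le
    (div_pos (Real.rpow_pos_of_pos hD _) (by norm_num)) (f j).noise_ge)).ne'
  obtain ⟨idev, ndev⟩ := approx ((f j).q.pot p) (f j).var_pos (cg_vecOf hYs j p) hk
    (p := u * (f j).a) (u := u) (s := Real.sqrt (1 - (f j).a ^ 2)) rfl hs (node_p_le (f j))
    (node_q_le (f j)) (V.bS n) (V.rS n) (V.rS_lt n) (V.bG n) (V.cG n)
    (ε₁ := V.C₁ * t ^ N) (ε₂ := V.C₂ * t ^ N) N (V.smooth n _) (V.gate n _)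
    (K := (M * (f j).q.hs) ^ 2 * D ^ E) fun m hm b => node_hs_le hCd hbd (f j) hk p m
      (Finset.single_le_sum (fun i _ => hCd i) (Finset.mem_range.2 (by omega))) b
  refine ⟨idev, ?_⟩
  have hh := (f j).q.hs_pos
  have hwt : 1 ≤ (NQ B f).wt j p := (NQ B f).one_le_wt j p
  have hwt0 : 0 ≤ (NQ B f).wt j p := zero_le_one.trans hwt
  set Z := D ^ (-(η * N))
  have ht2 : t ^ N ≤ Z := by
    simp only [Z]
    rw [show -(η * (N : ℝ)) = -η * N by ring, Real.rpow_mul hD.le, Real.rpow_natCast]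
    exact pow_le_pow_left₀ ht0 (div_le_self (Real.rpow_nonneg hD.le _) (by norm_num)) N
  have he1 : Real.sqrt ((V.C₁ * t ^ N) ^ 2 * (((2 * N + 1 : ℕ) : ℝ) *
      ((M * (f j).q.hs) ^ 2 * D ^ E)))
      ≤ V.C₁ * Z * (Real.sqrt ((2 * N + 1 : ℕ) : ℝ) * (M * (f j).q.hs * D ^ |E|)) := by
    rw [Real.sqrt_mul (sq_nonneg _), Real.sqrt_sq (by positivity),
      Real.sqrt_mul (Nat.cast_nonneg _), Real.sqrt_mul (sq_nonneg _), Real.sqrt_sq (by positivity)]
    have hE : Real.sqrt (D ^ E) ≤ D ^ |E| := by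
      rw [Real.sqrt_eq_rpow, ← Real.rpow_mul hD.le]
      exact Real.rpow_le_rpow_of_exponent_le hd1 (by nlinarith [le_abs_self E, abs_nonneg E])
    gcongr
  have hsz : Real.sqrt (4 * (‖driftV ((f j).q.pot p) (1 - u ^ 2, 0)‖ ^ 2 + (f j).q.hs ^ 2 *
      ((∫ x, ‖y x‖ ^ 2 ∂gp C (f j).q.d) + 2 * D))) ≤ 20 * D ^ Mx * (NQ B f).wt j p * (f j).q.hs :=
    (div_le_iff₀ hh).1 (node_size (f j) hγ B cY p (h3 p))
  have he2 : Real.sqrt ((V.C₂ * t ^ N) ^ 2 * (4 * (‖driftV ((f j).q.pot p) (1 - u ^ 2, 0)‖ ^ 2 +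
      (f j).q.hs ^ 2 * ((∫ x, ‖y x‖ ^ 2 ∂gp C (f j).q.d) + 2 * D))))
      ≤ V.C₂ * Z * (20 * D ^ Mx * (NQ B f).wt j p * (f j).q.hs) := by
    rw [Real.sqrt_mul (sq_nonneg _), Real.sqrt_sq (by positivity)]
    gcongr
  have hu : |u ^ k| ≤ 1 := by rw [abs_pow]; exact pow_le_one₀ (abs_nonneg _) (node_u (f j))
  have htot := ndev.trans (add_le_add (mul_le_mul hu he1 (Real.sqrt_nonneg _) zero_le_one)
    ((Finset.sum_mul _ _ _).symm.trans_le (mul_le_mul (V.bS_sum j) he2 (Real.sqrt_nonneg _)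
      (by positivity))))
  rw [div_le_iff₀ hh]
  refine htot.trans ?_
  set e := max |E| ((k : ℝ) * ((S + η) / 2) + Mx)
  have p1 : Z * D ^ |E| ≤ D ^ (e - η * N) * (NQ B f).wt j p := by
    refine le_trans ?_ (le_mul_of_one_le_right (Real.rpow_nonneg hD.le _) hwt)
    simp only [Z]
    rw [← Real.rpow_add hD]
    exact Real.rpow_le_rpow_of_exponent_le hd1
      (by linarith [le_max_left |E| ((k : ℝ) * ((S + η) / 2) + Mx)])
  have p2 : Z * D ^ ((k : ℝ) * ((S + η) / 2)) * D ^ Mx ≤ D ^ (e - η * N) := by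
    simp only [Z]
    rw [← Real.rpow_add hD, ← Real.rpow_add hD]
    exact Real.rpow_le_rpow_of_exponent_le hd1
      (by linarith [le_max_right |E| ((k : ℝ) * ((S + η) / 2) + Mx)])
  have q1 := mul_le_mul_of_nonneg_left p1
    (show 0 ≤ V.C₁ * Real.sqrt ((2 * N + 1 : ℕ) : ℝ) * M * (f j).q.hs by positivity)
  have q2 := mul_le_mul_of_nonneg_left p2
    (show 0 ≤ V.C₁ * 4 ^ k * V.C₂ * 20 * (NQ B f).wt j p * (f j).q.hs by positivity)
  linarith

omit [DecidableEq C] in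
/-- The weighted averaged values against the vertex. -/
theorem VRules.dev_eq (j : J) (p : Space (f j).q.d) (a b : ℝ)
    (x : C ⊕ Unit → Space (f j).q.d) (A : Option (Fin k) → Space (f j).q.d) :
    ‖(∑ z, (((f j).q.d : ℝ) ^ b * V.W (f j).pub z) • ((f j).q.d : ℝ) ^ a •
        apT () (avB (valFld Y (V.c₀ z) (V.cK z)) j p (permIO (inPerm C k) (x, A)).1)
          (permIO (inPerm C k) (x, A)).2)
      - ((f j).q.d : ℝ) ^ (b + a) • apT none (vtx k Y j p x) A‖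
      = ((f j).q.d : ℝ) ^ (b + a) / (f j).q.hs *
          ‖V.dev Y j p (permIO (inPerm C k) (x, A)).1‖ := by
  set D := ((f j).q.d : ℝ)
  have hD : 0 < D := zero_lt_one.trans_le (node_one_le_d (f j))
  set ω : Om (f j).q.d C k := (permIO (inPerm C k) (x, A)).1
  have hω : ω = Sum.elim (fun c => x (.inl c))
      (Sum.elim (fun _ => x (.inr ())) fun i => A (some i)) := by
    funext l
    simp only [ω, permIO_apply]
    rcases l with c | ⟨⟩ | i <;> rfl
  set u := (f j).r * (f j).a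
  set y : (C → Space (f j).q.d) → Space (f j).q.d := fun x => vecOf Y j p x
  have hvt : vtx k Y j p x = (u ^ k / (f j).q.hs) • driftT ((f j).q.pot p) (1 - u ^ 2) k
      ((u * (f j).a) • y (fun l => ω (.inl l))
        + (u * Real.sqrt (1 - (f j).a ^ 2)) • ω (.inr (.inl ()))) := by
    funext idx
    simp only [vtx, hω, Sum.elim_inl, Sum.elim_inr, smul_add, smul_smul]
    show _ / _ = u ^ k / (f j).q.hs * _
    erw [← mul_smul]
    rw [div_mul_eq_mul_div]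
    rfl
  have hl : D ^ (b + a) • apT none (vtx k Y j p x) A = (D ^ (b + a) / (f j).q.hs) • (u ^ k •
      apTv (driftT ((f j).q.pot p) (1 - u ^ 2) k ((u * (f j).a) • y (fun l => ω (.inl l))
        + (u * Real.sqrt (1 - (f j).a ^ 2)) • ω (.inr (.inl ()))))
        (fun i => ω (.inr (.inr i)))) := by
    rw [hvt]
    erw [apT_smul]
    erw [apT_none]
    rw [show (fun l => A (some l)) = fun i => ω (.inr (.inr i)) by rw [hω]; rfl]
    erw [smul_smul, smul_smul]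
    congr 1
    ring
  have hr : (∑ z, (D ^ b * V.W (f j).pub z) • D ^ a •
      apT () (avB (valFld Y (V.c₀ z) (V.cK z)) j p ω) (permIO (inPerm C k) (x, A)).2)
      = (D ^ (b + a) / (f j).q.hs) • ∑ l, ∑ l', (V.bS (f j).pub l * V.bG (f j).pub l' /
        (Real.sqrt (1 - (f j).a ^ 2) * Real.sqrt (1 - V.rS (f j).pub l ^ 2)) ^ k) •
          nodeV ((f j).q.pot p) (1 - u ^ 2) (u * (f j).a) (u * Real.sqrt (1 - (f j).a ^ 2)) y
            (V.c₀ (l, l') (f j).pub) (V.cK (l, l') (f j).pub) ω := by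
    rw [Finset.smul_sum, Fintype.sum_prod_type]
    refine Finset.sum_congr rfl fun l _ => ?_
    rw [Finset.smul_sum]
    refine Finset.sum_congr rfl fun l' _ => ?_
    rw [avB_valFld]
    erw [smul_smul, smul_smul, smul_smul]
    congr 1
    rw [Real.rpow_add hD]
    simp only [VRules.W, VRules.c₁, show (f j).pub.a = (f j).a from rfl]
    show _ * _ = _
    ring
  refine (norm_sub_rev _ _).trans ?_
  rw [hl]
  erw [hr]
  refine (congrArg _ (smul_sub (M := ℝ) (A := Space (f j).q.d) _ _ _).symm).trans ?_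
  refine (norm_smul (α := ℝ) (β := Space (f j).q.d) _ _).trans ?_
  rw [Real.norm_of_nonneg (div_nonneg (Real.rpow_nonneg hD.le _) (f j).q.hs_pos.le)]
  rfl

/-- The output leg of a vertex is realised. -/
theorem vertex_none (hV : ValThm) (hA : AvgThm) (L : Lad) (r : ℕ) (hγ : 0 < γ) (hδ : 0 < δv)
    (hδS : δv ≤ S) (hSw : S < 2 * L.w) (hSα : S < 2 * α) (hφ : L.phi r + 8 * L.w ≤ φ)
    (hφΦ : φ ≤ Φ) (hΦ : Φ + 8 * L.w ≤ 2 * φ - L.phi r) (hM : MeanOK γ (L.kap (r + 1)) φ)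
    (hY : Pts (L.kap r) α Y)
    (hGd : ∀ k : ℕ, 1 ≤ k → Gd L (r + 1) Φ (-(k : ℝ) * L.w) univ (vtx k Y)) (k : ℕ) (hk : 1 ≤ k) :
    Sam (L.kap (r + 1)) φ (-(k : ℝ) * L.w) none (vtx k Y) := by
  intro a ha ε hε
  set η₀ := min ((2 * L.w - S) / 6) ((2 * α - S) / 2)
  have hη₀ : 0 < η₀ := lt_min (by linarith) (by linarith)
  have hle1 := min_le_left ((2 * L.w - S) / 6) ((2 * α - S) / 2)
  have hle2 := min_le_right ((2 * L.w - S) / 6) ((2 * α - S) / 2)
  obtain ⟨cY, hY2⟩ := hY.2.2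
  set e := max |1 + δv * ((k : ℝ) - 1)| ((k : ℝ) * ((S + η₀) / 2) + (|H| + |B| + |cY| + 1))
  set N := ⌈(a + L.kap (r + 1) + e) / η₀⌉₊ + 1
  have hN : a + L.kap (r + 1) + e ≤ η₀ * N := by
    rw [← div_le_iff₀' hη₀]
    exact (Nat.le_ceil _).trans (by simp [N])
  obtain ⟨V⟩ := exists_rules γ H δv S hη₀ k (N := N) (Nat.le_add_left 1 _)
  obtain ⟨K, hK, hb⟩ := V.dev_bound hγ hY.1 (hY2.mono fun _ h p => (h p).2) hk
  set a₁ := a + (k : ℝ) * L.w with ha₁
  have hnode := fun x => sam_avg hV hA L r γ H B δv S α φ Φ hγ hδ hδS hSα hφ hφΦ hΦ hM hY hGd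
    (V.c₀ x) (V.cK x) (V.sum_one x) (V.noise (by linarith) x)
  choose R hRq hRl hRin hRlaw using fun x => hnode x a₁ (by linarith) (ε / 2) (half_pos hε)
  refine run_comb (inPerm C k) () none (vtx k Y) (fun x => avB (valFld Y (V.c₀ x) (V.cK x)))
    (fun n x => ((n.q.d : ℝ)) ^ (-((k : ℝ) * L.w)) * V.W n x) (by linarith) (by linarith)
    R hRq hRl hRin hRlaw (V.small (by linarith) hk) fun η hη => ?_
  refine (hb.and ((NQ B f).ev_one_le.and ((NQ B f).ev_le_rpow K hη))).mono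
    fun (j : J) ⟨h1, hd, hKd⟩ p => ?_
  set D := ((f j).q.d : ℝ)
  have hD : 0 < D := zero_lt_one.trans_le hd
  have hmp : MeasurePreserving (fun z => (permIO (d := (f j).q.d) (inPerm C k) z).1)
      ((gp (C ⊕ Unit) (f j).q.d).prod (gp (Option (Fin k)) (f j).q.d))
      (gp (C ⊕ (Unit ⊕ Fin k)) (f j).q.d) := measurePreserving_fst.comp (permIO_mp _)
  refine ⟨fun z => D ^ a / (f j).q.hs * ‖V.dev Y j p (permIO (inPerm C k) z).1‖,
    (hmp.integrable_comp_of_integrable (h1 p).1).const_mul _, ?_, fun y A => le_of_eq ?_⟩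
  · refine le_trans (le_of_eq ((integral_const_mul _ _).trans (congrArg (_ * ·)
      (Loc.mp_integral hmp (h1 p).1.1)))) ?_
    rw [div_mul_eq_mul_div, mul_div_assoc]
    refine (mul_le_mul_of_nonneg_left (h1 p).2 (Real.rpow_nonneg hD.le _)).trans ?_
    rw [← mul_assoc]
    refine mul_le_mul_of_nonneg_right ?_ ((NQ B f).wt_nonneg j p)
    show _ ≤ D ^ (η - L.kap (r + 1))
    rw [show D ^ a * (K * D ^ (e - η₀ * N)) = K * D ^ (a + (e - η₀ * N)) by
      rw [Real.rpow_add hD]; ring]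
    refine (mul_le_mul hKd (Real.rpow_le_rpow_of_exponent_le hd
      (show a + (e - η₀ * N) ≤ -L.kap (r + 1) by linarith)) (Real.rpow_nonneg hD.le _)
      (Real.rpow_nonneg hD.le _)).trans_eq ?_
    show D ^ η * D ^ (-L.kap (r + 1)) = _
    rw [← Real.rpow_add hD]
    rfl
  · have h := V.dev_eq (Y := Y) j p a₁ (-((k : ℝ) * L.w)) y A
    rw [show -((k : ℝ) * L.w) + a₁ = a by simp only [ha₁]; ring] at h
    exact h

end Vtx

/-- Mean oracles of the children give every derivative of the drift at a computed point. -/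
theorem vertexThm (hV : ValThm) (hA : AvgThm) : VertexThm := by
  intro L r γ H B δv S α φ Φ hγ hδ hδS hSw hSα hφ hφΦ hΦ hM C _ _ J f Y hY hGd k hk o
  have h0 := Vtx.vertex_none hV hA L r hγ hδ hδS hSw hSα hφ hφΦ hΦ hM hY hGd k hk
  rcases o with _ | l
  · exact h0
  · have h := h0.reL (Vtx.swapO l)
    rw [Vtx.vtx_swap l Y, show Vtx.swapO l none = some l from Equiv.swap_apply_left _ _] at h
    exact h

end Vale.Agent.P347.Zero
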