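import Vale.Agent.P347.Zero.Asm
import Vale.Agent.P347.Zero.Val
import Vale.Agent.P347.Zero.Vertex
import Vale.Agent.P347.Zero.Product
import Vale.Agent.P347.Zero.IterGd
import Vale.Agent.P347.Zero.MeanAcc
import Vale.Agent.P347.Zero.Sampler
import Vale.Agent.P347.Zero.BaseMean
import Vale.Agent.P347.Zero.BaseVtx
import Vale.Agent.P347.Zero.RecPts
import Vale.Agent.P347.Zero.RecStep
import Vale.Agent.P347.Zero.Outer
import Vale.Agent.P347.Zero.Exponent

/-!
The assembly: averaging gives local samplers of every accuracy, and hence every positive exponent.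
-/

noncomputable section

namespace Vale.Agent.P347.Zero

/-- Averaging gives the all-order bound. -/
theorem zeroBound_of_avg (hA : AvgThm) : ZeroBound :=
  zeroBound_of (localAll_of (vertexThm valThm hA) (ptsThm_of valThm hA)
    (meanStep_of valThm hA productThm (iterGd hA productThm) meanAcc) meanBaseThm vtxBaseThm
    meanAcc samplerThm)

end Vale.Agent.P347.Zero
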