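import Vale.Agent.P347.Zero.AvgFun
import Vale.Agent.P347.Zero.SamBasics
import Vale.Agent.P347.Zero.AvgField

/-!
Programs of parts: no part, two parts, the part of a realisable field, and the average of a
mixture whose compensating part is realisable.
-/

noncomputable section

open MeasureTheory ProbabilityTheory Function
open scoped RealInnerProductSpace NNReal

namespace Vale.Agent.P347.Zero

section Tools

variable {d : ℕ} {α β γ : Type} [Fintype α] [Fintype β] [Fintype γ]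

/-- Blocks split in two groups. -/
theorem gp_split_mp (σ : α ⊕ β ≃ γ) :
    MeasurePreserving (fun ω : γ → Space d => ((fun a => ω (σ (.inl a))), fun b => ω (σ (.inr b))))
      (gp γ d) ((gp α d).prod (gp β d)) := by
  have h1 := measurePreserving_piCongrLeft (α := fun _ : α ⊕ β => Space d) (fun _ => gam d) σ.symm
  have h2 := measurePreserving_sumPiEquivProdPi (X := fun _ : α ⊕ β => Space d) (fun _ => gam d)
  refine cast (congrArg (fun f => MeasurePreserving f _ _) (funext fun ω => ?_)) (h2.comp h1)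
  refine Prod.ext (funext fun a => ?_) (funext fun b => ?_) <;>
    simp [MeasurableEquiv.sumPiEquivProdPi, MeasurableEquiv.piCongrLeft,
      Equiv.sumPiEquivProdPi, Equiv.piCongrLeft_apply_eq_cast]

/-- Two groups of blocks joined. -/
theorem gp_join_mp (σ : α ⊕ β ≃ γ) :
    MeasurePreserving (fun w : (α → Space d) × (β → Space d) => fun j => Sum.elim w.1 w.2 (σ.symm j))
      ((gp α d).prod (gp β d)) (gp γ d) := by
  have h1 := measurePreserving_sumPiEquivProdPi_symm (X := fun _ : α ⊕ β => Space d) (fun _ => gam d)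
  have h2 := measurePreserving_piCongrLeft (α := fun _ : γ => Space d) (fun _ => gam d) σ
  refine cast (congrArg (fun f => MeasurePreserving f _ _) (funext fun w => funext fun j => ?_))
    (h2.comp h1)
  simp [MeasurableEquiv.piCongrLeft, MeasurableEquiv.sumPiEquivProdPi,
      Equiv.sumPiEquivProdPi, Equiv.piCongrLeft_apply_eq_cast]
  rcases σ.symm j with a | b <;> rfl

/-- Exchange of the two middle factors. -/
theorem prod_shuffle_mp {A B C D : Type*} [MeasurableSpace A] [MeasurableSpace B]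
    [MeasurableSpace C] [MeasurableSpace D] {μ : Measure A} {ν : Measure B} {ρ : Measure C}
    {θ : Measure D} [SFinite μ] [SFinite ν] [SFinite ρ] [SFinite θ] :
    MeasurePreserving (fun w : (A × C) × (B × D) => ((w.1.1, w.2.1), (w.1.2, w.2.2)))
      ((μ.prod ρ).prod (ν.prod θ)) ((μ.prod ν).prod (ρ.prod θ)) := by
  have e1 := measurePreserving_prodAssoc μ ρ (ν.prod θ)
  have e2 := (MeasurePreserving.id μ).prod
    ((measurePreserving_prodAssoc ρ ν θ).symm MeasurableEquiv.prodAssoc)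
  have e3 := (MeasurePreserving.id μ).prod
    ((Measure.measurePreserving_swap (μ := ρ) (ν := ν)).prod (MeasurePreserving.id θ))
  have e4 := (MeasurePreserving.id μ).prod (measurePreserving_prodAssoc ν ρ θ)
  have e5 := (measurePreserving_prodAssoc μ ν (ρ.prod θ)).symm MeasurableEquiv.prodAssoc
  exact e5.comp (e4.comp (e3.comp (e2.comp e1)))

theorem lip_elim {E : Type} [PseudoMetricSpace E] {f : E → α → Space d} {g : E → β → Space d}
    {K K' : ℝ≥0} (hf : LipschitzWith K f) (hg : LipschitzWith K' g) :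
    LipschitzWith (max K K') fun a => Sum.elim (f a) (g a) :=
  LipschitzWith.of_dist_le_mul fun a b => by
    refine (dist_pi_le_iff (by positivity)).2 fun r => ?_
    rcases r with x | y
    · exact (dist_le_pi_dist (f a) (f b) x).trans ((hf.dist_le_mul a b).trans
        (mul_le_mul_of_nonneg_right (NNReal.coe_le_coe.2 (le_max_left K K')) dist_nonneg))
    · exact (dist_le_pi_dist (g a) (g b) y).trans ((hg.dist_le_mul a b).trans
        (mul_le_mul_of_nonneg_right (NNReal.coe_le_coe.2 (le_max_right K K')) dist_nonneg))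

/-- Two integrable maps are close within the sum of their first moments. -/
theorem Close.of_moments {A B : Type} [MeasurableSpace A] [MeasurableSpace B] {P : Measure A}
    {Q : Measure B} [IsProbabilityMeasure P] [IsProbabilityMeasure Q] {X : A → Space d}
    {Y : B → Space d} (hX : Integrable X P) (hY : Integrable Y Q) :
    Close P X Q Y ((∫ a, ‖X a‖ ∂P) + ∫ b, ‖Y b‖ ∂Q) := by
  refine ⟨hX, hY, fun ψ hψ => ?_⟩
  have key : ∀ {A₁ : Type} [MeasurableSpace A₁] (P₁ : Measure A₁) [IsProbabilityMeasure P₁]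
      {X₁ : A₁ → Space d}, Integrable X₁ P₁ → |(∫ a, ψ (X₁ a) ∂P₁) - ψ 0| ≤ ∫ a, ‖X₁ a‖ ∂P₁ := by
    intro A₁ _ P₁ _ X₁ h₁
    rw [show (∫ a, ψ (X₁ a) ∂P₁) - ψ 0 = ∫ a, (ψ (X₁ a) - ψ 0) ∂P₁ by
      rw [integral_sub (integrable_test hψ h₁) (integrable_const _)]; simp, ← Real.norm_eq_abs]
    refine norm_integral_le_of_norm_le h₁.norm (ae_of_all _ fun a => ?_)
    simpa using test_one hψ (X₁ a) 0
  exact (abs_sub_le _ (ψ 0) _).trans (add_le_add (key P hX) (by rw [abs_sub_comm]; exact key Q hY))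

end Tools

variable {S : Sys} {Z Z₁ Z₂ C I : Type} [Fintype Z] [DecidableEq Z] [Fintype Z₁] [DecidableEq Z₁]
  [Fintype Z₂] [DecidableEq Z₂] [Fintype C] [DecidableEq C] [Fintype I] [DecidableEq I] {κ σ : ℝ}

/-- No part. -/
theorem prg_zero : Prg κ σ (zeroP S Z C) := fun ε hε => by
  refine ⟨1, one_pos, Run.of fun k => Prog.noise (S.kdm k) C Unit 0, fun _ => 0,
    S.ev_true fun i => ?_, fun i => Prog.noise_lipW _ (S.og i), Run.lipIn_of fun η hη => S.ev_true fun i => ?_,
    S.ev_true fun i => ?_, fun η hη => S.ev_true fun i p => ⟨fun _ => 0, integrable_zero _ _ _, ?_,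
      fun y A => (Prog.noise_close (0 : ℝ) (S.og i) p y A).comp_right measurePreserving_snd⟩⟩
  · show ((0 : ℕ) : ℝ) ≤ _
    simpa using Real.rpow_nonneg (Nat.cast_nonneg _) ε
  · exact (Prog.noise_lip (0 : ℝ) (S.og i)).mono (Real.rpow_nonneg (Nat.cast_nonneg _) _)
  · simpa using Real.rpow_nonneg (Nat.cast_nonneg _) _
  · simpa using mul_nonneg (Real.rpow_nonneg (Nat.cast_nonneg (S.dm i)) (η - κ)) (S.wt_nonneg i p)

/-- Two independent parts. -/
theorem Prg.sum {P₁ : Fld S (Z₁ ⊕ C) Unit} {P₂ : Fld S (Z₂ ⊕ C) Unit} (h1 : Prg κ σ P₁)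
    (h2 : Prg κ σ P₂) (s1 : Sm P₁) (s2 : Sm P₂) : Prg κ σ (sumP P₁ P₂) := fun ε hε => by
  obtain ⟨τ₁, hτ₁, R₁, t₁, hq₁, hl₁, hin₁, ht₁, hc₁⟩ := h1 (ε / 2) (half_pos hε)
  obtain ⟨τ₂, hτ₂, R₂, t₂, hq₂, hl₂, hin₂, ht₂, hc₂⟩ := h2 (ε / 2) (half_pos hε)
  set τ := min τ₁ τ₂ with hτdef
  have hτ : 0 < τ := lt_min hτ₁ hτ₂
  refine ⟨τ / 2, half_pos hτ, Run.of fun k => (R₁.atK k).add (R₂.atK k),
    fun n => Real.sqrt (t₁ n ^ 2 + t₂ n ^ 2), ?_, fun i => Prog.add_lipW (hl₁.lipW i) (hl₂.lipW i),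
    Run.lipIn_of fun η hη => ?_, ?_, fun η hη => ?_⟩
  · refine ((hq₁.and hq₂).and (S.ev_one_le.and (S.ev_le_rpow 2 (half_pos hε)))).mono
      fun i ⟨⟨a, b⟩, hd, h2'⟩ => ?_
    show (((R₁.at i).q + (R₂.at i).q : ℕ) : ℝ) ≤ _
    push_cast
    refine (add_le_add a b).trans ?_
    rw [← two_mul, show S.dd i ^ ε = S.dd i ^ (ε / 2) * S.dd i ^ (ε / 2) by
      rw [← Real.rpow_add (by linarith), add_halves]]
    exact mul_le_mul_of_nonneg_right h2' (Real.rpow_nonneg (by linarith) _)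
  · refine (((hin₁.lip (half_pos hη)).and (hin₂.lip (half_pos hη))).and
      (S.ev_one_le.and (S.ev_le_rpow 2 (half_pos hη)))).mono fun i ⟨⟨a, b⟩, hd, h2'⟩ => ?_
    refine (Prog.add_lip a b).mono ?_
    rw [← two_mul]
    refine (mul_le_mul_of_nonneg_right h2' (Real.rpow_nonneg (by linarith) _)).trans ?_
    rw [← Real.rpow_add (by linarith)]
    exact Real.rpow_le_rpow_of_exponent_le hd (by linarith)
  · refine ((ht₁.and ht₂).and (S.ev_one_le.and (S.ev_le_rpow 2 (half_pos hτ)))).mono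
      fun i ⟨⟨a, b⟩, hd, h2'⟩ => ?_
    have hd0 : 0 < S.dd i := by linarith
    have a' := a.trans (Real.rpow_le_rpow_of_exponent_le hd (neg_le_neg (min_le_left τ₁ τ₂)))
    have b' := b.trans (Real.rpow_le_rpow_of_exponent_le hd (neg_le_neg (min_le_right τ₁ τ₂)))
    rw [abs_of_nonneg (Real.sqrt_nonneg _)]
    refine le_trans ?_ (le_trans (add_le_add a' b') ?_)
    · rw [Real.sqrt_le_iff]
      refine ⟨by positivity, ?_⟩
      nlinarith [sq_abs (t₁ (S.dm i)), sq_abs (t₂ (S.dm i)), abs_nonneg (t₁ (S.dm i)),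
        abs_nonneg (t₂ (S.dm i))]
    · rw [← two_mul, ← le_div_iff₀ (Real.rpow_pos_of_pos hd0 _), ← Real.rpow_sub hd0]
      exact h2'.trans (Real.rpow_le_rpow_of_exponent_le hd (by rw [← hτdef]; linarith))
  · refine (((hc₁ (η / 2) (half_pos hη)).and (hc₂ (η / 2) (half_pos hη))).and
      (S.ev_one_le.and (S.ev_le_rpow 2 (half_pos hη)))).mono fun i ⟨⟨a, b⟩, hd, h2'⟩ p => ?_
    obtain ⟨e₁, he₁, hb₁, hce₁⟩ := a p
    obtain ⟨e₂, he₂, hb₂, hce₂⟩ := b p
    refine ⟨fun u => e₁ u + e₂ u, he₁.add he₂, ?_, fun y A => ?_⟩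
    · rw [integral_add he₁ he₂]
      refine (add_le_add hb₁ hb₂).trans ?_
      rw [← two_mul, ← mul_assoc]
      refine mul_le_mul_of_nonneg_right ?_ (S.wt_nonneg i p)
      refine (mul_le_mul_of_nonneg_right h2' (Real.rpow_nonneg (by linarith) _)).trans_eq ?_
      rw [← Real.rpow_add (by linarith)]
      ring_nf
    · set r₁ := t₁ (S.dm i)
      set r₂ := t₂ (S.dm i)
      set V₁ := fun z => vecF P₁ i p y z
      set V₂ := fun z => vecF P₂ i p y z
      set V := fun w => vecF (sumP P₁ P₂) i p y w with hV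
      have eV : ∀ w, V w = V₁ (fun z => w (.inl z)) + V₂ (fun z => w (.inr z)) := fun w => rfl
      have h := (Close.add (hce₁ y A) (hce₂ y A)).comp_left (splitSeeds_mp (R₁.sd i) (R₂.sd i))
      set X := fun ω : Fin (R₁.sd i + R₂.sd i) → Space (S.dm i) =>
        R₁.F i (S.og i) (p, y, A, (splitSeeds (R₁.sd i) (R₂.sd i) ω).1) +
          R₂.F i (S.og i) (p, y, A, (splitSeeds (R₁.sd i) (R₂.sd i) ω).2) with hX
      set f := fun q : (Z₁ ⊕ Z₂ → Space (S.dm i)) × (Space (S.dm i) × Space (S.dm i)) =>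
        (((fun z => q.1 (.inl z)), q.2.1), ((fun z => q.1 (.inr z)), q.2.2)) with hf
      have hm : MeasurePreserving f
          ((gp (Z₁ ⊕ Z₂) (S.dm i)).prod ((gam (S.dm i)).prod (gam (S.dm i))))
          (((gp Z₁ (S.dm i)).prod (gam (S.dm i))).prod ((gp Z₂ (S.dm i)).prod (gam (S.dm i)))) := by
        rw [hf]
        exact prod_shuffle_mp.comp ((gp_split_mp (d := S.dm i) (Equiv.refl (Z₁ ⊕ Z₂))).prod
          (MeasurePreserving.id _))
      have h' : Close (gp (Fin (R₁.sd i + R₂.sd i)) (S.dm i)) X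
          ((gp (Z₁ ⊕ Z₂) (S.dm i)).prod ((gam (S.dm i)).prod (gam (S.dm i))))
          (fun q => (V₁ fun z => q.1 (.inl z)) + r₁ • q.2.1
            + ((V₂ fun z => q.1 (.inr z)) + r₂ • q.2.2)) (e₁ (y, A) + e₂ (y, A)) :=
        h.comp_right hm
      have hcont : Continuous V := by
        rw [show V = fun w => V₁ (fun z => w (.inl z)) + V₂ (fun z => w (.inr z)) from funext eV]
        exact ((continuous_vecF s1 i p y).comp (by fun_prop)).add
          ((continuous_vecF s2 i p y).comp (by fun_prop))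
      set K : (Z₁ ⊕ Z₂ → Space (S.dm i)) → Space (S.dm i) × Space (S.dm i) → Space (S.dm i) :=
        fun w g => V w + (r₁ • g.1 + r₂ • g.2)
      have hK : (fun q : (Z₁ ⊕ Z₂ → Space (S.dm i)) × (Space (S.dm i) × Space (S.dm i)) =>
          (V₁ fun z => q.1 (.inl z)) + r₁ • q.2.1 + ((V₂ fun z => q.1 (.inr z)) + r₂ • q.2.2))
          = uncurry K := funext fun q => by
        show _ = V q.1 + _
        rw [eV]
        abel
      have hKi : Integrable (uncurry K) ((gp (Z₁ ⊕ Z₂) (S.dm i)).prod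
          ((gam (S.dm i)).prod (gam (S.dm i)))) := cast (congrArg (fun X => Integrable X _) hK) h'.intY
      set c := Real.sqrt (r₁ ^ 2 + r₂ ^ 2)
      set T : (Z₁ ⊕ Z₂ → Space (S.dm i)) → Space (S.dm i) → Space (S.dm i) := fun w g => V w + c • g
        with hT
      have hTc : Continuous (uncurry T) :=
        (hcont.comp continuous_fst).add (continuous_snd.const_smul c)
      have hTm : AEStronglyMeasurable (uncurry T)
          ((gp (Z₁ ⊕ Z₂) (S.dm i)).prod (gam (S.dm i))) := hTc.aestronglyMeasurable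
      have hg : ∀ w, Close ((gam (S.dm i)).prod (gam (S.dm i))) (K w) (gam (S.dm i)) (T w) 0 :=
        fun w => Close.gauss_add (V w) r₁ r₂
      have hmix := Close.mix (E := fun _ => (0 : ℝ)) hKi hTm (ae_of_all _ hg) (integrable_zero _ _ _)
      rw [integral_zero] at hmix
      show Close _ X _ (uncurry T) _
      refine Close.mono (h'.trans ?_) (add_zero _).le
      exact cast (congrArg (fun X => Close _ X _ _ _) hK.symm) hmix

/-- The blocks and inputs of a field from those of its part. -/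
def partPerm (Z C I : Type) : (Z ⊕ C) ⊕ I ≃ C ⊕ (Z ⊕ I) :=
  (Equiv.sumCongr (Equiv.sumComm Z C) (Equiv.refl I)).trans (Equiv.sumAssoc C Z I)

/-- The seeds of the program of a part. -/
def partSeeds {d : ℕ} (P : Prog d (Z ⊕ C) I) :
    (Z ⊕ I) ⊕ Fin P.sd ≃ Fin (Fintype.card (Z ⊕ I) + P.sd) :=
  (Equiv.sumCongr (Fintype.equivFin (Z ⊕ I)) (Equiv.refl (Fin P.sd))).trans finSumFinEquiv

/-- The program of a part, from that of its field. -/
def partProg {d : ℕ} (o : I) (a c : ℝ) (P : Prog d (Z ⊕ C) I) : Prog d C Unit where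
  sd := Fintype.card (Z ⊕ I) + P.sd
  q := P.q
  F := fun G u => a • ∑ l ∈ Finset.univ.erase o, u.2.2.2 (partSeeds P (.inl (.inr l))) +
    c • P.F G (u.1, Sum.elim (fun z => u.2.2.2 (partSeeds P (.inl (.inl z)))) u.2.1,
      (fun l => u.2.2.2 (partSeeds P (.inl (.inr l)))), fun j => u.2.2.2 (partSeeds P (.inr j)))
  comp := by
    have hel : Measurable fun u : Inp d C Unit (Fintype.card (Z ⊕ I) + P.sd) =>
        (Sum.elim (fun z => u.2.2.2 (partSeeds P (.inl (.inl z)))) u.2.1 : Z ⊕ C → Space d) :=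
      measurable_pi_lambda _ fun r => by rcases r with z | c <;> simp <;> fun_prop
    exact (P.comp.comp (f := fun u : Inp d C Unit (Fintype.card (Z ⊕ I) + P.sd) =>
      (u.1, Sum.elim (fun z => u.2.2.2 (partSeeds P (.inl (.inl z)))) u.2.1,
        (fun l => u.2.2.2 (partSeeds P (.inl (.inr l)))), fun j => u.2.2.2 (partSeeds P (.inr j))))
      (by fun_prop)).map
      (f := fun x => a • ∑ l ∈ Finset.univ.erase o, x.1.2.2.2 (partSeeds P (.inl (.inr l))) + c • x.2)
      (by fun_prop)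

theorem partProg_lip {d : ℕ} (o : I) (a c : ℝ) {P : Prog d (Z ⊕ C) I} {G : Space d → Space d}
    {K : ℝ} (hK : 0 ≤ K) (h : P.Lip G K) : (partProg o a c P).Lip G (|c| * K) :=
  fun p p' x x' A A' ω => by
    show ‖_ + c • _ - (_ + c • _)‖ ≤ _
    rw [add_sub_add_left_eq_sub, ← smul_sub, norm_smul, Real.norm_eq_abs, mul_assoc]
    refine mul_le_mul_of_nonneg_left ((h _ _ _ _ _ _ _).trans (mul_le_mul_of_nonneg_left ?_ hK))
      (abs_nonneg c)
    simp only [dist3, Fintype.sum_sum_type, Sum.elim_inl, Sum.elim_inr, sub_self, norm_zero,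
      Finset.sum_const_zero, zero_add, add_zero]
    exact le_add_of_nonneg_right (Finset.sum_nonneg fun l _ => norm_nonneg _)

theorem partProg_lipW {d : ℕ} (o : I) (a c : ℝ) {P : Prog d (Z ⊕ C) I} {G : Space d → Space d}
    (h : P.LipW G) : (partProg o a c P).LipW G := by
  obtain ⟨L, hL⟩ := h
  have s := LipschitzWith.prod_snd (α := Space d) (β := (C → Space d) × (Unit → Space d) ×
    (Fin (Fintype.card (Z ⊕ I) + P.sd) → Space d))
  have h3 := (LipschitzWith.prod_snd.comp LipschitzWith.prod_snd).comp s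
  have hz := (lipschitz_reindex (d := d) fun z => partSeeds P (.inl (.inl z))).comp h3
  have hi := (lipschitz_reindex (d := d) fun l => partSeeds P (.inl (.inr l))).comp h3
  have hw := (lipschitz_reindex (d := d) fun j => partSeeds P (.inr j)).comp h3
  have hsum : ∃ L' : ℝ≥0, LipschitzWith L' fun u : Inp d C Unit (Fintype.card (Z ⊕ I) + P.sd) =>
      a • ∑ l ∈ Finset.univ.erase o, u.2.2.2 (partSeeds P (.inl (.inr l))) := by
    refine ⟨_, cast (congrArg (LipschitzWith _) (funext fun u => ?_))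
      (a • ∑ l ∈ Finset.univ.erase o, ((ContinuousLinearMap.proj
      (φ := fun _ : Fin (Fintype.card (Z ⊕ I) + P.sd) => Space d) (partSeeds P (.inl (.inr l)))).comp
        ((ContinuousLinearMap.snd ℝ (Unit → Space d) _).comp
          ((ContinuousLinearMap.snd ℝ (C → Space d) _).comp
            (ContinuousLinearMap.snd ℝ (Space d) _)))) :
        Inp d C Unit (Fintype.card (Z ⊕ I) + P.sd) →L[ℝ] Space d).lipschitz⟩
    simp [sum_apply]
  obtain ⟨L', hL'⟩ := hsum
  exact ⟨_, hL'.add ((lipschitzWith_smul c).comp (hL.comp (LipschitzWith.prod_fst.prodMk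
    ((lip_elim hz (LipschitzWith.prod_fst.comp s)).prodMk (hi.prodMk hw)))))⟩

/-- The field read at its inputs is integrable over the blocks and inputs. -/
theorem integrable_apT_slice {Y : Fld S (Z ⊕ C) I} (hY : Sm Y) (o : I) (i : S.ι)
    (p : Space (S.dm i)) (y : C → Space (S.dm i)) :
    Integrable (fun u : (Z → Space (S.dm i)) × (I → Space (S.dm i)) =>
      apT o (Y i p (Sum.elim u.1 y)) u.2) ((gp Z (S.dm i)).prod (gp I (S.dm i))) := by
  have hT : Continuous fun u : (Z → Space (S.dm i)) × (I → Space (S.dm i)) =>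
      Y i p (Sum.elim u.1 y) := (hY.cont i p).comp ((continuous_elim y).comp continuous_fst)
  have hc := continuous_apT o hT continuous_snd
  refine (integrable_prod_iff hc.aestronglyMeasurable).2
    ⟨ae_of_all _ fun z => ((apT_sq o (Y i p (Sum.elim z y))).1.add (integrable_const (1 : ℝ))).mono'
      (hc.comp (Continuous.prodMk_right z)).aestronglyMeasurable (ae_of_all _ fun A => ?_), ?_⟩
  · simp only [Pi.add_apply]
    nlinarith [sq_nonneg (‖apT o (Y i p (Sum.elim z y)) A‖ - 1),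
      norm_nonneg (apT o (Y i p (Sum.elim z y)) A)]
  · have hs : Integrable (fun z => 1 + hsT (Y i p (Sum.elim z y))) (gp Z (S.dm i)) := by
      refine (integrable_const 1).add ?_
      simp only [hsT]
      exact integrable_finsetSum _ fun idx _ => by
        simpa only [sq] using pg_slice_int ((hY.pg i p idx).mul (hY.pg i p idx)) y
    refine hs.mono' hc.norm.aestronglyMeasurable.integral_prod_right' (ae_of_all _ fun z => ?_)
    rw [Real.norm_of_nonneg (integral_nonneg fun _ => norm_nonneg _)]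
    show (∫ A, ‖apT o (Y i p (Sum.elim z y)) A‖ ∂gp I (S.dm i)) ≤ _
    refine (apT_norm_le o (Y i p (Sum.elim z y))).2.trans ?_
    have h0 : 0 ≤ hsT (Y i p (Sum.elim z y)) := Finset.sum_nonneg fun _ _ => sq_nonneg _
    nlinarith [Real.sq_sqrt h0, sq_nonneg (Real.sqrt (hsT (Y i p (Sum.elim z y))) - 1)]

/-- The program of a part at one index. -/
theorem part_close {Y : Fld S (Z ⊕ C) I} (o : I) (a : ℝ) {b c t : ℝ} (hb : c * t = b) (sY : Sm Y)
    (i : S.ι) (p : Space (S.dm i)) {P : Prog (S.dm i) (Z ⊕ C) I} (hP : P.LipW (S.og i))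
    {f : (Z ⊕ C → Space (S.dm i)) × (I → Space (S.dm i)) → ℝ}
    (hf : Integrable f ((gp (Z ⊕ C) (S.dm i)).prod (gp I (S.dm i))))
    (hfc : ∀ x A, P.CloseAt (S.og i) p x A (t • apT o (Y i p x) A) 1 (f (x, A))) :
    ∃ E : (C → Space (S.dm i)) → ℝ, Integrable E (gp C (S.dm i)) ∧
      ∫ y, E y ∂gp C (S.dm i) ≤ |c| * ∫ z, f z ∂(gp (Z ⊕ C) (S.dm i)).prod (gp I (S.dm i)) ∧
      ∀ y (A : Unit → Space (S.dm i)),
        Close (gp (Fin (partProg o a c P).sd) (S.dm i))
          (fun ω => (partProg o a c P).F (S.og i) (p, y, A, ω))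
          ((gp (Z ⊕ I) (S.dm i)).prod (gam (S.dm i)))
          (fun u => (a • ∑ l ∈ Finset.univ.erase o, u.1 (.inr l) +
            b • apT o (Y i p (Sum.elim (fun z => u.1 (.inl z)) y)) (fun l => u.1 (.inr l))) + c • u.2)
          (E y) := by
  classical
  set V : (Z ⊕ I → Space (S.dm i)) → (C → Space (S.dm i)) → Space (S.dm i) := fun w y =>
    a • ∑ l ∈ Finset.univ.erase o, w (.inr l) +
      b • apT o (Y i p (Sum.elim (fun z => w (.inl z)) y)) (fun l => w (.inr l)) with hV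
  set Pp := partProg o a c P with hPp
  set π : ((C → Space (S.dm i)) × (Z ⊕ I → Space (S.dm i))) →L[ℝ]
      ((Z ⊕ C → Space (S.dm i)) × (I → Space (S.dm i))) := permIO (partPerm Z C I) with hπdef
  have hπ : ∀ y w, π (y, w) = (Sum.elim (fun z => w (.inl z)) y, fun l => w (.inr l)) :=
    fun y w => by
      refine (permIO_apply _ _).trans (Prod.ext (funext fun r => ?_) rfl)
      rcases r with z | c <;> rfl
  set g := fun u : (C → Space (S.dm i)) × (Z ⊕ I → Space (S.dm i)) => |c| * f (π u) with hg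
  have hmp := permIO_mp (d := S.dm i) (partPerm Z C I)
  have hgi : Integrable g ((gp C (S.dm i)).prod (gp (Z ⊕ I) (S.dm i))) :=
    (hmp.integrable_comp_of_integrable hf).const_mul _
  set B₀ := fun y : C → Space (S.dm i) => (∫ ω, ‖Pp.F (S.og i) (p, y, 0, ω)‖
      ∂gp (Fin Pp.sd) (S.dm i)) +
    ∫ u : (Z ⊕ I → Space (S.dm i)) × Space (S.dm i), ‖V u.1 y + c • u.2‖
      ∂(gp (Z ⊕ I) (S.dm i)).prod (gam (S.dm i))
  set E := fun y : C → Space (S.dm i) => if Integrable (fun w => g (y, w)) (gp (Z ⊕ I) (S.dm i))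
    then ∫ w, g (y, w) ∂gp (Z ⊕ I) (S.dm i) else B₀ y with hE
  have hEg : E =ᵐ[gp C (S.dm i)] fun y => ∫ w, g (y, w) ∂gp (Z ⊕ I) (S.dm i) :=
    hgi.prod_right_ae.mono fun y hy => if_pos hy
  refine ⟨E, hgi.integral_prod_left.congr hEg.symm, le_of_eq ?_, fun y A => ?_⟩
  · rw [integral_congr_ae hEg, ← integral_prod _ hgi, hg, integral_const_mul]
    congr 1
    conv_rhs => rw [← hmp.map_eq]
    rw [integral_map hmp.measurable.aemeasurable]
    rw [hmp.map_eq]
    exact hf.1
  · have hVc : Continuous fun w => V w y := by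
      have hel : Continuous fun w : Z ⊕ I → Space (S.dm i) =>
          (Sum.elim (fun z => w (.inl z)) y : Z ⊕ C → Space (S.dm i)) :=
        continuous_pi fun r => by rcases r with z | c <;> simp <;> fun_prop
      have hA : Continuous fun (w : Z ⊕ I → Space (S.dm i)) (l : I) => w (.inr l) := by fun_prop
      have h2 := (continuous_apT o ((sY.cont i p).comp hel) hA).const_smul b
      have h1 : Continuous fun w : Z ⊕ I → Space (S.dm i) =>
          a • ∑ l ∈ Finset.univ.erase o, w (.inr l) := by fun_prop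
      exact h1.add h2
    have hVi : Integrable (fun w => V w y) (gp (Z ⊕ I) (S.dm i)) := by
      have hsp := (gp_split_mp (d := S.dm i) (Equiv.refl (Z ⊕ I))).integrable_comp_of_integrable
        (integrable_apT_slice sY o i p y)
      have h1 : ∀ l : I, Integrable (fun w : Z ⊕ I → Space (S.dm i) => w (.inr l))
          (gp (Z ⊕ I) (S.dm i)) := fun l =>
        (measurePreserving_eval (fun _ : Z ⊕ I => gam (S.dm i)) (.inr l)).integrable_comp_of_integrable
          IsGaussian.integrable_id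
      exact ((integrable_finsetSum _ fun l _ => h1 l).smul a).add (hsp.smul b)
    have hXi : Integrable (fun ω => Pp.F (S.og i) (p, y, A, ω)) (gp (Fin Pp.sd) (S.dm i)) :=
      (partProg_lipW o a c hP).integrable p y A
    have hYi : Integrable (fun u : (Z ⊕ I → Space (S.dm i)) × Space (S.dm i) => V u.1 y + c • u.2)
        ((gp (Z ⊕ I) (S.dm i)).prod (gam (S.dm i))) :=
      (hVi.comp_fst _).add ((IsGaussian.integrable_id.comp_snd _).smul c)
    by_cases hy : Integrable (fun w => g (y, w)) (gp (Z ⊕ I) (S.dm i))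
    · rw [hE]
      simp only [if_pos hy]
      set K : (Z ⊕ I → Space (S.dm i)) → (Fin P.sd → Space (S.dm i)) → Space (S.dm i) :=
        fun w ω => a • ∑ l ∈ Finset.univ.erase o, w (.inr l) + c • P.F (S.og i)
          (p, (π (y, w)).1, (π (y, w)).2, ω) with hKdef
      set T : (Z ⊕ I → Space (S.dm i)) → Space (S.dm i) → Space (S.dm i) :=
        fun w z => V w y + c • z with hTdef
      have hKT : ∀ w, Close (gp (Fin P.sd) (S.dm i)) (K w) (gam (S.dm i)) (T w) (g (y, w)) :=
        fun w => by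
          have h0 := Close.affine (hfc (π (y, w)).1 (π (y, w)).2)
            (a • ∑ l ∈ Finset.univ.erase o, w (.inr l)) c
          refine cast (congrArg (fun Y' => Close _ (K w) _ Y' _) (funext fun z => ?_)) h0
          rw [hπ, hTdef, hV, smul_add, smul_smul, one_smul, hb]
          exact (add_assoc _ _ _).symm
      have hK : Integrable (uncurry K)
          ((gp (Z ⊕ I) (S.dm i)).prod (gp (Fin P.sd) (S.dm i))) := by
        refine cast (congrArg (fun X => Integrable X _) (funext fun u => ?_))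
          ((gp_join_mp (partSeeds P)).integrable_comp_of_integrable hXi)
        simp only [Function.comp_apply, uncurry, hKdef, hπ]
        show (partProg o a c P).F (S.og i) _ = _
        simp only [partProg, Equiv.symm_apply_apply, Sum.elim_inl, Sum.elim_inr]
      have hTc : Continuous (uncurry T) :=
        (hVc.comp continuous_fst).add (continuous_snd.const_smul c)
      have hTm : AEStronglyMeasurable (uncurry T)
          ((gp (Z ⊕ I) (S.dm i)).prod (gam (S.dm i))) := hTc.aestronglyMeasurable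
      have hm := Close.mix hK hTm (ae_of_all _ hKT) hy
      refine cast (congrArg (fun X => Close _ X _ _ _) (funext fun ω => ?_))
        (hm.comp_left (gp_split_mp (partSeeds P)))
      simp only [uncurry, hKdef, hπ]
      rfl
    · rw [hE]
      simp only [if_neg hy]
      exact Close.of_moments hXi hYi

/-- The part of a realisable field. -/
theorem prg_part {Y : Fld S (Z ⊕ C) I} {Φ e : ℝ} {o : I} (hY : Sam κ Φ e o Y) (sY : Sm Y) {q : ℝ}
    (hq : q < e - Φ) (hs : σ ≤ e - q) (a b : ℕ → ℝ) (_ha : ∀ n, |a n| ≤ 1)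
    (hb : ∀ η : ℝ, 0 < η → ∃ d₀ : ℕ, ∀ n : ℕ, d₀ ≤ n → |b n| ≤ (n : ℝ) ^ (q + η)) :
    Prg κ σ (partP o a b Y) := fun ε hε => by
  set η₀ := min ((e - Φ - q) / 4) (ε / 4) with hη₀def
  have hη₀ : 0 < η₀ := lt_min (by linarith) (by linarith)
  obtain ⟨R, hqR, hlR, hinR, hlawR⟩ := hY (q + 2 * η₀)
    (by linarith [min_le_left ((e - Φ - q) / 4) (ε / 4)]) (ε / 2) (half_pos hε)
  set s : ℕ → ℝ := fun n => b n * (n : ℝ) ^ (-(q + 2 * η₀)) with hsdef
  have hsb : S.Ev fun i => |s (S.dm i)| ≤ S.dd i ^ (-η₀) := by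
    obtain ⟨d₀, hd₀⟩ := hb η₀ hη₀
    refine (show S.Ev fun i => d₀ ≤ S.dm i from ⟨d₀, fun i hi => hi⟩).and S.ev_one_le |>.mono
      fun i ⟨h1, hd⟩ => ?_
    rw [hsdef, abs_mul, abs_of_nonneg (Real.rpow_nonneg (Nat.cast_nonneg _) _)]
    refine (mul_le_mul_of_nonneg_right (hd₀ _ h1) (Real.rpow_nonneg (by linarith) _)).trans_eq ?_
    show S.dd i ^ _ * S.dd i ^ _ = _
    rw [← Real.rpow_add (by linarith)]
    ring_nf
  refine ⟨η₀, hη₀, Run.of fun k => partProg o (a (S.kdm k)) (s (S.kdm k)) (R.atK k), s, ?_,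
    fun i => partProg_lipW o _ _ (hlR.lipW i), Run.lipIn_of fun η hη => ?_, hsb, fun η hη => ?_⟩
  · refine (hqR.and S.ev_one_le).mono fun i ⟨h, hd⟩ => ?_
    exact h.trans (Real.rpow_le_rpow_of_exponent_le hd (by linarith))
  · refine (((hinR.lip hη).and hsb).and S.ev_one_le).mono fun i ⟨⟨h, h1⟩, hd⟩ => ?_
    refine (partProg_lip o (a (S.dm i)) (s (S.dm i)) (Real.rpow_nonneg (by linarith) _) h).mono ?_
    refine (mul_le_mul_of_nonneg_right h1 (Real.rpow_nonneg (by linarith) _)).trans ?_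
    rw [← Real.rpow_add (by linarith)]
    exact Real.rpow_le_rpow_of_exponent_le hd
      (by linarith [min_le_right ((e - Φ - q) / 4) (ε / 4)])
  · refine (((hlawR.close hlR hη).and hsb).and S.ev_one_le).mono fun i ⟨⟨h, h1⟩, hd⟩ p => ?_
    obtain ⟨f, hf, hfb, hfc⟩ := h p
    have hd0 : 0 < S.dd i := by linarith
    have hcle : |s (S.dm i)| ≤ 1 :=
      h1.trans (Real.rpow_le_one_of_one_le_of_nonpos hd (by linarith))
    have hbv : s (S.dm i) * S.dd i ^ (q + 2 * η₀) = b (S.dm i) := by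
      show b (S.dm i) * S.dd i ^ _ * S.dd i ^ _ = _
      rw [mul_assoc, ← Real.rpow_add hd0, neg_add_cancel, Real.rpow_zero, mul_one]
    obtain ⟨E, hEi, hEb, hEc⟩ := part_close o (a (S.dm i)) hbv sY i p (hlR.lipW i) hf hfc
    refine ⟨fun u => E u.1, hEi.comp_fst _, ?_, hEc⟩
    rw [integral_prod _ (hEi.comp_fst _)]
    simp only [integral_const, probReal_univ, one_smul]
    refine hEb.trans ?_
    by_cases hf0 : 0 ≤ ∫ z, f z ∂(gp (Z ⊕ C) (S.dm i)).prod (gp I (S.dm i))
    · exact (mul_le_of_le_one_left hf0 hcle).trans hfb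
    · exact (mul_nonpos_of_nonneg_of_nonpos (abs_nonneg _) (le_of_not_ge hf0)).trans
        (mul_nonneg (Real.rpow_nonneg hd0.le _) (S.wt_nonneg i p))

/-- Node rules of every dimension, by diagonalising over the orders. -/
theorem nodeFam (hQ : QuadGauss) (M : ℝ) : Nonempty (NodeFam M) := by
  choose C hC using fun k : ℕ => hQ (k + 1) k.succ_pos
  set M₀ := max M 1
  have hev : ∀ k : ℕ, ∃ d₀ : ℕ, ∀ n : ℕ, d₀ ≤ n → ∃ (m : ℕ) (N : Nodes m),
      (m : ℝ) ≤ (n : ℝ) ^ ((M₀ + 1) / (k + 1 : ℝ)) ∧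
      ∑ l, |N.w l| ≤ (n : ℝ) ^ ((1 : ℝ) / (k + 1 : ℝ)) ∧
      (∀ l, N.t l ∈ Set.Icc (0 : ℝ) 1) ∧ QuadOK N ((n : ℝ) ^ (-M)) := by
    intro k
    have hk : (0 : ℝ) < 1 / (k + 1 : ℝ) := by positivity
    have h1 := ((tendsto_natCast_atTop_atTop (R := ℝ)).eventually
      ((isLittleO_log_rpow_atTop hk).bound (show (0:ℝ) < 1 / (2 * (|C k| + 1) * (M₀ + 1)) by
        positivity)))
    have h2 := (tendsto_natCast_atTop_atTop (R := ℝ)).eventually
      ((tendsto_rpow_atTop hk).eventually_ge_atTop (2 * (|C k| + 1)))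
    have h3 := (tendsto_natCast_atTop_atTop (R := ℝ)).eventually_ge_atTop 2
    obtain ⟨d₀, hd⟩ := Filter.eventually_atTop.1 ((h1.and h2).and h3)
    refine ⟨d₀, fun n hn => ?_⟩
    obtain ⟨⟨hlog, hbig⟩, hn2⟩ := hd n hn
    have hn0 : (0 : ℝ) < n := by linarith
    have hM₀ : (1 : ℝ) ≤ M₀ := le_max_right _ _
    have he : (n : ℝ) ^ (-M₀) ≤ 1 / 2 := by
      rw [Real.rpow_neg hn0.le, inv_eq_one_div]
      refine one_div_le_one_div_of_le two_pos (hn2.trans ?_)
      exact Real.self_le_rpow_of_one_le (by linarith) hM₀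
    obtain ⟨m, N, hm, ht, hw, hq⟩ := hC k _ (Real.rpow_pos_of_pos hn0 _) he
    have hl : Real.log (1 / (n : ℝ) ^ (-M₀)) = M₀ * Real.log n := by
      rw [one_div, Real.log_inv, Real.log_rpow hn0]; ring
    rw [hl] at hm hw
    set X := (n : ℝ) ^ ((1 : ℝ) / (k + 1 : ℝ))
    have hX : 0 < X := Real.rpow_pos_of_pos hn0 _
    have hlog' : C k * (1 + M₀ * Real.log n) ≤ X := by
      rw [Real.norm_of_nonneg (Real.log_nonneg (by linarith)), Real.norm_of_nonneg hX.le,
        div_mul_eq_mul_div, one_mul, le_div_iff₀ (by positivity)] at hlog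
      have hl0 := Real.log_nonneg (show (1 : ℝ) ≤ n by linarith)
      have := mul_le_mul_of_nonneg_right (le_abs_self (C k))
        (show 0 ≤ 1 + M₀ * Real.log n by positivity)
      nlinarith [abs_nonneg (C k), mul_nonneg (mul_nonneg (abs_nonneg (C k)) hl0) zero_le_one]
    refine ⟨m, N, hm.trans ?_, hw.trans hlog', fun l => Set.Ioc_subset_Icc_self (ht l),
      Real.rpow_nonneg hn0.le _, fun l => Set.Ioc_subset_Icc_self (ht l), fun j f hf hfg => (hq j f hf hfg).trans (mul_le_mul_of_nonneg_right ?_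
        (integral_nonneg fun x => sq_nonneg _))⟩
    · rw [mul_comm (C k), mul_assoc, ← Real.rpow_mul hn0.le]
      refine (mul_le_mul_of_nonneg_left hlog' (Real.rpow_nonneg hn0.le _)).trans_eq ?_
      rw [← Real.rpow_add hn0]
      push_cast
      congr 1
      field_simp
    · exact pow_le_pow_left₀ (Real.rpow_nonneg hn0.le _)
        (Real.rpow_le_rpow_of_exponent_le (by linarith) (neg_le_neg (le_max_left _ _))) 2
  choose d₀ hd₀ using hev
  classical
  set K : ℕ → ℕ := fun n => Nat.findGreatest (fun k => d₀ k ≤ n) n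
  have hsel : ∀ n, ∃ r : Σ m : ℕ, Nodes m, (∀ l, r.2.t l ∈ Set.Icc (0 : ℝ) 1) ∧ (d₀ 0 ≤ n →
      (r.1 : ℝ) ≤ (n : ℝ) ^ ((M₀ + 1) / (K n + 1 : ℝ)) ∧
      ∑ l, |r.2.w l| ≤ (n : ℝ) ^ ((1 : ℝ) / (K n + 1 : ℝ)) ∧ QuadOK r.2 ((n : ℝ) ^ (-M))) := by
    intro n
    by_cases hn : d₀ 0 ≤ n
    · obtain ⟨m, N, h1, h2, h3, h4⟩ := hd₀ (K n) n
        (Nat.findGreatest_spec (P := fun k => d₀ k ≤ n) (Nat.zero_le n) hn)
      exact ⟨⟨m, N⟩, h3, fun _ => ⟨h1, h2, h4⟩⟩
    · exact ⟨⟨0, ⟨Fin.elim0, Fin.elim0⟩⟩, fun l => l.elim0, fun h => absurd h hn⟩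
  choose r hr1 hr2 using hsel
  have hsmall : ∀ A : ℝ, 0 < A → ∀ η : ℝ, 0 < η → ∃ D : ℕ, ∀ n : ℕ, D ≤ n →
      d₀ 0 ≤ n ∧ (n : ℝ) ^ (A / (K n + 1 : ℝ)) ≤ (n : ℝ) ^ η := by
    intro A hA η hη
    set j := ⌈A / η⌉₊
    refine ⟨max (max (d₀ 0) (d₀ j)) (max j 1), fun n hn => ?_⟩
    simp only [max_le_iff] at hn
    refine ⟨hn.1.1, Real.rpow_le_rpow_of_exponent_le (by exact_mod_cast hn.2.2) ?_⟩
    have hj : j ≤ K n := Nat.le_findGreatest (P := fun k => d₀ k ≤ n) hn.2.1 hn.1.2
    rw [div_le_iff₀ (by positivity), ← div_le_iff₀' hη]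
    refine (Nat.le_ceil _).trans ?_
    exact_mod_cast hj.trans (Nat.le_succ _)
  refine ⟨⟨fun n => (r n).1, fun n => (r n).2, fun η hη => ?_, fun η hη => ?_,
    ⟨d₀ 0, fun n hn => (hr2 n hn).2.2⟩, fun n l => hr1 n l⟩⟩
  · obtain ⟨D, hD⟩ := hsmall (M₀ + 1) (by positivity) η hη
    exact ⟨D, fun n hn => (hr2 n (hD n hn).1).1.trans (hD n hn).2⟩
  · obtain ⟨D, hD⟩ := hsmall 1 one_pos η hη
    exact ⟨D, fun n hn => (hr2 n (hD n hn).1).2.1.trans (hD n hn).2⟩

/-- Three independent standard vectors. -/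
theorem gauss_add_three {d : ℕ} (f : Space d) (a b c : ℝ) :
    Close (((gam d).prod (gam d)).prod (gam d)) (fun q => f + ((a • q.1.1 + b • q.1.2) + c • q.2))
      (gam d) (fun z => f + Real.sqrt (a ^ 2 + b ^ 2 + c ^ 2) • z) 0 := by
  set r := Real.sqrt (a ^ 2 + b ^ 2) with hr
  have h0 := Close.add (Close.gauss_add f a b) (Close.refl (integrable_gau (0 : Space d) c))
  have h2 := Close.gauss_add f r c
  rw [hr, Real.sq_sqrt (by positivity)] at h2
  have h1 : Close (((gam d).prod (gam d)).prod (gam d)) (fun q => f + ((a • q.1.1 + b • q.1.2) + c • q.2))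
      ((gam d).prod (gam d)) (fun q => f + (r • q.1 + c • q.2)) (0 + 0) := by
    simpa only [zero_add, add_assoc, hr] using h0
  exact (h1.trans h2).mono (by norm_num)

/-- Two programs and noise. -/
theorem three_close {d : ℕ} {α β : Type} [MeasurableSpace α] [MeasurableSpace β] {μ : Measure α}
    [IsProbabilityMeasure μ] {ν : Measure β} [IsProbabilityMeasure ν] {P Q : Prog d C Unit}
    {G : Space d → Space d} {p : Space d} {y : C → Space d} {A : Unit → Space d} {Y : α → Space d}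
    {Y' : β → Space d} {e e' : ℝ}
    (hP : Close (gp (Fin P.sd) d) (fun ω => P.F G (p, y, A, ω)) μ Y e)
    (hQ : Close (gp (Fin Q.sd) d) (fun ω => Q.F G (p, y, A, ω)) ν Y' e') (k l c : ℝ) :
    Close (gp (Fin (((P.smul k).add (Q.smul l)).add (Prog.noise d C Unit c)).sd) d)
      (fun ω => (((P.smul k).add (Q.smul l)).add (Prog.noise d C Unit c)).F G (p, y, A, ω))
      ((μ.prod ν).prod (gam d)) (fun q => (k • Y q.1.1 + l • Y' q.1.2) + ((0 : Space d) + c • q.2))
      (|k| * e + |l| * e' + 0) := by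
  have h1 := Close.affine hP 0 k
  have h2 := Close.affine hQ 0 l
  simp only [zero_add] at h1 h2
  have h12 := (Close.add h1 h2).comp_left (splitSeeds_mp P.sd Q.sd)
  exact (Close.add h12 (Prog.noise_close c G p y A)).comp_left (splitSeeds_mp _ _)

/-- A mixture and a part with noise, smoothed, at one index. -/
theorem mix_close {G : Fld S (Z₁ ⊕ C) Unit} {P : Fld S (Z ⊕ C) Unit} (sG : Sm G) (sP : Sm P)
    (i : S.ι) (p : Space (S.dm i)) (y : C → Space (S.dm i)) {t a b c r E : ℝ}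
    (hr : Real.sqrt (a ^ 2 + b ^ 2 + c ^ 2) = r) {m : Space (S.dm i)}
    (h : ∀ ψ : Space (S.dm i) → ℝ, LipschitzWith 1 ψ →
      |(∫ x, ∫ z', ∫ z, ψ (t • vecF G i p y x + Real.sqrt (1 / 2) • vecF P i p y z' + r • z)
          ∂gam (S.dm i) ∂gp Z (S.dm i) ∂gp Z₁ (S.dm i)) - ∫ z, ψ (m + z) ∂gam (S.dm i)| ≤ E) :
    Close ((((gp Z₁ (S.dm i)).prod (gam (S.dm i))).prod ((gp Z (S.dm i)).prod (gam (S.dm i)))).prod
        (gam (S.dm i)))
      (fun q => (t • vecF G i p y q.1.1.1 + a • q.1.1.2) +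
        (Real.sqrt (1 / 2) • vecF P i p y q.1.2.1 + b • q.1.2.2) + ((0 : Space (S.dm i)) + c • q.2))
      (gam (S.dm i)) (fun z => m + (1 : ℝ) • z) E := by
  set μ := (gp Z₁ (S.dm i)).prod (gp Z (S.dm i))
  set γ := gam (S.dm i)
  set V : (Z₁ → Space (S.dm i)) × (Z → Space (S.dm i)) → Space (S.dm i) := fun w =>
    t • vecF G i p y w.1 + Real.sqrt (1 / 2) • vecF P i p y w.2 with hV
  have hVi : Integrable V μ :=
    (((integrable_vecF sG i p y).comp_fst _).smul t).add
      (((integrable_vecF sP i p y).comp_snd _).smul (Real.sqrt (1 / 2)))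
  set X := fun q : (((Z₁ → Space (S.dm i)) × Space (S.dm i)) × ((Z → Space (S.dm i)) × Space (S.dm i)))
      × Space (S.dm i) => (t • vecF G i p y q.1.1.1 + a • q.1.1.2) +
    (Real.sqrt (1 / 2) • vecF P i p y q.1.2.1 + b • q.1.2.2) + ((0 : Space (S.dm i)) + c • q.2)
    with hX
  have hi : Integrable (fun z : Space (S.dm i) => z) γ := IsGaussian.integrable_id
  have hXi : Integrable X ((((gp Z₁ (S.dm i)).prod γ).prod ((gp Z (S.dm i)).prod γ)).prod γ) := by
    have h1 : Integrable (fun u : (Z₁ → Space (S.dm i)) × Space (S.dm i) =>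
        t • vecF G i p y u.1 + a • u.2) ((gp Z₁ (S.dm i)).prod γ) :=
      (((integrable_vecF sG i p y).comp_fst _).smul t).add ((hi.comp_snd _).smul a)
    have h2 : Integrable (fun u : (Z → Space (S.dm i)) × Space (S.dm i) =>
        Real.sqrt (1 / 2) • vecF P i p y u.1 + b • u.2) ((gp Z (S.dm i)).prod γ) :=
      (((integrable_vecF sP i p y).comp_fst _).smul (Real.sqrt (1 / 2))).add ((hi.comp_snd _).smul b)
    exact ((((h1.comp_fst _).add (h2.comp_snd _)).comp_fst γ).add
      (((integrable_const (0 : Space (S.dm i))).add (hi.smul c)).comp_snd _))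
  set g := fun u : ((Z₁ → Space (S.dm i)) × (Z → Space (S.dm i))) ×
      ((Space (S.dm i) × Space (S.dm i)) × Space (S.dm i)) =>
    (((u.1.1, u.2.1.1), (u.1.2, u.2.1.2)), u.2.2) with hg
  have hgm : MeasurePreserving g (μ.prod ((γ.prod γ).prod γ))
      ((((gp Z₁ (S.dm i)).prod γ).prod ((gp Z (S.dm i)).prod γ)).prod γ) :=
    (prod_shuffle_mp.prod (MeasurePreserving.id γ)).comp
      ((measurePreserving_prodAssoc μ (γ.prod γ) γ).symm MeasurableEquiv.prodAssoc)
  set K : (Z₁ → Space (S.dm i)) × (Z → Space (S.dm i)) →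
      (Space (S.dm i) × Space (S.dm i)) × Space (S.dm i) → Space (S.dm i) :=
    fun w q => V w + ((a • q.1.1 + b • q.1.2) + c • q.2) with hK
  have hKX : (fun u => X (g u)) = uncurry K := funext fun u => by
    simp only [hX, hg, hK, hV, uncurry, zero_add]
    abel
  have hKi : Integrable (uncurry K) (μ.prod ((γ.prod γ).prod γ)) :=
    cast (congrArg (fun F => Integrable F _) hKX) (hgm.integrable_comp_of_integrable hXi)
  set T : (Z₁ → Space (S.dm i)) × (Z → Space (S.dm i)) → Space (S.dm i) → Space (S.dm i) :=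
    fun w z => V w + r • z with hT
  have hTi : Integrable (uncurry T) (μ.prod γ) := (hVi.comp_fst _).add ((hi.comp_snd _).smul r)
  have hm := Close.mix (E := fun _ => (0 : ℝ)) hKi hTi.1
    (ae_of_all _ fun w => by
      have := gauss_add_three (V w) a b c
      rwa [hr] at this) (integrable_zero _ _ _)
  rw [integral_zero] at hm
  refine ⟨hXi, integrable_gau m 1, fun ψ hψ => ?_⟩
  have e1 : ∫ q, ψ (X q) ∂(((gp Z₁ (S.dm i)).prod γ).prod ((gp Z (S.dm i)).prod γ)).prod γ
      = ∫ u, ψ (uncurry K u) ∂μ.prod ((γ.prod γ).prod γ) := by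
    rw [← hKX]
    conv_lhs => rw [← hgm.map_eq]
    rw [integral_map hgm.measurable.aemeasurable]
    rw [hgm.map_eq]
    exact hψ.continuous.comp_aestronglyMeasurable hXi.1
  have e2 : ∫ u, ψ (uncurry T u) ∂μ.prod γ
      = ∫ x, ∫ z', ∫ z, ψ (t • vecF G i p y x + Real.sqrt (1 / 2) • vecF P i p y z' + r • z)
          ∂γ ∂gp Z (S.dm i) ∂gp Z₁ (S.dm i) := by
    have hti := integrable_test hψ hTi
    rw [integral_prod _ hti, integral_prod _ hti.integral_prod_left]
    rfl
  have h3 := abs_le.1 (hm.le ψ hψ)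
  have h4 := h ψ hψ
  show |(∫ q, ψ (X q) ∂_) - ∫ z, ψ (m + (1 : ℝ) • z) ∂γ| ≤ E
  have h5 : ∫ u, ψ (uncurry K u) ∂μ.prod ((γ.prod γ).prod γ) = ∫ u, ψ (uncurry T u) ∂μ.prod γ :=
    le_antisymm (by linarith [h3.2]) (by linarith [h3.1])
  rw [e1, h5, e2]
  simpa only [one_smul] using h4

/-- The average of a mixture whose compensating part is realisable. -/
theorem sam_avB_of_part {B : Type} [Fintype B] [DecidableEq B] {φ θ : ℝ}
    {G : Fld S (B ⊕ C) Unit} (sG : Sm G) (hG : SamMix κ φ θ () G)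
    (h : ∀ a : ℝ, a < θ - φ → ∃ (Z : Type) (_ : Fintype Z) (_ : DecidableEq Z)
      (P : Fld S (Z ⊕ C) Unit) (v : ℕ → ℝ), Sm P ∧ Prg κ (θ - a) P ∧ (∀ n, |v n| ≤ 1) ∧
        ∀ η : ℝ, 0 < η → S.Ev fun i => ∀ p, ∃ e : (C → Space (S.dm i)) → ℝ,
          Integrable e (gp C (S.dm i)) ∧
            ∫ y, e y ∂gp C (S.dm i) ≤ S.dd i ^ (η - κ) * S.wt i p ∧
            ∀ y (ψ : Space (S.dm i) → ℝ) (L : ℝ≥0), LipschitzWith L ψ →
              |(∫ x, ∫ z', ∫ z, ψ ((S.dd i ^ a) • vecF G i p y x +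
                    Real.sqrt (1 / 2) • vecF P i p y z' + Real.sqrt (1 - v (S.dm i) / 2) • z)
                  ∂gam (S.dm i) ∂gp Z (S.dm i) ∂gp B (S.dm i))
                - ∫ z, ψ ((S.dd i ^ a) • (∫ x, vecF G i p y x ∂gp B (S.dm i)) + z) ∂gam (S.dm i)|
              ≤ e y * L) :
    Sam κ φ θ () (avB G) := fun a ha ε hε => by
  obtain ⟨Zp, hZf, hZd, P, v, sP, hP, hv, hcomp⟩ := h a ha
  set η₀ := min ((θ - φ - a) / 2) (ε / 4) with hη₀def
  have hη₀ : 0 < η₀ := lt_min (by linarith) (by linarith)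
  obtain ⟨R, hqR, hlR, hinR, hlawR⟩ := hG (a + η₀)
    (by linarith [min_le_left ((θ - φ - a) / 2) (ε / 4)]) (ε / 2) (half_pos hε)
  obtain ⟨τ, hτ, R', s, hqP, hlP, hinP, hs, hcP⟩ := hP (ε / 2) (half_pos hε)
  set k₀ : ℕ → ℝ := fun n => (n : ℝ) ^ (-η₀) with hk₀
  set top : ℕ → ℝ := fun n => Real.sqrt (max 0
    (1 - v n / 2 - k₀ n ^ 2 - (Real.sqrt (1 / 2) * s n) ^ 2)) with htop
  have hhalf : Real.sqrt (1 / 2) ≤ 1 := Real.sqrt_le_one.2 (by norm_num)
  refine ⟨Run.of fun k => (((R.atK k).smul (k₀ (S.kdm k))).add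
      ((R'.atK k).smul (Real.sqrt (1 / 2)))).add (Prog.noise (S.kdm k) C Unit (top (S.kdm k))),
    ?_, fun i => Prog.add_lipW (Prog.add_lipW (Prog.smul_lipW (hlR.lipW i) _)
      (Prog.smul_lipW (hlP.lipW i) _)) (Prog.noise_lipW _ _),
    Run.lipIn_of fun η hη => ?_, Run.law_of_close fun η hη => ?_⟩
  · refine ((hqR.and hqP).and (S.ev_one_le.and (S.ev_le_rpow 2 (half_pos hε)))).mono
      fun i ⟨⟨c₁, c₂⟩, hd, h2⟩ => ?_
    show (((R.at i).q + (R'.at i).q + 0 : ℕ) : ℝ) ≤ _
    push_cast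
    rw [add_zero]
    refine (add_le_add c₁ c₂).trans ?_
    rw [← two_mul, show S.dd i ^ ε = S.dd i ^ (ε / 2) * S.dd i ^ (ε / 2) by
      rw [← Real.rpow_add (by linarith), add_halves]]
    exact mul_le_mul_of_nonneg_right h2 (Real.rpow_nonneg (by linarith) _)
  · refine (((hinR.lip hη).and (hinP.lip hη)).and
      (S.ev_one_le.and (S.ev_le_rpow 2 (half_pos hε)))).mono fun i ⟨⟨c₁, c₂⟩, hd, h2⟩ => ?_
    have hd0 : 0 < S.dd i := by linarith
    refine (Prog.add_lip (Prog.add_lip (Prog.smul_lip c₁ (k₀ (S.dm i)))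
      (Prog.smul_lip c₂ (Real.sqrt (1 / 2)))) (Prog.noise_lip (top (S.dm i)) (S.og i))).mono ?_
    rw [add_zero, abs_of_nonneg (Real.rpow_nonneg (Nat.cast_nonneg _) _),
      abs_of_nonneg (Real.sqrt_nonneg _)]
    show S.dd i ^ (-η₀) * _ + _ ≤ _
    rw [← Real.rpow_add hd0]
    refine (add_le_add (Real.rpow_le_rpow_of_exponent_le hd (z := η - (θ - a - ε / 2)) (by linarith))
      (mul_le_of_le_one_left (Real.rpow_nonneg hd0.le _) hhalf)).trans ?_
    rw [← two_mul, show η - (θ - a - ε) = ε / 2 + (η - (θ - a - ε / 2)) by ring,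
      Real.rpow_add hd0]
    exact mul_le_mul_of_nonneg_right h2 (Real.rpow_nonneg hd0.le _)
  · have hη3 : 0 < η / 2 := half_pos hη
    refine ((((hlawR (η / 2) hη3).and (hcP (η / 2) hη3)).and (hcomp (η / 2) hη3)).and
      ((S.ev_one_le.and hs).and ((S.ev_le_rpow 3 hη3).and
        ((S.ev_le_rpow 4 hη₀).and (S.ev_le_rpow 4 hτ))))).mono
      fun i ⟨⟨⟨r₁, r₂⟩, r₃⟩, ⟨hd, hsi⟩, h3, h4η, h4τ⟩ p => ?_
    obtain ⟨e₁, he₁, hb₁, hc₁⟩ := r₁ p
    obtain ⟨e₂, he₂, hb₂, hc₂⟩ := r₂ p
    obtain ⟨e₃, he₃, hb₃, hc₃⟩ := r₃ p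
    have hd0 : 0 < S.dd i := by linarith
    set k := k₀ (S.dm i) with hk
    set r := s (S.dm i)
    have hk1 : |k| ≤ 1 / 4 := by
      rw [hk, hk₀, abs_of_nonneg (Real.rpow_nonneg (Nat.cast_nonneg _) _)]
      show S.dd i ^ (-η₀) ≤ _
      rw [Real.rpow_neg hd0.le, one_div]
      exact inv_anti₀ (by norm_num) h4η
    have hr1 : |r| ≤ 1 / 4 := by
      refine hsi.trans ?_
      rw [Real.rpow_neg hd0.le, one_div]
      exact inv_anti₀ (by norm_num) h4τ
    have hsq : Real.sqrt (1 / 2) ^ 2 = 1 / 2 := Real.sq_sqrt (by norm_num)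
    have hvar : Real.sqrt (k ^ 2 + (Real.sqrt (1 / 2) * r) ^ 2 + top (S.dm i) ^ 2)
        = Real.sqrt (1 - v (S.dm i) / 2) := by
      congr 1
      rw [htop, Real.sq_sqrt (le_max_left _ _), max_eq_right]
      · ring
      · rw [mul_pow, hsq, ← sq_abs (k₀ _), ← sq_abs (s _)]
        nlinarith [abs_le.1 (hv (S.dm i)), abs_nonneg k, abs_nonneg r]
    set N := (gp C (S.dm i)).prod (gp Unit (S.dm i))
    have hw : ∫ u, e₃ u.1 ∂N = ∫ y, e₃ y ∂gp C (S.dm i) := by
      rw [integral_prod _ (he₃.comp_fst _)]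
      simp only [integral_const, probReal_univ, one_smul]
    refine ⟨fun u => |k| * e₁ u + |Real.sqrt (1 / 2)| * e₂ u + e₃ u.1,
      ((he₁.const_mul _).add (he₂.const_mul _)).add (he₃.comp_fst _), ?_, fun y A => ?_⟩
    · have i12 : Integrable (fun u => |k| * e₁ u + |Real.sqrt (1 / 2)| * e₂ u) N :=
        (he₁.const_mul _).add (he₂.const_mul _)
      rw [integral_add i12 (he₃.comp_fst _), hw, integral_add (he₁.const_mul _) (he₂.const_mul _),
        integral_const_mul, integral_const_mul, abs_of_nonneg (Real.sqrt_nonneg (1 / 2))]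
      set X := S.dd i ^ (η / 2 - κ) * S.wt i p
      have hX : 0 ≤ X := mul_nonneg (Real.rpow_nonneg hd0.le _) (S.wt_nonneg i p)
      refine le_trans (show _ ≤ 3 * X from ?_) ?_
      · have q1 := (mul_le_mul_of_nonneg_left hb₁ (abs_nonneg k)).trans
          (mul_le_of_le_one_left hX (hk1.trans (by norm_num)))
        have q2 := (mul_le_mul_of_nonneg_left hb₂ (Real.sqrt_nonneg (1 / 2))).trans
          (mul_le_of_le_one_left hX hhalf)
        linarith
      · rw [← mul_assoc]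
        refine mul_le_mul_of_nonneg_right ?_ (S.wt_nonneg i p)
        refine (mul_le_mul_of_nonneg_right h3 (Real.rpow_nonneg hd0.le _)).trans_eq ?_
        rw [← Real.rpow_add hd0]
        ring_nf
    · have hap : ∀ (T : Ten (S.dm i) Unit), apT () T A = vecT T := fun T => by
        rw [apT, sum_unit]
        refine (Finset.sum_congr rfl fun c _ => ?_).trans (TestAux.sum_coord (vecT T)).symm
        simp [vecT_apply]
      have hYR : Integrable (fun u : (B → Space (S.dm i)) × Space (S.dm i) =>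
          S.dd i ^ (a + η₀) • vecF G i p y u.1 + u.2) ((gp B (S.dm i)).prod (gam (S.dm i))) :=
        ((((integrable_vecF sG i p y).smul (S.dd i ^ (a + η₀))).comp_fst (gam (S.dm i))).add
          ((IsGaussian.integrable_id (μ := gam (S.dm i))).comp_snd (gp B (S.dm i))) : _)
      have hR : Close (gp (Fin (R.at i).sd) (S.dm i)) (fun ω => (R.at i).F (S.og i) (p, y, A, ω))
          ((gp B (S.dm i)).prod (gam (S.dm i)))
          (fun u => S.dd i ^ (a + η₀) • vecF G i p y u.1 + u.2) (e₁ (y, A)) := by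
        refine ⟨(hlR.lipW i).integrable p y A, hYR, fun ψ hψ => ?_⟩
        rw [integral_prod _ (integrable_test hψ hYR)]
        have := hc₁ y A ψ 1 hψ
        simp only [hap, NNReal.coe_one, mul_one] at this
        exact this
      have h12 := three_close (P := R.at i) (Q := R'.at i) hR (hc₂ y A) k (Real.sqrt (1 / 2))
        (top (S.dm i))
      have hkt : k * S.dd i ^ (a + η₀) = S.dd i ^ a := by
        rw [hk, hk₀]
        show S.dd i ^ (-η₀) * _ = _
        rw [← Real.rpow_add hd0]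
        ring_nf
      simp only [smul_add, smul_smul, hkt] at h12
      have hm := mix_close sG sP i p y hvar (m := S.dd i ^ a • vecT (avB G i p y))
        (E := e₃ y) fun ψ hψ => by
          have := hc₃ y ψ 1 hψ
          rw [NNReal.coe_one, mul_one] at this
          refine le_of_eq_of_le ?_ this
          congr 4
          funext z
          congr 3
          ext c
          rw [vecT_apply]
          exact (EuclideanSpace.proj (𝕜 := ℝ) c).integral_comp_comm (integrable_vecF sG i p y)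
      rw [hap]
      exact (h12.trans hm).mono (le_of_eq (by ring))

end Vale.Agent.P347.Zero
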