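import Vale.Agent.P347.Zero.AvgFun
import Vale.Agent.P347.Zero.AvgProg

/-!
The algebra of absorption: independent parts add, the point may be moved to an average, and a part
followed by the absorption of what it leaves absorbs its functional.
-/

noncomputable section

open MeasureTheory ProbabilityTheory
open scoped RealInnerProductSpace NNReal

namespace Vale.Agent.P347.Zero

variable {S : Sys} {Z Z₁ Z₂ C : Type} [Fintype Z] [DecidableEq Z] [Fintype Z₁] [DecidableEq Z₁]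
  [Fintype Z₂] [DecidableEq Z₂] [Fintype C] [DecidableEq C]
  {Cst : ℕ → ℝ} {κ σ w : ℝ} {Q : Fld S (Z ⊕ C) Unit} {Φ Φ' Φ₁ Φ₂ : Fun S C}

theorem small_add {v₁ v₂ : ℕ → ℝ}
    (h₁ : ∀ η : ℝ, 0 < η → S.Ev fun i => |v₁ (S.dm i)| ≤ S.dd i ^ (η - 2 * w))
    (h₂ : ∀ η : ℝ, 0 < η → S.Ev fun i => |v₂ (S.dm i)| ≤ S.dd i ^ (η - 2 * w)) :
    ∀ η : ℝ, 0 < η → S.Ev fun i => |(v₁ + v₂) (S.dm i)| ≤ S.dd i ^ (η - 2 * w) := fun η hη =>
  (((h₁ (η / 2) (half_pos hη)).and (h₂ (η / 2) (half_pos hη))).and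
    (S.ev_one_le.and (S.ev_le_rpow 2 (half_pos hη)))).mono fun i ⟨⟨a, b⟩, hd, h2⟩ => by
      refine (abs_add_le _ _).trans ((add_le_add a b).trans ?_)
      rw [← two_mul, show S.dd i ^ (η - 2 * w) = S.dd i ^ (η / 2) * S.dd i ^ (η / 2 - 2 * w) by
        rw [← Real.rpow_add (by linarith)]; ring_nf]
      exact mul_le_mul_of_nonneg_right h2 (Real.rpow_nonneg (by linarith) _)

omit [DecidableEq Z] in
/-- A negligible functional needs no part. -/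
theorem Abs.of_sml (h : Sml Cst κ Φ) : Abs Cst κ σ w Q Φ := by
  refine ⟨Empty, inferInstance, inferInstance, zeroP S Empty C, 0, sm_zeroP, fun η hη => ?_,
    prg_zero, h.congr fun i p y V _ => ?_⟩
  · exact S.ev_one_le.mono fun i hd => by simpa using Real.rpow_nonneg (show (0 : ℝ) ≤ S.dd i by linarith) _
  · rw [avgF_zero, balF_zero, add_zero]

omit [DecidableEq Z] in
theorem Abs.congr (hC : ∀ j, 0 ≤ Cst j) (h : Abs Cst κ σ w Q Φ)
    (he : Sml Cst κ fun i p y V => Φ' i p y V - Φ i p y V) : Abs Cst κ σ w Q Φ' := by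
  obtain ⟨Z', _, _, P, v, hP, hv, hR, hs⟩ := h
  exact ⟨Z', inferInstance, inferInstance, P, v, hP, hv, hR,
    (hs.add (he.comp_avg hC hP)).congr fun i p y V _ => by ring⟩

omit [DecidableEq Z] in
theorem Abs.congr' (hC : ∀ j, 0 ≤ Cst j) (h : Abs Cst κ σ w Q Φ)
    (he : ∀ i p y V, TestV Cst V → Φ' i p y V = Φ i p y V) : Abs Cst κ σ w Q Φ' :=
  h.congr hC (sml_zero.congr fun i p y V hV => by rw [he i p y V hV, sub_self])

omit [DecidableEq Z] [DecidableEq Z₁] [DecidableEq C] in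
/-- Only the average over the point enters. -/
theorem Abs.change {Q' : Fld S (Z₁ ⊕ C) Unit} (h : Abs Cst κ σ w Q Φ)
    (he : ∀ i p y V, TestV Cst V → avgF Q' i p y V = avgF Q i p y V) :
    Abs Cst κ σ w Q' Φ := by
  obtain ⟨Z', _, _, P, v, hP, hv, hR, hs⟩ := h
  exact ⟨Z', inferInstance, inferInstance, P, v, hP, hv, hR,
    hs.congr fun i p y V hV => by rw [he i p y V hV]⟩

theorem Abs.add (hC : ∀ j, 0 ≤ Cst j) (hQ : Sm Q) (h₁ : Abs Cst κ σ w Q Φ₁)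
    (h₂ : Abs Cst κ σ w Q Φ₂) :
    Abs Cst κ σ w Q fun i p y V => Φ₁ i p y V + Φ₂ i p y V := by
  obtain ⟨W₁, _, _, P₁, v₁, hP₁, hv₁, hR₁, hs₁⟩ := h₁
  obtain ⟨W₂, _, _, P₂, v₂, hP₂, hv₂, hR₂, hs₂⟩ := h₂
  refine ⟨W₁ ⊕ W₂, inferInstance, inferInstance, sumP P₁ P₂, v₁ + v₂, hP₁.sumP hP₂,
    small_add hv₁ hv₂, hR₁.sum hR₂ hP₁ hP₂,
    ((hs₁.comp_avg hC hP₂).add (hs₂.comp_avg hC hP₁)).congr fun i p y V hV => ?_⟩
  rw [balF_sumP hC hP₁ hP₂ v₁ v₂ (hV.avgF hQ hC), avgF_sumP hC hP₁ hP₂ hV,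
    avgF_comm hC hQ hP₂ hV, avgF_comm hC hQ hP₁ hV]
  rw [← avgF_comm hC hP₁ hP₂ hV]
  ring

theorem Abs.sum (hC : ∀ j, 0 ≤ Cst j) (hQ : Sm Q) {α : Type} (s : Finset α) {Ψ : α → Fun S C}
    (h : ∀ a ∈ s, Abs Cst κ σ w Q (Ψ a)) :
    Abs Cst κ σ w Q fun i p y V => ∑ a ∈ s, Ψ a i p y V := by
  classical
  induction s using Finset.induction_on with
  | empty => simpa using Abs.of_sml (Q := Q) (σ := σ) (w := w) (sml_zero (S := S) (C := C) (Cst := Cst) (κ := κ))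
  | insert a s ha ih =>
    refine ((h a (Finset.mem_insert_self a s)).add hC hQ
      (ih fun b hb => h b (Finset.mem_insert_of_mem hb))).congr' hC fun i p y V _ => ?_
    rw [Finset.sum_insert ha]

omit [DecidableEq Z₁] in
/-- What is absorbed at the origin is absorbed at any point, after averaging over it. -/
theorem Abs.zeroQ (hC : ∀ j, 0 ≤ Cst j) (hQ : Sm Q) (h : Abs Cst κ σ w (zeroP S Z₁ C) Φ) :
    Abs Cst κ σ w Q fun i p y V => Φ i p y (avgF Q i p y V) := by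
  obtain ⟨Z', _, _, P, v, hP, hv, hR, hs⟩ := h
  refine ⟨Z', inferInstance, inferInstance, P, v, hP, hv, hR,
    (hs.comp_avg hC hQ).congr fun i p y V hV => ?_⟩
  beta_reduce
  rw [avgF_zero, avgF_comm hC hQ hP hV]

omit [DecidableEq Z₁] in
/-- A part, then the absorption of what it leaves. -/
theorem Abs.prepend (hC : ∀ j, 0 ≤ Cst j) {P₀ : Fld S (Z ⊕ C) Unit} {v₀ : ℕ → ℝ} {Ψ : Fun S C}
    (hP₀ : Sm P₀) (hv₀ : ∀ η : ℝ, 0 < η → S.Ev fun i => |v₀ (S.dm i)| ≤ S.dd i ^ (η - 2 * w))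
    (hR₀ : Prg κ σ P₀) (h : Abs Cst κ σ w P₀ Ψ)
    (he : Sml Cst κ fun i p y V =>
      Φ i p y (avgF P₀ i p y V) + balF P₀ v₀ i p y V - Ψ i p y V) :
    Abs Cst κ σ w (zeroP S Z₁ C) Φ := by
  obtain ⟨Z', _, _, P, v, hP, hv, hR, hs⟩ := h
  refine ⟨Z ⊕ Z', inferInstance, inferInstance, sumP P₀ P, v₀ + v, hP₀.sumP hP,
    small_add hv₀ hv, hR₀.sum hR hP₀ hP,
    ((he.comp_avg hC hP).add hs).congr fun i p y V hV => ?_⟩
  rw [avgF_zero, balF_sumP hC hP₀ hP v₀ v hV, avgF_sumP hC hP₀ hP hV]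
  ring

end Vale.Agent.P347.Zero
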