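import Vale.Agent.P347.Zero.SamMore

/-!
The closure of the classes `Gd` and `GdD`: monotonicity, linear operations, relabelling, a leg read
from a block, substitution in the blocks, parameters and, from the product statement, contraction.
-/

noncomputable section

open MeasureTheory ProbabilityTheory
open scoped RealInnerProductSpace NNReal

namespace Vale.Agent.P347.Zero

variable {S : Sys} {B B' I J : Type} [Fintype B] [DecidableEq B] [Fintype B'] [DecidableEq B']
  [Fintype I] [DecidableEq I] [Fintype J] [DecidableEq J]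
  {L : Lad} {r : ℕ} {φ φ' θ θ' : ℝ} {D : Set B} {w w' : B → ℝ} {O O' : Set I}

theorem Lad.phi_mono (L : Lad) : Monotone L.phi :=
  monotone_nat_of_le_succ fun r => by linarith [L.gap r, L.w_pos]

theorem Lad.phi_pos (L : Lad) (r : ℕ) : 0 < L.phi r :=
  (L.g_pos.trans L.g_lt).trans_le (L.phi_mono (Nat.zero_le r))

/-- The zero field. -/
def zeroT (S : Sys) (B I : Type) : Fld S B I := fun _ _ _ _ => 0

/-- A matrix of blocks chosen from the key, as a substitution. -/
def matB (S : Sys) (M : S.key → B → B' → ℝ) :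
    ∀ i, (B' → Space (S.dm i)) →L[ℝ] (B → Space (S.dm i)) := fun i => mixB (S.dm i) (M (S.pub i))

/-- Substitution in the blocks by orthonormal rows chosen from the key. -/
theorem Sam.subK {κ : ℝ} {o : I} {T : Fld S B I} (h : Sam κ φ θ o T) {M : S.key → B → B' → ℝ}
    (hM : ∀ k b b', ∑ c, M k b c * M k b' c = if b = b' then 1 else 0) :
    Sam κ φ θ o (Zero.subB (matB S M) T) := by
  have hle : ∀ k b c, |M k b c| ≤ 1 := fun k b c => by
    rw [← sq_le_one_iff_abs_le_one, sq]
    have h1 := hM k b b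
    rw [if_pos rfl] at h1
    rw [← h1]
    exact Finset.single_le_sum (f := fun c => M k b c * M k b c) (fun c _ => mul_self_nonneg _)
      (Finset.mem_univ c)
  refine h.comap (fun k => (mixB (S.kdm k) (M k)).prodMap (ContinuousLinearMap.id ℝ _))
    (C₀ := 1 + Fintype.card B) (by simp) (fun k z => ?_)
    (fun k => (mixB_mp (hM k)).prod (MeasurePreserving.id _)) fun i p x A => rfl
  show ∑ b, ‖mixB (S.kdm k) (M k) z.1 b‖ + ∑ l, ‖z.2 l‖ ≤ _
  have hs : 0 ≤ ∑ l, ‖z.2 l‖ := Finset.sum_nonneg fun l _ => norm_nonneg _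
  have hb : 0 ≤ ∑ c, ‖z.1 c‖ := Finset.sum_nonneg fun l _ => norm_nonneg _
  have h1 : ∑ b, ‖mixB (S.kdm k) (M k) z.1 b‖ ≤ Fintype.card B * ∑ c, ‖z.1 c‖ := by
    rw [← nsmul_eq_mul, ← Finset.card_univ, ← Finset.sum_const]
    refine Finset.sum_le_sum fun b _ => ?_
    rw [mixB_apply]
    refine (norm_sum_le _ _).trans (Finset.sum_le_sum fun c _ => ?_)
    rw [norm_smul, Real.norm_eq_abs]
    exact mul_le_of_le_one_left (norm_nonneg _) (hle k b c)
  have h2 : (0 : ℝ) ≤ Fintype.card B := Nat.cast_nonneg _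
  nlinarith [mul_nonneg h2 hs]

theorem sm_zeroT : Sm (zeroT S B I) := sm_iff.2 fun _ _ _ => pg_const 0

theorem bd_zeroT : Bd θ (zeroT S B I) := fun η hη m => S.ev_one_le.mono fun i hd p => by
  refine ⟨fun _ => 0, measurable_const, fun x => ⟨le_rfl, ?_⟩, integrable_const _, ?_⟩
  · intro A A' _ _ _ _ _ _ e
    exact ⟨le_rfl, fun x y => by simp [zeroT]⟩
  · rw [integral_const, probReal_univ, one_smul]
    exact pow_le_pow_left₀ le_rfl (Real.rpow_nonneg (by linarith) _) m

theorem sam_zeroT {κ : ℝ} {o : I} : Sam κ φ θ o (zeroT S B I) := fun a ha ε hε =>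
  ⟨Run.of fun k => Prog.noise (S.kdm k) B I 1,
    S.ev_one_le.mono fun i hd => by
      show ((0 : ℕ) : ℝ) ≤ _
      simpa using Real.rpow_nonneg (show (0 : ℝ) ≤ S.dd i by linarith) ε,
    fun i => Prog.noise_lipW 1 (S.og i),
    Run.lipIn_of fun η _ => S.ev_one_le.mono fun i hd => (Prog.noise_lip 1 _).mono
      (Real.rpow_nonneg (by linarith) _),
    Run.law_of_close fun η hη => S.ev_one_le.mono fun i hd p => by
      refine ⟨fun _ => 0, integrable_const _, ?_, fun x A => ?_⟩
      · rw [integral_const, smul_zero]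
        exact mul_nonneg (Real.rpow_nonneg (by linarith) _) (S.wt_nonneg i p)
      · have h := Prog.noise_close (B := B) (I := I) 1 (S.og i) p x A
        have e : S.dd i ^ a • apT o (zeroT S B I i p x) A = 0 := by simp [zeroT, apT]
        rw [e]
        exact h⟩

/-! ### One level -/

theorem Gd.mono {T : Fld S B I} (h : Gd L r φ θ O T) (hφ : φ ≤ φ') (hθ : θ' ≤ θ) (hO : O' ⊆ O) :
    Gd L r φ' θ' O' T :=
  ⟨h.1.mono hθ, fun o ho => (h.2.1 o (hO ho)).mono le_rfl hφ hθ,
    fun r' hr o => (h.2.2 r' hr o).mono le_rfl le_rfl hθ⟩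

theorem Gd.zeroT : Gd L r φ θ O (zeroT S B I) :=
  ⟨bd_zeroT, fun _ _ => sam_zeroT, fun _ _ _ => sam_zeroT⟩

/-- At level zero a bounded field is in the class. -/
theorem gd_level_zero [Nontrivial I] {T : Fld S B I} (hT : Sm T) (h : Bd θ T) (hφ : 0 ≤ φ) :
    Gd L 0 φ θ O T :=
  ⟨h, fun _ _ => sam_zero hT h L.kap_zero hφ, fun _ hr => absurd hr (Nat.not_lt_zero _)⟩

theorem Gd.add {T T' : Fld S B I} (h : Gd L r φ θ O T) (h' : Gd L r φ θ O T') :
    Gd L r φ θ O (addT T T') :=
  ⟨h.1.add h'.1, fun o ho => (h.2.1 o ho).add (h'.2.1 o ho),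
    fun r' hr o => (h.2.2 r' hr o).add (h'.2.2 r' hr o)⟩

theorem Gd.smul {T : Fld S B I} (h : Gd L r φ θ O T) {c : S.key → ℝ}
    (hc : ∀ η : ℝ, 0 < η → S.Ev fun i => |c (S.pub i)| ≤ S.dd i ^ η) :
    Gd L r φ θ O (smulF (fun i => c (S.pub i)) T) :=
  ⟨h.1.smul hc, fun o ho => (h.2.1 o ho).smul hc, fun r' hr o => (h.2.2 r' hr o).smul hc⟩

theorem Gd.sum {T : Fld (S.par ℕ) B I} (h : Gd L r φ θ O T) {N : S.key → ℕ} {u : S.key → ℕ → ℝ}
    (hN : ∀ η : ℝ, 0 < η → S.Ev fun i => (N (S.pub i) : ℝ) ≤ S.dd i ^ η)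
    (hu : ∀ η : ℝ, 0 < η →
      S.Ev fun i => ∑ l ∈ Finset.range (N (S.pub i)), |u (S.pub i) l| ≤ S.dd i ^ η) :
    Gd L r φ θ O (sumF (fun i => N (S.pub i)) (fun i => u (S.pub i)) T) :=
  ⟨h.1.sum hu, fun o ho => (h.2.1 o ho).sum hN hu, fun r' hr o => (h.2.2 r' hr o).sum hN hu⟩

theorem Gd.reL {T : Fld S B I} (h : Gd L r φ θ O T) (e : I ≃ J) :
    Gd L r φ θ (e '' O) (reL e T) := by
  refine ⟨h.1.reL e, ?_, fun r' hr o => ?_⟩
  · rintro _ ⟨o, ho, rfl⟩
    exact (h.2.1 o ho).reL e
  · rw [← e.apply_symm_apply o]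
    exact (h.2.2 r' hr _).reL e

theorem Gd.legB {T : Fld S B (Option I)} (h : Gd L r φ θ (some '' O) T) (hT : Sm T) :
    Gd L r φ θ O (legB T) :=
  ⟨h.1.legB hT, fun o ho => (h.2.1 (some o) ⟨o, ho, rfl⟩).legB,
    fun r' hr o => (h.2.2 r' hr (some o)).legB⟩

theorem Gd.subB {T : Fld S B I} (h : Gd L r φ θ O T) {M : S.key → B → B' → ℝ}
    (hM : ∀ k b b', ∑ c, M k b c * M k b' c = if b = b' then 1 else 0) :
    Gd L r φ θ O (subB (matB S M) T) :=
  ⟨h.1.subB _ fun _ => mixB_mp (hM _), fun o ho => (h.2.1 o ho).subK hM,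
    fun r' hr o => (h.2.2 r' hr o).subK hM⟩

theorem Gd.par {T : Fld S B I} (h : Gd L r φ θ O T) (Q : Type) : Gd L r φ θ O (parF Q T) :=
  ⟨h.1.par Q, fun o ho => (h.2.1 o ho).par Q, fun r' hr o => (h.2.2 r' hr o).par Q⟩

theorem Gd.pull {T : Fld S B I} (h : Gd L r φ θ O T) {Q : Type} (f : Q → S.ι) :
    Gd L r φ θ O (pullF f T) :=
  ⟨h.1.pull f, fun o ho => (h.2.1 o ho).pull f, fun r' hr o => (h.2.2 r' hr o).pull f⟩

theorem Gd.of_ev {T : Fld S B I} {P : S.key → Prop} (hP : S.Ev fun i => P (S.pub i))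
    (h : Gd L r φ θ O (pullF (Subtype.val : {i // P (S.pub i)} → S.ι) T)) : Gd L r φ θ O T :=
  ⟨Bd.of_ev hP h.1, fun o ho => Sam.of_ev hP (h.2.1 o ho),
    fun r' hr o => Sam.of_ev hP (h.2.2 r' hr o)⟩

/-- The factor at the mirror position. -/
theorem ctL_comm {A G C : Type} [Fintype G] [DecidableEq G] (F : Fld S B (A ⊕ G))
    (H : Fld S B (G ⊕ C)) :
    ctL F H = Zero.reL (Equiv.sumComm C A)
      (ctL (Zero.reL (Equiv.sumComm G C) H) (Zero.reL (Equiv.sumComm A G) F)) := by
  funext i p x idx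
  simp only [Zero.reL, ctL, ctr, reT]
  refine Finset.sum_congr rfl fun c _ => ?_
  rw [mul_comm]
  congr 1 <;> congr 1 <;> funext j <;> rcases j with j | j <;> rfl

/-- Contraction along one leg. -/
theorem Gd.ctL (hP : ProductThm) {A C : Type} [Fintype A] [DecidableEq A] [Fintype C]
    [DecidableEq C] [Nonempty A] [Nonempty C] {F : Fld S B (A ⊕ Unit)} {H : Fld S B (Unit ⊕ C)}
    {θF θH : ℝ} {OA : Set A} {OH : Set (Unit ⊕ C)} (hφ : L.phi (r - 1) ≤ φ)
    (hF : Gd L r φ θF (Sum.inl '' OA) F) (hH : Gd L r φ θH OH H) (sF : Sm F) (sH : Sm H) :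
    Gd L r φ (θF + θH - L.phi (r - 1)) (Sum.inl '' OA) (Zero.ctL F H) := by
  have : Nontrivial (A ⊕ C) :=
    ⟨⟨.inl (Classical.arbitrary A), .inr (Classical.arbitrary C), by simp⟩⟩
  have hb : Bd (θF + θH) (Zero.ctL F H) := hF.1.ctL hH.1
  have hθ : θF + θH - L.phi (r - 1) ≤ θF + θH := by linarith [L.phi_pos (r - 1)]
  refine ⟨hb.mono hθ, ?_, fun r' hr o => ?_⟩
  · rintro _ ⟨a, ha, rfl⟩
    match r, hφ, hF, hH with
    | 0, hφ, _, _ =>
      exact sam_zero (sF.ctL sH) (hb.mono hθ) L.kap_zero ((L.phi_pos 0).le.trans hφ)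
    | r + 1, hφ, hF, hH =>
      exact hP S L.g φ (L.phi r) (L.kap (r + 1)) (L.kap r) θF θH L.g_pos
        (L.g_lt.trans_le (L.phi_mono (Nat.zero_le r))) hφ
        (L.kap_succ r) B A C F H a (Classical.arbitrary C) sF sH hF.1 hH.1
        (hF.2.1 _ ⟨a, ha, rfl⟩) (hF.2.2 r r.lt_succ_self _) (hF.2.2 r r.lt_succ_self _)
        (hH.2.2 r r.lt_succ_self _) (hH.2.2 r r.lt_succ_self _)
  · match r' with
    | 0 => exact sam_zero (sF.ctL sH) (hb.mono hθ) L.kap_zero (L.phi_pos 0).le
    | r' + 1 =>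
      have hr' : r' < r := Nat.lt_of_succ_lt hr
      have hle : θF + θH - L.phi (r - 1) ≤ θF + θH - L.phi r' := by
        linarith [L.phi_mono (show r' ≤ r - 1 by omega)]
      rcases o with a | c
      · exact (hP S L.g (L.phi (r' + 1)) (L.phi r') (L.kap (r' + 1)) (L.kap r') θF θH L.g_pos
          (L.g_lt.trans_le (L.phi_mono (Nat.zero_le r'))) (L.phi_mono r'.le_succ) (L.kap_succ r')
          B A C F H a (Classical.arbitrary C) sF sH hF.1 hH.1 (hF.2.2 _ hr _) (hF.2.2 _ hr' _)
          (hF.2.2 _ hr' _) (hH.2.2 _ hr' _) (hH.2.2 _ hr' _)).mono le_rfl le_rfl hle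
      · rw [ctL_comm]
        refine Sam.reL (o := (.inl c : C ⊕ A)) ?_ (Equiv.sumComm C A)
        exact (hP S L.g (L.phi (r' + 1)) (L.phi r') (L.kap (r' + 1)) (L.kap r') θH θF L.g_pos
          (L.g_lt.trans_le (L.phi_mono (Nat.zero_le r'))) (L.phi_mono r'.le_succ) (L.kap_succ r')
          B C A _ _ c (Classical.arbitrary A) (sH.reL _) (sF.reL _) (hH.1.reL _) (hF.1.reL _)
          ((hH.2.2 _ hr (.inr c)).reL (Equiv.sumComm Unit C))
          ((hH.2.2 _ hr' (.inr c)).reL (Equiv.sumComm Unit C))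
          ((hH.2.2 _ hr' (.inl ())).reL (Equiv.sumComm Unit C))
          ((hF.2.2 _ hr' (.inr ())).reL (Equiv.sumComm A Unit))
          ((hF.2.2 _ hr' (.inl (Classical.arbitrary A))).reL (Equiv.sumComm A Unit))).mono
            le_rfl le_rfl (by linarith)

/-! ### The derivative rules -/

theorem dB_zeroT (b : B) : dB b (zeroT S B I) = zeroT S B (Option I) := by
  funext i p x idx
  simp [dB, zeroT]

theorem dB_addT {T T' : Fld S B I} (hT : Sm T) (hT' : Sm T') (b : B) :
    dB b (addT T T') = addT (dB b T) (dB b T') := by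
  funext i p x idx
  simp only [dB, addT, Pi.add_apply]
  rw [fderiv_fun_add ((hT.pg i p _).diff x) ((hT'.pg i p _).diff x)]
  rfl

theorem dB_smulF {T : Fld S B I} (hT : Sm T) (c : S.ι → ℝ) (b : B) :
    dB b (smulF c T) = smulF c (dB b T) := by
  funext i p x idx
  simp only [dB, smulF, Pi.smul_apply, smul_eq_mul]
  rw [fderiv_const_mul ((hT.pg i p _).diff x)]
  rfl

theorem dB_sumF {T : Fld (S.par ℕ) B I} (hT : Sm T) (N : S.ι → ℕ) (u : S.ι → ℕ → ℝ) (b : B) :
    dB b (sumF N u T) = sumF N u (dB b T) := by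
  funext i p x idx
  refine Eq.trans ?_ (sumF_apply N u (dB b T) i p x idx).symm
  simp only [dB, sumF_apply]
  have h : ∀ l ∈ Finset.range (N i), DifferentiableAt ℝ
      (fun y : B → Space (S.dm i) => u i l * T (i, l) p y fun j => idx (some j)) x :=
    fun l _ => ((hT.pg (i, l) p fun j => idx (some j)).diff x).const_mul _
  rw [fderiv_fun_sum h, ContinuousLinearMap.sum_apply]
  refine Finset.sum_congr rfl fun l _ => ?_
  have h1 := (((hT.pg (i, l) p fun j => idx (some j)).diff x).hasFDerivAt.const_mul (u i l)).fderiv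
  refine (congrArg (fun Φ : (B → Space (S.dm i)) →L[ℝ] ℝ => Φ (Pi.single b (ev (idx none)))) h1).trans ?_
  rfl

theorem dB_reL (e : I ≃ J) (T : Fld S B I) (b : B) :
    dB b (reL e T) = reL e.optionCongr (dB b T) := rfl

theorem dB_parF (Q : Type) (T : Fld S B I) (b : B) : dB b (parF Q T) = parF Q (dB b T) := rfl

theorem dB_pullF {Q : Type} (f : Q → S.ι) (T : Fld S B I) (b : B) :
    dB b (pullF f T) = pullF f (dB b T) := rfl

theorem mixB_single (d : ℕ) (M : B → B' → ℝ) (c : B') (v : Space d) :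
    mixB d M (Pi.single c v) = ∑ b, M b c • Pi.single b v := by
  funext b
  rw [mixB_apply, Finset.sum_apply]
  simp [Pi.single_apply]

theorem dB_subB {T : Fld S B I} (hT : Sm T) (M : S.key → B → B' → ℝ) (c : B') (i : S.ι)
    (p : Space (S.dm i)) (x : B' → Space (S.dm i)) (idx : Option I → Fin (S.dm i)) :
    dB c (subB (matB S M) T) i p x idx
      = ∑ b, M (S.pub i) b c * subB (matB S M) (dB b T) i p x idx := by
  have hd := ((hT.pg i p fun j => idx (some j)).diff (matB S M i x)).hasFDerivAt.comp x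
    (matB S M i).hasFDerivAt
  simp only [dB, subB]
  rw [show fderiv ℝ (fun y => T i p (matB S M i y) fun j => idx (some j)) x = _ from hd.fderiv,
    ContinuousLinearMap.comp_apply]
  show fderiv ℝ _ _ (mixB (S.dm i) (M (S.pub i)) (Pi.single c (ev (idx none)))) = _
  rw [mixB_single, map_sum]
  simp only [map_smul, smul_eq_mul]

theorem dB_legB_some {T : Fld S B (Option I)} (hT : Sm T) (b : B) :
    dB (some b) (legB T) = legB (reL (swapO I) (dB b T)) := by
  funext i p x idx
  set π : (Option B → Space (S.dm i)) →L[ℝ] (B → Space (S.dm i)) :=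
    ContinuousLinearMap.pi fun b => ContinuousLinearMap.proj (some b) with hπ
  set P : Fin (S.dm i) → (Option B → Space (S.dm i)) →L[ℝ] ℝ := fun c =>
    (EuclideanSpace.proj (𝕜 := ℝ) c).comp
      (ContinuousLinearMap.proj (φ := fun _ : Option B => Space (S.dm i)) none) with hP
  have hd : ∀ c, HasFDerivAt
      (fun y : Option B → Space (S.dm i) =>
        T i p (π y) (fun o => o.elim c fun j => idx (some j)) * P c y)
      _ x := fun c => ((((hT.pg i p fun o => o.elim c fun j => idx (some j)).diff (π x)).hasFDerivAt.comp x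
        π.hasFDerivAt).mul (P c).hasFDerivAt)
  have h := HasFDerivAt.fun_sum (u := Finset.univ) fun c _ => hd c
  show fderiv ℝ (fun y => ∑ c, T i p (π y) (fun o => o.elim c fun j => idx (some j)) * P c y) x
      (Pi.single (some b) (ev (idx none))) = _
  rw [h.fderiv, ContinuousLinearMap.sum_apply]
  refine Finset.sum_congr rfl fun c _ => ?_
  have e1 : π (Pi.single (some b) (ev (idx none))) = Pi.single b (ev (idx none)) := by
    funext b'
    simp [hπ, Pi.single_apply]
  have e2 : P c (Pi.single (some b) (ev (idx none))) = 0 := by simp [hP]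
  simp only [add_apply, smul_apply, smul_eq_mul,
    ContinuousLinearMap.comp_apply, e1, e2, mul_zero, zero_add]
  rw [mul_comm]
  simp only [Zero.reL, reT, dB, Function.comp_apply, swapO, Equiv.coe_fn_mk, hP,
    ContinuousLinearMap.proj_apply, PiLp.proj_apply]
  congr 3
  funext y
  congr 1
  funext o
  cases o <;> rfl

theorem dB_legB_none {T : Fld S B (Option I)} (hT : Sm T) :
    dB none (legB T) = subB (matB S fun _ b c => if c = some b then (1 : ℝ) else 0) T := by
  funext i p x idx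
  set π : (Option B → Space (S.dm i)) →L[ℝ] (B → Space (S.dm i)) :=
    ContinuousLinearMap.pi fun b => ContinuousLinearMap.proj (some b) with hπ
  set P : Fin (S.dm i) → (Option B → Space (S.dm i)) →L[ℝ] ℝ := fun c =>
    (EuclideanSpace.proj (𝕜 := ℝ) c).comp
      (ContinuousLinearMap.proj (φ := fun _ : Option B => Space (S.dm i)) none) with hP
  have hd : ∀ c, HasFDerivAt
      (fun y : Option B → Space (S.dm i) =>
        T i p (π y) (fun o => o.elim c fun j => idx (some j)) * P c y)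
      _ x := fun c => ((((hT.pg i p fun o => o.elim c fun j => idx (some j)).diff (π x)).hasFDerivAt.comp x
        π.hasFDerivAt).mul (P c).hasFDerivAt)
  have h := HasFDerivAt.fun_sum (u := Finset.univ) fun c _ => hd c
  show fderiv ℝ (fun y => ∑ c, T i p (π y) (fun o => o.elim c fun j => idx (some j)) * P c y) x
      (Pi.single none (ev (idx none))) = _
  rw [h.fderiv, ContinuousLinearMap.sum_apply]
  have e1 : π (Pi.single none (ev (idx none))) = 0 := by
    funext b'
    simp [hπ]
  have e2 : ∀ c, P c (Pi.single none (ev (idx none))) = if c = idx none then 1 else 0 := fun c => by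
    simp [hP, ev, Pi.single_apply]
  simp only [add_apply, smul_apply, smul_eq_mul, ContinuousLinearMap.comp_apply, e1, e2, map_zero,
    mul_zero, add_zero, mul_ite, mul_one, Finset.sum_ite_eq', Finset.mem_univ, if_true]
  simp only [subB, matB, Function.comp_apply]
  congr 1
  · congr 1
    refine ContinuousLinearMap.ext fun y => funext fun b' => ?_
    simp [hπ, mixB_apply]
  · funext o
    cases o <;> rfl

theorem dB_ctL {A C : Type} {F : Fld S B (A ⊕ Unit)} {H : Fld S B (Unit ⊕ C)}
    (hF : ∀ i p idx, Differentiable ℝ fun x => F i p x idx)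
    (hH : ∀ i p idx, Differentiable ℝ fun x => H i p x idx) (b : B) :
    dB b (ctL F H) = addT (reL (optL A C).symm (ctL (reL (optL A Unit) (dB b F)) H))
      (reL (optR A C).symm (ctL F (reL (optR Unit C) (dB b H)))) := by
  funext i p x idx
  simp only [addT, Pi.add_apply, dB, Zero.reL, reT, Zero.ctL, ctr]
  have h := HasFDerivAt.fun_sum (u := (Finset.univ : Finset (Unit → Fin (S.dm i)))) fun c _ =>
    ((hF i p (Sum.elim ((fun j => idx (some j)) ∘ Sum.inl) c)) x).hasFDerivAt.mul
      ((hH i p (Sum.elim c ((fun j => idx (some j)) ∘ Sum.inr))) x).hasFDerivAt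
  rw [show fderiv ℝ (fun y => ∑ c : Unit → Fin (S.dm i),
      F i p y (Sum.elim ((fun j => idx (some j)) ∘ Sum.inl) c) *
        H i p y (Sum.elim c ((fun j => idx (some j)) ∘ Sum.inr))) x = _ from h.fderiv,
    ContinuousLinearMap.sum_apply, ← Finset.sum_add_distrib]
  refine Finset.sum_congr rfl fun c _ => ?_
  simp only [add_apply, smul_apply, smul_eq_mul]
  rw [add_comm]
  congr 1
  · rw [mul_comm]
    congr 1
    congr 3
    funext y; congr 1; funext j; rcases j with a | g <;> rfl
  · congr 1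
    congr 3
    funext y; congr 1; funext j; rcases j with g | c <;> rfl

/-! ### All derivatives -/

theorem GdD.head {T : Fld S B I} : ∀ {n : ℕ}, GdD L r φ D w n θ O T → Gd L r φ θ O T
  | 0, h => h
  | _ + 1, h => h.1

theorem GdD.succ_iff {T : Fld S B I} {n : ℕ} :
    GdD L r φ D w (n + 1) θ O T ↔
      Gd L r φ θ O T ∧ ∀ b ∈ D, GdD L r φ D w n (θ - w b) (some '' O) (dB b T) := Iff.rfl

theorem GdD.of_succ {n : ℕ} {T : Fld S B I} (h : GdD L r φ D w (n + 1) θ O T) :
    GdD L r φ D w n θ O T := by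
  induction n generalizing θ I O with
  | zero => exact h.1
  | succ n ih => exact ⟨h.1, fun b hb => ih (h.2 b hb)⟩

theorem GdD.mono {D' : Set B} {n : ℕ} {T : Fld S B I} (h : GdD L r φ D w n θ O T) (hφ : φ ≤ φ')
    (hθ : θ' ≤ θ) (hO : O' ⊆ O) (hD : D' ⊆ D) (hw : ∀ b ∈ D', w b ≤ w' b) :
    GdD L r φ' D' w' n θ' O' T := by
  induction n generalizing θ θ' I O O' with
  | zero => exact Gd.mono h hφ hθ hO
  | succ n ih =>
    exact ⟨h.1.mono hφ hθ hO, fun b hb =>
      ih (h.2 b (hD hb)) (by linarith [hw b hb]) (Set.image_mono hO)⟩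

theorem GdD.zeroT (n : ℕ) : GdD L r φ D w n θ O (zeroT S B I) := by
  induction n generalizing θ I O with
  | zero => exact Gd.zeroT
  | succ n ih => exact ⟨Gd.zeroT, fun b _ => by rw [dB_zeroT]; exact ih⟩

/-- At level zero every derivative bound puts the field in the class. -/
theorem gdD_level_zero [Nontrivial I] {T : Fld S B I} (hT : Sm T) (h : Bd θ T) (hφ : 0 ≤ φ) :
    GdD L 0 φ D w 0 θ O T := gd_level_zero hT h hφ

theorem GdD.add {n : ℕ} {T T' : Fld S B I} (hT : Sm T) (hT' : Sm T')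
    (h : GdD L r φ D w n θ O T) (h' : GdD L r φ D w n θ O T') :
    GdD L r φ D w n θ O (addT T T') := by
  induction n generalizing θ I O with
  | zero => exact Gd.add h h'
  | succ n ih =>
    exact ⟨h.1.add h'.1, fun b hb => by
      rw [dB_addT hT hT']
      exact ih (hT.dB b) (hT'.dB b) (h.2 b hb) (h'.2 b hb)⟩

theorem GdD.smul {n : ℕ} {T : Fld S B I} (hT : Sm T) (h : GdD L r φ D w n θ O T) {c : S.key → ℝ}
    (hc : ∀ η : ℝ, 0 < η → S.Ev fun i => |c (S.pub i)| ≤ S.dd i ^ η) :
    GdD L r φ D w n θ O (smulF (fun i => c (S.pub i)) T) := by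
  induction n generalizing θ I O with
  | zero => exact Gd.smul h hc
  | succ n ih =>
    exact ⟨h.1.smul hc, fun b hb => by rw [dB_smulF hT]; exact ih (hT.dB b) (h.2 b hb)⟩

theorem GdD.sum {n : ℕ} {T : Fld (S.par ℕ) B I} (hT : Sm T) (h : GdD L r φ D w n θ O T)
    {N : S.key → ℕ} {u : S.key → ℕ → ℝ}
    (hN : ∀ η : ℝ, 0 < η → S.Ev fun i => (N (S.pub i) : ℝ) ≤ S.dd i ^ η)
    (hu : ∀ η : ℝ, 0 < η →
      S.Ev fun i => ∑ l ∈ Finset.range (N (S.pub i)), |u (S.pub i) l| ≤ S.dd i ^ η) :
    GdD L r φ D w n θ O (sumF (fun i => N (S.pub i)) (fun i => u (S.pub i)) T) := by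
  induction n generalizing θ I O with
  | zero => exact Gd.sum h hN hu
  | succ n ih =>
    exact ⟨h.1.sum hN hu, fun b hb => by rw [dB_sumF hT]; exact ih (hT.dB b) (h.2 b hb)⟩

theorem GdD.reL {n : ℕ} {T : Fld S B I} (h : GdD L r φ D w n θ O T) (e : I ≃ J) :
    GdD L r φ D w n θ (e '' O) (reL e T) := by
  induction n generalizing θ I J O with
  | zero => exact Gd.reL h e
  | succ n ih =>
    exact ⟨h.1.reL e, fun b hb => by
      rw [dB_reL]
      have := ih (h.2 b hb) e.optionCongr
      rwa [Set.image_image, show (fun o => e.optionCongr (some o)) = fun o => some (e o) from rfl,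
        ← Set.image_image some e] at this⟩

theorem GdD.par {n : ℕ} {T : Fld S B I} (h : GdD L r φ D w n θ O T) (Q : Type) :
    GdD L r φ D w n θ O (parF Q T) := by
  induction n generalizing θ I O with
  | zero => exact Gd.par h Q
  | succ n ih => exact ⟨h.1.par Q, fun b hb => ih (h.2 b hb)⟩

theorem GdD.pull {n : ℕ} {T : Fld S B I} (h : GdD L r φ D w n θ O T) {Q : Type} (f : Q → S.ι) :
    GdD L r φ D w n θ O (pullF f T) := by
  induction n generalizing θ I O with
  | zero => exact Gd.pull h f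
  | succ n ih => exact ⟨h.1.pull f, fun b hb => ih (h.2 b hb)⟩

theorem GdD.of_ev {n : ℕ} {T : Fld S B I} {P : S.key → Prop} (hP : S.Ev fun i => P (S.pub i))
    (h : GdD L r φ D w n θ O (pullF (Subtype.val : {i // P (S.pub i)} → S.ι) T)) :
    GdD L r φ D w n θ O T := by
  induction n generalizing θ I O with
  | zero => exact Gd.of_ev hP h
  | succ n ih => exact ⟨Gd.of_ev hP h.1, fun b hb => ih (h.2 b hb)⟩

/-- A finite combination with bounded coefficients chosen from the key. -/
theorem GdD.combK {α : Type} (s : Finset α) {c : α → S.key → ℝ} {T : α → Fld S B I} {n : ℕ}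
    (hT : ∀ a ∈ s, Sm (T a))
    (hc : ∀ a ∈ s, ∀ η : ℝ, 0 < η → S.Ev fun i => |c a (S.pub i)| ≤ S.dd i ^ η)
    (h : ∀ a ∈ s, (∀ k, c a k = 0) ∨ GdD L r φ D w n θ O (T a)) :
    GdD L r φ D w n θ O (fun i p x idx => ∑ a ∈ s, c a (S.pub i) * T a i p x idx : Fld S B I) := by
  classical
  induction s using Finset.induction_on with
  | empty =>
    refine cast (congrArg (fun U => GdD L r φ D w n θ O U) ?_) (GdD.zeroT n)
    funext i p x idx
    simp [Zero.zeroT]
  | insert a s ha ih =>
    have hs := ih (fun b hb => hT b (Finset.mem_insert_of_mem hb))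
      (fun b hb => hc b (Finset.mem_insert_of_mem hb))
      fun b hb => h b (Finset.mem_insert_of_mem hb)
    have hsm : Sm (fun i p x idx => ∑ b ∈ s, c b (S.pub i) * T b i p x idx : Fld S B I) :=
      sm_iff.2 fun i p idx => PG.sum _ fun b hb =>
        ((hT b (Finset.mem_insert_of_mem hb)).pg i p idx).const_mul _
    have ha' : GdD L r φ D w n θ O (smulF (fun i => c a (S.pub i)) (T a)) := by
      rcases h a (Finset.mem_insert_self a s) with h0 | h0
      · refine cast (congrArg (fun U => GdD L r φ D w n θ O U) ?_) (GdD.zeroT n)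
        funext i p x idx
        simp [smulF, Zero.zeroT, h0]
      · exact h0.smul (hT a (Finset.mem_insert_self a s)) (hc a (Finset.mem_insert_self a s))
    refine cast (congrArg (fun U => GdD L r φ D w n θ O U) ?_)
      (GdD.add ((hT a (Finset.mem_insert_self a s)).smul _) hsm ha' hs)
    funext i p x idx
    simp [addT, smulF, Finset.sum_insert ha]

/-- A finite combination with constant coefficients. -/
theorem GdD.comb {α : Type} (s : Finset α) {c : α → ℝ} {T : α → Fld S B I} {n : ℕ}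
    (hT : ∀ a ∈ s, Sm (T a)) (h : ∀ a ∈ s, c a ≠ 0 → GdD L r φ D w n θ O (T a)) :
    GdD L r φ D w n θ O (fun i p x idx => ∑ a ∈ s, c a * T a i p x idx : Fld S B I) :=
  GdD.combK (c := fun a _ => c a) s hT (fun _ _ η hη => S.ev_le_rpow _ hη) fun a ha =>
    (em (c a = 0)).imp (fun h0 _ => h0) (h a ha)

/-- Substitution in the blocks: a new block costs at least every block that it enters. -/
theorem GdD.subB {n : ℕ} {T : Fld S B I} (hT : Sm T) (h : GdD L r φ D w n θ O T)
    {M : S.key → B → B' → ℝ}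
    (hM : ∀ k b b', ∑ c, M k b c * M k b' c = if b = b' then 1 else 0) {D' : Set B'} {v : B' → ℝ}
    (hD : ∀ c ∈ D', ∀ b, (∃ k, M k b c ≠ 0) → b ∈ D ∧ w b ≤ v c) :
    GdD L r φ D' v n θ O (subB (matB S M) T) := by
  induction n generalizing θ I O with
  | zero => exact Gd.subB h hM
  | succ n ih =>
    refine ⟨h.1.subB hM, fun c hc => ?_⟩
    rw [show dB c (Zero.subB (matB S M) T)
        = (fun i p x idx => ∑ b, M (S.pub i) b c * Zero.subB (matB S M) (dB b T) i p x idx :
          Fld S B' _) from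
      funext fun i => funext fun p => funext fun x => funext fun idx => dB_subB hT M c i p x idx]
    refine GdD.combK (c := fun b k => M k b c) Finset.univ (fun b _ => (hT.dB b).subB _)
      (fun b _ η hη => (S.ev_le_rpow 1 hη).mono fun i hi => le_trans ?_ hi) fun b _ => ?_
    · rw [← sq_le_one_iff_abs_le_one, sq]
      have h1 := hM (S.pub i) b b
      rw [if_pos rfl] at h1
      rw [← h1]
      exact Finset.single_le_sum (f := fun c => M (S.pub i) b c * M (S.pub i) b c)
        (fun c _ => mul_self_nonneg _) (Finset.mem_univ c)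
    · by_cases hb : ∀ k, M k b c = 0
      · exact .inl hb
      · push_neg at hb
        exact .inr ((ih (hT.dB b) (h.2 b (hD c hc b hb).1)).mono le_rfl
          (by linarith [(hD c hc b hb).2]) subset_rfl subset_rfl fun _ _ => le_rfl)

/-- A leg read from a new block, whose derivatives cost at least nothing. -/
theorem GdD.legB {n : ℕ} {T : Fld S B (Option I)} (hT : Sm T)
    (h : GdD L r φ D w n θ (some '' O) T) {v : Option B → ℝ} (hv : ∀ b ∈ D, w b ≤ v (some b))
    (hv0 : 0 ≤ v none) {D' : Set (Option B)} (hD : ∀ b, some b ∈ D' → b ∈ D) :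
    GdD L r φ D' v n θ O (legB T) := by
  induction n generalizing θ I O with
  | zero => exact Gd.legB h hT
  | succ n ih =>
    refine ⟨h.1.legB hT, fun c hc => ?_⟩
    rcases c with _ | b
    · rw [dB_legB_none hT]
      refine (GdD.subB hT h.of_succ (fun k b b' => ?_) fun c hc' b hb => ?_).mono le_rfl
        (by linarith) subset_rfl subset_rfl fun _ _ => le_rfl
      · simp [eq_comm]
      · obtain ⟨k, hb⟩ := hb
        have : c = some b := by by_contra hne; simp [hne] at hb
        subst this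
        exact ⟨hD b hc', hv b (hD b hc')⟩
    · rw [dB_legB_some hT]
      have h1 := (h.2 b (hD b hc)).reL (swapO I)
      rw [Set.image_image, Set.image_image] at h1
      have h2 := ih ((hT.dB b).reL _) (O := some '' O) (θ := θ - w b) (by
        rw [Set.image_image]
        exact h1)
      exact h2.mono le_rfl (by linarith [hv b (hD b hc)]) subset_rfl subset_rfl fun _ _ => le_rfl

/-- Contraction along one leg, from the product statement. -/
theorem GdD.ctL (hP : ProductThm) (hφ : L.phi (r - 1) ≤ φ) {n : ℕ} {A C : Type} [Fintype A]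
    [DecidableEq A] [Fintype C] [DecidableEq C] [Nonempty A] [Nonempty C]
    {F : Fld S B (A ⊕ Unit)} {H : Fld S B (Unit ⊕ C)} {θF θH : ℝ} {OA : Set A}
    {OH : Set (Unit ⊕ C)} (sF : Sm F) (sH : Sm H)
    (hF : GdD L r φ D w n θF (Sum.inl '' OA) F) (hH : GdD L r φ D w n θH OH H) :
    GdD L r φ D w n (θF + θH - L.phi (r - 1)) (Sum.inl '' OA) (Zero.ctL F H) := by
  induction n generalizing A C θF θH OA OH with
  | zero => exact Gd.ctL hP hφ hF hH sF sH
  | succ n ih =>
    refine ⟨Gd.ctL hP hφ hF.1 hH.1 sF sH, fun b hb => ?_⟩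
    rw [dB_ctL (fun i p idx => (sF.pg i p idx).diff) (fun i p idx => (sH.pg i p idx).diff) b]
    refine GdD.add (((sF.dB b).reL _).ctL sH |>.reL _) ((sF.ctL ((sH.dB b).reL _)).reL _) ?_ ?_
    · have h1 := (hF.2 b hb).reL (optL A Unit)
      rw [Set.image_image, Set.image_image,
        show (fun a => optL A Unit (some (Sum.inl a))) = fun a => Sum.inl (some a) from rfl,
        ← Set.image_image Sum.inl some] at h1
      have h2 := (ih ((sF.dB b).reL _) sH h1 hH.of_succ).reL (optL A C).symm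
      rw [Set.image_image, Set.image_image] at h2
      rw [Set.image_image]
      exact h2.mono le_rfl (by linarith) subset_rfl subset_rfl fun _ _ => le_rfl
    · have h2 := (ih sF ((sH.dB b).reL _) hF.of_succ ((hH.2 b hb).reL (optR Unit C))).reL
        (optR A C).symm
      rw [Set.image_image] at h2
      rw [Set.image_image]
      exact h2.mono le_rfl (by linarith) subset_rfl subset_rfl fun _ _ => le_rfl

/-- Contraction with the roots in the right factor. -/
theorem GdD.ctL' (hP : ProductThm) (hφ : L.phi (r - 1) ≤ φ) {n : ℕ} {A C : Type} [Fintype A]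
    [DecidableEq A] [Fintype C] [DecidableEq C] [Nonempty A] [Nonempty C]
    {F : Fld S B (A ⊕ Unit)} {H : Fld S B (Unit ⊕ C)} {θF θH : ℝ} {OC : Set C}
    {OF : Set (A ⊕ Unit)} (sF : Sm F) (sH : Sm H)
    (hF : GdD L r φ D w n θF OF F) (hH : GdD L r φ D w n θH (Sum.inr '' OC) H) :
    GdD L r φ D w n (θF + θH - L.phi (r - 1)) (Sum.inr '' OC) (Zero.ctL F H) := by
  rw [ctL_comm]
  have h1 := hH.reL (Equiv.sumComm Unit C)
  rw [Set.image_image,
    show (fun c => Equiv.sumComm Unit C (Sum.inr c)) = (Sum.inl : C → C ⊕ Unit) from rfl] at h1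
  have h2 := (GdD.ctL hP hφ (sH.reL _) (sF.reL _) h1 (hF.reL (Equiv.sumComm A Unit))).reL
    (Equiv.sumComm C A)
  rw [Set.image_image, add_comm θH] at h2
  exact h2

end Vale.Agent.P347.Zero
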