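import Vale.Agent.P347.Zero.AvgPart
import Vale.Agent.P347.Zero.SamMix
import Vale.Agent.P347.Zero.GdClosure

/-!
The classes of the fields that averaging produces: substitutions, contraction with the derivative
of the point, fresh blocks at some legs and the node field.
-/

noncomputable section

open MeasureTheory ProbabilityTheory
open scoped RealInnerProductSpace NNReal

namespace Vale.Agent.P347.Zero

variable {S : Sys} {Z Z' C B B' I J : Type} [Fintype Z] [DecidableEq Z] [Fintype Z'] [DecidableEq Z']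
  [Fintype C] [DecidableEq C] [Fintype B] [DecidableEq B] [Fintype B'] [DecidableEq B']
  [Fintype I] [DecidableEq I] [Fintype J] [DecidableEq J] {L : Lad} {r : ℕ} {φ : ℝ}

/-- In the class with all derivatives in the left blocks. -/
def GdA (L : Lad) (r : ℕ) (φ : ℝ) (wz : Z → ℝ) (θ : ℝ) (O : Set I) (T : Fld S (Z ⊕ C) I) : Prop :=
  ∀ n, GdD L r φ (Set.range Sum.inl) (Sum.elim wz 0) n θ O T

theorem GdA.head {wz : Z → ℝ} {θ : ℝ} {O : Set I} {T : Fld S (Z ⊕ C) I}
    (h : GdA L r φ wz θ O T) : Gd L r φ θ O T := h 0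

theorem GdA.dB {wz : Z → ℝ} {θ : ℝ} {O : Set I} {T : Fld S (Z ⊕ C) I} (h : GdA L r φ wz θ O T)
    (b : Z) : GdA L r φ wz (θ - wz b) (some '' O) (dB (.inl b) T) := fun n =>
  (h (n + 1)).2 (.inl b) ⟨b, rfl⟩

theorem GdA.mono {wz wz' : Z → ℝ} {θ θ' : ℝ} {O O' : Set I} {T : Fld S (Z ⊕ C) I}
    (h : GdA L r φ wz θ O T) (hθ : θ' ≤ θ) (hO : O' ⊆ O) (hw : ∀ b, wz b ≤ wz' b) :
    GdA L r φ wz' θ' O' T := fun n =>
  (h n).mono le_rfl hθ hO subset_rfl fun b hb => by obtain ⟨z, rfl⟩ := hb; exact hw z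

theorem GdA.bd {wz : Z → ℝ} {θ : ℝ} {O : Set I} {T : Fld S (Z ⊕ C) I} (h : GdA L r φ wz θ O T) :
    Bd θ T := h.head.1

theorem GdA.add {wz : Z → ℝ} {θ : ℝ} {O : Set I} {T T' : Fld S (Z ⊕ C) I} (hT : Sm T) (hT' : Sm T')
    (h : GdA L r φ wz θ O T) (h' : GdA L r φ wz θ O T') : GdA L r φ wz θ O (addT T T') := fun n =>
  GdD.add hT hT' (h n) (h' n)

theorem GdA.reL {wz : Z → ℝ} {θ : ℝ} {O : Set I} {T : Fld S (Z ⊕ C) I} (h : GdA L r φ wz θ O T)
    (e : I ≃ J) : GdA L r φ wz θ (e '' O) (reL e T) := fun n => (h n).reL e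

theorem GdA.zero {wz : Z → ℝ} {θ : ℝ} {O : Set I} :
    GdA L r φ wz θ O (zeroT S (Z ⊕ C) I) := fun n => GdD.zeroT n

/-- A multiple chosen by the dimension shifts the exponent. -/
theorem GdA.scale {wz : Z → ℝ} {θ : ℝ} {O : Set I} {T : Fld S (Z ⊕ C) I} (hT : Sm T)
    (h : GdA L r φ wz θ O T) {q : ℕ → ℝ} {s : ℝ}
    (hq : ∀ η : ℝ, 0 < η → S.Ev fun i => |q (S.dm i)| ≤ S.dd i ^ (η - s)) :
    GdA L r φ wz (θ + s) O (smulF (fun i => q (S.dm i)) T) := fun n =>
  GdD.scale (c := fun k => q (S.kdm k)) hT (h n) hq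

/-- The matrix of a selection of blocks. -/
def selM (S : Sys) (σ : B → B') : S.key → B → B' → ℝ := fun _ b c => if c = σ b then 1 else 0

omit [Fintype B] [DecidableEq B] in
theorem selM_orth [DecidableEq B] {σ : B → B'} (hσ : Function.Injective σ) (k : S.key) (b b' : B) :
    ∑ c, selM S σ k b c * selM S σ k b' c = if b = b' then 1 else 0 := by
  simp [selM, hσ.eq_iff, eq_comm]

omit [Fintype B] [DecidableEq B] [Fintype I] [DecidableEq I] in
theorem subB_sel (σ : B → B') (T : Fld S B I) :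
    subB (matB S (selM S σ)) T = fun i p x => T i p fun b => x (σ b) := by
  funext i p x
  refine congrArg (T i p) (funext fun b => ?_)
  simp [matB, selM, mixB_apply]

/-- A selection of blocks. -/
theorem GdD.sel {n : ℕ} {T : Fld S B I} {D : Set B} {w : B → ℝ} {θ : ℝ} {O : Set I} (hT : Sm T)
    (h : GdD L r φ D w n θ O T) {σ : B → B'} (hσ : Function.Injective σ) {D' : Set B'}
    {v : B' → ℝ} (hD : ∀ b, σ b ∈ D' → b ∈ D ∧ w b ≤ v (σ b)) :
    GdD L r φ D' v n θ O (fun i p x => T i p fun b => x (σ b) : Fld S B' I) := by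
  rw [← subB_sel]
  refine h.subB hT (selM_orth hσ) fun c hc b hb => ?_
  obtain ⟨k, hk⟩ := hb
  have : c = σ b := by
    by_contra hne
    simp [selM, hne] at hk
  subst this
  exact hD b hc

theorem Sm.sel {T : Fld S B I} (hT : Sm T) (σ : B → B') :
    Sm (fun i p x => T i p fun b => x (σ b) : Fld S B' I) := by
  rw [← subB_sel]
  exact hT.subB _

theorem GdA.leftB {wz : Z → ℝ} {θ : ℝ} {O : Set I} {T : Fld S (Z ⊕ C) I} (hT : Sm T)
    (h : GdA L r φ wz θ O T) : GdA L r φ (Sum.elim wz wz) θ O (leftB T) := fun n => by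
  have h1 := GdD.sel (D' := Set.range Sum.inl) (v := Sum.elim (Sum.elim wz wz) 0) hT (h n)
    (σ := (Sum.map Sum.inl id : Z ⊕ C → (Z ⊕ Z) ⊕ C))
    (Sum.map_injective.2 ⟨Sum.inl_injective, Function.injective_id⟩) fun b hb => by
      rcases b with z | c
      · exact ⟨⟨z, rfl⟩, le_rfl⟩
      · obtain ⟨u, hu⟩ := hb; simp at hu
  refine cast (congrArg (fun U => GdD L r φ _ _ n θ O U) ?_) h1
  funext i p x
  exact congrArg (T i p) (funext fun b => by cases b <;> rfl)

theorem GdA.liftZ {wz : Z → ℝ} {θ : ℝ} {O : Set J} {T : Fld S (Z ⊕ C) J} (hT : Sm T)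
    (h : GdA L r φ wz θ O T) : GdA L r φ (Sum.elim wz fun _ : I => 0) θ O (liftZ I T) := fun n => by
  have h1 := GdD.sel (D' := Set.range Sum.inl) (v := Sum.elim (Sum.elim wz fun _ : I => 0) 0) hT (h n)
    (σ := (Sum.map Sum.inl id : Z ⊕ C → (Z ⊕ I) ⊕ C))
    (Sum.map_injective.2 ⟨Sum.inl_injective, Function.injective_id⟩) fun b hb => by
      rcases b with z | c
      · exact ⟨⟨z, rfl⟩, le_rfl⟩
      · obtain ⟨u, hu⟩ := hb; simp at hu
  refine cast (congrArg (fun U => GdD L r φ _ _ n θ O U) ?_) h1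
  funext i p x
  exact congrArg (T i p) (funext fun b => by cases b <;> rfl)

/-! ### Contraction with the derivative of the point -/

/-- The two legs of a derivative. -/
def eTwo : Option Unit ≃ Unit ⊕ Unit where
  toFun o := o.elim (.inl ()) .inr
  invFun := Sum.elim (fun _ => none) some
  left_inv o := by cases o <;> rfl
  right_inv o := by cases o <;> rfl

omit [Fintype B] [DecidableEq B] [Fintype I] [DecidableEq I] in
theorem dotQ_eq (Γ : Fld S B (Option I)) (H : Fld S B (Option Unit)) :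
    dotQ Γ H = reL (Equiv.optionEquivSumPUnit I).symm
      (ctL (reL (Equiv.optionEquivSumPUnit I) Γ) (reL eTwo H)) := by
  funext i p x idx
  simp only [dotQ, reL, reT, ctL, ctr]
  rw [sum_unit]
  refine Finset.sum_congr rfl fun c _ => ?_
  congr 1
  · exact congrArg (Γ i p x) (funext fun o => by cases o <;> rfl)
  · exact congrArg (H i p x) (funext fun o => by cases o <;> rfl)

theorem GdD.dotQ [Nonempty I] (hP : ProductThm) (hφ : L.phi (r - 1) ≤ φ) {n : ℕ} {D : Set B}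
    {w : B → ℝ} {θF θH : ℝ} {O : Set I} {OH : Set (Option Unit)} {Γ : Fld S B (Option I)}
    {H : Fld S B (Option Unit)} (sΓ : Sm Γ) (sH : Sm H)
    (hΓ : GdD L r φ D w n θF (some '' O) Γ) (hH : GdD L r φ D w n θH OH H) :
    GdD L r φ D w n (θF + θH - L.phi (r - 1)) (some '' O) (dotQ Γ H) := by
  have e1 : Equiv.optionEquivSumPUnit I '' (some '' O) = Sum.inl '' O := by
    rw [Set.image_image]
    exact Set.image_congr fun _ _ => rfl
  have e2 : (Equiv.optionEquivSumPUnit I).symm '' (Sum.inl '' O) = some '' O := by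
    rw [Set.image_image]
    exact Set.image_congr fun _ _ => rfl
  have h1 := hΓ.reL (Equiv.optionEquivSumPUnit I)
  rw [e1] at h1
  have h2 := (GdD.ctL hP hφ (sΓ.reL _) (sH.reL _) h1 (hH.reL eTwo)).reL
    (Equiv.optionEquivSumPUnit I).symm
  rw [e2] at h2
  rw [dotQ_eq]
  exact h2

omit [Fintype B] [DecidableEq B] [Fintype I] [DecidableEq I] in
theorem dotQ_zero_left (H : Fld S B (Option Unit)) :
    dotQ (zeroT S B (Option I)) H = zeroT S B (Option I) := by
  funext i p x idx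
  simp [dotQ, zeroT]

/-! ### Fresh blocks at some legs -/

/-- Zero at the blocks that a field does not use. -/
def extM (d : ℕ) (Z C : Type) (s : Finset I) :
    ((Z ⊕ {l // l ∈ s}) ⊕ C → Space d) →L[ℝ] ((Z ⊕ I) ⊕ C → Space d) :=
  ContinuousLinearMap.pi (Sum.elim (Sum.elim
    (fun z => ContinuousLinearMap.proj (Sum.inl (Sum.inl z) : (Z ⊕ {l // l ∈ s}) ⊕ C))
    fun l => if h : l ∈ s then
      ContinuousLinearMap.proj (Sum.inl (Sum.inr ⟨l, h⟩) : (Z ⊕ {l // l ∈ s}) ⊕ C) else 0)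
    fun c => ContinuousLinearMap.proj (Sum.inr c : (Z ⊕ {l // l ∈ s}) ⊕ C))

/-- The field with fresh blocks at the legs of `s`, on these blocks alone. -/
def pct0 (Y : Fld S (Z ⊕ C) I) (s : Finset I) : Fld S ((Z ⊕ {l // l ∈ s}) ⊕ C) {l // l ∉ s} :=
  fun i p x => pctS Y s i p (extM (S.dm i) Z C s x)

/-- The blocks of a smaller set of legs among those of a larger one. -/
def subW {s t : Finset I} (h : s ⊆ t) :
    (Z ⊕ {l // l ∈ s}) ⊕ C → (Z ⊕ {l // l ∈ t}) ⊕ C :=
  Sum.map (Sum.map id fun l => ⟨l.1, h l.2⟩) id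

omit [Fintype Z] [DecidableEq Z] [Fintype Z'] [Fintype C] [DecidableEq C] in
theorem pct_local (Y : Fld S (Z ⊕ C) I) (s : Finset I) (i : S.ι) (p : Space (S.dm i))
    {x x' : (Z ⊕ I) ⊕ C → Space (S.dm i)} (hz : zOf x = zOf x')
    (hl : ∀ l ∈ s, x (.inl (.inr l)) = x' (.inl (.inr l))) :
    pctS Y s i p x = pctS Y s i p x' := by
  funext idx
  simp only [pctS, hz]
  refine Finset.sum_congr rfl fun g _ => ?_
  congr 2
  exact Finset.prod_congr rfl fun l hls => by rw [hl l hls]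

theorem sm_pct0 {Y : Fld S (Z ⊕ C) I} (hY : Sm Y) (s : Finset I) : Sm (pct0 Y s) :=
  sm_iff.2 fun i p idx => ((hY.pctS s).pg i p idx).comp_clm (extM (S.dm i) Z C s)

theorem gdD_pct0 {Y : Fld S (Z ⊕ C) I} (hY : Sm Y) {wz : Z → ℝ} {θ : ℝ} {o : I}
    (h : GdA L r φ wz θ {o} Y) :
    ∀ (s : Finset I) (ho : o ∉ s) (n : ℕ), GdD L r φ (Set.range Sum.inl)
      (Sum.elim (Sum.elim wz fun _ => 0) 0) n θ {⟨o, ho⟩} (pct0 Y s) := by
  intro s
  induction s using Finset.induction_on with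
  | empty =>
    intro ho n
    have h1 := (GdD.sel (D' := Set.range Sum.inl)
      (v := Sum.elim (Sum.elim wz fun _ : {l // l ∈ (∅ : Finset I)} => (0 : ℝ)) 0) hY (h n)
      (σ := (Sum.map Sum.inl id : Z ⊕ C → (Z ⊕ {l // l ∈ (∅ : Finset I)}) ⊕ C))
      (Sum.map_injective.2 ⟨Sum.inl_injective, Function.injective_id⟩) fun b hb => by
        rcases b with z | c
        · exact ⟨⟨z, rfl⟩, le_rfl⟩
        · obtain ⟨u, hu⟩ := hb; simp at hu).reL (eAll I)
    rw [Set.image_singleton] at h1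
    refine cast (congrArg (fun U => GdD L r φ _ _ n θ _ U) ?_) h1
    funext i p x
    rw [pct0, pct_empty]
    exact congrArg (reT (eAll I)) (congrArg (Y i p) (funext fun b => by
      cases b <;> simp [zOf, extM]))
  | insert b s hb ih =>
    intro ho n
    have hbs : b ∈ insert b s := Finset.mem_insert_self b s
    have hsub : s ⊆ insert b s := Finset.subset_insert b s
    have hos : o ∉ s := fun hh => ho (hsub hh)
    have hbo : o ≠ b := fun hh => ho (hh ▸ hbs)
    let e : {l // l ∉ s} ≃ Option {l // l ∉ insert b s} :=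
      (Equiv.subtypeEquivRight fun l => by rw [Finset.erase_insert hb]).trans (eEr hbs)
    have hroot : e '' {⟨o, hos⟩} = some '' {⟨o, ho⟩} := by
      rw [Set.image_singleton, Set.image_singleton]
      congr 1
      simp [e, eEr, hbo]
    have h1 := ((ih hos n).reL e)
    rw [hroot] at h1
    have h2 := GdD.legB ((sm_pct0 hY s).reL e) h1
      (v := fun c => c.elim 0 (Sum.elim (Sum.elim wz fun _ => 0) 0)) (fun c _ => le_rfl) le_rfl
      (D' := insert none (some '' Set.range Sum.inl)) fun c hc => by simpa using hc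
    let σ : Option ((Z ⊕ {l // l ∈ s}) ⊕ C) → (Z ⊕ {l // l ∈ insert b s}) ⊕ C :=
      fun c => c.elim (Sum.inl (Sum.inr ⟨b, hbs⟩)) (subW hsub)
    have hσ : Function.Injective σ := by
      rintro (_ | ((z | ⟨l, hl⟩) | c)) (_ | ((z' | ⟨l', hl'⟩) | c')) hh <;>
        simp [σ, subW] at hh ⊢ <;> try exact hh
      · exact hb (hh ▸ hl')
      · exact hb (hh ▸ hl)
    have h3 := GdD.sel (D' := Set.range Sum.inl)
      (v := Sum.elim (Sum.elim wz fun _ : {l // l ∈ insert b s} => (0 : ℝ)) 0)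
      ((sm_pct0 hY s).reL e).legB h2 hσ fun c hc => by
        rcases c with _ | ((z | l) | c)
        · exact ⟨Set.mem_insert _ _, le_rfl⟩
        · exact ⟨Set.mem_insert_of_mem _ ⟨_, ⟨_, rfl⟩, rfl⟩, le_rfl⟩
        · exact ⟨Set.mem_insert_of_mem _ ⟨_, ⟨_, rfl⟩, rfl⟩, le_rfl⟩
        · obtain ⟨u, hu⟩ := hc; simp [σ, subW] at hu
    refine cast (congrArg (fun U => GdD L r φ _ _ n θ _ U) ?_) h3
    funext i p x idx
    show _ = pctS Y (insert b s) i p (extM (S.dm i) Z C (insert b s) x) idx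
    rw [pct_rec Y hbs]
    simp only [legB, ctrV, pct0, reL, reT]
    refine Finset.sum_congr rfl fun c _ => ?_
    rw [mul_comm]
    congr 1
    · simp [extM, σ]
    · have key : ∀ (s' : Finset I) (hs' : s' = s) (j : {l // l ∉ s'} → Fin (S.dm i)),
          pctS Y s i p (extM (S.dm i) Z C s fun c => x (σ (some c)))
              (fun l => j ⟨l.1, hs'.symm ▸ l.2⟩)
            = pctS Y s' i p (extM (S.dm i) Z C (insert b s) x) j := by
        rintro s' rfl j
        refine congrFun (pct_local Y s' i p ?_ fun l hl => ?_) j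
        · funext c
          rcases c with z | c <;> simp [zOf, extM, σ, subW]
        · simp [extM, σ, subW, hl]
      refine Eq.trans ?_ (key _ (Finset.erase_insert hb) _)
      refine congrArg (pctS Y s i p _) (funext fun l => ?_)
      rfl

/-- Fresh blocks cost nothing. -/
theorem GdA.pct {Y : Fld S (Z ⊕ C) I} (hY : Sm Y) {wz : Z → ℝ} {θ : ℝ} {o : I}
    (h : GdA L r φ wz θ {o} Y) {s : Finset I} (ho : o ∉ s) :
    GdA L r φ (Sum.elim wz fun _ => 0) θ {⟨o, ho⟩} (pctS Y s) := fun n => by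
  have h1 := GdD.sel (D' := Set.range Sum.inl) (v := Sum.elim (Sum.elim wz fun _ : I => (0 : ℝ)) 0)
    (sm_pct0 hY s) (gdD_pct0 hY h s ho n)
    (σ := (Sum.map (Sum.map id Subtype.val) id : (Z ⊕ {l // l ∈ s}) ⊕ C → (Z ⊕ I) ⊕ C))
    (Sum.map_injective.2 ⟨Sum.map_injective.2 ⟨Function.injective_id, Subtype.val_injective⟩,
      Function.injective_id⟩) fun b hb => by
      rcases b with (z | l) | c
      · exact ⟨⟨_, rfl⟩, le_rfl⟩
      · exact ⟨⟨_, rfl⟩, le_rfl⟩
      · obtain ⟨u, hu⟩ := hb; simp at hu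
  refine cast (congrArg (fun U => GdD L r φ _ _ n θ _ U) ?_) h1
  funext i p x
  refine pct_local Y s i p ?_ fun l hl => ?_
  · funext b
    rcases b with z | c <;> simp [zOf, extM]
  · simp [extM, hl]

/-! ### The node field -/

/-- The matrix of a mixture at the node given by the key. -/
def mixM {M : ℝ} (N : NodeFam M) (Z C : Type) [DecidableEq Z] [DecidableEq C] :
    (S.par ℕ).key → Z ⊕ C → (Z ⊕ Z) ⊕ C → ℝ := fun k b c =>
  Sum.elim
    (fun z => (if c = .inl (.inl z) then nodeT N k.2 (S.kdm k.1) else 0) +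
      if c = .inl (.inr z) then Real.sqrt (1 - nodeT N k.2 (S.kdm k.1) ^ 2) else 0)
    (fun y => if c = .inr y then 1 else 0) b

omit [DecidableEq C] in
theorem mixM_sum [DecidableEq C] {M : ℝ} (N : NodeFam M) (k : (S.par ℕ).key) {d : ℕ}
    (x : (Z ⊕ Z) ⊕ C → Space d) (b : Z ⊕ C) :
    ∑ c, mixM N Z C k b c • x c = Sum.elim
      (fun z => nodeT N k.2 (S.kdm k.1) • x (.inl (.inl z)) +
        Real.sqrt (1 - nodeT N k.2 (S.kdm k.1) ^ 2) • x (.inl (.inr z)))
      (fun y => x (.inr y)) b := by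
  rcases b with z | y <;> simp [mixM, ite_smul, add_smul, Finset.sum_add_distrib]

theorem nodeT_mem {M : ℝ} (N : NodeFam M) (l n : ℕ) : nodeT N l n ∈ Set.Icc (0 : ℝ) 1 := by
  unfold nodeT
  split_ifs with h
  · exact N.mem n _
  · exact ⟨zero_le_one, le_rfl⟩

theorem mixM_orth {M : ℝ} (N : NodeFam M) (k : (S.par ℕ).key) (b b' : Z ⊕ C) :
    ∑ c, mixM N Z C k b c * mixM N Z C k b' c = if b = b' then 1 else 0 := by
  set t := nodeT N k.2 (S.kdm k.1)
  have h2 : t * t + Real.sqrt (1 - t ^ 2) * Real.sqrt (1 - t ^ 2) = 1 := by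
    have := nodeT_mem N k.2 (S.kdm k.1)
    rw [Real.mul_self_sqrt (by nlinarith [this.1, this.2])]
    ring
  rcases b with z | y <;> rcases b' with z' | y' <;>
    simp [mixM, Fintype.sum_sum_type, eq_comm]
  split_ifs with h
  · exact h2.symm
  · simp

/-- The node field. -/
theorem GdA.node [Nonempty I] (hP : ProductThm) (hφ : L.phi (r - 1) ≤ φ) {M : ℝ} (N : NodeFam M)
    {Y : Fld S (Z ⊕ C) I} {Q : Fld S (Z ⊕ C) Unit} (hY : Sm Y) {wz : Z → ℝ} {O : Set I}
    {e : Z → ℝ} (eY : ∀ b, GdA L r φ wz (e b) (some '' O) (Zero.dB (.inl b) Y))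
    {a : Z → ℕ → ℝ} {s : Z → ℝ}
    (ha : ∀ b, ∀ η : ℝ, 0 < η → S.Ev fun i => |a b (S.dm i)| ≤ S.dd i ^ (η - s b))
    {H : Z → Fld S (Z ⊕ C) (Option Unit)} (sH : ∀ b, Sm (H b)) {h : ℝ}
    (hH : ∀ b, ∃ OH : Set (Option Unit), GdA L r φ wz h OH (H b))
    (hQ : ∀ b, Zero.dB (.inl b) Q
      = addT (smulF (fun i => a b (S.dm i)) (idT S (Z ⊕ C))) (H b))
    {θ : ℝ} (h1 : ∀ b, θ ≤ e b + h - L.phi (r - 1))
    (h2 : ∀ b, (∀ n, a b n = 0) ∨ Zero.dB (.inl b) Y = zeroT S (Z ⊕ C) (Option I) ∨ θ ≤ e b + s b) :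
    GdA L r φ (Sum.elim wz wz) θ (some '' O) (nodeFld N Y Q) := by
  intro n
  let DY : Z → Fld S (Z ⊕ C) (Option I) := fun b => Zero.dB (.inl b) Y
  let mx : Z → Fld (S.par ℕ) ((Z ⊕ Z) ⊕ C) (Option I) := fun b =>
    subB (matB (S.par ℕ) (mixM N Z C)) (parF ℕ (DY b))
  let A : Z → Fld (S.par ℕ) ((Z ⊕ Z) ⊕ C) (Option I) := fun b =>
    smulF (fun x => a b ((S.par ℕ).dm x)) (mx b)
  let Bf : Z → Fld (S.par ℕ) ((Z ⊕ Z) ⊕ C) (Option I) := fun b =>
    Zero.dotQ (mx b) (Zero.leftB (parF ℕ (H b)))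
  have sDY : ∀ b, Sm (parF ℕ (DY b)) := fun b => (hY.dB _).par ℕ
  have smx : ∀ b, Sm (mx b) := fun b => (sDY b).subB _
  have sA : ∀ b, Sm (A b) := fun b => (smx b).smul _
  have sB : ∀ b, Sm (Bf b) := fun b => (smx b).dotQ ((sH b).par ℕ).leftB
  have gmx : ∀ b, GdD L r φ (Set.range Sum.inl) (Sum.elim (Sum.elim wz wz) 0) n (e b) (some '' O)
      (mx b) := fun b => by
    refine GdD.subB (sDY b) ((eY b n).par ℕ) (mixM_orth N) fun c hc b' hb' => ?_
    obtain ⟨k, hk⟩ := hb'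
    obtain ⟨u, rfl⟩ := hc
    rcases b' with z | y
    · refine ⟨⟨z, rfl⟩, ?_⟩
      rcases u with z' | z' <;> simp [mixM] at hk <;> simp [hk.1]
    · simp [mixM] at hk
  have gA : ∀ b, (∀ n, a b n = 0) ∨ Zero.dB (.inl b) Y = zeroT S (Z ⊕ C) (Option I) ∨ θ ≤ e b + s b →
      GdD L r φ (Set.range Sum.inl) (Sum.elim (Sum.elim wz wz) 0) n θ (some '' O) (A b) := by
    intro b hb
    rcases hb with h0 | h0 | h0
    · refine cast (congrArg (fun U => GdD L r φ _ _ n θ _ U) ?_) (GdD.zeroT n)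
      funext x p z idx
      simp [A, smulF, zeroT, h0]
    · refine cast (congrArg (fun U => GdD L r φ _ _ n θ _ U) ?_) (GdD.zeroT n)
      funext x p z idx
      simp [A, mx, DY, h0, smulF, zeroT, subB, parF]
      exact (mul_zero _).symm
    · exact (GdD.scale (S := S.par ℕ) (c := fun k => a b (S.kdm k.1)) (smx b) (gmx b)
        fun η hη => (ha b η hη).lift).mono le_rfl h0 subset_rfl subset_rfl fun _ _ => le_rfl
  have gB : ∀ b, GdD L r φ (Set.range Sum.inl) (Sum.elim (Sum.elim wz wz) 0) n θ (some '' O)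
      (Bf b) := fun b => by
    obtain ⟨OH, hH'⟩ := hH b
    exact (GdD.dotQ hP hφ (smx b) ((sH b).par ℕ).leftB (gmx b)
      ((show GdA L r φ wz h OH (parF ℕ (H b)) from fun n => (hH' n).par ℕ).leftB ((sH b).par ℕ) n)).mono
        le_rfl (h1 b) subset_rfl subset_rfl fun _ _ => le_rfl
  have gT := GdD.comb (L := L) (r := r) (φ := φ) (D := Set.range Sum.inl)
    (w := Sum.elim (Sum.elim wz wz) 0) (n := n) (θ := θ) (O := some '' O)
    (Finset.univ : Finset Z) (c := fun _ => (1 : ℝ)) (T := fun b => addT (A b) (Bf b))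
    (fun b _ => (sA b).add (sB b)) fun b _ _ => GdD.add (sA b) (sB b) (gA b (h2 b)) (gB b)
  have sT : Sm (fun x p z idx => ∑ b : Z, (1 : ℝ) * addT (A b) (Bf b) x p z idx :
      Fld (S.par ℕ) ((Z ⊕ Z) ⊕ C) (Option I)) :=
    sm_iff.2 fun x p idx => PG.sum _ fun b _ => (((sA b).add (sB b)).pg x p idx).const_mul _
  refine cast (congrArg (fun U => GdD L r φ _ _ n θ _ U) ?_) (gT.sum sT
    (N := fun k => N.m (S.kdm k))
    (u := fun k l => if hl : l < N.m (S.kdm k) then (N.N (S.kdm k)).w ⟨l, hl⟩ else 0)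
    (fun η hη => ?_) fun η hη => ?_)
  · funext i p x idx
    rw [sumF_apply, ← Fin.sum_univ_eq_sum_range (fun l =>
      (if hl : l < N.m (S.dm i) then (N.N (S.dm i)).w ⟨l, hl⟩ else 0) *
        ∑ b : Z, (1 : ℝ) * addT (A b) (Bf b) (i, l) p x idx)]
    refine Finset.sum_congr rfl fun l _ => ?_
    rw [dif_pos l.2]
    congr 1
    refine Finset.sum_congr rfl fun b _ => ?_
    have emx : mx b (i, (l : ℕ)) p x = mixF (nodeT N l) (DY b) i p x := by
      refine congrArg (DY b i p) (funext fun c => ?_)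
      rcases c with z | y
      · exact (mixB_apply _ _ _).trans ((mixM_sum N _ x _).trans rfl)
      · exact (mixB_apply _ _ _).trans ((mixM_sum N _ x _).trans rfl)
    have eH : Zero.leftB (Zero.dB (Sum.inl b) Q)
        = addT (smulF (fun i => a b (S.dm i)) (idT S ((Z ⊕ Z) ⊕ C))) (Zero.leftB (H b)) := by
      rw [hQ b]
      rfl
    rw [eH, dotQ_add, dotQ_smul, dotQ_idT, one_mul]
    show a b (S.dm i) * mx b (i, (l : ℕ)) p x idx + ∑ c,
      mx b (i, (l : ℕ)) p x (fun o => o.elim c fun j => idx (some j)) *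
        Zero.leftB (H b) i p x (fun o => o.elim c fun _ => idx none) = _
    rw [emx]
    rfl
  · obtain ⟨d₀, hd⟩ := N.few η hη
    exact ⟨d₀, fun i hi => hd _ hi⟩
  · obtain ⟨d₀, hd⟩ := N.small η hη
    refine ⟨d₀, fun i hi => le_trans (le_of_eq ?_) (hd _ hi)⟩
    rw [← Fin.sum_univ_eq_sum_range (fun l =>
      |if hl : l < N.m (S.dm i) then (N.N (S.dm i)).w ⟨l, hl⟩ else 0|)]
    exact Finset.sum_congr rfl fun l _ => by rw [dif_pos l.2]

end Vale.Agent.P347.Zero
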