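import Vale.Agent.P347.Zero.AvgAbs
import Vale.Agent.P347.Zero.AvgTerm

/-!
Cancellation: at a point whose derivatives are small the pairing of a field expands into pairings
with averages, and a pairing at the origin is absorbed by the part of its field, up to pairings
with a larger net exponent.
-/

noncomputable section

open MeasureTheory ProbabilityTheory Function
open scoped RealInnerProductSpace NNReal

namespace Vale.Agent.P347.Zero

variable {S : Sys} {Z C B B' I : Type} [Fintype Z] [DecidableEq Z] [Fintype C] [DecidableEq C]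
  [Fintype B] [DecidableEq B] [Fintype B'] [DecidableEq B'] [Fintype I] [DecidableEq I]
  {Cst : ℕ → ℝ} {L : Lad} {r : ℕ} {Φ σ : ℝ}

/-! ### Derivatives of substituted fields -/

theorem dB_sel {σ : B → B'} (hσ : Injective σ) {T : Fld S B I} (hT : Sm T) (b : B) :
    dB (σ b) (fun i p x => T i p fun a => x (σ a) : Fld S B' I)
      = fun i p x => dB b T i p fun a => x (σ a) := by
  rw [← subB_sel, ← subB_sel]
  funext i p x idx
  rw [dB_subB hT]
  simp [selM, hσ.eq_iff]

theorem dB_sel_zero {σ : B → B'} {T : Fld S B I} (hT : Sm T) {c : B'} (hc : ∀ b, c ≠ σ b) :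
    dB c (fun i p x => T i p fun a => x (σ a) : Fld S B' I) = zeroT S B' (Option I) := by
  rw [← subB_sel]
  funext i p x idx
  rw [dB_subB hT]
  simp [selM, hc, zeroT]

theorem dB_indep {T : Fld S B I} (hT : Sm T) {b : B}
    (h : ∀ i p (x : B → Space (S.dm i)) v, T i p (x + Pi.single b v) = T i p x) :
    dB b T = zeroT S B (Option I) := by
  funext i p x idx
  show fderiv ℝ (fun y => T i p y fun j => idx (some j)) x (Pi.single b (ev (idx none))) = 0
  rw [← ((hT.pg i p _).diff x).lineDeriv_eq_fderiv, lineDeriv]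
  simp only [← Pi.single_smul, h, deriv_const']

omit [Fintype Z] [DecidableEq Z] [Fintype C] [DecidableEq C] [Fintype I] [DecidableEq I] in
theorem leftB_sel (T : Fld S (Z ⊕ C) I) :
    leftB T = fun i p x => T i p fun a => x (Sum.map Sum.inl id a) := by
  funext i p x
  exact congrArg (T i p) (funext fun a => by cases a <;> rfl)

omit [Fintype Z] [DecidableEq Z] [Fintype C] [DecidableEq C] [Fintype I] [DecidableEq I] in
theorem liftZ_sel {J : Type} (T : Fld S (Z ⊕ C) J) :
    liftZ I T = fun i p x => T i p fun a => x (Sum.map Sum.inl id a) := by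
  funext i p x
  exact congrArg (T i p) (funext fun a => by cases a <;> rfl)

omit [Fintype Z] [DecidableEq Z] [Fintype C] [DecidableEq C] [Fintype B] [DecidableEq B] in
theorem inj_inl : Injective (Sum.map Sum.inl id : Z ⊕ C → (Z ⊕ B) ⊕ C) :=
  Sum.map_injective.2 ⟨Sum.inl_injective, Function.injective_id⟩

theorem dB_leftB_l {T : Fld S (Z ⊕ C) I} (hT : Sm T) (z : Z) :
    dB (Sum.inl (Sum.inl z)) (leftB T) = leftB (dB (Sum.inl z) T) := by
  rw [leftB_sel, leftB_sel]
  exact dB_sel inj_inl hT (Sum.inl z)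

theorem dB_leftB_r {T : Fld S (Z ⊕ C) I} (hT : Sm T) (z : Z) :
    dB (Sum.inl (Sum.inr z)) (leftB T) = zeroT S ((Z ⊕ Z) ⊕ C) (Option I) := by
  rw [leftB_sel]
  exact dB_sel_zero hT fun b => by cases b <;> simp

theorem dB_liftZ_r {J : Type} [Fintype J] [DecidableEq J] {T : Fld S (Z ⊕ C) J} (hT : Sm T)
    (l : I) : dB (Sum.inl (Sum.inr l)) (liftZ I T) = zeroT S ((Z ⊕ I) ⊕ C) (Option J) := by
  rw [liftZ_sel]
  exact dB_sel_zero hT fun b => by cases b <;> simp

/-! ### The identity -/

theorem matB_match {α β : Type} [Fintype α] [Fintype β] {n : ℕ} (f : α ≃ Fin n) (g : β ≃ Fin n) :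
    MatB 1 fun a b => if f a = g b then (1 : ℝ) else 0 := by
  refine ⟨zero_le_one, fun x y => ?_⟩
  have e : ∀ a, ∑ b, (if f a = g b then (1 : ℝ) else 0) * x a * y b = x a * y (g.symm (f a)) := by
    intro a
    rw [Finset.sum_eq_single (g.symm (f a))]
    · simp
    · intro b _ hb
      rw [if_neg fun h => hb (by rw [h, Equiv.symm_apply_apply]), zero_mul, zero_mul]
    · simp
  simp only [e]
  rw [one_mul]
  refine (abs_sum_mul_le _ _).trans_eq ?_
  rw [← Equiv.sum_comp (f.trans g.symm) fun b => y b ^ 2]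
  rfl

omit [Fintype B] [DecidableEq B] in
theorem splitB_idT (i : S.ι) (p : Space (S.dm i)) (x : B → Space (S.dm i)) :
    SplitB 1 (idT S B i p x) := by
  intro A A' _ _ _ _ _ _ e
  have hc : Fintype.card A + Fintype.card A' = 2 := by simpa using Fintype.card_congr e
  have h0 := Fintype.card_pos (α := A)
  have h0' := Fintype.card_pos (α := A')
  have : Subsingleton A := Fintype.card_le_one_iff_subsingleton.1 (by omega)
  have : Subsingleton A' := Fintype.card_le_one_iff_subsingleton.1 (by omega)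
  have : Unique A := uniqueOfSubsingleton (Classical.arbitrary A)
  have : Unique A' := uniqueOfSubsingleton (Classical.arbitrary A')
  refine cast (congrArg (MatB 1) (funext fun u => funext fun v => ?_))
    (matB_match (Equiv.funUnique A (Fin (S.dm i))) (Equiv.funUnique A' (Fin (S.dm i))))
  have hne : e.symm none ≠ e.symm (some ()) := e.symm.injective.ne (by simp)
  rcases h1 : e.symm none with a | a <;> rcases h2 : e.symm (some ()) with a' | a'
  · exact absurd (by rw [h1, h2, Subsingleton.elim a a']) hne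
  · simp [idT, glue, h1, h2, Subsingleton.elim a default, Subsingleton.elim a' default]
  · simp [idT, glue, h1, h2, Subsingleton.elim a default, Subsingleton.elim a' default, eq_comm]
  · exact absurd (by rw [h1, h2, Subsingleton.elim a a']) hne

omit [DecidableEq B] in
theorem bd_idT : Bd 0 (idT S B) := fun η hη m => S.ev_one_le.mono fun i hd p => by
  refine ⟨fun _ => 1, measurable_const, fun x => ⟨zero_le_one, splitB_idT i p x⟩,
    integrable_const _, ?_⟩
  rw [integral_const, probReal_univ, one_smul, one_pow]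
  exact one_le_pow₀ (Real.one_le_rpow hd (by linarith))

/-! ### A large exponent -/

/-- A bounded field of exponent above the accuracy pairs negligibly at every point. -/
theorem sml_big [Nontrivial I] (hC : ∀ j, 0 ≤ Cst j) {Y : Fld S (Z ⊕ C) I}
    {Q : Fld S (Z ⊕ C) Unit} (hY : Sm Y) {κ e : ℝ} (h : Bd e Y) (he : κ + 1 ≤ e) :
    Sml Cst κ (pairF Y Q) := fun η hη => by
  refine (((h (η / 2) (half_pos hη) 1).and S.ev_one_le).and
    (S.ev_le_rpow (Cst (Fintype.card I)) (half_pos hη))).mono fun i ⟨⟨hi, hd⟩, hc⟩ p => ?_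
  obtain ⟨f, hf, hs, hint, hb⟩ := hi p
  simp only [pow_one] at hint hb
  obtain ⟨o⟩ := (inferInstance : Nonempty I)
  obtain ⟨o', ho'⟩ := exists_ne o
  have : Nonempty {l : I // l ≠ o} := ⟨⟨o', ho'⟩⟩
  set F := fun x => Real.sqrt (hsT (Y i p x))
  have hsq : ∀ x, F x ≤ Real.sqrt (S.dd i) * f x := fun x => by
    rw [← Real.sqrt_sq (hs x).1, ← Real.sqrt_mul (by linarith)]
    refine Real.sqrt_le_sqrt ((hsT_le_of_split (hs x).2 (soloEquiv o)).trans_eq ?_)
    simp
  have hFc : Continuous F := Real.continuous_sqrt.comp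
    (continuous_finsetSum _ fun idx _ => ((hY.pg i p idx).cont).pow 2)
  have hFi : Integrable F (gp (Z ⊕ C) (S.dm i)) :=
    (hint.const_mul _).mono' hFc.aestronglyMeasurable (ae_of_all _ fun x => by
      rw [Real.norm_of_nonneg (Real.sqrt_nonneg _)]
      exact hsq x)
  obtain ⟨ha, hab⟩ := avg_left (f := F) hFi
  refine ⟨fun y => Cst (Fintype.card I) * ∫ z, F (Sum.elim z y) ∂gp Z (S.dm i), ha.const_mul _,
    ?_, fun y V hV => ?_⟩
  · rw [integral_const_mul, hab]
    refine (mul_le_mul hc ((integral_mono hFi (hint.const_mul _) hsq).trans_eq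
      (integral_const_mul _ _)) (integral_nonneg fun x => Real.sqrt_nonneg _)
      (Real.rpow_nonneg (by linarith) _)).trans ?_
    refine (mul_le_mul_of_nonneg_left (mul_le_mul_of_nonneg_left hb (Real.sqrt_nonneg _))
      (Real.rpow_nonneg (by linarith) _)).trans ?_
    rw [Real.sqrt_eq_rpow, ← Real.rpow_add (by linarith), ← Real.rpow_add (by linarith)]
    exact (Real.rpow_le_rpow_of_exponent_le hd (by linarith)).trans
      (le_mul_of_one_le_right (Real.rpow_nonneg (by linarith) _) (S.one_le_wt i p))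
  · have hi' : Integrable (fun z => F (Sum.elim z y)) (gp Z (S.dm i)) := by
      refine ((integrable_const (1 : ℝ)).add (integrable_finsetSum Finset.univ fun idx _ =>
        pg_int ((hY.pgL i p y idx).mul (hY.pgL i p y idx)))).mono'
        (hFc.comp (continuous_elim y)).aestronglyMeasurable (ae_of_all _ fun z => ?_)
      rw [Real.norm_of_nonneg (Real.sqrt_nonneg _)]
      simp only [Pi.add_apply, hsT, sq]
      set s := ∑ idx, Y i p (Sum.elim z y) idx * Y i p (Sum.elim z y) idx
      have hs0 : 0 ≤ s := Finset.sum_nonneg fun _ _ => mul_self_nonneg _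
      nlinarith [Real.sq_sqrt hs0, sq_nonneg (Real.sqrt s - 1), Real.sqrt_nonneg s]
    beta_reduce
    rw [← Real.norm_eq_abs, ← integral_const_mul]
    exact norm_integral_le_of_norm_le (hi'.const_mul _) (ae_of_all _ fun z =>
      (Real.norm_eq_abs _).trans_le (pairT_bound hC hV _ _))

/-! ### Points -/

/-- The derivatives of a point: small multiples of the identity in blocks of no cost, plus fields
of the class. -/
def PtS (L : Lad) (r : ℕ) (Φ : ℝ) (wz : Z → ℝ) (Q : Fld S (Z ⊕ C) Unit) : Prop :=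
  ∃ (a : Z → ℕ → ℝ) (H : Z → Fld S (Z ⊕ C) (Option Unit)) (h : ℝ),
    L.phi r + 2 * L.w ≤ h ∧ (∀ b, Sm (H b)) ∧
      (∀ b, ∃ OH : Set (Option Unit), GdA L (r + 1) Φ wz h OH (H b)) ∧
      (∀ b, ∀ η : ℝ, 0 < η → S.Ev fun i => |a b (S.dm i)| ≤ S.dd i ^ (η - L.w)) ∧
      (∀ b, (∀ n, a b n = 0) ∨ wz b = 0) ∧
      ∀ b, dB (Sum.inl b) Q = addT (smulF (fun i => a b (S.dm i)) (idT S (Z ⊕ C))) (H b)

theorem PtS.leftB {wz : Z → ℝ} {Q : Fld S (Z ⊕ C) Unit} (h : PtS L r Φ wz Q) (hQ : Sm Q) :
    PtS L r Φ (Sum.elim wz wz) (leftB Q) := by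
  obtain ⟨a, H, h, hh, sH, gH, ha, hz, hd⟩ := h
  refine ⟨Sum.elim a fun _ _ => 0,
    Sum.elim (fun z => Zero.leftB (H z)) fun _ => zeroT S _ _, h, hh, ?_, ?_, ?_, ?_, ?_⟩
  · rintro (z | z)
    · exact (sH z).leftB
    · exact sm_zeroT
  · rintro (z | z)
    · obtain ⟨O, hO⟩ := gH z
      exact ⟨O, hO.leftB (sH z)⟩
    · exact ⟨∅, GdA.zero⟩
  · rintro (z | z) η hη
    · exact ha z η hη
    · exact S.ev_one_le.mono fun i hd' => by
        simpa using Real.rpow_nonneg (show (0 : ℝ) ≤ S.dd i by linarith) _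
  · rintro (z | z)
    · exact (hz z).imp (fun h0 => h0) fun h0 => h0
    · exact Or.inl fun _ => rfl
  · rintro (z | z)
    · rw [dB_leftB_l hQ, hd z]
      rfl
    · rw [dB_leftB_r hQ]
      funext i p x idx
      simp [addT, smulF, zeroT]

theorem PtS.bd {wz : Z → ℝ} {Q : Fld S (Z ⊕ C) Unit} (h : PtS L r Φ wz Q) (b : Z) :
    Bd 0 (dB (Sum.inl b) Q) := by
  obtain ⟨a, H, h, hh, -, gH, ha, -, hd⟩ := h
  obtain ⟨O, hO⟩ := gH b
  rw [hd b]
  exact ((bd_idT.scale (s := L.w) (ha b)).mono (by linarith [L.w_pos])).add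
    (hO.bd.mono (by linarith [L.phi_pos r, L.w_pos]))

/-! ### Expansion -/

/-- Cancellation at the origin within `n` gains of the accuracy. -/
def Cancel (S : Sys) (C : Type) [Fintype C] [DecidableEq C] (L : Lad) (r : ℕ) (Φ σ : ℝ)
    (Cst : ℕ → ℝ) (n : ℕ) : Prop :=
  ∀ (Z I : Type) [Fintype Z] [DecidableEq Z] [Fintype I] [DecidableEq I] [Nontrivial I]
    (Y : Fld S (Z ⊕ C) I) (o : I) (wz : Z → ℝ) (e : ℝ), Sm Y → (∀ b, wz b ≤ L.w) →
    GdA L (r + 1) Φ wz e {o} Y → Φ < e - ((Fintype.card I : ℝ) - 1) * L.w →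
    σ ≤ e - ((Fintype.card I : ℝ) - 1) * L.w →
    L.kap (r + 1) + 1 ≤ e - ((Fintype.card I : ℝ) - 1) * L.w + n * (4 * L.w) →
    Abs Cst (L.kap (r + 1)) σ L.w (zeroP S Z C) (pairF Y (zeroP S Z C))

omit [DecidableEq I] in
theorem one_le_legs [Nontrivial I] : (1 : ℝ) ≤ (Fintype.card I : ℝ) - 1 := by
  have h : (2 : ℝ) ≤ Fintype.card I := by exact_mod_cast Fintype.one_lt_card (α := I)
  linarith

theorem expand_aux (hP : ProductThm) (hΦ : L.phi r + 8 * L.w ≤ Φ) {M : ℝ} (N : NodeFam M)
    (hM : L.kap (r + 1) + 1 ≤ M) (hC : ∀ j, 0 ≤ Cst j) {n : ℕ}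
    (hn : Cancel S C L r Φ σ Cst n) :
    ∀ (m : ℕ) (Z I : Type) [Fintype Z] [DecidableEq Z] [Fintype I] [DecidableEq I] [Nontrivial I]
      (Y : Fld S (Z ⊕ C) I) (Q : Fld S (Z ⊕ C) Unit) (o : I) (wz : Z → ℝ) (e : ℝ), Sm Y → Sm Q →
      (∀ b, wz b ≤ L.w) → GdA L (r + 1) Φ wz e {o} Y → PtS L r Φ wz Q →
      Φ < e - ((Fintype.card I : ℝ) - 1) * L.w →
      σ ≤ e - ((Fintype.card I : ℝ) - 1) * L.w →
      L.kap (r + 1) + 1 ≤ e - ((Fintype.card I : ℝ) - 1) * L.w + n * (4 * L.w) →
      L.kap (r + 1) + 1 ≤ e + m * L.w →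
      Abs Cst (L.kap (r + 1)) σ L.w Q (pairF Y Q) := by
  intro m
  induction m with
  | zero =>
    intro Z I _ _ _ _ _ Y Q o wz e sY sQ hw hg hQ h1 h2 h3 h4
    exact Abs.of_sml (sml_big hC sY hg.bd (by simpa using h4))
  | succ m ih =>
    intro Z I _ _ _ _ _ Y Q o wz e sY sQ hw hg hQ h1 h2 h3 h4
    have hQ' := hQ
    obtain ⟨a, H, h, hh, sH, gH, ha, hz, hd⟩ := hQ
    have hk := one_le_legs (I := I)
    have hw0 := L.w_pos
    have hρ := L.phi_pos r
    have hlegs := mul_le_mul_of_nonneg_right hk hw0.le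
    have hne := GdA.node (L := L) (r := r + 1) hP (by simp only [Nat.add_sub_cancel]; linarith) N sY
      (e := fun b => e - wz b) (fun b => hg.dB b) (s := fun _ => L.w) ha sH gH hd (θ := e + L.w)
      (fun b => by simp only [Nat.add_sub_cancel]; linarith [hw b])
      (fun b => (hz b).imp (fun h0 => h0) fun h0 => Or.inr (by simp only [h0]; linarith))
    rw [Set.image_singleton] at hne
    have hcard : (Fintype.card (Option I) : ℝ) - 1 = Fintype.card I := by simp
    have hB := ih (Z ⊕ Z) (Option I) (nodeFld N Y Q) (leftB Q) (some o) (Sum.elim wz wz) (e + L.w)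
      (Sm.nodeFld N sY sQ) sQ.leftB (by rintro (z | z) <;> exact hw z) hne (hQ'.leftB sQ)
      (by rw [hcard]; linarith) (by rw [hcard]; linarith) (by rw [hcard]; linarith)
      (by push_cast at h4; linarith)
    have hA := (hn Z I Y o wz e sY hw hg h1 h2 h3).zeroQ hC sQ
    refine (hA.add hC sQ (hB.change fun i p y V hV => (avgF_leftB sQ hC hV).symm)).congr hC ?_
    exact (step_sml N hC hM sY sQ (fun b => (hg.dB b).bd.mono (by linarith [hw b]))
      hQ'.bd).congr fun i p y V _ => by ring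

/-- Expansion at a point. -/
theorem expand (hP : ProductThm) (hΦ : L.phi r + 8 * L.w ≤ Φ) {M : ℝ} (N : NodeFam M)
    (hM : L.kap (r + 1) + 1 ≤ M) (hC : ∀ j, 0 ≤ Cst j) {n : ℕ}
    (hn : Cancel S C L r Φ σ Cst n) [Nontrivial I] {Y : Fld S (Z ⊕ C) I}
    {Q : Fld S (Z ⊕ C) Unit} {o : I} {wz : Z → ℝ} {e : ℝ} (sY : Sm Y) (sQ : Sm Q)
    (hw : ∀ b, wz b ≤ L.w) (hg : GdA L (r + 1) Φ wz e {o} Y) (hQ : PtS L r Φ wz Q)
    (h1 : Φ < e - ((Fintype.card I : ℝ) - 1) * L.w)
    (h2 : σ ≤ e - ((Fintype.card I : ℝ) - 1) * L.w)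
    (h3 : L.kap (r + 1) + 1 ≤ e - ((Fintype.card I : ℝ) - 1) * L.w + n * (4 * L.w)) :
    Abs Cst (L.kap (r + 1)) σ L.w Q (pairF Y Q) := by
  obtain ⟨m, hm⟩ := exists_nat_ge ((L.kap (r + 1) + 1 - e) / L.w)
  rw [div_le_iff₀ L.w_pos] at hm
  exact expand_aux hP hΦ N hM hC hn m Z I Y Q o wz e sY sQ hw hg hQ h1 h2 h3 (by linarith)

/-! ### Cancellation -/

theorem cancel (hP : ProductThm) (hΦ : L.phi r + 8 * L.w ≤ Φ) {M : ℝ} (N : NodeFam M)
    (hM : L.kap (r + 1) + 1 ≤ M) (hC : ∀ j, 0 ≤ Cst j) :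
    ∀ n, Cancel S C L r Φ σ Cst n := by
  intro n
  induction n with
  | zero =>
    intro Z I _ _ _ _ _ Y o wz e sY hw hg h1 h2 h3
    have hlegs := mul_le_mul_of_nonneg_right (one_le_legs (I := I)) L.w_pos.le
    exact Abs.of_sml (sml_big hC sY hg.bd (by push_cast at h3; linarith [L.w_pos]))
  | succ n ihn =>
    intro Z I _ _ _ _ _ Y o wz e sY hw hg h1 h2 h3
    obtain ⟨k, hk⟩ : ∃ k, Fintype.card I = k + 2 :=
      ⟨Fintype.card I - 2, by have := Fintype.one_lt_card (α := I); omega⟩
    have hw0 := L.w_pos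
    have hρ := L.phi_pos r
    have hcast : (Fintype.card I : ℝ) = k + 2 := by exact_mod_cast hk
    have hcard : (Fintype.card I : ℝ) - 1 = k + 1 := by linarith
    rw [hcard] at h1 h2 h3
    push_cast at h3
    set f := e - ((k : ℝ) + 1) * L.w with hf
    have hkw : 0 ≤ ((k : ℝ) + 1) * L.w := by positivity
    let c : ℕ → ℝ := fun d => (max (d : ℝ) 1) ^ (-L.w)
    let b : ℕ → ℝ := fun d => -((((k : ℝ) + 2) * c d ^ (k + 1))⁻¹)
    let v₀ : ℕ → ℝ := fun d => ((Fintype.card I : ℝ) - 1) * c d ^ 2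
    have hc0 : ∀ d, 0 < c d := fun d => Real.rpow_pos_of_pos (lt_max_of_lt_right one_pos) _
    have hc1 : ∀ d, |c d| ≤ 1 := fun d => by
      rw [abs_of_pos (hc0 d)]
      exact Real.rpow_le_one_of_one_le_of_nonpos (le_max_right _ _) (by linarith)
    have hcd : ∀ d : ℕ, 1 ≤ d → c d = (d : ℝ) ^ (-L.w) := fun d hd => by
      simp only [c, max_eq_left (show (1 : ℝ) ≤ d by exact_mod_cast hd)]
    have hbb : ∀ η : ℝ, 0 < η → ∀ d : ℕ, 1 ≤ d →
        |b d| ≤ (d : ℝ) ^ (((k : ℝ) + 1) * L.w + η) := fun η hη d hd => by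
      have hd' : (1 : ℝ) ≤ d := by exact_mod_cast hd
      have hp : 0 < c d ^ (k + 1) := pow_pos (hc0 d) _
      simp only [b, abs_neg, abs_of_pos (inv_pos.2 (mul_pos (show (0 : ℝ) < (k : ℝ) + 2 by
        positivity) hp))]
      refine (inv_anti₀ hp (le_mul_of_one_le_left hp.le
        (by linarith [Nat.cast_nonneg (α := ℝ) k]))).trans ?_
      rw [hcd d hd, ← Real.rpow_natCast, ← Real.rpow_mul (by linarith),
        ← Real.rpow_neg (by linarith)]
      exact Real.rpow_le_rpow_of_exponent_le hd' (by push_cast; linarith)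
    have hcE : ∀ η : ℝ, 0 < η → S.Ev fun i => |c (S.dm i)| ≤ S.dd i ^ (η - L.w) := fun η hη =>
      S.ev_one_le.mono fun i hd => by
        rw [abs_of_pos (hc0 _), hcd _ (by exact_mod_cast hd)]
        exact Real.rpow_le_rpow_of_exponent_le hd (by linarith)
    have hbE : ∀ η : ℝ, 0 < η →
        S.Ev fun i => |b (S.dm i)| ≤ S.dd i ^ (η - -(((k : ℝ) + 1) * L.w)) := fun η hη =>
      S.ev_one_le.mono fun i hd => (hbb η hη _ (by exact_mod_cast hd)).trans_eq (by ring_nf)
    set s₀ := (Finset.univ : Finset I).erase o with hs₀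
    have ho₀ : o ∉ s₀ := Finset.notMem_erase o _
    set wz' : Z ⊕ I → ℝ := Sum.elim wz fun _ => 0 with hwz'
    have hw' : ∀ β, wz' β ≤ L.w := by rintro (z | l) <;> simp [hwz', hw, hw0.le]
    set P₀ := partP o c b Y with hP₀
    have sP₀ : Sm P₀ := sY.partP o c b
    have sV : Sm (pctV o Y) := (sY.pctS _).reL _
    have gV : GdA L (r + 1) Φ wz' e (eOut o '' {⟨o, ho₀⟩}) (pctV o Y) :=
      (hg.pct sY ho₀).reL (eOut o)
    let H : Z ⊕ I → Fld S ((Z ⊕ I) ⊕ C) (Option Unit) := fun β =>
      smulF (fun i => b (S.dm i)) (dB (Sum.inl β) (pctV o Y))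
    have sH : ∀ β, Sm (H β) := fun β => (sV.dB _).smul _
    have gH : ∀ β, GdA L (r + 1) Φ wz' (e - wz' β + -(((k : ℝ) + 1) * L.w))
        (some '' (eOut o '' {⟨o, ho₀⟩})) (H β) := fun β => (gV.dB β).scale (sV.dB _) hbE
    let a : Z ⊕ I → ℕ → ℝ := fun β d =>
      β.elim (fun _ => 0) fun l => if l = o then 0 else c d
    have hlin : ∀ β, (∀ i p (x : (Z ⊕ I) ⊕ C → Space (S.dm i)) v,
        linP S Z C o c i p (x + Pi.single (Sum.inl β) v) = linP S Z C o c i p x) →
        dB (Sum.inl β) (linP S Z C o c) = zeroT S ((Z ⊕ I) ⊕ C) (Option Unit) := fun β =>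
      dB_indep (sm_linP o c)
    have hd : ∀ β, dB (Sum.inl β) P₀
        = addT (smulF (fun i => a β (S.dm i)) (idT S ((Z ⊕ I) ⊕ C))) (H β) := fun β => by
      rw [hP₀, partP_eq, dB_addT (sm_linP o c) (sV.smul _), dB_smulF sV]
      refine congrArg (fun T => addT T (H β)) ?_
      rcases β with z | l
      · rw [hlin _ fun i p x v => by simp [linP]]
        funext i p x idx
        simp [a, zeroT, smulF]
      · by_cases hl : l = o
        · subst hl
          rw [hlin _ fun i p x v => ?_]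
          · funext i p x idx
            simp [a, zeroT, smulF]
          · simp only [linP]
            congr 2
            refine Finset.sum_congr rfl fun l' hl' => ?_
            simp [Finset.ne_of_mem_erase hl']
        · rw [dB_linP o c hl]
          simp [a, hl]
    have hQ : PtS L r Φ wz' P₀ := by
      refine ⟨a, H, f - L.w, by linarith, sH, fun β => ⟨_, (gH β).mono (θ' := f - L.w)
        (by linarith [hw' β]) subset_rfl fun _ => le_rfl⟩, ?_, ?_, hd⟩
      · rintro (z | l) η hη
        · exact S.ev_one_le.mono fun i hd' => by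
            simpa [a] using Real.rpow_nonneg (show (0 : ℝ) ≤ S.dd i by linarith) _
        · by_cases hl : l = o
          · exact S.ev_one_le.mono fun i hd' => by
              simpa [a, hl] using Real.rpow_nonneg (show (0 : ℝ) ≤ S.dd i by linarith) _
          · simpa [a, hl] using hcE η hη
      · rintro (z | l)
        · exact Or.inl fun _ => rfl
        · exact Or.inr rfl
    -- the node term
    have hφ' : L.phi (r + 1 - 1) ≤ Φ := by simp only [Nat.add_sub_cancel]; linarith
    set Yl := liftZ I Y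
    have sYl : Sm Yl := sY.liftZ
    have gl : GdA L (r + 1) Φ wz' e {o} Yl := hg.liftZ sY
    have hnode := GdA.node (L := L) (r := r + 1) hP hφ' N sYl (e := fun β => e - wz' β)
      (fun β => gl.dB β) (a := a) (s := fun _ => L.w) (fun β η hη => by
        rcases β with z | l
        · exact S.ev_one_le.mono fun i hd' => by
            simpa [a] using Real.rpow_nonneg (show (0 : ℝ) ≤ S.dd i by linarith) _
        · by_cases hl : l = o
          · exact S.ev_one_le.mono fun i hd' => by
              simpa [a, hl] using Real.rpow_nonneg (show (0 : ℝ) ≤ S.dd i by linarith) _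
          · simpa [a, hl] using hcE η hη)
      sH (h := f - L.w) (fun β => ⟨_, (gH β).mono (θ' := f - L.w) (by linarith [hw' β])
        subset_rfl fun _ => le_rfl⟩) hd (θ := e + f - 2 * L.w - L.phi r)
      (fun β => by simp only [Nat.add_sub_cancel]; linarith [hw' β])
      (fun β => by
        rcases β with z | l
        · exact Or.inl fun _ => rfl
        · exact Or.inr (Or.inl (dB_liftZ_r sY l)))
    rw [Set.image_singleton] at hnode
    have sNd : Sm (nodeFld N Yl P₀) := Sm.nodeFld N sYl sP₀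
    have hnode' := hnode.scale sNd (q := fun _ => (-1 : ℝ)) (s := 0) fun η hη =>
      S.ev_one_le.mono fun i hd' => by simpa using Real.one_le_rpow hd' hη.le
    have hopt : (Fintype.card (Option I) : ℝ) - 1 = k + 2 := by
      rw [Fintype.card_option]; push_cast; linarith
    have hN : Abs Cst (L.kap (r + 1)) σ L.w P₀ (pairF
        (smulF (fun _ => (-1 : ℝ)) (nodeFld N Yl P₀)) (leftB P₀)) :=
      (expand hP hΦ N hM hC ihn (sNd.smul _) sP₀.leftB (by rintro (z | z) <;> exact hw' z) hnode'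
        (hQ.leftB sP₀) (by rw [hopt]; linarith) (by rw [hopt]; linarith)
        (by rw [hopt]; linarith)).change fun i p y V hV => (avgF_leftB sP₀ hC hV).symm
    -- the chain
    have chain : ∀ (j : ℕ) (s : Finset I), s.card = j → o ∉ s → ∀ μ : ℕ → ℝ,
        (∀ η : ℝ, 0 < η → S.Ev fun i => |μ (S.dm i)| ≤ S.dd i ^ (η - -((j : ℝ) * L.w))) →
        Abs Cst (L.kap (r + 1)) σ L.w P₀ fun i p y V => μ (S.dm i) *
          (pairF (pctS Y s) P₀ i p y V - c (S.dm i) ^ j * pairF Yl P₀ i p y V) := by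
      intro j
      induction j with
      | zero =>
        intro s hs ho μ hμ
        rw [Finset.card_eq_zero] at hs
        subst hs
        refine Abs.of_sml (sml_zero.congr fun i p y V hV => ?_)
        rw [pct_empty, pairF_reL _ _ _ p y hV.1, pow_zero, one_mul, sub_self, mul_zero]
      | succ j ihj =>
        intro s hs ho μ hμ
        obtain ⟨l, hl⟩ := Finset.card_pos.1 (show 0 < s.card by omega)
        have hlo : l ≠ o := fun h => ho (h ▸ hl)
        have ho' : o ∉ s.erase l := fun h => ho (Finset.mem_of_mem_erase h)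
        have hs' : (s.erase l).card = j := by rw [Finset.card_erase_of_mem hl, hs]; rfl
        have : Nonempty {l // l ∉ s} := ⟨⟨o, ho⟩⟩
        have hμc : ∀ η : ℝ, 0 < η → S.Ev fun i =>
            |μ (S.dm i) * c (S.dm i)| ≤ S.dd i ^ (η - -((j : ℝ) * L.w)) := fun η hη =>
          (((hμ (η / 2) (half_pos hη)).and (hcE (η / 2) (half_pos hη))).and S.ev_one_le).mono
            fun i ⟨⟨a₁, a₂⟩, hd'⟩ => by
              rw [abs_mul]
              refine (mul_le_mul a₁ a₂ (abs_nonneg _) (Real.rpow_nonneg (by linarith) _)).trans_eq ?_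
              rw [← Real.rpow_add (by linarith)]
              push_cast
              ring_nf
        have hA := ihj _ hs' ho' (fun d => μ d * c d) hμc
        set Γ := reL (eEr hl) (pctS Y (s.erase l))
        have sΓ : Sm Γ := (sY.pctS _).reL _
        have gΓ : GdA L (r + 1) Φ wz' e (some '' {⟨o, ho⟩}) Γ := by
          have h := (hg.pct sY ho').reL (eEr hl)
          rwa [show eEr hl '' {⟨o, ho'⟩} = some '' {⟨o, ho⟩} by
            simp [eEr, Set.image_singleton, hlo.symm]] at h
        have gD : GdA L (r + 1) Φ wz' (e + f - L.phi r) {some ⟨o, ho⟩}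
            (dotQ Γ (H (Sum.inr l))) := fun m => by
          have h := GdD.dotQ hP hφ' sΓ (sH _) (gΓ m) (gH (Sum.inr l) m)
          rw [Set.image_singleton, Nat.add_sub_cancel] at h
          exact h.mono le_rfl (by simp [hwz', hf]) subset_rfl subset_rfl fun _ _ => le_rfl
        have gR := gD.scale (sΓ.dotQ (sH _)) hμ
        have hleg : (Fintype.card (Option {l // l ∉ s}) : ℝ) - 1 = (k : ℝ) + 2 - ((j : ℝ) + 1) := by
          rw [Fintype.card_option, Fintype.card_subtype_compl, Fintype.card_coe, hs, hk,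
            Nat.cast_add, Nat.cast_sub (show j + 1 ≤ k + 2 by
              rw [← hs, ← hk]; exact Finset.card_le_univ s)]
          push_cast
          ring
        have hB := expand hP hΦ N hM hC ihn ((sΓ.dotQ (sH _)).smul _) sP₀ hw' gR hQ
          (by rw [hleg]; push_cast; linarith) (by rw [hleg]; push_cast; linarith)
          (by rw [hleg]; push_cast; linarith)
        refine (hA.add hC sP₀ hB).congr' hC fun i p y V hV => ?_
        rw [pairF_smul, hP₀, pct_chain hC sY o c b hl hlo hV]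
        rw [pow_succ]
        ring
    -- the balance
    have hs₀c : s₀.card = k + 1 := by
      rw [hs₀, Finset.card_erase_of_mem (Finset.mem_univ o), Finset.card_univ, hk]; rfl
    have hX₀ := chain (k + 1) s₀ hs₀c ho₀ b fun η hη => by push_cast; exact hbE η hη
    have hX₁ := Abs.sum hC sP₀ s₀ (fun l hl => chain k (s₀.erase l)
      (by rw [Finset.card_erase_of_mem hl, hs₀c]; rfl)
      (fun h => ho₀ (Finset.mem_of_mem_erase h)) (fun d => c d * b d) fun η hη =>
        (((hcE (η / 2) (half_pos hη)).and (hbE (η / 2) (half_pos hη))).and S.ev_one_le).mono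
          fun i ⟨⟨a₁, a₂⟩, hd'⟩ => by
            rw [abs_mul]
            refine (mul_le_mul a₁ a₂ (abs_nonneg _) (Real.rpow_nonneg (by linarith) _)).trans_eq ?_
            rw [← Real.rpow_add (by linarith)]
            ring_nf)
    have hΨ := (hX₁.add hC sP₀ hX₀).add hC sP₀ hN
    have hR : Prg (L.kap (r + 1)) σ P₀ :=
      prg_part ((hg.head).2.1 o rfl) sY (q := ((k : ℝ) + 1) * L.w) (by linarith) (by linarith) c b
        hc1 fun η hη => ⟨1, hbb η hη⟩
    have hv₀ : ∀ η : ℝ, 0 < η → S.Ev fun i => |v₀ (S.dm i)| ≤ S.dd i ^ (η - 2 * L.w) :=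
      fun η hη => (S.ev_one_le.and (S.ev_le_rpow ((k : ℝ) + 1) hη)).mono fun i ⟨hd', h'⟩ => by
        simp only [v₀, hcard, abs_mul, abs_pow, abs_of_pos (hc0 _),
          abs_of_nonneg (show (0 : ℝ) ≤ (k : ℝ) + 1 by positivity)]
        rw [hcd _ (by exact_mod_cast hd'), ← Real.rpow_natCast, ← Real.rpow_mul (by linarith)]
        refine (mul_le_mul_of_nonneg_right h' (Real.rpow_nonneg (by linarith) _)).trans_eq ?_
        rw [← Real.rpow_add (by linarith)]
        push_cast
        ring_nf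
    refine Abs.prepend hC sP₀ hv₀ hR hΨ ?_
    refine (step_sml N hC hM sYl sP₀ (fun β => (gl.dB β).bd.mono (by linarith [hw' β]))
      hQ.bd).neg.congr fun i p y V hV => ?_
    rw [bal_part hC sY o c b hV, pairF_smul, ← hP₀,
      pairF_liftZ_zero hC sY (hV.avgF sP₀ hC)]
    simp only [mul_sub, Finset.sum_sub_distrib, ← Finset.mul_sum, ← hs₀, Finset.sum_const, hs₀c,
      nsmul_eq_mul]
    have hbc : ((k : ℝ) + 2) * c (S.dm i) ^ (k + 1) * b (S.dm i) = -1 := by
      simp only [b, mul_neg]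
      rw [mul_inv_cancel₀ (mul_ne_zero (by positivity) (pow_ne_zero _ (hc0 _).ne'))]
    push_cast
    clear_value b c
    linear_combination pairF Yl P₀ i p y V * hbc

end Vale.Agent.P347.Zero
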