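import Vale.Agent.P347.Zero.AvgTest
import Vale.Agent.P347.Zero.Tensor

/-!
The derivative tensors of a test at any finite set of legs: symmetry, one more leg is one more
derivative, translations and averages over an independent shift.
-/

noncomputable section

open MeasureTheory ProbabilityTheory Set Filter
open scoped RealInnerProductSpace NNReal

namespace Vale.Agent.P347.Zero

variable {d : ℕ} {I J : Type} [Fintype I] [Fintype J]

/-- The derivative tensor with legs `I`. -/
def dI (I : Type) [Fintype I] (V : Space d → ℝ) (y : Space d) : Ten d I := fun idx =>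
  dV (Fintype.card I) V y (idx ∘ (Fintype.equivFin I).symm)

/-- The pairing of two tensors. -/
def pairT [DecidableEq I] (T T' : Ten d I) : ℝ := ∑ idx, T idx * T' idx

/-- The Laplacian. -/
def lapV (V : Space d → ℝ) (y : Space d) : ℝ := ∑ c, dV 2 V y fun _ => c

/-- A tensor with one leg as a vector. -/
def vecT (T : Ten d Unit) : Space d := WithLp.toLp 2 fun c => T fun _ => c

theorem vecT_apply (T : Ten d Unit) (c : Fin d) : vecT T c = T fun _ => c := rfl

theorem vecT_zero : vecT (0 : Ten d Unit) = 0 := rfl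

theorem vecT_add (T T' : Ten d Unit) : vecT (T + T') = vecT T + vecT T' := rfl

theorem vecT_smul (c : ℝ) (T : Ten d Unit) : vecT (c • T) = c • vecT T := rfl

/-- A vector as a tensor with one leg. -/
def tenV (v : Space d) : Ten d Unit := fun idx => v (idx ())

theorem vecT_tenV (v : Space d) : vecT (tenV v) = v := rfl

theorem tenV_vecT (T : Ten d Unit) : tenV (vecT T) = T := by
  funext idx
  show T (fun _ => idx ()) = T idx
  rfl

section pair

variable [DecidableEq I] [DecidableEq J]

theorem abs_pairT_le (T T' : Ten d I) : |pairT T T'| ≤ Real.sqrt (hsT T) * Real.sqrt (hsT T') :=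
  abs_sum_mul_le T T'

theorem pairT_add (T T' U : Ten d I) : pairT (T + T') U = pairT T U + pairT T' U := by
  simp [pairT, add_mul, Finset.sum_add_distrib]

theorem pairT_smul (c : ℝ) (T U : Ten d I) : pairT (c • T) U = c * pairT T U := by
  simp [pairT, mul_assoc, Finset.mul_sum]

theorem pairT_reT (e : I ≃ J) (T U : Ten d I) : pairT (reT e T) (reT e U) = pairT T U :=
  Equiv.sum_comp (Equiv.arrowCongr e.symm (Equiv.refl (Fin d))) fun i => T i * U i

theorem sum_option {M : Type} [AddCommMonoid M] (g : (Option I → Fin d) → M) :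
    ∑ idx, g idx = ∑ c, ∑ idx : I → Fin d, g fun o => o.elim c idx := by
  rw [← (Equiv.piOptionEquivProd (β := fun _ : Option I => Fin d)).symm.sum_comp,
    Fintype.sum_prod_type]
  refine Finset.sum_congr rfl fun c _ => Finset.sum_congr rfl fun idx _ => congrArg g ?_
  funext o
  cases o <;> rfl

theorem sum_unit {M : Type} [AddCommMonoid M] (g : (Unit → Fin d) → M) :
    ∑ idx, g idx = ∑ c, g fun _ => c := by
  rw [← (Equiv.funUnique Unit (Fin d)).symm.sum_comp]
  exact Finset.sum_congr rfl fun c _ => congrArg g (funext fun _ => rfl)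

end pair

namespace DiffAux

open TestAux

theorem pg_smooth {f : Space d → ℝ} (hf : PG f) : ∀ n : ℕ, ContDiff ℝ n f := fun n => (hf n).1

/-- The iterated derivative of a smooth function is symmetric. -/
theorem dEnt_perm {f : Space d → ℝ} (hf : ∀ n : ℕ, ContDiff ℝ n f) :
    ∀ (k : ℕ) (σ : Equiv.Perm (Fin k)) (idx : Fin k → Fin d) (x : Space d),
      dEnt f k (idx ∘ σ) x = dEnt f k idx x := by
  intro k
  induction k with
  | zero => intro σ idx x; rw [Subsingleton.elim σ 1]; rfl
  | succ k ih =>
    suffices H : ∀ i : Fin k, ∀ (idx : Fin (k + 1) → Fin d) (x : Space d),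
        dEnt f (k + 1) (idx ∘ Equiv.swap i.castSucc i.succ) x = dEnt f (k + 1) idx x by
      intro σ
      have hσ : σ ∈ Submonoid.closure (range fun i : Fin k => Equiv.swap i.castSucc i.succ) := by
        rw [Equiv.Perm.mclosure_swap_castSucc_succ k]; trivial
      induction hσ using Submonoid.closure_induction with
      | mem s hs => obtain ⟨i, rfl⟩ := hs; exact H i
      | one => intro idx x; rfl
      | mul a b _ _ ha hb => intro idx x; exact (hb (idx ∘ a) x).trans (ha idx x)
    intro i
    cases k with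
    | zero => exact i.elim0
    | succ k =>
      intro idx x
      induction i using Fin.cases with
      | zero =>
        have hs : IsSymmSndFDerivAt ℝ (dEnt f k (Fin.tail (Fin.tail idx))) x :=
          (contDiff_dEnt hf k _ 2).contDiffAt.isSymmSndFDerivAt (by simp)
        have hd : Differentiable ℝ (fderiv ℝ (dEnt f k (Fin.tail (Fin.tail idx)))) :=
          ((contDiff_dEnt hf k _ 2).fderiv_right (m := 1) (by norm_num)).differentiable one_ne_zero
        have e : ∀ j : Fin (k + 2) → Fin d, Fin.tail (Fin.tail j) = Fin.tail (Fin.tail idx) →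
            dEnt f (k + 2) j x
              = fderiv ℝ (fderiv ℝ (dEnt f k (Fin.tail (Fin.tail idx)))) x (ev (j 0)) (ev (j 1)) :=
          fun j hj => by
            rw [dEnt_succ hf, funext fun y => dEnt_succ hf k (Fin.tail j) y, hj,
              fderiv_clm_apply (hd x) (differentiableAt_const _)]
            simp [Fin.tail]
        have ht : Fin.tail (Fin.tail (idx ∘ Equiv.swap (0 : Fin (k + 1)).castSucc (0 : Fin (k + 1)).succ))
            = Fin.tail (Fin.tail idx) := by
          funext l
          simp only [Fin.tail, Function.comp_apply]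
          rw [Equiv.swap_apply_of_ne_of_ne (by simp [Fin.ext_iff]) (by simp [Fin.ext_iff])]
        rw [e _ ht, e _ rfl]
        simp only [Fin.castSucc_zero, Fin.succ_zero_eq_one, Function.comp_apply,
          Equiv.swap_apply_left, Equiv.swap_apply_right]
        exact hs.eq _ _
      | succ i =>
        have ht : Fin.tail (idx ∘ Equiv.swap i.succ.castSucc i.succ.succ)
            = Fin.tail idx ∘ Equiv.swap i.castSucc i.succ := by
          funext l
          simp only [Fin.tail, Function.comp_apply]
          rw [← Fin.succ_castSucc, ← Fin.succ_injective _ |>.swap_apply]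
        have h0 : (idx ∘ Equiv.swap i.succ.castSucc i.succ.succ) 0 = idx 0 := by
          rw [Function.comp_apply, Equiv.swap_apply_of_ne_of_ne (by simp [Fin.ext_iff])
            (by simp [Fin.ext_iff])]
        rw [dEnt_succ hf, dEnt_succ hf, ht, h0,
          funext fun y => ih (Equiv.swap i.castSucc i.succ) (Fin.tail idx) y]

theorem dI_eq {f : Space d → ℝ} (hf : PG f) {k : ℕ} (e : Fin k ≃ I) (y : Space d) (idx : I → Fin d) :
    dI I f y idx = dEnt f k (idx ∘ e) y := by
  obtain rfl : k = Fintype.card I := by simpa using Fintype.card_congr e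
  refine Eq.trans ?_ (dEnt_perm (pg_smooth hf) _
    ((Fintype.equivFin I).symm.trans e.symm) (idx ∘ e) y)
  simp [dI, dEnt, Function.comp_def]

end DiffAux

open TestAux DiffAux

theorem dI_reT [DecidableEq I] [DecidableEq J] {V : Space d → ℝ} (hV : PG V) (e : I ≃ J)
    (y : Space d) : reT e (dI I V y) = dI J V y := by
  funext idx
  show dI I V y (idx ∘ e) = _
  rw [dI_eq hV (Fintype.equivFin I).symm, dI_eq hV ((Fintype.equivFin I).symm.trans e)]
  rfl

theorem dI_const_two (V : Space d → ℝ) (y : Space d) (hV : PG V) (c : Fin d) :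
    dI (Option Unit) V y (fun _ => c) = dV 2 V y fun _ => c := by
  rw [dI_eq hV ((finSuccEquiv 1).trans (Equiv.optionCongr (Equiv.ofUnique (Fin 1) Unit)))]
  rfl

theorem differentiable_dI {V : Space d → ℝ} (hV : PG V) (idx : I → Fin d) :
    Differentiable ℝ fun y => dI I V y idx :=
  differentiable_dEnt (pg_smooth hV) _ _

theorem continuous_dI {V : Space d → ℝ} (hV : PG V) (idx : I → Fin d) :
    Continuous fun y => dI I V y idx :=
  (differentiable_dI hV idx).continuous

/-- One more leg is one more derivative. -/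
theorem fderiv_dI {V : Space d → ℝ} (hV : PG V) (idx : I → Fin d) (y v : Space d) :
    fderiv ℝ (fun y => dI I V y idx) y v
      = ∑ c, v c * dI (Option I) V y fun o => o.elim c idx := by
  conv_lhs => rw [sum_apply (fderiv ℝ (fun y => dI I V y idx) y) v]
  refine Finset.sum_congr rfl fun c _ => congrArg _ ?_
  set e := (finSuccEquiv (Fintype.card I)).trans (Equiv.optionCongr (Fintype.equivFin I).symm)
  rw [dI_eq hV e, dEnt_succ (pg_smooth hV)]
  rfl

theorem hsT_dI [DecidableEq I] [Nonempty I] {C : ℕ → ℝ} {V : Space d → ℝ} (hV : TestV C V) (y : Space d) :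
    hsT (dI I V y) ≤ C (Fintype.card I) ^ 2 := by
  refine le_trans (le_of_eq ?_) (hV.2 _ Fintype.card_pos y)
  exact Equiv.sum_comp (Equiv.arrowCongr (Fintype.equivFin I) (Equiv.refl (Fin d)))
    fun i => dV (Fintype.card I) V y i ^ 2

theorem abs_dI_le [DecidableEq I] [Nonempty I] {C : ℕ → ℝ} (hC : ∀ j, 0 ≤ C j) {V : Space d → ℝ}
    (hV : TestV C V) (y : Space d) (idx : I → Fin d) : |dI I V y idx| ≤ C (Fintype.card I) :=
  abs_le_of_sq (hC _) (hsT_dI hV y) idx

theorem dI_shift [DecidableEq I] {V : Space d → ℝ} (v y : Space d) :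
    dI I (fun y => V (v + y)) y = dI I V (v + y) := by
  funext idx
  simp only [dI, dV, iteratedFDeriv_comp_add_left]

theorem TestV.apply_le {C : ℕ → ℝ} (hC : ∀ j, 0 ≤ C j) {V : Space d → ℝ} (hV : TestV C V)
    (x : Space d) : |V x| ≤ |V 0| + d * C 1 * ‖x‖ := by
  have hb : ∀ z, ‖fderiv ℝ V z‖ ≤ d * C 1 := fun z => norm_clm_le _ (hC 1) fun i => by
    have h := abs_le_of_sq (f := fun idx => dEnt V 1 idx z) (hC 1) (hV.2 1 le_rfl z) fun _ => i
    rwa [dEnt_succ (pg_smooth hV.1), dEnt_zero] at h
  have h1 := convex_univ.norm_image_sub_le_of_norm_fderiv_le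
    (fun z _ => hV.1.diff z) (fun z _ => hb z) (mem_univ 0) (mem_univ x)
  rw [sub_zero, Real.norm_eq_abs] at h1
  linarith [abs_sub_abs_le_abs_sub (V x) (V 0)]

section avg

variable {Ω : Type*} [MeasurableSpace Ω] {ν : Measure Ω} [IsProbabilityMeasure ν] {W : Ω → Space d}
  {C : ℕ → ℝ} {U : Space d → ℝ}

theorem integrable_test_shift (hC : ∀ j, 0 ≤ C j) (hU : TestV C U) (hW : Integrable W ν) (y : Space d) :
    Integrable (fun ω => U (y + W ω)) ν := by
  refine Integrable.mono' (((hW.norm.add (integrable_const ‖y‖)).const_mul (d * C 1)).add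
    (integrable_const |U 0|)) (hU.1.cont.comp_aestronglyMeasurable
      (aestronglyMeasurable_const.add hW.1)) (ae_of_all _ fun ω => ?_)
  simp only [Pi.add_apply, Real.norm_eq_abs]
  nlinarith [hU.apply_le hC (y + W ω), norm_add_le y (W ω),
    mul_nonneg (Nat.cast_nonneg (α := ℝ) d) (hC 1)]

theorem integrable_dI [DecidableEq I] [Nonempty I] (hC : ∀ j, 0 ≤ C j) (hU : TestV C U)
    {Q : Ω → Space d} (hQ : AEStronglyMeasurable Q ν) (idx : I → Fin d) :
    Integrable (fun ω => dI I U (Q ω) idx) ν :=
  Integrable.of_bound ((continuous_dI hU.1 idx).comp_aestronglyMeasurable hQ) _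
    (ae_of_all _ fun _ => (Real.norm_eq_abs _).trans_le (abs_dI_le hC hU _ idx))

theorem dEnt_avg (hC : ∀ j, 0 ≤ C j) (hU : TestV C U) (hW : Integrable W ν) :
    ∀ (k : ℕ) (idx : Fin k → Fin d) (y : Space d),
      dEnt (fun y => ∫ ω, U (y + W ω) ∂ν) k idx y = ∫ ω, dEnt U k idx (y + W ω) ∂ν := by
  intro k
  induction k with
  | zero => intro idx y; simp only [dEnt_zero]
  | succ k ih =>
    intro idx y
    have hb : ∀ z c, |fderiv ℝ (dEnt U k (Fin.tail idx)) z (ev c)| ≤ C (k + 1) := fun z c => by
      have h := abs_le_of_sq (f := fun j => dEnt U (k + 1) j z) (hC _) (hU.2 (k + 1) (by omega) z)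
        (Fin.cons c (Fin.tail idx))
      rwa [dEnt_succ (pg_smooth hU.1), Fin.cons_zero, Fin.tail_cons] at h
    have hn : ∀ z, ‖fderiv ℝ (dEnt U k (Fin.tail idx)) z‖ ≤ d * C (k + 1) := fun z =>
      norm_clm_le _ (hC _) (hb z)
    have hg : ContDiff ℝ 1 (dEnt U k (Fin.tail idx)) := contDiff_dEnt (pg_smooth hU.1) k _ 1
    have hi : Integrable (fun ω => dEnt U k (Fin.tail idx) (y + W ω)) ν := by
      cases k with
      | zero => simpa [dEnt_zero] using integrable_test_shift hC hU hW y
      | succ j => exact Integrable.of_bound (hg.continuous.comp_aestronglyMeasurable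
          (aestronglyMeasurable_const.add hW.1)) (C (j + 1)) (ae_of_all _ fun ω =>
            (Real.norm_eq_abs _).trans_le (abs_le_of_sq (f := fun l => dEnt U (j + 1) l (y + W ω))
              (hC _) (hU.2 (j + 1) (by omega) _) _))
    have hdi : Integrable (fun ω => fderiv ℝ (dEnt U k (Fin.tail idx)) (y + W ω)) ν :=
      Integrable.of_bound ((hg.continuous_fderiv one_ne_zero).comp_aestronglyMeasurable
        (aestronglyMeasurable_const.add hW.1)) _ (ae_of_all _ fun _ => hn _)
    have hD : HasFDerivAt (fun y => ∫ ω, dEnt U k (Fin.tail idx) (y + W ω) ∂ν)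
        (∫ ω, fderiv ℝ (dEnt U k (Fin.tail idx)) (y + W ω) ∂ν) y := by
      refine hasFDerivAt_integral_of_dominated_of_fderiv_le (𝕜 := ℝ)
        (bound := fun _ => (d : ℝ) * C (k + 1))
        (F' := fun y ω => fderiv ℝ (dEnt U k (Fin.tail idx)) (y + W ω)) Filter.univ_mem
        (Eventually.of_forall fun z => hg.continuous.comp_aestronglyMeasurable
          (aestronglyMeasurable_const.add hW.1)) hi hdi.1 (ae_of_all _ fun ω z _ => hn _)
        (integrable_const _) (ae_of_all _ fun ω z _ => ?_)
      simpa [Function.comp_def] using ((hg.differentiable one_ne_zero) (z + W ω)).hasFDerivAt.comp z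
        ((hasFDerivAt_id z).add_const (W ω))
    rw [dEnt_succ (pg_smooth (hU.avg hC hW).1), funext fun z => ih (Fin.tail idx) z, hD.fderiv,
      ContinuousLinearMap.integral_apply hdi]
    exact integral_congr_ae (ae_of_all _ fun ω => (dEnt_succ (pg_smooth hU.1) k idx _).symm)

/-- Derivatives pass under the average. -/
theorem dI_avg (hC : ∀ j, 0 ≤ C j) (hU : TestV C U) (hW : Integrable W ν) (idx : I → Fin d)
    (y : Space d) : dI I (fun y => ∫ ω, U (y + W ω) ∂ν) y idx = ∫ ω, dI I U (y + W ω) idx ∂ν :=
  dEnt_avg hC hU hW _ _ y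

theorem lapV_avg (hC : ∀ j, 0 ≤ C j) (hU : TestV C U) (hW : Integrable W ν) (y : Space d) :
    lapV (fun y => ∫ ω, U (y + W ω) ∂ν) y = ∫ ω, lapV U (y + W ω) ∂ν := by
  simp only [lapV]
  rw [integral_finsetSum _ fun c _ => ?_]
  · exact Finset.sum_congr rfl fun c _ => dEnt_avg hC hU hW 2 _ y
  · exact Integrable.of_bound ((differentiable_dEnt (pg_smooth hU.1) 2 _).continuous
      |>.comp_aestronglyMeasurable (aestronglyMeasurable_const.add hW.1)) (C 2) (ae_of_all _ fun ω =>
        (Real.norm_eq_abs _).trans_le (abs_le_of_sq (f := fun l => dEnt U 2 l (y + W ω))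
          (hC _) (hU.2 2 (by omega) _) _))

end avg

/-- The Stein operator in coordinates. -/
theorem steinOp_eq {U : Space d → ℝ} (hU : PG U) (x : Space d) :
    steinOp U x = lapV U x - pairT (tenV x) (dI Unit U x) := by
  have hs := pg_smooth hU
  have h1 : ∀ (idx : Fin 1 → Fin d), dEnt U 1 idx = fun y => fderiv ℝ U y (ev (idx 0)) :=
    fun idx => funext fun y => by rw [dEnt_succ hs, dEnt_zero]
  have hd : Differentiable ℝ (fderiv ℝ U) :=
    ((hU 2).1.fderiv_right (m := 1) (by norm_num)).differentiable one_ne_zero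
  unfold steinOp lapV pairT
  congr 1
  · refine Finset.sum_congr rfl fun c _ => ?_
    show _ = dEnt U 2 (fun _ => c) x
    rw [dEnt_succ hs, h1, fderiv_clm_apply (hd x) (differentiableAt_const _)]
    simp [Fin.tail]
  · rw [sum_apply (fderiv ℝ U x) x, sum_unit]
    refine Finset.sum_congr rfl fun c _ => ?_
    rw [dI_eq hU (Equiv.ofUnique (Fin 1) Unit), h1]
    rfl

end Vale.Agent.P347.Zero
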