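import Vale.Agent.P347.Zero.Prog

/-!
Smoothness and the moment bound of families of tensor fields: monotonicity, sums, multiples,
relabelling, contraction, parameters and changes of blocks.
-/

noncomputable section

open MeasureTheory ProbabilityTheory
open scoped RealInnerProductSpace NNReal

namespace Vale.Agent.P347.Zero

/-! ### Polynomial growth of all derivatives -/

/-- Smooth, with every derivative of polynomial growth, on any normed space. -/
def PG {E : Type} [NormedAddCommGroup E] [NormedSpace ℝ E] (f : E → ℝ) : Prop :=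
  ∀ k : ℕ, ContDiff ℝ k f ∧ ∃ (c : ℝ) (n : ℕ), ∀ x, ‖iteratedFDeriv ℝ k f x‖ ≤ c * (1 + ‖x‖) ^ n

section PG

variable {E E' : Type} [NormedAddCommGroup E] [NormedSpace ℝ E] [NormedAddCommGroup E']
  [NormedSpace ℝ E'] {f g : E → ℝ}

theorem pg_bound {c : ℝ} {n n' : ℕ} (hn : n ≤ n') {x : E} {y : ℝ} (h : y ≤ c * (1 + ‖x‖) ^ n) :
    y ≤ |c| * (1 + ‖x‖) ^ n' := by
  have h1 : 1 ≤ 1 + ‖x‖ := le_add_of_nonneg_right (norm_nonneg x)
  exact h.trans (mul_le_mul (le_abs_self c) (pow_le_pow_right₀ h1 hn) (by positivity) (abs_nonneg c))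

theorem PG.diff (h : PG f) : Differentiable ℝ f := (h 1).1.differentiable (by norm_num)

theorem PG.cont (h : PG f) : Continuous f := h.diff.continuous

theorem pg_const (a : ℝ) : PG fun _ : E => a := fun k =>
  ⟨contDiff_const, ‖a‖, 0, fun x => by
    rcases eq_or_ne k 0 with rfl | hk
    · simp [norm_iteratedFDeriv_zero]
    · simp [iteratedFDeriv_const_of_ne hk]⟩

theorem PG.add (hf : PG f) (hg : PG g) : PG fun x => f x + g x := fun k => by
  obtain ⟨h1, c, n, hc⟩ := hf k
  obtain ⟨h2, c', n', hc'⟩ := hg k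
  refine ⟨h1.add h2, |c| + |c'|, max n n', fun x => ?_⟩
  rw [show (fun x => f x + g x) = f + g from rfl,
    iteratedFDeriv_add_apply h1.contDiffAt h2.contDiffAt, add_mul]
  exact (norm_add_le _ _).trans
    (add_le_add (pg_bound (le_max_left _ _) (hc x)) (pg_bound (le_max_right _ _) (hc' x)))

theorem PG.sum {α : Type} (s : Finset α) {f : α → E → ℝ} (hf : ∀ a ∈ s, PG (f a)) :
    PG fun x => ∑ a ∈ s, f a x := by
  classical
  induction s using Finset.induction_on with
  | empty => simpa using pg_const (E := E) 0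
  | insert a s ha ih =>
    simp only [Finset.sum_insert ha]
    exact (hf a (Finset.mem_insert_self a s)).add
      (ih fun b hb => hf b (Finset.mem_insert_of_mem hb))

theorem PG.mul (hf : PG f) (hg : PG g) : PG fun x => f x * g x := fun k => by
  choose h1 c n hc using hf
  choose h2 c' n' hc' using hg
  refine ⟨(h1 k).mul (h2 k),
    ∑ i ∈ Finset.range (k + 1), (k.choose i : ℝ) * |c i| * |c' (k - i)|,
    (∑ i ∈ Finset.range (k + 1), n i) + ∑ i ∈ Finset.range (k + 1), n' (k - i), fun x => ?_⟩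
  refine (norm_iteratedFDeriv_mul_le (h1 k) (h2 k) x le_rfl).trans ?_
  rw [Finset.sum_mul]
  refine Finset.sum_le_sum fun i hi => ?_
  rw [pow_add]
  refine le_trans (mul_le_mul (mul_le_mul_of_nonneg_left (pg_bound
    (Finset.single_le_sum (fun j _ => Nat.zero_le (n j)) hi) (hc i x)) (Nat.cast_nonneg _))
    (pg_bound (Finset.single_le_sum (fun j _ => Nat.zero_le (n' (k - j))) hi) (hc' (k - i) x))
    (norm_nonneg _) (by positivity)) (le_of_eq ?_)
  ring

theorem PG.const_mul (hf : PG f) (a : ℝ) : PG fun x => a * f x := (pg_const a).mul hf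

theorem PG.comp_clm (hf : PG f) (φ : E' →L[ℝ] E) : PG fun x => f (φ x) := fun k => by
  obtain ⟨h1, c, n, hc⟩ := hf k
  refine ⟨h1.comp φ.contDiff, |c| * (1 + ‖φ‖) ^ n * ‖φ‖ ^ k, n, fun x => ?_⟩
  rw [show (fun x => f (φ x)) = f ∘ φ from rfl, φ.iteratedFDeriv_comp_right h1 x le_rfl]
  refine (ContinuousMultilinearMap.norm_compContinuousLinearMap_le _ _).trans ?_
  rw [Finset.prod_const, Finset.card_univ, Fintype.card_fin]
  refine (mul_le_mul_of_nonneg_right ((pg_bound le_rfl (hc (φ x))).trans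
    (mul_le_mul_of_nonneg_left (pow_le_pow_left₀ (by positivity) (show 1 + ‖φ x‖ ≤
      (1 + ‖φ‖) * (1 + ‖x‖) by nlinarith [φ.le_opNorm x, norm_nonneg φ, norm_nonneg x]) n)
      (abs_nonneg c))) (by positivity)).trans_eq ?_
  rw [mul_pow]
  ring

theorem PG.fderiv_apply (hf : PG f) (v : E) : PG fun x => fderiv ℝ f x v := fun k => by
  obtain ⟨h1, c, n, hc⟩ := hf (k + 1)
  have h2 : ContDiff ℝ k (fderiv ℝ f) := h1.fderiv_right (by push_cast; rfl)
  refine ⟨h2.clm_apply contDiff_const, ‖v‖ * |c|, n, fun x => ?_⟩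
  refine (norm_iteratedFDeriv_clm_apply_const h2.contDiffAt le_rfl).trans ?_
  rw [norm_iteratedFDeriv_fderiv, mul_assoc]
  exact mul_le_mul_of_nonneg_left (pg_bound le_rfl (hc x)) (norm_nonneg v)

end PG

/-! ### Sums of fields -/

variable {S : Sys} {B B' C I J K : Type} [Fintype B] [DecidableEq B] [Fintype B'] [DecidableEq B']
  [Fintype I] [DecidableEq I] [Fintype J] [DecidableEq J] [Fintype K] [DecidableEq K]
  {θ θ' : ℝ} {T T' : Fld S B I}

/-- The pointwise sum. -/
def addT (T T' : Fld S B I) : Fld S B I := fun i p x => T i p x + T' i p x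

/-- A multiple by a weight of the index. -/
def smulF (c : S.ι → ℝ) (T : Fld S B I) : Fld S B I := fun i p x => c i • T i p x

/-- A weighted sum of fields of a parameter. -/
def sumF (N : S.ι → ℕ) (w : S.ι → ℕ → ℝ) (T : Fld (S.par ℕ) B I) : Fld S B I :=
  fun i p x => ∑ l ∈ Finset.range (N i), w i l • T (i, l) p x

/-- Substitution in the blocks. -/
def subB (ψ : ∀ i, (B' → Space (S.dm i)) →L[ℝ] (B → Space (S.dm i))) (T : Fld S B I) :
    Fld S B' I :=
  fun i p x => T i p (ψ i x)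

/-- A field as a field of a parameter. -/
def parF (Q : Type) (T : Fld S B I) : Fld (S.par Q) B I := fun x p => T x.1 p

theorem sm_iff : Sm T ↔ ∀ i p idx, PG fun x => T i p x idx :=
  ⟨fun h i p idx k => h i p idx k, fun h i p idx k => h i p idx k⟩

theorem Sm.pg (h : Sm T) (i : S.ι) (p : Space (S.dm i)) (idx : I → Fin (S.dm i)) :
    PG fun x => T i p x idx := sm_iff.1 h i p idx

theorem Sm.cont (h : Sm T) (i : S.ι) (p : Space (S.dm i)) : Continuous fun x => T i p x :=
  continuous_pi fun idx => (h.pg i p idx).cont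

theorem Sm.add (h : Sm T) (h' : Sm T') : Sm (addT T T') :=
  sm_iff.2 fun i p idx => (h.pg i p idx).add (h'.pg i p idx)

theorem Sm.smul (h : Sm T) (c : S.ι → ℝ) : Sm (smulF c T) :=
  sm_iff.2 fun i p idx => (h.pg i p idx).const_mul (c i)

theorem Sm.sum {T : Fld (S.par ℕ) B I} (h : Sm T) (N : S.ι → ℕ) (w : S.ι → ℕ → ℝ) :
    Sm (sumF N w T) :=
  sm_iff.2 fun i p idx => by
    rw [show (fun x => sumF N w T i p x idx)
        = fun x => ∑ l ∈ Finset.range (N i), w i l * T (i, l) p x idx from funext fun x => by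
      simp only [sumF]
      exact Finset.sum_apply _ _ _]
    exact PG.sum _ fun l _ => (h.pg (i, l) p idx).const_mul (w i l)

theorem Sm.reL (h : Sm T) (e : I ≃ J) : Sm (reL e T) :=
  sm_iff.2 fun i p idx => h.pg i p (idx ∘ e)

theorem Sm.subB (h : Sm T) (ψ : ∀ i, (B' → Space (S.dm i)) →L[ℝ] (B → Space (S.dm i))) :
    Sm (subB ψ T) :=
  sm_iff.2 fun i p idx => (h.pg i p idx).comp_clm (ψ i)

theorem Sm.par (h : Sm T) (Q : Type) : Sm (parF Q T) := fun i p idx => h i.1 p idx

theorem Sm.dB (h : Sm T) (b : B) : Sm (dB b T) :=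
  sm_iff.2 fun i p idx => (h.pg i p fun j => idx (some j)).fderiv_apply (Pi.single b (ev (idx none)))

theorem Sm.ctL {F : Fld S B (I ⊕ K)} {H : Fld S B (K ⊕ J)} (hF : Sm F) (hH : Sm H) :
    Sm (ctL F H) :=
  sm_iff.2 fun i p _ => PG.sum _ fun _ _ => (hF.pg i p _).mul (hH.pg i p _)

/-! ### The bound -/

theorem Bd.mono (h : Bd θ T) (hθ : θ' ≤ θ) : Bd θ' T := fun η hη m =>
  ((h η hη m).and S.ev_one_le).mono fun i ⟨hi, hd⟩ p => by
    obtain ⟨f, hf, hs, hint, hb⟩ := hi p
    refine ⟨f, hf, hs, hint, hb.trans (pow_le_pow_left₀ (Real.rpow_nonneg (by linarith) _) ?_ m)⟩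
    exact Real.rpow_le_rpow_of_exponent_le hd (by linarith)

theorem Bd.reL (h : Bd θ T) (e : I ≃ J) : Bd θ (reL e T) := fun η hη m =>
  (h η hη m).mono fun i hi p => by
    obtain ⟨f, hf, hs, hint, hb⟩ := hi p
    exact ⟨f, hf, fun x => ⟨(hs x).1, (hs x).2.relabel e⟩, hint, hb⟩

theorem Bd.par (h : Bd θ T) (Q : Type) : Bd θ (parF Q T) := fun η hη m =>
  let ⟨d₀, hd⟩ := h η hη m
  ⟨d₀, fun x hx => hd x.1 hx⟩

theorem Bd.subB (h : Bd θ T) (ψ : ∀ i, (B' → Space (S.dm i)) →L[ℝ] (B → Space (S.dm i)))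
    (hψ : ∀ i, MeasurePreserving (ψ i) (gp B' (S.dm i)) (gp B (S.dm i))) : Bd θ (subB ψ T) :=
  fun η hη m => (h η hη m).mono fun i hi p => by
    obtain ⟨f, hf, hs, hint, hb⟩ := hi p
    refine ⟨fun x => f (ψ i x), hf.comp (hψ i).measurable, fun x => hs (ψ i x),
      (hψ i).integrable_comp_of_integrable hint, (le_of_eq ?_).trans hb⟩
    rw [← (hψ i).map_eq, integral_map (hψ i).measurable.aemeasurable
      (hf.pow_const m).aestronglyMeasurable]

theorem Bd.add (h : Bd θ T) (h' : Bd θ T') : Bd θ (addT T T') := fun η hη m =>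
  (((h (η / 2) (half_pos hη) m).and (h' (η / 2) (half_pos hη) m)).and
    (S.ev_one_le.and (S.ev_le_rpow 2 (half_pos hη)))).mono fun i ⟨⟨hi, hi'⟩, hd, h2⟩ p => by
    obtain ⟨f, hf, hs, hint, hb⟩ := hi p
    obtain ⟨f', hf', hs', hint', hb'⟩ := hi' p
    refine ⟨fun x => f x + f' x, hf.add hf',
      fun x => ⟨add_nonneg (hs x).1 (hs' x).1, (hs x).2.add (hs' x).2⟩, ?_⟩
    rcases m with _ | m
    · simp
    have hle : ∀ x, (f x + f' x) ^ (m + 1) ≤ 2 ^ m * (f x ^ (m + 1) + f' x ^ (m + 1)) :=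
      fun x => by simpa using add_pow_le (hs x).1 (hs' x).1 (m + 1)
    have hm : Integrable (fun x => (f x + f' x) ^ (m + 1)) (gp B (S.dm i)) :=
      ((hint.add hint').const_mul (2 ^ m)).mono' ((hf.add hf').pow_const _).aestronglyMeasurable
        (ae_of_all _ fun x => by
          rw [Real.norm_of_nonneg (pow_nonneg (add_nonneg (hs x).1 (hs' x).1) _)]
          exact hle x)
    refine ⟨hm, (integral_mono hm ((hint.add hint').const_mul _) hle).trans ?_⟩
    simp only [Pi.add_apply]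
    rw [integral_const_mul, integral_add hint hint']
    set X := S.dd i ^ (η / 2 - θ) with hX
    have hX0 : 0 ≤ X := Real.rpow_nonneg (by linarith) _
    have hXe : S.dd i ^ (η - θ) = S.dd i ^ (η / 2) * X := by
      rw [hX, ← Real.rpow_add (by linarith)]; ring_nf
    calc (2 : ℝ) ^ m * (_ + _) ≤ 2 ^ m * (X ^ (m + 1) + X ^ (m + 1)) :=
          mul_le_mul_of_nonneg_left (add_le_add hb hb') (by positivity)
      _ = (2 * X) ^ (m + 1) := by rw [mul_pow]; ring
      _ ≤ _ := by
          rw [hXe]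
          exact pow_le_pow_left₀ (by positivity) (mul_le_mul_of_nonneg_right h2 hX0) _

theorem Bd.smul (h : Bd θ T) {c : S.ι → ℝ}
    (hc : ∀ η : ℝ, 0 < η → S.Ev fun i => |c i| ≤ S.dd i ^ η) : Bd θ (smulF c T) := fun η hη m =>
  (((h (η / 2) (half_pos hη) m).and (hc (η / 2) (half_pos hη))).and S.ev_one_le).mono
    fun i ⟨⟨hi, hci⟩, hd⟩ p => by
    obtain ⟨f, hf, hs, hint, hb⟩ := hi p
    refine ⟨fun x => |c i| * f x, hf.const_mul _,
      fun x => ⟨mul_nonneg (abs_nonneg _) (hs x).1, (hs x).2.smul (c i)⟩, ?_⟩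
    simp only [mul_pow]
    refine ⟨hint.const_mul _, ?_⟩
    rw [integral_const_mul, show S.dd i ^ (η - θ) = S.dd i ^ (η / 2) * S.dd i ^ (η / 2 - θ) by
      rw [← Real.rpow_add (by linarith)]; ring_nf, mul_pow]
    exact mul_le_mul (pow_le_pow_left₀ (abs_nonneg _) hci m) hb
      (integral_nonneg fun x => pow_nonneg (hs x).1 m) (by positivity)

theorem Bd.ctL [Nonempty I] [Nonempty J] [Nonempty K] {θF θH : ℝ} {F : Fld S B (I ⊕ K)}
    {H : Fld S B (K ⊕ J)} (hF : Bd θF F) (hH : Bd θH H) : Bd (θF + θH) (ctL F H) :=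
  fun η hη m => (((hF (η / 2) (half_pos hη) (2 * m)).and (hH (η / 2) (half_pos hη) (2 * m))).and
    S.ev_one_le).mono fun i ⟨⟨hi, hi'⟩, hd⟩ p => by
    obtain ⟨f, hf, hs, hint, hb⟩ := hi p
    obtain ⟨f', hf', hs', hint', hb'⟩ := hi' p
    set X := S.dd i ^ (η / 2 - θF)
    set X' := S.dd i ^ (η / 2 - θH)
    have hX : 0 < X := Real.rpow_pos_of_pos (by linarith) _
    have hX' : 0 < X' := Real.rpow_pos_of_pos (by linarith) _
    refine ⟨fun x => f x * f' x, hf.mul hf',
      fun x => ⟨mul_nonneg (hs x).1 (hs' x).1, (hs x).2.contract (hs' x).2⟩, ?_⟩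
    set g := fun x => (X * X') ^ m / 2 * (f x ^ (2 * m) / X ^ (2 * m) + f' x ^ (2 * m) / X' ^ (2 * m))
    have hle : ∀ x, (f x * f' x) ^ m ≤ g x := fun x => by
      have h0 := two_mul_le_add_sq (f x ^ m / X ^ m) (f' x ^ m / X' ^ m)
      have e : (f x * f' x) ^ m = (X * X') ^ m * (f x ^ m / X ^ m * (f' x ^ m / X' ^ m)) := by
        rw [mul_pow, mul_pow]; field_simp
      have hp : 0 ≤ (X * X') ^ m := by positivity
      rw [e]
      simp only [g, pow_mul', ← div_pow]
      simp only [← div_pow] at h0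
      nlinarith [mul_le_mul_of_nonneg_left h0 hp]
    have hgi : Integrable g (gp B (S.dm i)) :=
      ((hint.div_const _).add (hint'.div_const _)).const_mul _
    have hm : Integrable (fun x => (f x * f' x) ^ m) (gp B (S.dm i)) :=
      hgi.mono' ((hf.mul hf').pow_const _).aestronglyMeasurable (ae_of_all _ fun x => by
        rw [Real.norm_of_nonneg (pow_nonneg (mul_nonneg (hs x).1 (hs' x).1) _)]
        exact hle x)
    refine ⟨hm, (integral_mono hm hgi hle).trans ?_⟩
    simp only [g]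
    rw [integral_const_mul, integral_add (hint.div_const _) (hint'.div_const _), integral_div,
      integral_div, show S.dd i ^ (η - (θF + θH)) = X * X' by
        rw [← Real.rpow_add (by linarith)]; ring_nf]
    have a1 : (∫ x, f x ^ (2 * m) ∂gp B (S.dm i)) / X ^ (2 * m) ≤ 1 :=
      (div_le_one (by positivity)).2 hb
    have a2 : (∫ x, f' x ^ (2 * m) ∂gp B (S.dm i)) / X' ^ (2 * m) ≤ 1 :=
      (div_le_one (by positivity)).2 hb'
    have hp : 0 ≤ (X * X') ^ m := by positivity
    nlinarith [mul_le_mul_of_nonneg_left (add_le_add a1 a2) hp]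

end Vale.Agent.P347.Zero
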