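import Vale.Agent.P347.Zero.Class
import Vale.Agent.P347.Zero.SamBd
import Vale.Agent.P347.Zero.AvgDiff
import Vale.Agent.P347.Zero.AvgStep

/-!
The vocabulary of averaging over blocks: functionals of a test, the independent parts with their
balance, their programs, and the fields that the expansion produces.
-/

noncomputable section

open MeasureTheory ProbabilityTheory
open scoped RealInnerProductSpace NNReal

namespace Vale.Agent.P347.Zero

/-- A functional of a test, at each index, centre and value of the remaining blocks. -/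
abbrev Fun (S : Sys) (C : Type) :=
  ∀ i, Space (S.dm i) → (C → Space (S.dm i)) → (Space (S.dm i) → ℝ) → ℝ

variable {S : Sys} {Z Z₁ Z₂ C I : Type} [Fintype Z] [DecidableEq Z] [Fintype Z₁] [Fintype Z₂]
  [Fintype C] [DecidableEq C] [Fintype I] [DecidableEq I]

/-- A field with one leg as a vector, at given values of both groups of blocks. -/
def vecF (P : Fld S (Z ⊕ C) Unit) (i : S.ι) (p : Space (S.dm i)) (y : C → Space (S.dm i))
    (z : Z → Space (S.dm i)) : Space (S.dm i) :=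
  vecT (P i p (Sum.elim z y))

/-- The test averaged over an independent copy of the vector. -/
def avgF (P : Fld S (Z ⊕ C) Unit) (i : S.ι) (p : Space (S.dm i)) (y : C → Space (S.dm i))
    (V : Space (S.dm i) → ℝ) : Space (S.dm i) → ℝ :=
  fun u => ∫ z, V (u + vecF P i p y z) ∂gp Z (S.dm i)

/-- The mean pairing of a field with the derivative of the test at the point `Q`. -/
def pairF (Y : Fld S (Z ⊕ C) I) (Q : Fld S (Z ⊕ C) Unit) : Fun S C := fun i p y V =>
  ∫ z, pairT (Y i p (Sum.elim z y)) (dI I V (vecF Q i p y z)) ∂gp Z (S.dm i)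

/-- The balance of a part of variance `v`. -/
def balF (P : Fld S (Z ⊕ C) Unit) (v : ℕ → ℝ) : Fun S C := fun i p y V =>
  pairF P P i p y V - v (S.dm i) * ∫ z, lapV V (vecF P i p y z) ∂gp Z (S.dm i)

/-- At most `d ^ (-κ)` against every test, in mean over the blocks. -/
def Sml (Cst : ℕ → ℝ) (κ : ℝ) (Φ : Fun S C) : Prop :=
  ∀ η : ℝ, 0 < η → S.Ev fun i => ∀ p, ∃ e : (C → Space (S.dm i)) → ℝ,
    Integrable e (gp C (S.dm i)) ∧ ∫ y, e y ∂gp C (S.dm i) ≤ S.dd i ^ (η - κ) * S.wt i p ∧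
      ∀ y V, TestV Cst V → |Φ i p y V| ≤ e y

/-- Programs that receive only the blocks `C` and realise the law of the vector plus little noise,
with Lipschitz constant nearly `d ^ (-σ)`. -/
def Prg (κ σ : ℝ) (P : Fld S (Z ⊕ C) Unit) : Prop :=
  ∀ ε : ℝ, 0 < ε → ∃ τ : ℝ, 0 < τ ∧ ∃ (R : Run S C Unit) (s : ℕ → ℝ),
    R.Cheap ε ∧ R.LipAll ∧ R.LipIn (σ - ε) ∧
      (S.Ev fun i => |s (S.dm i)| ≤ S.dd i ^ (-τ)) ∧
      ∀ η : ℝ, 0 < η → S.Ev fun i => ∀ p,
        ∃ e : (C → Space (S.dm i)) × (Unit → Space (S.dm i)) → ℝ,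
          Integrable e ((gp C (S.dm i)).prod (gp Unit (S.dm i))) ∧
            ∫ u, e u ∂(gp C (S.dm i)).prod (gp Unit (S.dm i)) ≤ S.dd i ^ (η - κ) * S.wt i p ∧
            ∀ y A, Close (gp (Fin (R.sd i)) (S.dm i)) (fun ω => R.F i (S.og i) (p, y, A, ω))
              ((gp Z (S.dm i)).prod (gam (S.dm i)))
              (fun q => vecF P i p y q.1 + s (S.dm i) • q.2) (e (y, A))

/-- A part absorbs a functional at the point `Q`: their sum is negligible. -/
def Abs (Cst : ℕ → ℝ) (κ σ w : ℝ) (Q : Fld S (Z ⊕ C) Unit) (Φ : Fun S C) : Prop :=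
  ∃ (Z' : Type) (_ : Fintype Z') (_ : DecidableEq Z') (P : Fld S (Z' ⊕ C) Unit) (v : ℕ → ℝ),
    Sm P ∧ (∀ η : ℝ, 0 < η → S.Ev fun i => |v (S.dm i)| ≤ S.dd i ^ (η - 2 * w)) ∧ Prg κ σ P ∧
      Sml Cst κ fun i p y V =>
        Φ i p y (avgF P i p y V) + balF P v i p y (avgF Q i p y V)

/-- No part. -/
def zeroP (S : Sys) (Z C : Type) : Fld S (Z ⊕ C) Unit := fun _ _ _ => 0

/-- Two independent parts. -/
def sumP (P₁ : Fld S (Z₁ ⊕ C) Unit) (P₂ : Fld S (Z₂ ⊕ C) Unit) : Fld S ((Z₁ ⊕ Z₂) ⊕ C) Unit :=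
  fun i p x =>
    P₁ i p (Sum.elim (fun z => x (.inl (.inl z))) fun c => x (.inr c)) +
      P₂ i p (Sum.elim (fun z => x (.inl (.inr z))) fun c => x (.inr c))

/-- The part of a field: `a` times a block for each leg but `o`, plus `b` times the field read at
`o` with these blocks at its other legs. -/
def partP (o : I) (a b : ℕ → ℝ) (Y : Fld S (Z ⊕ C) I) : Fld S ((Z ⊕ I) ⊕ C) Unit := fun i p x =>
  tenV (a (S.dm i) • ∑ l ∈ Finset.univ.erase o, x (.inl (.inr l)) +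
    b (S.dm i) • apT o (Y i p (Sum.elim (fun z => x (.inl (.inl z))) fun c => x (.inr c)))
      fun l => x (.inl (.inr l)))

/-- Node rules of every dimension, of `d ^ o(1)` nodes and weights, exact within `d ^ (-M)`. -/
structure NodeFam (M : ℝ) where
  /-- The number of nodes. -/
  m : ℕ → ℕ
  /-- The rules. -/
  N : ∀ n, Nodes (m n)
  few : ∀ η : ℝ, 0 < η → ∃ d₀ : ℕ, ∀ n, d₀ ≤ n → (m n : ℝ) ≤ (n : ℝ) ^ η
  small : ∀ η : ℝ, 0 < η → ∃ d₀ : ℕ, ∀ n, d₀ ≤ n → ∑ l, |(N n).w l| ≤ (n : ℝ) ^ η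
  exact' : ∃ d₀ : ℕ, ∀ n, d₀ ≤ n → QuadOK (N n) ((n : ℝ) ^ (-M))
  mem : ∀ n l, (N n).t l ∈ Set.Icc (0 : ℝ) 1

end Vale.Agent.P347.Zero
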