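import Vale.Agent.P347.Zero.AvgDefs

/-!
The algebra of functionals of a test: averages over independent parts commute with the derivative
and with each other, the balance of two independent parts is the sum of their balances, and the
negligible functionals form a space.
-/

noncomputable section

open MeasureTheory ProbabilityTheory
open scoped RealInnerProductSpace NNReal

namespace Vale.Agent.P347.Zero

theorem PG.shift {E : Type} [NormedAddCommGroup E] [NormedSpace ℝ E] {f : E → ℝ} (hf : PG f) (v : E) :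
    PG fun x => f (x + v) := fun k => by
  obtain ⟨h1, c, n, hc⟩ := hf k
  refine ⟨h1.comp (contDiff_id.add contDiff_const), |c| * (1 + ‖v‖) ^ n, n, fun x => ?_⟩
  rw [iteratedFDeriv_comp_add_right]
  refine ((pg_bound le_rfl (hc (x + v))).trans ?_)
  rw [mul_assoc, ← mul_pow]
  exact mul_le_mul_of_nonneg_left (pow_le_pow_left₀ (by positivity)
    (by nlinarith [norm_add_le x v, norm_nonneg x, norm_nonneg v]) n) (abs_nonneg c)

variable {S : Sys} {Z Z₁ Z₂ C I : Type} [Fintype Z] [DecidableEq Z] [Fintype Z₁] [DecidableEq Z₁]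
  [Fintype Z₂] [DecidableEq Z₂] [Fintype C] [DecidableEq C] [Fintype I] [DecidableEq I]
  {Cst : ℕ → ℝ} {κ κ' : ℝ}

/-- The insertion of the blocks on the left. -/
def inLC (d : ℕ) (Z C : Type) : (Z → Space d) →L[ℝ] (Z ⊕ C → Space d) :=
  ContinuousLinearMap.pi
    (Sum.elim (fun z => (ContinuousLinearMap.proj z : (Z → Space d) →L[ℝ] Space d)) fun _ => 0)

omit [Fintype Z] [DecidableEq Z] [Fintype C] [DecidableEq C] in
theorem inLC_apply {d : ℕ} (z : Z → Space d) (y : C → Space d) :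
    inLC d Z C z + Sum.elim (0 : Z → Space d) y = Sum.elim z y := by
  funext b
  cases b <;> simp [inLC]

/-- An entry of a field at fixed values of the blocks on the right. -/
theorem Sm.pgL {T : Fld S (Z ⊕ C) I} (h : Sm T) (i : S.ι) (p : Space (S.dm i))
    (y : C → Space (S.dm i)) (idx : I → Fin (S.dm i)) : PG fun z => T i p (Sum.elim z y) idx := by
  have h1 := ((h.pg i p idx).shift (Sum.elim (0 : Z → Space (S.dm i)) y)).comp_clm (inLC (S.dm i) Z C)
  simpa only [inLC_apply] using h1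

theorem pg_int {d : ℕ} {B : Type} [Fintype B] {f : (B → Space d) → ℝ} (hf : PG f) :
    Integrable f (gp B d) :=
  integrable_gp_iff.2 (gam_int (AvgAux.nice_emb hf).cont (AvgAux.nice_emb hf).grow)

theorem continuous_vecF {P : Fld S (Z ⊕ C) Unit} (hP : Sm P) (i : S.ι) (p : Space (S.dm i))
    (y : C → Space (S.dm i)) : Continuous (vecF P i p y) := by
  unfold vecF vecT
  exact (PiLp.continuous_toLp 2 _).comp (continuous_pi fun c => (hP.pgL i p y fun _ => c).cont)

theorem integrable_vecF {P : Fld S (Z ⊕ C) Unit} (hP : Sm P) (i : S.ι) (p : Space (S.dm i))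
    (y : C → Space (S.dm i)) : Integrable (vecF P i p y) (gp Z (S.dm i)) := by
  have h : Integrable (fun z => ∑ c, vecF P i p y z c • ev c) (gp Z (S.dm i)) :=
    integrable_finsetSum _ fun c _ => (pg_int (hP.pgL i p y fun _ => c)).smul_const (ev c)
  simpa only [← TestAux.sum_coord] using h

theorem TestV.avgF {P : Fld S (Z ⊕ C) Unit} (hP : Sm P) (hC : ∀ j, 0 ≤ Cst j) {i : S.ι}
    {p : Space (S.dm i)} {y : C → Space (S.dm i)} {V : Space (S.dm i) → ℝ} (hV : TestV Cst V) :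
    TestV Cst (Zero.avgF P i p y V) :=
  hV.avg hC (integrable_vecF hP i p y)

omit [DecidableEq Z] [DecidableEq C] [Fintype C] in
theorem avgF_zero (i : S.ι) (p : Space (S.dm i)) (y : C → Space (S.dm i)) (V : Space (S.dm i) → ℝ) :
    avgF (zeroP S Z C) i p y V = V := by
  funext u
  simp [avgF, vecF, zeroP, vecT_zero]

omit [DecidableEq Z] [DecidableEq C] [Fintype C] in
theorem pairF_zeroP (P Q : Fld S (Z ⊕ C) Unit) (hP : P = zeroP S Z C) (i : S.ι)
    (p : Space (S.dm i)) (y : C → Space (S.dm i)) (V : Space (S.dm i) → ℝ) :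
    pairF P Q i p y V = 0 := by
  subst hP
  simp [pairF, pairT, zeroP]

omit [DecidableEq Z] [DecidableEq C] [Fintype C] in
theorem balF_zero (i : S.ι) (p : Space (S.dm i)) (y : C → Space (S.dm i)) (V : Space (S.dm i) → ℝ) :
    balF (zeroP S Z C) 0 i p y V = 0 := by
  simp [balF, pairF_zeroP _ _ rfl]

/-! ### Two groups of blocks -/

/-- Splitting the seeds of two groups. -/
def sumMP {d : ℕ} (x : Z₁ ⊕ Z₂ → Space d) : (Z₁ → Space d) × (Z₂ → Space d) :=
  (fun z => x (.inl z), fun z => x (.inr z))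

omit [DecidableEq Z₁] [DecidableEq Z₂] in
theorem sumMP_mp (d : ℕ) :
    MeasurePreserving (sumMP (Z₁ := Z₁) (Z₂ := Z₂)) (gp (Z₁ ⊕ Z₂) d) ((gp Z₁ d).prod (gp Z₂ d)) :=
  measurePreserving_sumPiEquivProdPi (X := fun _ : Z₁ ⊕ Z₂ => Space d) (fun _ => gam d)

omit [DecidableEq Z₁] [DecidableEq Z₂] in
theorem integral_sum_blocks {d : ℕ} {f : (Z₁ → Space d) → (Z₂ → Space d) → ℝ}
    (hf : Integrable (Function.uncurry f) ((gp Z₁ d).prod (gp Z₂ d))) :
    ∫ x, f (fun z => x (.inl z)) (fun z => x (.inr z)) ∂gp (Z₁ ⊕ Z₂) d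
      = ∫ z₁, ∫ z₂, f z₁ z₂ ∂gp Z₂ d ∂gp Z₁ d := by
  have h := sumMP_mp (Z₁ := Z₁) (Z₂ := Z₂) d
  rw [show (∫ z₁, ∫ z₂, f z₁ z₂ ∂gp Z₂ d ∂gp Z₁ d) = ∫ z, Function.uncurry f z ∂(gp Z₁ d).prod (gp Z₂ d)
    from (integral_prod _ hf).symm, ← h.map_eq,
    integral_map h.measurable.aemeasurable (h.map_eq ▸ hf.1)]
  rfl

omit [DecidableEq Z₁] [DecidableEq Z₂] [DecidableEq C] [Fintype C] [Fintype Z₁] [Fintype Z₂] in
theorem vecF_sumP (P₁ : Fld S (Z₁ ⊕ C) Unit) (P₂ : Fld S (Z₂ ⊕ C) Unit) (i : S.ι)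
    (p : Space (S.dm i)) (y : C → Space (S.dm i)) (x : Z₁ ⊕ Z₂ → Space (S.dm i)) :
    vecF (sumP P₁ P₂) i p y x
      = vecF P₁ i p y (fun z => x (.inl z)) + vecF P₂ i p y (fun z => x (.inr z)) := rfl

theorem Sm.sumP {P₁ : Fld S (Z₁ ⊕ C) Unit} {P₂ : Fld S (Z₂ ⊕ C) Unit} (h₁ : Sm P₁) (h₂ : Sm P₂) :
    Sm (sumP P₁ P₂) := by
  refine sm_iff.2 fun i p idx => ?_
  let π₁ : ((Z₁ ⊕ Z₂) ⊕ C → Space (S.dm i)) →L[ℝ] (Z₁ ⊕ C → Space (S.dm i)) :=
    ContinuousLinearMap.pi fun b => ContinuousLinearMap.proj (Sum.map Sum.inl id b)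
  let π₂ : ((Z₁ ⊕ Z₂) ⊕ C → Space (S.dm i)) →L[ℝ] (Z₂ ⊕ C → Space (S.dm i)) :=
    ContinuousLinearMap.pi fun b => ContinuousLinearMap.proj (Sum.map Sum.inr id b)
  have e : (fun x => Zero.sumP P₁ P₂ i p x idx)
      = fun x => P₁ i p (π₁ x) idx + P₂ i p (π₂ x) idx := by
    funext x
    show P₁ i p _ idx + P₂ i p _ idx = P₁ i p _ idx + P₂ i p _ idx
    congr 3 <;> funext b <;> cases b <;> rfl
  rw [e]
  exact ((h₁.pg i p idx).comp_clm π₁).add ((h₂.pg i p idx).comp_clm π₂)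

theorem sm_zeroP : Sm (zeroP S Z C) := sm_iff.2 fun _ _ _ => pg_const 0

theorem cont_pairT {d : ℕ} {α : Type} [TopologicalSpace α] {T : α → Ten d I} (hT : Continuous T)
    {V : Space d → ℝ} (hV : PG V) {Q : α → Space d} (hQ : Continuous Q) :
    Continuous fun z => pairT (T z) (dI I V (Q z)) :=
  continuous_finsetSum _ fun idx _ =>
    ((continuous_apply idx).comp hT).mul ((continuous_dI hV idx).comp hQ)

theorem pairT_bound [Nonempty I] {d : ℕ} (hC : ∀ j, 0 ≤ Cst j) {V : Space d → ℝ} (hV : TestV Cst V)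
    (T : Ten d I) (u : Space d) : |pairT T (dI I V u)| ≤ Cst (Fintype.card I) * Real.sqrt (hsT T) := by
  refine (abs_pairT_le _ _).trans ?_
  rw [mul_comm]
  refine mul_le_mul_of_nonneg_right ?_ (Real.sqrt_nonneg _)
  exact (Real.sqrt_le_sqrt (hsT_dI hV u)).trans_eq (Real.sqrt_sq (hC _))

theorem pairT_bound' [Nonempty I] {d : ℕ} (hC : ∀ j, 0 ≤ Cst j) {V : Space d → ℝ} (hV : TestV Cst V)
    (T : Ten d I) (u : Space d) : |pairT T (dI I V u)| ≤ ∑ idx, |T idx| * Cst (Fintype.card I) :=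
  (Finset.abs_sum_le_sum_abs _ _).trans (Finset.sum_le_sum fun idx _ => (abs_mul _ _).trans_le
    (mul_le_mul_of_nonneg_left (abs_dI_le hC hV u idx) (abs_nonneg _)))

/-- The pairing at a point moved by an independent vector is the pairing with the average. -/
theorem pairT_avg [Nonempty I] {d : ℕ} {Ω : Type} [MeasurableSpace Ω] {ν : Measure Ω}
    [IsProbabilityMeasure ν] {W : Ω → Space d} (hW : Integrable W ν) (hC : ∀ j, 0 ≤ Cst j)
    {V : Space d → ℝ} (hV : TestV Cst V) (T : Ten d I) (u : Space d) :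
    ∫ ω, pairT T (dI I V (u + W ω)) ∂ν = pairT T (dI I (fun u => ∫ ω, V (u + W ω) ∂ν) u) := by
  simp only [pairT]
  have hi : ∀ idx, Integrable (fun ω => dI I V (u + W ω) idx) ν := fun idx =>
    integrable_dI hC hV (aestronglyMeasurable_const.add hW.1) idx
  rw [integral_finsetSum _ fun idx _ => (hi idx).const_mul _]
  exact Finset.sum_congr rfl fun idx _ => by rw [integral_const_mul, dI_avg hC hV hW]

theorem integrable_pairT [Nonempty I] (hC : ∀ j, 0 ≤ Cst j) {i : S.ι} {p : Space (S.dm i)}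
    {y : C → Space (S.dm i)} {T : Fld S (Z ⊕ C) I} (hT : Sm T) {α : Type} [MeasurableSpace α]
    {μ : Measure α} [IsFiniteMeasure μ] {V : Space (S.dm i) → ℝ} (hV : TestV Cst V)
    {π : α → Z → Space (S.dm i)} (hπ : MeasurePreserving π μ (gp Z (S.dm i)))
    {Q : α → Space (S.dm i)} (hQ : AEStronglyMeasurable Q μ) :
    Integrable (fun a => pairT (T i p (Sum.elim (π a) y)) (dI I V (Q a))) μ := by
  refine Integrable.mono' (g := fun a => ∑ idx, |T i p (Sum.elim (π a) y) idx| * Cst (Fintype.card I))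
    (integrable_finsetSum _ fun idx _ =>
      ((hπ.integrable_comp_of_integrable (pg_int (hT.pgL i p y idx))).abs).mul_const _) ?_
    (ae_of_all _ fun a => (Real.norm_eq_abs _).trans_le (pairT_bound' hC hV _ _))
  simp only [pairT]
  exact Finset.aestronglyMeasurable_fun_sum _ fun idx _ =>
    ((hT.pgL i p y idx).cont.comp_aestronglyMeasurable hπ.measurable.aestronglyMeasurable).mul
      ((continuous_dI hV.1 idx).comp_aestronglyMeasurable hQ)

/-- Averaging over a sum is averaging twice. -/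
theorem avgF_sumP (hC : ∀ j, 0 ≤ Cst j) {P₁ : Fld S (Z₁ ⊕ C) Unit} {P₂ : Fld S (Z₂ ⊕ C) Unit}
    (h₁ : Sm P₁) (h₂ : Sm P₂) {i : S.ι} {p : Space (S.dm i)} {y : C → Space (S.dm i)}
    {V : Space (S.dm i) → ℝ} (hV : TestV Cst V) :
    avgF (sumP P₁ P₂) i p y V = avgF P₁ i p y (avgF P₂ i p y V) := by
  funext u
  simp only [avgF, vecF_sumP, ← add_assoc]
  refine integral_sum_blocks (f := fun a b => V (u + vecF P₁ i p y a + vecF P₂ i p y b)) ?_
  have hW : Integrable (fun q : (Z₁ → Space (S.dm i)) × (Z₂ → Space (S.dm i)) =>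
      vecF P₁ i p y q.1 + vecF P₂ i p y q.2) ((gp Z₁ (S.dm i)).prod (gp Z₂ (S.dm i))) :=
    ((integrable_vecF h₁ i p y).comp_fst _).add ((integrable_vecF h₂ i p y).comp_snd _)
  refine (integrable_test_shift hC hV hW u).congr (ae_of_all _ fun q => ?_)
  simp [Function.uncurry, add_assoc]

theorem avgF_comm (hC : ∀ j, 0 ≤ Cst j) {P₁ : Fld S (Z₁ ⊕ C) Unit} {P₂ : Fld S (Z₂ ⊕ C) Unit}
    (h₁ : Sm P₁) (h₂ : Sm P₂) {i : S.ι} {p : Space (S.dm i)} {y : C → Space (S.dm i)}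
    {V : Space (S.dm i) → ℝ} (hV : TestV Cst V) :
    avgF P₁ i p y (avgF P₂ i p y V) = avgF P₂ i p y (avgF P₁ i p y V) := by
  funext u
  simp only [avgF]
  have hW : Integrable (fun q : (Z₁ → Space (S.dm i)) × (Z₂ → Space (S.dm i)) =>
      vecF P₁ i p y q.1 + vecF P₂ i p y q.2) ((gp Z₁ (S.dm i)).prod (gp Z₂ (S.dm i))) :=
    ((integrable_vecF h₁ i p y).comp_fst _).add ((integrable_vecF h₂ i p y).comp_snd _)
  rw [integral_integral_swap ((integrable_test_shift hC hV hW u).congr (ae_of_all _ fun q => by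
    simp [Function.uncurry, add_assoc]))]
  exact integral_congr_ae (ae_of_all _ fun b => integral_congr_ae (ae_of_all _ fun a => by
    beta_reduce; rw [add_right_comm]))

theorem lapV_bound {d : ℕ} (hC : ∀ j, 0 ≤ Cst j) {V : Space d → ℝ} (hV : TestV Cst V) (u : Space d) :
    |lapV V u| ≤ d * Cst 2 := by
  refine (Finset.abs_sum_le_sum_abs _ _).trans
    ((Finset.sum_le_sum fun c _ => TestAux.abs_le_of_sq (hC 2) (hV.2 2 (by norm_num) u) _).trans_eq ?_)
  simp

theorem continuous_lapV {d : ℕ} {V : Space d → ℝ} (hV : PG V) : Continuous (lapV V) :=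
  continuous_finsetSum _ fun _ _ =>
    (TestAux.differentiable_dEnt (DiffAux.pg_smooth hV) 2 _).continuous

theorem pairF_sumP (hC : ∀ j, 0 ≤ Cst j) {P₁ : Fld S (Z₁ ⊕ C) Unit} {P₂ : Fld S (Z₂ ⊕ C) Unit}
    (h₁ : Sm P₁) (h₂ : Sm P₂) {i : S.ι} {p : Space (S.dm i)} {y : C → Space (S.dm i)}
    {V : Space (S.dm i) → ℝ} (hV : TestV Cst V) :
    pairF (sumP P₁ P₂) (sumP P₁ P₂) i p y V
      = pairF P₁ P₁ i p y (avgF P₂ i p y V) + pairF P₂ P₂ i p y (avgF P₁ i p y V) := by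
  let μ := (gp Z₁ (S.dm i)).prod (gp Z₂ (S.dm i))
  let W : (Z₁ → Space (S.dm i)) × (Z₂ → Space (S.dm i)) → Space (S.dm i) :=
    fun q => vecF P₁ i p y q.1 + vecF P₂ i p y q.2
  let f₁ : (Z₁ → Space (S.dm i)) × (Z₂ → Space (S.dm i)) → ℝ :=
    fun q => pairT (P₁ i p (Sum.elim q.1 y)) (dI Unit V (W q))
  let f₂ : (Z₁ → Space (S.dm i)) × (Z₂ → Space (S.dm i)) → ℝ :=
    fun q => pairT (P₂ i p (Sum.elim q.2 y)) (dI Unit V (W q))
  have hWm : AEStronglyMeasurable W μ := (((continuous_vecF h₁ i p y).comp continuous_fst).add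
    ((continuous_vecF h₂ i p y).comp continuous_snd)).aestronglyMeasurable
  have i1 : Integrable f₁ μ := integrable_pairT hC h₁ hV measurePreserving_fst hWm
  have i2 : Integrable f₂ μ := integrable_pairT hC h₂ hV measurePreserving_snd hWm
  have e0 : pairF (sumP P₁ P₂) (sumP P₁ P₂) i p y V = ∫ q, (f₁ q + f₂ q) ∂μ := by
    unfold pairF
    have h := integral_sum_blocks (f := fun a b => f₁ (a, b) + f₂ (a, b)) (i1.add i2)
    refine ((integral_congr_ae (ae_of_all _ fun x => ?_)).trans h).trans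
      (integral_prod _ (i1.add i2)).symm
    exact pairT_add _ _ _
  rw [e0, integral_add i1 i2, integral_prod f₁ i1, integral_prod_symm f₂ i2]
  unfold pairF
  congr 1
  · exact integral_congr_ae (ae_of_all _ fun a => pairT_avg (integrable_vecF h₂ i p y) hC hV
      (P₁ i p (Sum.elim a y)) (vecF P₁ i p y a))
  · refine integral_congr_ae (ae_of_all _ fun b => ?_)
    have h := pairT_avg (integrable_vecF h₁ i p y) hC hV (P₂ i p (Sum.elim b y)) (vecF P₂ i p y b)
    refine Eq.trans ?_ h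
    exact integral_congr_ae (ae_of_all _ fun a => by
      simp only [f₂, W, add_comm (vecF P₁ i p y a)])

theorem lapF_sumP (hC : ∀ j, 0 ≤ Cst j) {P₁ : Fld S (Z₁ ⊕ C) Unit} {P₂ : Fld S (Z₂ ⊕ C) Unit}
    (h₁ : Sm P₁) (h₂ : Sm P₂) {i : S.ι} {p : Space (S.dm i)} {y : C → Space (S.dm i)}
    {V : Space (S.dm i) → ℝ} (hV : TestV Cst V) :
    ∫ x, lapV V (vecF (sumP P₁ P₂) i p y x) ∂gp (Z₁ ⊕ Z₂) (S.dm i)
        = ∫ a, lapV (avgF P₂ i p y V) (vecF P₁ i p y a) ∂gp Z₁ (S.dm i) ∧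
      ∫ x, lapV V (vecF (sumP P₁ P₂) i p y x) ∂gp (Z₁ ⊕ Z₂) (S.dm i)
        = ∫ b, lapV (avgF P₁ i p y V) (vecF P₂ i p y b) ∂gp Z₂ (S.dm i) := by
  let μ := (gp Z₁ (S.dm i)).prod (gp Z₂ (S.dm i))
  let f : (Z₁ → Space (S.dm i)) → (Z₂ → Space (S.dm i)) → ℝ :=
    fun a b => lapV V (vecF P₁ i p y a + vecF P₂ i p y b)
  have il : Integrable (Function.uncurry f) μ :=
    Integrable.of_bound ((continuous_lapV hV.1).comp
      (((continuous_vecF h₁ i p y).comp continuous_fst).add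
        ((continuous_vecF h₂ i p y).comp continuous_snd))).aestronglyMeasurable _
      (ae_of_all _ fun q => (Real.norm_eq_abs _).trans_le (lapV_bound hC hV _))
  have e0 := integral_sum_blocks (f := f) il
  refine ⟨e0.trans (integral_congr_ae (ae_of_all _ fun a => ?_)),
    e0.trans ((integral_integral_swap il).trans (integral_congr_ae (ae_of_all _ fun b => ?_)))⟩
  · exact (lapV_avg hC hV (integrable_vecF h₂ i p y) _).symm
  · refine Eq.trans ?_ (lapV_avg hC hV (integrable_vecF h₁ i p y) _).symm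
    exact integral_congr_ae (ae_of_all _ fun a => by simp only [f, add_comm (vecF P₁ i p y a)])

/-- The balance of two independent parts. -/
theorem balF_sumP (hC : ∀ j, 0 ≤ Cst j) {P₁ : Fld S (Z₁ ⊕ C) Unit} {P₂ : Fld S (Z₂ ⊕ C) Unit}
    (h₁ : Sm P₁) (h₂ : Sm P₂) (v₁ v₂ : ℕ → ℝ) {i : S.ι} {p : Space (S.dm i)}
    {y : C → Space (S.dm i)} {V : Space (S.dm i) → ℝ} (hV : TestV Cst V) :
    balF (sumP P₁ P₂) (v₁ + v₂) i p y V
      = balF P₁ v₁ i p y (avgF P₂ i p y V) + balF P₂ v₂ i p y (avgF P₁ i p y V) := by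
  obtain ⟨e3, e4⟩ := lapF_sumP hC h₁ h₂ (i := i) (p := p) (y := y) hV
  unfold balF
  rw [pairF_sumP hC h₁ h₂ hV, Pi.add_apply, add_mul]
  nth_rw 1 [e3]
  rw [e4]
  ring

/-! ### Negligible functionals -/

omit [DecidableEq C] in
theorem Sml.congr {Φ Φ' : Fun S C} (h : Sml Cst κ Φ)
    (he : ∀ i p y V, TestV Cst V → Φ' i p y V = Φ i p y V) : Sml Cst κ Φ' := fun η hη =>
  (h η hη).mono fun i hi p => by
    obtain ⟨e, he', hb, hc⟩ := hi p
    exact ⟨e, he', hb, fun y V hV => (he i p y V hV).symm ▸ hc y V hV⟩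

omit [DecidableEq C] in
theorem Sml.mono {Φ : Fun S C} (h : Sml Cst κ Φ) (hκ : κ' ≤ κ) : Sml Cst κ' Φ := fun η hη =>
  ((h η hη).and S.ev_one_le).mono fun i ⟨hi, hd⟩ p => by
    obtain ⟨e, he', hb, hc⟩ := hi p
    exact ⟨e, he', hb.trans (mul_le_mul_of_nonneg_right
      (Real.rpow_le_rpow_of_exponent_le hd (by linarith)) (S.wt_nonneg i p)), hc⟩

omit [DecidableEq C] in
theorem sml_zero : Sml Cst κ (fun _ _ _ _ => 0 : Fun S C) := fun η hη =>
  S.ev_one_le.mono fun i hd p => ⟨fun _ => 0, integrable_const _, by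
    rw [integral_const, smul_zero]
    exact mul_nonneg (Real.rpow_nonneg (by linarith) _) (S.wt_nonneg i p), fun _ _ _ => by simp⟩

omit [DecidableEq C] in
theorem Sml.add {Φ Φ' : Fun S C} (h : Sml Cst κ Φ) (h' : Sml Cst κ Φ') :
    Sml Cst κ fun i p y V => Φ i p y V + Φ' i p y V := fun η hη =>
  (((h (η / 2) (half_pos hη)).and (h' (η / 2) (half_pos hη))).and
    (S.ev_one_le.and (S.ev_le_rpow 2 (half_pos hη)))).mono fun i ⟨⟨h1, h2⟩, hd, h2d⟩ p => by
    obtain ⟨e, he, hb, hc⟩ := h1 p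
    obtain ⟨e', he', hb', hc'⟩ := h2 p
    refine ⟨fun y => e y + e' y, he.add he', ?_, fun y V hV =>
      (abs_add_le _ _).trans (add_le_add (hc y V hV) (hc' y V hV))⟩
    rw [integral_add he he']
    refine (add_le_add hb hb').trans ?_
    rw [← two_mul, show S.dd i ^ (η - κ) = S.dd i ^ (η / 2) * S.dd i ^ (η / 2 - κ) by
      rw [← Real.rpow_add (by linarith)]; ring_nf, ← mul_assoc]
    exact mul_le_mul_of_nonneg_right (mul_le_mul_of_nonneg_right h2d
      (Real.rpow_nonneg (by linarith) _)) (S.wt_nonneg i p)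

omit [DecidableEq C] in
theorem Sml.neg {Φ : Fun S C} (h : Sml Cst κ Φ) : Sml Cst κ fun i p y V => -Φ i p y V :=
  fun η hη => (h η hη).mono fun i hi p => by
    obtain ⟨e, he, hb, hc⟩ := hi p
    exact ⟨e, he, hb, fun y V hV => (abs_neg _).trans_le (hc y V hV)⟩

omit [DecidableEq C] in
theorem Sml.sum {α : Type} (s : Finset α) {Φ : α → Fun S C} (h : ∀ a ∈ s, Sml Cst κ (Φ a)) :
    Sml Cst κ fun i p y V => ∑ a ∈ s, Φ a i p y V := by
  classical
  induction s using Finset.induction_on with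
  | empty => simpa using sml_zero (S := S) (C := C) (Cst := Cst) (κ := κ)
  | insert a s ha ih =>
    refine ((h a (Finset.mem_insert_self a s)).add
      (ih fun b hb => h b (Finset.mem_insert_of_mem hb))).congr fun i p y V _ => ?_
    rw [Finset.sum_insert ha]

theorem Sml.comp_avg (hC : ∀ j, 0 ≤ Cst j) {Φ : Fun S C} (h : Sml Cst κ Φ)
    {Q : Fld S (Z ⊕ C) Unit} (hQ : Sm Q) :
    Sml Cst κ fun i p y V => Φ i p y (avgF Q i p y V) := fun η hη =>
  (h η hη).mono fun i hi p => by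
    obtain ⟨e, he, hb, hc⟩ := hi p
    exact ⟨e, he, hb, fun y V hV => hc y _ (hV.avgF hQ hC)⟩

end Vale.Agent.P347.Zero
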