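import Vale.Agent.P347.Zero.AvgFun
import Vale.Agent.P347.Zero.AvgStep
import Vale.Agent.P347.Zero.SamBasics
import Vale.Agent.P347.Zero.VtxBasic

/-!
The two exact moves of averaging over blocks: integration by parts in a block in which a field is
linear, and the covariance step with a node rule, which turns the pairing at a point into the
pairing with the average plus the pairing of one field of two copies of the blocks.
-/

noncomputable section

open MeasureTheory ProbabilityTheory
open scoped RealInnerProductSpace NNReal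

namespace Vale.Agent.P347.Zero

variable {S : Sys} {Z C B I : Type} [Fintype Z] [DecidableEq Z] [Fintype C] [DecidableEq C]
  [Fintype B] [DecidableEq B] [Fintype I] [DecidableEq I]

/-! ### Derivatives along the point -/

theorem PG.dI {d : ℕ} {V : Space d → ℝ} (hV : PG V) {J : Type} [Fintype J] (idx : J → Fin d) :
    PG fun y => Zero.dI J V y idx := by
  suffices h : ∀ (k : ℕ) (j : Fin k → Fin d), PG (TestAux.dEnt V k j) from h _ _
  intro k
  induction k with
  | zero => intro j; rw [TestAux.dEnt_zero]; exact hV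
  | succ k ih =>
    intro j
    rw [show TestAux.dEnt V (k + 1) j = fun y => fderiv ℝ (TestAux.dEnt V k (Fin.tail j)) y (ev (j 0))
      from funext fun y => TestAux.dEnt_succ (DiffAux.pg_smooth hV) k j y]
    exact (ih (Fin.tail j)).fderiv_apply _

theorem pgv_vecF {Q : Fld S (Z ⊕ C) Unit} (hQ : Sm Q) (i : S.ι) (p : Space (S.dm i))
    (y : C → Space (S.dm i)) : PGv (vecF Q i p y) := by
  have e : vecF Q i p y = fun z => ∑ c, ((ContinuousLinearMap.id ℝ ℝ).smulRight (ev c))
      (Q i p (Sum.elim z y) fun _ => c) := funext fun z => by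
    conv_lhs => rw [TestAux.sum_coord (vecF Q i p y z)]
    rfl
  rw [e]
  exact PGv.sum _ fun c _ => PGv.clm (show PGv _ from fun k => hQ.pgL i p y (fun _ => c) k) _

theorem pg_dI_vecF {Q : Fld S (Z ⊕ C) Unit} (hQ : Sm Q) {i : S.ι} (p : Space (S.dm i))
    (y : C → Space (S.dm i)) {V : Space (S.dm i) → ℝ} (hV : PG V) {J : Type} [Fintype J]
    (idx : J → Fin (S.dm i)) : PG fun z => dI J V (vecF Q i p y z) idx :=
  PGv.comp (h := fun u => dI J V u idx) (fun k => hV.dI idx k) (pgv_vecF hQ i p y)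

/-- The derivative in a block of the left group, at fixed values of the right group. -/
theorem pdB_left {T : Fld S (Z ⊕ C) I} (hT : Sm T) (i : S.ι) (p : Space (S.dm i))
    (y : C → Space (S.dm i)) (idx : I → Fin (S.dm i)) (b : Z) (c : Fin (S.dm i))
    (z : Z → Space (S.dm i)) :
    pdB (fun z => T i p (Sum.elim z y) idx) b c z
      = dB (.inl b) T i p (Sum.elim z y) fun o => o.elim c idx := by
  set f := fun x => T i p x idx
  have h1 : HasFDerivAt (fun z : Z → Space (S.dm i) => Sum.elim z y) (inLC (S.dm i) Z C) z := by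
    have h := (inLC (S.dm i) Z C).hasFDerivAt (x := z) |>.add_const
      (Sum.elim (0 : Z → Space (S.dm i)) y)
    simpa only [inLC_apply] using h
  have e : inLC (S.dm i) Z C (Pi.single b (ev c)) = Pi.single (Sum.inl b) (ev c) := by
    funext b'
    rcases b' with z' | c'
    · simp [inLC, Pi.single_apply]
    · simp [inLC]
  have h2 : fderiv ℝ (fun z => T i p (Sum.elim z y) idx) z
      = (fderiv ℝ f (Sum.elim z y)).comp (inLC (S.dm i) Z C) :=
    (((hT.pg i p idx).diff _).hasFDerivAt.comp z h1).fderiv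
  rw [pdB, h2, ContinuousLinearMap.comp_apply, e]
  rfl

/-- The derivative of the derivatives of the test at the point. -/
theorem pdB_dI {Q : Fld S (Z ⊕ C) Unit} (hQ : Sm Q) {i : S.ι} (p : Space (S.dm i))
    (y : C → Space (S.dm i)) {V : Space (S.dm i) → ℝ} (hV : PG V) {J : Type} [Fintype J]
    (idx : J → Fin (S.dm i)) (b : Z) (c : Fin (S.dm i)) (z : Z → Space (S.dm i)) :
    pdB (fun z => dI J V (vecF Q i p y z) idx) b c z
      = ∑ j, dB (.inl b) Q i p (Sum.elim z y) (fun o => o.elim c fun _ => j)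
          * dI (Option J) V (vecF Q i p y z) fun o => o.elim j idx := by
  set f := fun (j : Fin (S.dm i)) (z : Z → Space (S.dm i)) => Q i p (Sum.elim z y) fun _ => j
  have hv : HasFDerivAt (vecF Q i p y) (∑ j, (fderiv ℝ (f j) z).smulRight (ev j)) z := by
    have h := HasFDerivAt.fun_sum (u := (Finset.univ : Finset (Fin (S.dm i)))) fun j _ =>
      ((hQ.pgL i p y fun _ => j).diff z).hasFDerivAt.smul_const (ev j)
    refine h.congr_of_eventuallyEq (Filter.Eventually.of_forall fun z' => ?_)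
    exact TestAux.sum_coord (vecF Q i p y z')
  have h2 := ((differentiable_dI hV idx (vecF Q i p y z)).hasFDerivAt.comp z hv).fderiv
  simp only [Function.comp_def] at h2
  rw [pdB, h2, ContinuousLinearMap.comp_apply, fderiv_dI hV]
  refine Finset.sum_congr rfl fun j _ => ?_
  congr 1
  rw [← pdB_left hQ]
  simp [pdB, f, ev, Pi.single_apply, Finset.sum_apply]

/-! ### The fields of the moves -/

/-- A field with a new leg contracted with the derivative of a vector. -/
def dotQ (Γ : Fld S B (Option I)) (H : Fld S B (Option Unit)) : Fld S B (Option I) :=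
  fun i p x idx => ∑ c, Γ i p x (fun o => o.elim c fun j => idx (some j))
    * H i p x fun o => o.elim c fun _ => idx none

/-- Two copies of the blocks on the left, read at the first. -/
def leftB (T : Fld S (Z ⊕ C) I) : Fld S ((Z ⊕ Z) ⊕ C) I := fun i p x =>
  T i p (Sum.elim (fun z => x (.inl (.inl z))) fun c => x (.inr c))

/-- Two copies of the blocks on the left, read at their mixture. -/
def mixF (t : ℕ → ℝ) (T : Fld S (Z ⊕ C) I) : Fld S ((Z ⊕ Z) ⊕ C) I := fun i p x =>
  T i p (Sum.elim (mixX (t (S.dm i)) (fun z => x (.inl (.inl z))) fun z => x (.inl (.inr z)))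
    fun c => x (.inr c))

/-- The node numbered `l` in each dimension, and one beyond the last. -/
def nodeT {M : ℝ} (N : NodeFam M) (l n : ℕ) : ℝ := if h : l < N.m n then (N.N n).t ⟨l, h⟩ else 1

theorem nodeT_fin {M : ℝ} (N : NodeFam M) {n : ℕ} (l : Fin (N.m n)) :
    nodeT N l n = (N.N n).t l := by
  simp [nodeT]

/-- The node sum of the contraction of the derivative of a field with the derivative of the
point. -/
def nodeFld {M : ℝ} (N : NodeFam M) (Y : Fld S (Z ⊕ C) I) (Q : Fld S (Z ⊕ C) Unit) :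
    Fld S ((Z ⊕ Z) ⊕ C) (Option I) := fun i p x idx =>
  ∑ l, (N.N (S.dm i)).w l * ∑ b : Z,
    dotQ (mixF (nodeT N l) (dB (.inl b) Y))
      (leftB (dB (.inl b) Q)) i p x idx

omit [Fintype C] [Fintype I] [DecidableEq I] in
theorem nodeFld_apply {M : ℝ} (N : NodeFam M) (Y : Fld S (Z ⊕ C) I) (Q : Fld S (Z ⊕ C) Unit)
    (i : S.ι) (p : Space (S.dm i)) (z z' : Z → Space (S.dm i)) (y : C → Space (S.dm i))
    (idx : Option I → Fin (S.dm i)) :
    nodeFld N Y Q i p (Sum.elim (Sum.elim z z') y) idx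
      = ∑ l, (N.N (S.dm i)).w l * ∑ b, ∑ c,
          dB (.inl b) Y i p (Sum.elim (mixX ((N.N (S.dm i)).t l) z z') y)
              (fun o => o.elim c fun j => idx (some j))
            * dB (.inl b) Q i p (Sum.elim z y) fun o => o.elim c fun _ => idx none := by
  simp only [nodeFld, dotQ, mixF, leftB, nodeT_fin, Sum.elim_inl, Sum.elim_inr]

/-- Integration by parts in a block in which a field is linear. -/
theorem ibp_dot {Cst : ℕ → ℝ} {G : Fld S (Z ⊕ C) I}
    {Γ : Fld S (Z ⊕ C) (Option I)} {Q : Fld S (Z ⊕ C) Unit} (hΓ : Sm Γ) (hQ : Sm Q) (b : Z)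
    (hlin : ∀ i p x idx, G i p x idx = ∑ c, x (.inl b) c * Γ i p x fun o => o.elim c idx)
    (hind : ∀ i p (x : Z ⊕ C → Space (S.dm i)) v idx,
      Γ i p (x + Pi.single (Sum.inl b) v) idx = Γ i p x idx)
    {i : S.ι} {p : Space (S.dm i)} {y : C → Space (S.dm i)} {V : Space (S.dm i) → ℝ}
    (hV : TestV Cst V) :
    pairF G Q i p y V = pairF (dotQ Γ (dB (.inl b) Q)) Q i p y V := by
  have hd0 : ∀ idx c z, pdB (fun z => Γ i p (Sum.elim z y) idx) b c z = 0 := fun idx c z => by
    have hd : DifferentiableAt ℝ (fun x => Γ i p x idx) (Sum.elim z y) := (hΓ.pg i p idx).diff _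
    rw [pdB_left hΓ]
    show fderiv ℝ (fun x => Γ i p x idx) (Sum.elim z y) (Pi.single (Sum.inl b) (ev c)) = 0
    rw [← hd.lineDeriv_eq_fderiv, lineDeriv]
    simp only [← Pi.single_smul, hind, deriv_const']
  let f : (I → Fin (S.dm i)) → Fin (S.dm i) → (Z → Space (S.dm i)) → ℝ := fun idx c z =>
    Γ i p (Sum.elim z y) (fun o => o.elim c idx) * dI I V (vecF Q i p y z) idx
  have hf : ∀ idx c, PG (f idx c) := fun idx c =>
    (hΓ.pgL i p y _).mul (pg_dI_vecF hQ p y hV.1 idx)
  have hcoord : ∀ c : Fin (S.dm i), PG fun z : Z → Space (S.dm i) => z b c := fun c k =>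
    PGv.linear ((EuclideanSpace.proj (𝕜 := ℝ) c).comp
      (ContinuousLinearMap.proj (φ := fun _ : Z => Space (S.dm i)) b)) k
  have hi : ∀ idx c, Integrable (fun z => z b c * f idx c z) (gp Z (S.dm i)) := fun idx c =>
    pg_int ((hcoord c).mul (hf idx c))
  have hpd : ∀ idx c z, pdB (f idx c) b c z = Γ i p (Sum.elim z y) (fun o => o.elim c idx) *
      ∑ j, dB (.inl b) Q i p (Sum.elim z y) (fun o => o.elim c fun _ => j)
        * dI (Option I) V (vecF Q i p y z) fun o => o.elim j idx := fun idx c z => by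
    have h := ((hΓ.pgL i p y fun o => o.elim c idx).diff z).hasFDerivAt.mul
      ((pg_dI_vecF hQ p y hV.1 idx).diff z).hasFDerivAt
    rw [pdB, show fderiv ℝ (f idx c) z = _ from h.fderiv]
    have h0 := hd0 (fun o => o.elim c idx) c z
    have h1 := pdB_dI hQ p y hV.1 idx b c z
    simp only [pdB] at h0 h1
    simp only [add_apply, smul_apply, smul_eq_mul, h0, h1, mul_zero, add_zero]
  have hi' : ∀ idx c, Integrable (fun z => pdB (f idx c) b c z) (gp Z (S.dm i)) := fun idx c =>
    pg_int ((hf idx c).fderiv_apply _)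
  calc pairF G Q i p y V
      = ∫ z, ∑ idx, ∑ c, z b c * f idx c z ∂gp Z (S.dm i) := by
        refine integral_congr_ae (ae_of_all _ fun z => ?_)
        simp only [pairT, hlin, Sum.elim_inl, Finset.sum_mul, f, mul_assoc]
    _ = ∑ idx, ∑ c, ∫ z, pdB (f idx c) b c z ∂gp Z (S.dm i) := by
        rw [integral_finsetSum _ fun idx _ => integrable_finsetSum _ fun c _ => hi idx c]
        refine Finset.sum_congr rfl fun idx _ => ?_
        rw [integral_finsetSum _ fun c _ => hi idx c]
        exact Finset.sum_congr rfl fun c _ => gp_stein (hf idx c) b c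
    _ = ∫ z, ∑ idx, ∑ c, pdB (f idx c) b c z ∂gp Z (S.dm i) := by
        rw [integral_finsetSum _ fun idx _ => integrable_finsetSum _ fun c _ => hi' idx c]
        exact Finset.sum_congr rfl fun idx _ => (integral_finsetSum _ fun c _ => hi' idx c).symm
    _ = _ := by
        refine integral_congr_ae (ae_of_all _ fun z => ?_)
        beta_reduce
        simp only [hpd, pairT, dotQ, Finset.mul_sum, Finset.sum_mul]
        rw [sum_option, Finset.sum_comm (γ := Fin (S.dm i))]
        refine Finset.sum_congr rfl fun idx _ => ?_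
        rw [Finset.sum_comm]
        refine Finset.sum_congr rfl fun j _ => Finset.sum_congr rfl fun c _ => ?_
        simp only [Option.elim_some, Option.elim_none]
        ring

/-! ### The step -/

theorem avgF_leftB {Q : Fld S (Z ⊕ C) Unit} (hQ : Sm Q) {Cst : ℕ → ℝ} (hC : ∀ j, 0 ≤ Cst j)
    {i : S.ι} {p : Space (S.dm i)} {y : C → Space (S.dm i)} {V : Space (S.dm i) → ℝ}
    (hV : TestV Cst V) : avgF (leftB Q) i p y V = avgF Q i p y V := by
  funext u
  have h : Integrable (fun q : (Z → Space (S.dm i)) × (Z → Space (S.dm i)) =>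
      V (u + vecF Q i p y q.1)) ((gp Z (S.dm i)).prod (gp Z (S.dm i))) :=
    (integrable_test_shift hC hV (integrable_vecF hQ i p y) u).comp_fst _
  refine (integral_sum_blocks (f := fun a (_ : Z → Space (S.dm i)) => V (u + vecF Q i p y a)) h).trans ?_
  simp [avgF]

omit [DecidableEq Z] [DecidableEq C] in
/-- The average over both groups of blocks. -/
theorem avg_left {d : ℕ} {f : (Z ⊕ C → Space d) → ℝ} (hf : Integrable f (gp (Z ⊕ C) d)) :
    Integrable (fun y => ∫ z, f (Sum.elim z y) ∂gp Z d) (gp C d) ∧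
      ∫ y, ∫ z, f (Sum.elim z y) ∂gp Z d ∂gp C d = ∫ x, f x ∂gp (Z ⊕ C) d := by
  have h := measurePreserving_sumPiEquivProdPi_symm (X := fun _ : Z ⊕ C => Space d) (fun _ => gam d)
  have e : ∀ q : (Z → Space d) × (C → Space d),
      (MeasurableEquiv.sumPiEquivProdPi fun _ : Z ⊕ C => Space d).symm q = Sum.elim q.1 q.2 :=
    fun q => by funext b; cases b <;> rfl
  have hi : Integrable (fun q : (Z → Space d) × (C → Space d) => f (Sum.elim q.1 q.2))
      ((gp Z d).prod (gp C d)) := by
    have := h.integrable_comp_of_integrable hf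
    simpa only [Function.comp_def, e] using this
  refine ⟨hi.integral_prod_right, ?_⟩
  rw [← integral_prod_symm _ hi]
  have h1 := integral_map (μ := (gp Z d).prod (gp C d)) h.measurable.aemeasurable (f := f)
    (h.map_eq.symm ▸ hf.1)
  rw [h.map_eq] at h1
  refine Eq.trans ?_ h1.symm
  exact integral_congr_ae (ae_of_all _ fun q => by beta_reduce; rw [e])

theorem hsT_le_dd {d : ℕ} [Nonempty I] {T : Ten d (Option I)} {f : ℝ} (h : SplitB f T) :
    hsT T ≤ d * f ^ 2 := by
  have : Nonempty {l : Option I // l ≠ none} := ⟨⟨some (Classical.arbitrary I), by simp⟩⟩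
  exact (hsT_le_of_split h (soloEquiv (none : Option I))).trans_eq (by simp)

/-- The energy of two derivatives. -/
def energy (Y : Fld S (Z ⊕ C) I) (Q : Fld S (Z ⊕ C) Unit) (K : ℝ) (i : S.ι) (p : Space (S.dm i))
    (x : Z ⊕ C → Space (S.dm i)) : ℝ :=
  ∑ b : Z, (hsT (dB (.inl b) Y i p x) + K * hsT (dB (.inl b) Q i p x))

theorem energy_bd [Nonempty I] {Y : Fld S (Z ⊕ C) I} {Q : Fld S (Z ⊕ C) Unit} (hY : Sm Y) (hQ : Sm Q)
    (bY : ∀ b, Bd 0 (dB (.inl b) Y)) (bQ : ∀ b, Bd 0 (dB (.inl b) Q)) {K : ℝ} (hK : 0 ≤ K) :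
    ∀ η : ℝ, 0 < η → S.Ev fun i => ∀ p, Integrable (energy Y Q K i p) (gp (Z ⊕ C) (S.dm i)) ∧
      ∫ x, energy Y Q K i p x ∂gp (Z ⊕ C) (S.dm i) ≤ S.dd i ^ (1 + η) := by
  intro η hη
  have one : ∀ {J : Type} [Fintype J] [DecidableEq J] [Nonempty J] {T : Fld S (Z ⊕ C) (Option J)},
      Sm T → Bd 0 T → S.Ev fun i => ∀ p, Integrable (fun x => hsT (T i p x)) (gp (Z ⊕ C) (S.dm i)) ∧
        ∫ x, hsT (T i p x) ∂gp (Z ⊕ C) (S.dm i) ≤ S.dd i ^ (1 + η / 2) := by
    intro J _ _ _ T sT bT
    refine ((bT (η / 4) (by linarith) 2).and S.ev_one_le).mono fun i ⟨hi, hd⟩ p => ?_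
    obtain ⟨f, -, hs, hint, hb⟩ := hi p
    have hI : Integrable (fun x => hsT (T i p x)) (gp (Z ⊕ C) (S.dm i)) := by
      refine (hint.const_mul (S.dd i)).mono' ?_ (ae_of_all _ fun x => ?_)
      · unfold hsT
        exact (continuous_finsetSum _ fun idx _ => ((sT.pg i p idx).cont).pow 2).aestronglyMeasurable
      · rw [Real.norm_of_nonneg (hsT_nonneg _)]
        exact hsT_le_dd (hs x).2
    refine ⟨hI, (integral_mono hI (hint.const_mul _) fun x => hsT_le_dd (hs x).2).trans ?_⟩
    rw [integral_const_mul]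
    refine (mul_le_mul_of_nonneg_left hb (by linarith)).trans_eq ?_
    rw [← Real.rpow_natCast (S.dd i ^ (η / 4 - 0)) 2, ← Real.rpow_mul (by linarith),
      ← Real.rpow_one_add' (by linarith) (by push_cast; linarith)]
    push_cast
    ring_nf
  have hb := fun b => (one (hY.dB (.inl b)) (bY b)).and (one (hQ.dB (.inl b)) (bQ b))
  choose d₀ hd₀ using hb
  obtain ⟨d₁, hd₁⟩ := (S.ev_le_rpow (Fintype.card Z * (1 + K)) (half_pos hη)).and S.ev_one_le
  refine ⟨max (∑ b, d₀ b) d₁, fun i hi p => ?_⟩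
  have h := fun b => hd₀ b i (((Finset.single_le_sum (fun b _ => Nat.zero_le (d₀ b))
    (Finset.mem_univ b)).trans (le_max_left _ _)).trans hi)
  obtain ⟨hc, hd⟩ := hd₁ i ((le_max_right _ _).trans hi)
  have hI : ∀ b, Integrable (fun x => hsT (dB (.inl b) Y i p x) + K * hsT (dB (.inl b) Q i p x))
      (gp (Z ⊕ C) (S.dm i)) := fun b => ((h b).1 p).1.add (((h b).2 p).1.const_mul K)
  refine ⟨integrable_finsetSum _ fun b _ => hI b, ?_⟩
  unfold energy
  rw [integral_finsetSum _ fun b _ => hI b]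
  refine (Finset.sum_le_sum (g := fun _ => (1 + K) * S.dd i ^ (1 + η / 2)) fun b _ => ?_).trans ?_
  · rw [integral_add ((h b).1 p).1 (((h b).2 p).1.const_mul K), integral_const_mul, add_mul, one_mul]
    exact add_le_add ((h b).1 p).2 (mul_le_mul_of_nonneg_left ((h b).2 p).2 hK)
  · rw [Finset.sum_const, Finset.card_univ, nsmul_eq_mul, ← mul_assoc,
      show S.dd i ^ (1 + η) = S.dd i ^ (η / 2) * S.dd i ^ (1 + η / 2) by
        rw [← Real.rpow_add (by linarith)]; ring_nf]
    exact mul_le_mul_of_nonneg_right hc (Real.rpow_nonneg (by linarith) _)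

theorem Sm.dotQ {Γ : Fld S B (Option I)} {H : Fld S B (Option Unit)} (hΓ : Sm Γ) (hH : Sm H) :
    Sm (dotQ Γ H) :=
  sm_iff.2 fun i p _ => PG.sum _ fun _ _ => (hΓ.pg i p _).mul (hH.pg i p _)

theorem Sm.mixF {T : Fld S (Z ⊕ C) I} (hT : Sm T) (t : ℕ → ℝ) : Sm (mixF t T) :=
  sm_iff.2 fun i p idx => by
    let π : ((Z ⊕ Z) ⊕ C → Space (S.dm i)) →L[ℝ] (Z ⊕ C → Space (S.dm i)) :=
      ContinuousLinearMap.pi (Sum.elim
        (fun z => t (S.dm i) • ContinuousLinearMap.proj (Sum.inl (Sum.inl z) : (Z ⊕ Z) ⊕ C) +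
          Real.sqrt (1 - t (S.dm i) ^ 2) •
            ContinuousLinearMap.proj (Sum.inl (Sum.inr z) : (Z ⊕ Z) ⊕ C))
        fun c => ContinuousLinearMap.proj (Sum.inr c : (Z ⊕ Z) ⊕ C))
    have e : (fun x => Zero.mixF t T i p x idx) = fun x => T i p (π x) idx := funext fun x => by
      refine congrArg (fun u => T i p u idx) (funext fun b => ?_)
      cases b <;> simp [π, mixX]
    rw [e]
    exact (hT.pg i p idx).comp_clm π

theorem Sm.leftB {T : Fld S (Z ⊕ C) I} (hT : Sm T) : Sm (leftB T) :=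
  sm_iff.2 fun i p idx => by
    let π : ((Z ⊕ Z) ⊕ C → Space (S.dm i)) →L[ℝ] (Z ⊕ C → Space (S.dm i)) :=
      ContinuousLinearMap.pi fun b => ContinuousLinearMap.proj (Sum.map Sum.inl id b)
    have e : (fun x => Zero.leftB T i p x idx) = fun x => T i p (π x) idx := funext fun x => by
      refine congrArg (fun u => T i p u idx) (funext fun b => ?_)
      cases b <;> rfl
    rw [e]
    exact (hT.pg i p idx).comp_clm π

theorem Sm.nodeFld {M : ℝ} (N : NodeFam M) {Y : Fld S (Z ⊕ C) I} {Q : Fld S (Z ⊕ C) Unit}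
    (hY : Sm Y) (hQ : Sm Q) : Sm (nodeFld N Y Q) :=
  sm_iff.2 fun i p idx => PG.sum _ fun _ _ => (PG.sum _ fun b _ =>
    (((hY.dB (.inl b)).mixF _).dotQ (hQ.dB (.inl b)).leftB).pg i p idx).const_mul _

/-- The node pairing of the entries is the pairing of the node field. -/
theorem node_pair_eq {M : ℝ} (N : NodeFam M) {Y : Fld S (Z ⊕ C) I} {Q : Fld S (Z ⊕ C) Unit}
    (hY : Sm Y) (hQ : Sm Q) {i : S.ι} (p : Space (S.dm i)) (y : C → Space (S.dm i))
    {V : Space (S.dm i) → ℝ} (hV : PG V) (z z' : Z → Space (S.dm i)) :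
    ∑ idx, nodePair (N.N (S.dm i)) (fun z => Y i p (Sum.elim z y) idx)
        (fun z => dI I V (vecF Q i p y z) idx) z z'
      = pairT (nodeFld N Y Q i p (Sum.elim (Sum.elim z z') y))
          (dI (Option I) V (vecF Q i p y z)) := by
  calc ∑ idx, nodePair (N.N (S.dm i)) (fun z => Y i p (Sum.elim z y) idx)
          (fun z => dI I V (vecF Q i p y z) idx) z z'
      = ∑ idx : I → Fin (S.dm i), ∑ l, ∑ b : Z, ∑ c, ∑ j, (N.N (S.dm i)).w l *
          (dB (.inl b) Y i p (Sum.elim (mixX ((N.N (S.dm i)).t l) z z') y) (fun o => o.elim c idx)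
            * dB (.inl b) Q i p (Sum.elim z y) (fun o => o.elim c fun _ => j)
            * dI (Option I) V (vecF Q i p y z) fun o => o.elim j idx) := by
        refine Finset.sum_congr rfl fun idx _ => ?_
        unfold nodePair
        refine Finset.sum_congr rfl fun l _ => ?_
        rw [Finset.mul_sum]
        refine Finset.sum_congr rfl fun b _ => ?_
        rw [Finset.mul_sum]
        refine Finset.sum_congr rfl fun c _ => ?_
        rw [pdB_left hY, pdB_dI hQ p y hV, Finset.mul_sum, Finset.mul_sum]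
        exact Finset.sum_congr rfl fun j _ => by ring
    _ = ∑ j, ∑ idx : I → Fin (S.dm i), ∑ l, ∑ b : Z, ∑ c, (N.N (S.dm i)).w l *
          (dB (.inl b) Y i p (Sum.elim (mixX ((N.N (S.dm i)).t l) z z') y) (fun o => o.elim c idx)
            * dB (.inl b) Q i p (Sum.elim z y) (fun o => o.elim c fun _ => j)
            * dI (Option I) V (vecF Q i p y z) fun o => o.elim j idx) := by
        rw [Finset.sum_comm (γ := Fin (S.dm i))]
        refine Finset.sum_congr rfl fun idx _ => ?_
        rw [Finset.sum_comm (γ := Fin (S.dm i))]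
        refine Finset.sum_congr rfl fun l _ => ?_
        rw [Finset.sum_comm (γ := Fin (S.dm i))]
        exact Finset.sum_congr rfl fun b _ => Finset.sum_comm
    _ = _ := by
        rw [pairT, sum_option]
        refine Finset.sum_congr rfl fun j _ => Finset.sum_congr rfl fun idx _ => ?_
        rw [nodeFld_apply, Finset.sum_mul]
        refine Finset.sum_congr rfl fun l _ => ?_
        rw [Finset.mul_sum, Finset.sum_mul]
        refine Finset.sum_congr rfl fun b _ => ?_
        rw [Finset.mul_sum, Finset.sum_mul]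
        refine Finset.sum_congr rfl fun c _ => ?_
        simp only [Option.elim_some, Option.elim_none]
        ring

omit [DecidableEq Z] in
theorem elim_mp (d : ℕ) :
    MeasurePreserving (fun q : (Z → Space d) × (Z → Space d) => Sum.elim q.1 q.2)
      ((gp Z d).prod (gp Z d)) (gp (Z ⊕ Z) d) := by
  refine cast (congrArg (fun f => MeasurePreserving f _ _) (funext fun q => ?_))
    (measurePreserving_sumPiEquivProdPi_symm (X := fun _ : Z ⊕ Z => Space d) (fun _ => gam d))
  funext b
  cases b <;> rfl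

/-- The mean node pairing. -/
theorem node_mean_eq [Nonempty I] {M : ℝ} (N : NodeFam M) {Cst : ℕ → ℝ} (hC : ∀ j, 0 ≤ Cst j)
    {Y : Fld S (Z ⊕ C) I} {Q : Fld S (Z ⊕ C) Unit} (hY : Sm Y) (hQ : Sm Q) {i : S.ι}
    (p : Space (S.dm i)) (y : C → Space (S.dm i)) {V : Space (S.dm i) → ℝ} (hV : TestV Cst V) :
    ∑ idx, ∫ x, ∫ x', nodePair (N.N (S.dm i)) (fun z => Y i p (Sum.elim z y) idx)
        (fun z => dI I V (vecF Q i p y z) idx) x x' ∂gp Z (S.dm i) ∂gp Z (S.dm i)
      = pairF (nodeFld N Y Q) (leftB Q) i p y V := by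
  have hφ : ∀ idx, PG fun z => Y i p (Sum.elim z y) idx := fun idx => hY.pgL i p y idx
  have hψ : ∀ idx : I → Fin (S.dm i), PG fun z => dI I V (vecF Q i p y z) idx :=
    fun idx => pg_dI_vecF hQ p y hV.1 idx
  have hni : ∀ idx, Integrable (fun q : (Z → Space (S.dm i)) × (Z → Space (S.dm i)) =>
      nodePair (N.N (S.dm i)) (fun z => Y i p (Sum.elim z y) idx)
        (fun z => dI I V (vecF Q i p y z) idx) q.1 q.2) ((gp Z (S.dm i)).prod (gp Z (S.dm i))) := by
    intro idx
    let π₁ : (Z ⊕ Z → Space (S.dm i)) →L[ℝ] (Z → Space (S.dm i)) :=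
      ContinuousLinearMap.pi fun z => ContinuousLinearMap.proj (Sum.inl z)
    let π₂ : (Z ⊕ Z → Space (S.dm i)) →L[ℝ] (Z → Space (S.dm i)) :=
      ContinuousLinearMap.pi fun z => ContinuousLinearMap.proj (Sum.inr z)
    have h1 : PG fun x : Z ⊕ Z → Space (S.dm i) => nodePair (N.N (S.dm i))
        (fun z => Y i p (Sum.elim z y) idx) (fun z => dI I V (vecF Q i p y z) idx) (π₁ x) (π₂ x) := by
      unfold nodePair
      exact PG.sum _ fun l _ => PG.const_mul (PG.sum _ fun b _ => PG.sum _ fun c _ =>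
        PG.mul (((hφ idx).fderiv_apply _).comp_clm
          ((N.N (S.dm i)).t l • π₁ + Real.sqrt (1 - (N.N (S.dm i)).t l ^ 2) • π₂))
          (((hψ idx).fderiv_apply _).comp_clm π₁)) _
    exact (elim_mp (S.dm i)).integrable_comp_of_integrable (pg_int h1)
  have hgi : Integrable (fun q : (Z → Space (S.dm i)) × (Z → Space (S.dm i)) =>
      pairT (nodeFld N Y Q i p (Sum.elim (Sum.elim q.1 q.2) y))
        (dI (Option I) V (vecF Q i p y q.1))) ((gp Z (S.dm i)).prod (gp Z (S.dm i))) :=
    integrable_pairT hC (Sm.nodeFld N hY hQ) hV (elim_mp (S.dm i))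
      ((continuous_vecF hQ i p y).comp continuous_fst).aestronglyMeasurable
  calc _ = ∑ idx, ∫ q, nodePair (N.N (S.dm i)) (fun z => Y i p (Sum.elim z y) idx)
        (fun z => dI I V (vecF Q i p y z) idx) q.1 q.2 ∂(gp Z (S.dm i)).prod (gp Z (S.dm i)) :=
        Finset.sum_congr rfl fun idx _ => (integral_prod _ (hni idx)).symm
    _ = ∫ q, ∑ idx, nodePair (N.N (S.dm i)) (fun z => Y i p (Sum.elim z y) idx)
        (fun z => dI I V (vecF Q i p y z) idx) q.1 q.2 ∂(gp Z (S.dm i)).prod (gp Z (S.dm i)) :=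
        (integral_finsetSum _ fun idx _ => hni idx).symm
    _ = ∫ q, pairT (nodeFld N Y Q i p (Sum.elim (Sum.elim q.1 q.2) y))
        (dI (Option I) V (vecF Q i p y q.1)) ∂(gp Z (S.dm i)).prod (gp Z (S.dm i)) :=
        integral_congr_ae (ae_of_all _ fun q => node_pair_eq N hY hQ p y hV.1 q.1 q.2)
    _ = _ := by
        rw [integral_prod _ hgi]
        refine (integral_sum_blocks (f := fun a b => pairT
          (nodeFld N Y Q i p (Sum.elim (Sum.elim a b) y)) (dI (Option I) V (vecF Q i p y a))) hgi).symm.trans ?_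
        refine integral_congr_ae (ae_of_all _ fun x => ?_)
        have e : Sum.elim (fun z => x (Sum.inl z)) (fun z => x (Sum.inr z)) = x := by
          funext b; cases b <;> rfl
        simp only [e]
        rfl

/-- The energy dominates the quadrature error. -/
theorem grad_energy [Nonempty I] {Cst : ℕ → ℝ} {Y : Fld S (Z ⊕ C) I} {Q : Fld S (Z ⊕ C) Unit}
    (hY : Sm Y) (hQ : Sm Q) {i : S.ι} (p : Space (S.dm i)) (y : C → Space (S.dm i))
    {V : Space (S.dm i) → ℝ} (hV : TestV Cst V) :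
    Real.sqrt (∑ idx, ∑ b, ∑ c, ∫ z, pdB (fun z => Y i p (Sum.elim z y) idx) b c z ^ 2
          ∂gp Z (S.dm i))
        * Real.sqrt (∑ idx : I → Fin (S.dm i), ∑ b, ∑ c,
            ∫ z, pdB (fun z => dI I V (vecF Q i p y z) idx) b c z ^ 2 ∂gp Z (S.dm i))
      ≤ ∫ z, energy Y Q (Cst (Fintype.card I + 1) ^ 2) i p (Sum.elim z y) ∂gp Z (S.dm i) := by
  have hB : ∀ b c z, ∑ idx : I → Fin (S.dm i), pdB (fun z => dI I V (vecF Q i p y z) idx) b c z ^ 2
      ≤ Cst (Fintype.card I + 1) ^ 2
        * ∑ j, dB (.inl b) Q i p (Sum.elim z y) (fun o => o.elim c fun _ => j) ^ 2 := by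
    intro b c z
    have hD := hsT_dI (I := Option I) hV (vecF Q i p y z)
    rw [Fintype.card_option, hsT, sum_option (I := I), Finset.sum_comm] at hD
    calc ∑ idx : I → Fin (S.dm i), pdB (fun z => dI I V (vecF Q i p y z) idx) b c z ^ 2
        ≤ ∑ idx : I → Fin (S.dm i), (∑ j, dB (.inl b) Q i p (Sum.elim z y)
            (fun o => o.elim c fun _ => j) ^ 2)
            * ∑ j, dI (Option I) V (vecF Q i p y z) (fun o => o.elim j idx) ^ 2 :=
          Finset.sum_le_sum fun idx _ => by
            rw [pdB_dI hQ p y hV.1]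
            exact Finset.sum_mul_sq_le_sq_mul_sq _ _ _
      _ = (∑ j, dB (.inl b) Q i p (Sum.elim z y) (fun o => o.elim c fun _ => j) ^ 2)
            * ∑ idx : I → Fin (S.dm i), ∑ j, dI (Option I) V (vecF Q i p y z)
              (fun o => o.elim j idx) ^ 2 := (Finset.mul_sum _ _ _).symm
      _ ≤ _ := by
          rw [mul_comm]
          exact mul_le_mul_of_nonneg_right hD (Finset.sum_nonneg fun j _ => sq_nonneg _)
  have hi : ∀ {f : (Z → Space (S.dm i)) → ℝ}, PG f → ∀ b c,
      Integrable (fun z => pdB f b c z ^ 2) (gp Z (S.dm i)) := fun hf b c => by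
    simpa only [sq, pdB] using pg_int ((hf.fderiv_apply _).mul (hf.fderiv_apply _))
  have hsum : ∀ {f : (I → Fin (S.dm i)) → (Z → Space (S.dm i)) → ℝ}, (∀ idx, PG (f idx)) →
      Integrable (fun z => ∑ idx, ∑ b, ∑ c, pdB (f idx) b c z ^ 2) (gp Z (S.dm i)) ∧
        ∑ idx, ∑ b, ∑ c, ∫ z, pdB (f idx) b c z ^ 2 ∂gp Z (S.dm i)
          = ∫ z, ∑ idx, ∑ b, ∑ c, pdB (f idx) b c z ^ 2 ∂gp Z (S.dm i) := fun {f} hf => by
    refine ⟨integrable_finsetSum _ fun idx _ => integrable_finsetSum _ fun b _ =>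
      integrable_finsetSum _ fun c _ => hi (hf idx) b c, ?_⟩
    rw [integral_finsetSum _ fun idx _ => integrable_finsetSum _ fun b _ =>
      integrable_finsetSum _ fun c _ => hi (hf idx) b c]
    refine Finset.sum_congr rfl fun idx _ => ?_
    rw [integral_finsetSum _ fun b _ => integrable_finsetSum _ fun c _ => hi (hf idx) b c]
    exact Finset.sum_congr rfl fun b _ => (integral_finsetSum _ fun c _ => hi (hf idx) b c).symm
  obtain ⟨i1, e1⟩ := hsum (f := fun idx z => Y i p (Sum.elim z y) idx) fun idx => hY.pgL i p y idx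
  obtain ⟨i2, e2⟩ := hsum (f := fun idx z => dI I V (vecF Q i p y z) idx)
    fun idx => pg_dI_vecF hQ p y hV.1 idx
  have hsq : ∀ a b : ℝ, 0 ≤ a → 0 ≤ b → Real.sqrt a * Real.sqrt b ≤ a + b := fun a b ha' hb' => by
    nlinarith [Real.sq_sqrt ha', Real.sq_sqrt hb', sq_nonneg (Real.sqrt a - Real.sqrt b),
      mul_nonneg (Real.sqrt_nonneg a) (Real.sqrt_nonneg b)]
  rw [e1, e2]
  refine (hsq _ _ (integral_nonneg fun z => Finset.sum_nonneg fun _ _ => Finset.sum_nonneg fun _ _ =>
    Finset.sum_nonneg fun _ _ => sq_nonneg _) (integral_nonneg fun z => Finset.sum_nonneg fun _ _ =>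
    Finset.sum_nonneg fun _ _ => Finset.sum_nonneg fun _ _ => sq_nonneg _)).trans ?_
  rw [← integral_add i1 i2]
  have hE : ∀ {J : Type} [Fintype J] [DecidableEq J] {T : Fld S (Z ⊕ C) J}, Sm T →
      Integrable (fun z => hsT (T i p (Sum.elim z y))) (gp Z (S.dm i)) := fun {J} _ _ {T} hT => by
    simp only [hsT, sq]
    exact integrable_finsetSum _ fun idx _ => pg_int ((hT.pgL i p y idx).mul (hT.pgL i p y idx))
  refine integral_mono (i1.add i2) (integrable_finsetSum _ fun b _ => (hE (hY.dB (.inl b))).add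
    ((hE (hQ.dB (.inl b))).const_mul _)) fun z => ?_
  refine le_trans (le_of_eq (b := ∑ b : Z, ((∑ idx, ∑ c,
      pdB (fun z => Y i p (Sum.elim z y) idx) b c z ^ 2) + ∑ idx : I → Fin (S.dm i), ∑ c,
      pdB (fun z => dI I V (vecF Q i p y z) idx) b c z ^ 2)) ?_) ?_
  · simp only [Finset.sum_add_distrib]
    congr 1 <;> exact Finset.sum_comm
  refine Finset.sum_le_sum fun b _ => add_le_add (le_of_eq ?_) ?_
  · rw [hsT, sum_option (I := I), Finset.sum_comm]
    simp only [pdB_left hY]
  · rw [hsT, sum_option (I := Unit), Finset.sum_comm, Finset.mul_sum]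
    refine Finset.sum_le_sum fun c _ => (hB b c z).trans_eq ?_
    rw [sum_unit]

/-- The covariance step: at the point `Q` a field pairs as with the average over `Q`, plus the
node field one derivative higher, up to the quadrature error. -/
theorem step_sml [Nonempty I] {M : ℝ} (N : NodeFam M) {Cst : ℕ → ℝ} (hC : ∀ j, 0 ≤ Cst j) {κ : ℝ}
    (hM : κ + 1 ≤ M) {Y : Fld S (Z ⊕ C) I} {Q : Fld S (Z ⊕ C) Unit} (hY : Sm Y) (hQ : Sm Q)
    (bY : ∀ b, Bd 0 (dB (.inl b) Y)) (bQ : ∀ b, Bd 0 (dB (.inl b) Q)) :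
    Sml Cst κ fun i p y V => pairF Y Q i p y V - pairF Y (zeroP S Z C) i p y (avgF Q i p y V)
      - pairF (nodeFld N Y Q) (leftB Q) i p y V := by
  intro η hη
  obtain ⟨d₀, hd₀⟩ := N.exact'
  refine (((energy_bd hY hQ bY bQ (sq_nonneg (Cst (Fintype.card I + 1))) η hη).and
    (S.ev_one_le)).and ⟨d₀, fun i hi => hd₀ _ hi⟩).mono fun i ⟨⟨hi, hd⟩, hN⟩ p => ?_
  obtain ⟨hint, hbd⟩ := hi p
  obtain ⟨ha, hab⟩ := avg_left (f := energy Y Q (Cst (Fintype.card I + 1) ^ 2) i p) hint
  refine ⟨fun y => S.dd i ^ (-M) * ∫ z, energy Y Q (Cst (Fintype.card I + 1) ^ 2) i p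
    (Sum.elim z y) ∂gp Z (S.dm i), ha.const_mul _, ?_, fun y V hV => ?_⟩
  · rw [integral_const_mul, hab]
    refine (mul_le_mul_of_nonneg_left hbd (Real.rpow_nonneg (by linarith) _)).trans ?_
    rw [← Real.rpow_add (by linarith)]
    exact (Real.rpow_le_rpow_of_exponent_le hd (by linarith)).trans
      (le_mul_of_one_le_right (Real.rpow_nonneg (by linarith) _) (S.one_le_wt i p))
  have hφ : ∀ idx, PG fun z => Y i p (Sum.elim z y) idx := fun idx => hY.pgL i p y idx
  have hψ : ∀ idx : I → Fin (S.dm i), PG fun z => dI I V (vecF Q i p y z) idx :=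
    fun idx => pg_dI_vecF hQ p y hV.1 idx
  have key := step_nodes hN hφ hψ
  have e1 : ∑ idx, ∫ z, Y i p (Sum.elim z y) idx * dI I V (vecF Q i p y z) idx ∂gp Z (S.dm i)
      = pairF Y Q i p y V :=
    (integral_finsetSum _ fun idx _ => pg_int ((hφ idx).mul (hψ idx))).symm
  have e2 : ∑ idx, (∫ z, Y i p (Sum.elim z y) idx ∂gp Z (S.dm i))
        * ∫ z, dI I V (vecF Q i p y z) idx ∂gp Z (S.dm i)
      = pairF Y (zeroP S Z C) i p y (avgF Q i p y V) := by
    have e : ∀ z, vecF (zeroP S Z C) i p y z = 0 := fun z => by simp [vecF, zeroP, vecT_zero]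
    have ea : ∀ idx : I → Fin (S.dm i), dI I (avgF Q i p y V) 0 idx
        = ∫ z, dI I V (vecF Q i p y z) idx ∂gp Z (S.dm i) := fun idx => by
      refine (dI_avg hC hV (integrable_vecF hQ i p y) idx 0).trans ?_
      simp only [zero_add]
    simp only [pairF, e, pairT, ea]
    rw [integral_finsetSum _ fun idx _ => (pg_int (hY.pgL i p y idx)).mul_const _]
    exact Finset.sum_congr rfl fun idx _ => (integral_mul_const _ _).symm
  rw [e1, e2, node_mean_eq N hC hY hQ p y hV] at key
  exact key.trans (mul_le_mul_of_nonneg_left (grad_energy hY hQ p y hV)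
    (Real.rpow_nonneg (by linarith) _))

end Vale.Agent.P347.Zero
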