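import Vale.Agent.P347.Zero.AvgTerm

/-!
Averaging for fields with one leg, the case to which averaging reduces.
-/

noncomputable section

open MeasureTheory ProbabilityTheory
open scoped RealInnerProductSpace NNReal

namespace Vale.Agent.P347.Zero

/-- Averaging for fields with one leg. -/
def AvgCore : Prop :=
  ∀ (S : Sys) (L : Lad) (r : ℕ) (φ Φ θ : ℝ), L.phi r + 8 * L.w ≤ φ → φ ≤ Φ →
    Φ + 8 * L.w ≤ 2 * φ - L.phi r →
    ∀ (B C : Type) [Fintype B] [DecidableEq B] [Fintype C] [DecidableEq C]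
      (G : Fld S (B ⊕ C) Unit), Sm G → SamMix (L.kap (r + 1)) φ θ () G →
      (∀ b, GdA L (r + 1) Φ (fun _ => L.w) (θ - L.w) {some ()} (dB (.inl b) G)) →
      Sam (L.kap (r + 1)) φ θ () (avB G)

end Vale.Agent.P347.Zero
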