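import Vale.Agent.P347.Zero.GateTaylor
import Vale.Agent.P347.QuadOperator
import Vale.Agent.P347.QuadScalar

/-!
The node rule of the correlation average for scalar functions in any dimension, from the scalar
exponential sums, and the covariance identity in the form of the averages.
-/

noncomputable section

open MeasureTheory ProbabilityTheory Filter Topology Set
open scoped RealInnerProductSpace

namespace Vale.Agent.P347.Zero

namespace GateAux

open SteinAux

variable {n : ℕ} {ι : Type} [Fintype ι]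

/-- A combination of averages. -/
def comb (f : Space n → ℝ) (c r : ι → ℝ) (x : Space n) : ℝ := ∑ i, c i * Pt (r i) f x

/-- Its squared size. -/
def gramSum (f : Space n → ℝ) (c r : ι → ℝ) : ℝ := ∑ i, ∑ j, c i * c j * corr f (r i * r j)

theorem cg_comb {f : Space n → ℝ} (hf : CG f) (c : ι → ℝ) {r : ι → ℝ}
    (hr : ∀ i, r i ∈ Icc (0 : ℝ) 1) : CG (comb f c r) :=
  ⟨continuous_finsetSum _ fun i _ => continuous_const.mul (pt_cg hf (hr i)).1,
    grow_finsum _ fun i => grow_mul (grow_const (c i)) (pt_cg hf (hr i)).2⟩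

theorem gramSum_eq {f : Space n → ℝ} (hf : CG f) (c : ι → ℝ) {r : ι → ℝ}
    (hr : ∀ i, r i ∈ Icc (0 : ℝ) 1) : ∫ x, comb f c r x ^ 2 ∂gam n = gramSum f c r := by
  have hij : ∀ i j, Integrable (fun x => c i * c j * (Pt (r i) f x * Pt (r j) f x)) (gam n) :=
    fun i j => (pair_int (pt_cg hf (hr i)) (pt_cg hf (hr j))).const_mul _
  have e : ∀ x, comb f c r x ^ 2 = ∑ i, ∑ j, c i * c j * (Pt (r i) f x * Pt (r j) f x) :=
    fun x => by
    rw [sq, comb, Finset.sum_mul_sum]
    exact Finset.sum_congr rfl fun i _ => Finset.sum_congr rfl fun j _ => by ring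
  simp only [e]
  rw [integral_finsetSum _ fun i _ => integrable_finsetSum _ fun j _ => hij i j]
  refine Finset.sum_congr rfl fun i _ => ?_
  rw [integral_finsetSum _ fun j _ => hij i j]
  refine Finset.sum_congr rfl fun j _ => ?_
  rw [integral_const_mul, gram hf (hr i) (hr j)]

theorem gramSum_nonneg {f : Space n → ℝ} (hf : CG f) (c : ι → ℝ) {r : ι → ℝ}
    (hr : ∀ i, r i ∈ Icc (0 : ℝ) 1) : 0 ≤ gramSum f c r := by
  rw [← gramSum_eq hf c hr]; exact integral_nonneg fun x => sq_nonneg _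

theorem sq_int_le {F : Space n → ℝ} (hF : Integrable F (gam n))
    (h2 : Integrable (fun z => F z ^ 2) (gam n)) :
    (∫ z, F z ∂gam n) ^ 2 ≤ ∫ z, F z ^ 2 ∂gam n := by
  set m := ∫ z, F z ∂gam n with hm
  have h3 : 0 ≤ ∫ z, (F z - m) ^ 2 ∂gam n := integral_nonneg fun z => sq_nonneg _
  have i2 : Integrable (fun z => 2 * m * F z - m ^ 2) (gam n) :=
    (hF.const_mul _).sub (integrable_const _)
  have e : (fun z => (F z - m) ^ 2) = fun z => F z ^ 2 - (2 * m * F z - m ^ 2) := by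
    funext z; ring
  rw [e, integral_sub h2 i2, integral_sub (hF.const_mul _) (integrable_const _),
    integral_const_mul, integral_const, probReal_univ, one_smul, ← hm] at h3
  linarith

/-- Contraction. -/
theorem gramSum_shrink {f : Space n → ℝ} (hf : CG f) (c : ι → ℝ) {r : ι → ℝ}
    (hr : ∀ i, r i ∈ Icc (0 : ℝ) 1) {p : ℝ} (hp : p ∈ Icc (0 : ℝ) 1) :
    gramSum f c (fun i => p * r i) ≤ gramSum f c r := by
  have hpr : ∀ i, p * r i ∈ Icc (0 : ℝ) 1 := fun i =>
    ⟨mul_nonneg hp.1 (hr i).1, mul_le_one₀ hp.2 (hr i).1 (hr i).2⟩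
  set U := comb f c r with hU
  have hUC : CG U := cg_comb hf c hr
  have e : ∀ x, comb f c (fun i => p * r i) x = Pt p U x := fun x => by
    simp only [hU, comb]
    conv_rhs => rw [Pt]
    simp only [comb]
    rw [integral_finsetSum _ fun i _ => (pt_int (pt_cg hf (hr i)) p x).const_mul (c i)]
    refine Finset.sum_congr rfl fun i _ => ?_
    rw [integral_const_mul, ← pt_pt hf hp (hr i) x]
    rfl
  rw [← gramSum_eq hf c hpr, ← gramSum_eq hf c hr]
  simp only [e]
  have hU2 : CG fun x => U x ^ 2 := ⟨hUC.1.pow 2, grow_pow hUC.2 2⟩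
  have hm := marg hU2 (Real.sqrt_nonneg (1 - p ^ 2)) (unit_sq hp)
  rw [← hm.2]
  have hp2 := pt_cg hUC hp
  refine integral_mono_ae (gam_int (hp2.1.pow 2) (grow_pow hp2.2 2)) hm.1.integral_prod_left ?_
  exact ae_of_all _ fun x => sq_int_le (pt_int hUC p x) (pt_int hU2 p x)

open Polynomial in
/-- The correlations along a geometric sequence are moments. -/
theorem corr_mom_nonneg {f : Space n → ℝ} (hf : CG f) {q : ℝ} (hq : q ∈ Icc (0 : ℝ) 1)
    (i j : ℕ) : 0 ≤ Qo.mom (fun k => corr f (q ^ k)) (X ^ i * (1 - X) ^ j) := by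
  have hsq : ∀ (p : ℝ[X]) (i : ℕ), Qo.mom (fun k => corr f (q ^ k)) (X ^ i * (p * p))
      = gramSum f (fun u : Fin (p.natDegree + 1) => p.coeff u)
          (fun u => Real.sqrt q ^ i * q ^ (u : ℕ)) := by
    intro p i
    have hp : p = ∑ u : Fin (p.natDegree + 1), Polynomial.C (p.coeff u) * X ^ (u : ℕ) := by
      rw [Fin.sum_univ_eq_sum_range (fun u => Polynomial.C (p.coeff u) * X ^ u)]
      exact p.as_sum_range_C_mul_X_pow
    conv_lhs => rw [hp]
    simp only [Finset.mul_sum, Finset.sum_mul, map_sum, gramSum]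
    rw [Finset.sum_comm]
    refine Finset.sum_congr rfl fun u _ => Finset.sum_congr rfl fun v _ => ?_
    have e : (X : ℝ[X]) ^ i * (Polynomial.C (p.coeff u) * X ^ (u : ℕ)
        * (Polynomial.C (p.coeff v) * X ^ (v : ℕ)))
        = Polynomial.C (p.coeff u * p.coeff v) * X ^ (i + u + v) := by
      rw [map_mul, pow_add, pow_add]; ring
    rw [e, Qo.mom_C_mul_X_pow]
    congr 2
    rw [mul_mul_mul_comm, ← mul_pow, Real.mul_self_sqrt hq.1, pow_add, pow_add, mul_assoc]
  have hsr : Real.sqrt q ∈ Icc (0 : ℝ) 1 := ⟨Real.sqrt_nonneg _, Real.sqrt_le_one.2 hq.2⟩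
  have hmem : ∀ u : ℕ, Real.sqrt q ^ i * q ^ u ∈ Icc (0 : ℝ) 1 := fun u =>
    ⟨by have := hq.1; positivity, mul_le_one₀ (pow_le_one₀ hsr.1 hsr.2) (pow_nonneg hq.1 u)
      (pow_le_one₀ hq.1 hq.2)⟩
  rcases Nat.even_or_odd' j with ⟨m, rfl | rfl⟩
  · rw [two_mul, pow_add, hsq]
    exact gramSum_nonneg hf _ fun u => hmem u
  · have e : (X : ℝ[X]) ^ i * (1 - X) ^ (2 * m + 1)
        = X ^ i * ((1 - X) ^ m * (1 - X) ^ m) - X ^ (i + 1) * ((1 - X) ^ m * (1 - X) ^ m) := by
      ring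
    rw [e, map_sub, hsq, hsq, sub_nonneg]
    refine le_of_eq_of_le ?_ (gramSum_shrink hf _
      (r := fun u : Fin (((1 - X : ℝ[X]) ^ m).natDegree + 1) => Real.sqrt q ^ i * q ^ (u : ℕ))
      (fun u => hmem _) hsr)
    congr 1
    funext u
    ring

/-- The bound for a finite combination. -/
theorem gram_le {f : Space n → ℝ} (hf : CG f) (c : ι → ℝ) {r : ι → ℝ}
    (hr : ∀ i, r i ∈ Ioc (0 : ℝ) 1) {E : ℝ}
    (hE : ∀ l : ℝ, 0 ≤ l → |∑ i, c i * r i ^ l| ≤ E) : gramSum f c r ≤ E ^ 2 * corr f 1 := by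
  set x : ι → ℝ := fun i => -Real.log (r i) with hx
  have hx0 : ∀ i, 0 ≤ x i := fun i => neg_nonneg.2 (Real.log_nonpos (hr i).1.le (hr i).2)
  set δ : ℕ → ℝ := fun N => 1 / ((N : ℝ) + 1) with hδ
  have hδ0 : ∀ N, 0 < δ N := fun N => by positivity
  set e : ℕ → ι → ℕ := fun N i => ⌊x i / δ N⌋₊ with he
  set q : ℕ → ℝ := fun N => Real.exp (-δ N) with hq
  have hqI : ∀ N, q N ∈ Icc (0 : ℝ) 1 := fun N =>
    ⟨(Real.exp_pos _).le, Real.exp_le_one_iff.2 (by linarith [hδ0 N])⟩
  have hqe : ∀ N i, q N ^ e N i = Real.exp (-(δ N * e N i)) := fun N i => by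
    rw [hq, ← Real.exp_nat_mul]; ring_nf
  have hlo : ∀ N i, δ N * e N i ≤ x i := fun N i => by
    have := Nat.floor_le (div_nonneg (hx0 i) (hδ0 N).le)
    rw [le_div_iff₀ (hδ0 N)] at this
    linarith
  have hhi : ∀ N i, x i ≤ δ N * e N i + δ N := fun N i => by
    have := Nat.lt_floor_add_one (x i / δ N)
    rw [div_lt_iff₀ (hδ0 N)] at this
    linarith
  have hδt : Tendsto δ atTop (𝓝 0) := tendsto_one_div_add_atTop_nhds_zero_nat
  have hqt : ∀ i, Tendsto (fun N => q N ^ e N i) atTop (𝓝 (r i)) := fun i => by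
    have h1 : Tendsto (fun N => δ N * e N i) atTop (𝓝 (x i)) :=
      tendsto_of_tendsto_of_tendsto_of_le_of_le (by simpa using hδt.const_sub (x i))
        tendsto_const_nhds (fun N => by linarith [hhi N i]) (fun N => hlo N i)
    have h2 := (Real.continuous_exp.tendsto (-(x i))).comp h1.neg
    rw [show Real.exp (-(x i)) = r i by rw [hx, neg_neg, Real.exp_log (hr i).1]] at h2
    exact h2.congr fun N => (hqe N i).symm
  have hlim : Tendsto (fun N => gramSum f c (fun i => q N ^ e N i)) atTop (𝓝 (gramSum f c r)) := by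
    refine tendsto_finsetSum _ fun i _ => tendsto_finsetSum _ fun j _ => Tendsto.const_mul _ ?_
    refine ((continuous_corr hf).continuousWithinAt (show r i * r j ∈ Icc (0 : ℝ) 1 from
      ⟨mul_nonneg (hr i).1.le (hr j).1.le, mul_le_one₀ (hr i).2 (hr j).1.le (hr j).2⟩)).tendsto.comp
      (tendsto_nhdsWithin_iff.2 ⟨(hqt i).mul (hqt j), Eventually.of_forall fun N =>
        ⟨mul_nonneg (pow_nonneg (hqI N).1 _) (pow_nonneg (hqI N).1 _),
          mul_le_one₀ (pow_le_one₀ (hqI N).1 (hqI N).2) (pow_nonneg (hqI N).1 _)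
            (pow_le_one₀ (hqI N).1 (hqI N).2)⟩⟩)
  have hb : ∀ N, gramSum f c (fun i => q N ^ e N i)
      ≤ (E + δ N * ∑ i, |c i| * (2 / x i)) ^ 2 * corr f 1 := by
    intro N
    have hbd : ∀ u ∈ Icc (0 : ℝ) 1,
        |∑ i, c i * u ^ e N i| ≤ E + δ N * ∑ i, |c i| * (2 / x i) := by
      have hpos : ∀ u ∈ Ioc (0 : ℝ) 1,
          |∑ i, c i * u ^ e N i| ≤ E + δ N * ∑ i, |c i| * (2 / x i) := by
        intro u hu
        set l := -Real.log u / δ N with hl
        have hl0 : 0 ≤ l := div_nonneg (neg_nonneg.2 (Real.log_nonpos hu.1.le hu.2)) (hδ0 N).le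
        have e1 : ∀ i, u ^ e N i = Real.exp (-(δ N * e N i * l)) := fun i => by
          rw [show -(δ N * e N i * l) = e N i * Real.log u by
            rw [hl]; field_simp [(hδ0 N).ne'], Real.exp_nat_mul, Real.exp_log hu.1]
        have e2 : ∀ i, r i ^ l = Real.exp (-(x i * l)) := fun i => by
          rw [Real.rpow_def_of_pos (hr i).1, hx]; ring_nf
        have e3 : ∑ i, c i * u ^ e N i = ∑ i, c i * r i ^ l
            + ∑ i, c i * (Real.exp (-(δ N * e N i * l)) - Real.exp (-(x i * l))) := by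
          rw [← Finset.sum_add_distrib]
          exact Finset.sum_congr rfl fun i _ => by rw [e1, e2]; ring
        rw [e3]
        refine (abs_add_le _ _).trans (add_le_add (hE l hl0) ?_)
        refine (Finset.abs_sum_le_sum_abs _ _).trans ?_
        rw [Finset.mul_sum]
        refine Finset.sum_le_sum fun i _ => ?_
        rw [abs_mul]
        refine (mul_le_mul_of_nonneg_left (Qo.exp_gap (hlo N i) (hhi N i)
          (mul_nonneg (hδ0 N).le (Nat.cast_nonneg _)) hl0 (hδ0 N)) (abs_nonneg _)).trans_eq ?_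
        ring
      intro u hu
      rcases hu.1.eq_or_lt with rfl | h
      · have hcont : Continuous fun u : ℝ => |∑ i, c i * u ^ e N i| := by fun_prop
        refine le_of_tendsto ((hcont.tendsto 0).mono_left (nhdsWithin_le_nhds (s := Ioi 0))) ?_
        filter_upwards [Ioc_mem_nhdsGT zero_lt_one] with v hv
        exact hpos v hv
      · exact hpos u ⟨h, hu.2⟩
    have h := Qo.mom_sq_le (fun k => corr f (q N ^ k)) (fun i j => corr_mom_nonneg hf (hqI N) i j)
      c (e N) hbd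
    simpa [gramSum, pow_add] using h
  refine le_of_tendsto_of_tendsto' hlim ?_ hb
  simpa using ((hδt.mul_const (∑ i, |c i| * (2 / x i))).const_add E |>.pow 2).mul_const (corr f 1)

/-- Riemann sums of the average over the correlation. -/
theorem riemann_pt {f : Space n → ℝ} (hf : CG f) (x : Space n) :
    Tendsto (fun M : ℕ => ∑ k : Fin (M + 1), 1 / ((M : ℝ) + 1) *
      Pt ((((k : ℕ) : ℝ) + 1) / ((M : ℝ) + 1)) f x) atTop (𝓝 (∫ t in (0 : ℝ)..1, Pt t f x)) := by
  set φ : ℝ → ℝ := fun t => Pt (Set.projIcc (0 : ℝ) 1 zero_le_one t) f x with hφ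
  have hφc : Continuous φ := (pt_contOn hf).comp_continuous
    (f := fun t : ℝ => (((Set.projIcc (0 : ℝ) 1 zero_le_one t : Icc (0 : ℝ) 1) : ℝ), x))
    (by fun_prop) fun t => ⟨Subtype.prop _, mem_univ _⟩
  have h := Qo.riemann_tendsto (d := 1) (φ := fun t => φ t • ev (0 : Fin 1)) (hφc.smul continuous_const)
  have h2 := ((EuclideanSpace.proj (0 : Fin 1) : Space 1 →L[ℝ] ℝ).continuous.tendsto _).comp h
  have e0 : (EuclideanSpace.proj (0 : Fin 1) : Space 1 →L[ℝ] ℝ)
      (∫ t in (0 : ℝ)..1, φ t • ev (0 : Fin 1)) = ∫ t in (0 : ℝ)..1, Pt t f x := by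
    rw [intervalIntegral.integral_smul_const, map_smul, smul_eq_mul]
    have : (EuclideanSpace.proj (0 : Fin 1) : Space 1 →L[ℝ] ℝ) (ev (0 : Fin 1)) = 1 := by simp [ev]
    rw [this, mul_one]
    refine intervalIntegral.integral_congr fun t ht => ?_
    rw [uIcc_of_le zero_le_one] at ht
    simp only [hφ, Set.projIcc_of_mem zero_le_one ht]
  rw [e0] at h2
  refine h2.congr fun M => ?_
  simp only [Function.comp_apply, map_sum, map_smul, smul_eq_mul]
  refine Finset.sum_congr rfl fun k _ => ?_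
  have hk : (((k : ℕ) : ℝ) + 1) / ((M : ℝ) + 1) ∈ Icc (0 : ℝ) 1 :=
    ⟨by positivity, (div_le_one (by positivity)).2 (by exact_mod_cast Nat.succ_le_of_lt k.isLt)⟩
  simp [hφ, Set.projIcc_of_mem zero_le_one hk, ev]

/-- A scalar bound on exponential sums gives the bound for every scalar function. -/
theorem quad_op {m : ℕ} (N : Nodes m) {e : ℝ} (he : 0 ≤ e) (ht : ∀ j, N.t j ∈ Ioc (0 : ℝ) 1)
    (hscal : ∀ l : ℝ, 0 ≤ l → |(∑ j, N.w j * N.t j ^ l) - 1 / (1 + l)| ≤ e)
    {f : Space n → ℝ} (hf : CG f) :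
    ∫ x, ((∑ j, N.w j * Pt (N.t j) f x) - ∫ t in (0 : ℝ)..1, Pt t f x) ^ 2 ∂gam n
      ≤ e ^ 2 * ∫ x, f x ^ 2 ∂gam n := by
  rw [show ∫ x, f x ^ 2 ∂gam n = corr f 1 from (corr_one f).symm]
  obtain ⟨B, k, hB0, hB⟩ := pt_bound hf
  set c : (M : ℕ) → Fin m ⊕ Fin (M + 1) → ℝ := fun M => Sum.elim N.w fun _ => -(1 / ((M : ℝ) + 1))
    with hc
  set r : (M : ℕ) → Fin m ⊕ Fin (M + 1) → ℝ :=
    fun M => Sum.elim N.t fun k => (((k : ℕ) : ℝ) + 1) / ((M : ℝ) + 1) with hrdef
  have hr : ∀ M i, r M i ∈ Ioc (0 : ℝ) 1 := by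
    intro M i
    rcases i with i | i
    · exact ht i
    · simp only [hrdef, Sum.elim_inr]
      refine ⟨by positivity, (div_le_one (by positivity)).2 ?_⟩
      exact_mod_cast Nat.succ_le_of_lt i.isLt
  have hcomb : ∀ M x, comb f (c M) (r M) x = (∑ k, N.w k * Pt (N.t k) f x)
      - ∑ k : Fin (M + 1), 1 / ((M : ℝ) + 1) *
          Pt ((((k : ℕ) : ℝ) + 1) / ((M : ℝ) + 1)) f x := fun M x => by
    simp [comb, hc, hrdef, Fintype.sum_sum_type, Finset.sum_neg_distrib, sub_eq_add_neg]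
  have hpt : ∀ x, Tendsto (fun M => comb f (c M) (r M) x ^ 2) atTop
      (𝓝 (((∑ k, N.w k * Pt (N.t k) f x) - ∫ t in (0 : ℝ)..1, Pt t f x) ^ 2)) := fun x => by
    simp only [hcomb]
    exact ((riemann_pt hf x).const_sub _).pow 2
  have hbound : ∀ M x, |comb f (c M) (r M) x ^ 2|
      ≤ ((∑ k, |N.w k|) + 1) ^ 2 * B ^ 2 * (1 + ‖x‖) ^ (2 * k) := by
    intro M x
    rw [abs_pow, mul_comm 2 k, pow_mul, ← mul_pow, ← mul_pow, mul_assoc]
    refine pow_le_pow_left₀ (abs_nonneg _) ?_ 2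
    refine (Finset.abs_sum_le_sum_abs _ _).trans ?_
    have hcsum : ∑ i, |c M i| = (∑ k, |N.w k|) + 1 := by
      simp [hc, Fintype.sum_sum_type, abs_of_pos (show (0 : ℝ) < (M : ℝ) + 1 by positivity)]
      field_simp
    rw [← hcsum, Finset.sum_mul]
    refine Finset.sum_le_sum fun i _ => ?_
    rw [abs_mul]
    exact mul_le_mul_of_nonneg_left (hB _ (Ioc_subset_Icc_self (hr M i)) x) (abs_nonneg _)
  have hlim := tendsto_integral_of_dominated_convergence
    (fun x => ((∑ k, |N.w k|) + 1) ^ 2 * B ^ 2 * (1 + ‖x‖) ^ (2 * k))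
    (fun M => ((cg_comb hf (c M) fun i => Ioc_subset_Icc_self (hr M i)).1.pow
      2).aestronglyMeasurable) ((int_poly (d := n) (2 * k)).const_mul _)
    (fun M => ae_of_all _ fun x => by rw [Real.norm_eq_abs]; exact hbound M x)
    (ae_of_all _ hpt)
  have hlimr : Tendsto (fun M : ℕ => (e + 1 / ((M : ℝ) + 1)) ^ 2 * corr f 1) atTop
      (𝓝 (e ^ 2 * corr f 1)) := by
    simpa using ((tendsto_one_div_add_atTop_nhds_zero_nat.const_add e).pow 2).mul_const (corr f 1)
  refine le_of_tendsto_of_tendsto' hlim hlimr fun M => ?_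
  refine le_of_eq_of_le (gramSum_eq hf (c M) fun i => Ioc_subset_Icc_self (hr M i)) ?_
  refine gram_le hf (c M) (hr M) fun l hl => ?_
  have h2 := Qo.riemann_rpow (M + 1) (Nat.succ_pos M) hl
  push_cast at h2
  have h3 := hscal l hl
  rw [Fintype.sum_sum_type]
  simp only [hc, hrdef, Sum.elim_inl, Sum.elim_inr, neg_mul, Finset.sum_neg_distrib]
  rw [abs_le] at h2 h3 ⊢
  constructor <;> linarith

end GateAux

open GateAux SteinAux

/-- Few positive nodes replace the integral over the correlation, in every dimension. -/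
theorem quadGauss : QuadGauss := by
  intro k hk
  obtain ⟨C, hC⟩ := quadScalar k hk
  refine ⟨C, fun e h1 h2 => ?_⟩
  obtain ⟨m, N, a, b, c, f⟩ := hC e h1 h2
  exact ⟨m, N, a, b, c, fun n g hg hg' => quad_op N h1.le b f ⟨hg, hg'⟩⟩

/-- The covariance identity. -/
theorem covId : CovId := by
  intro n φ ψ hφ hψ
  have := unit_prob
  have hφn : Nice φ := by
    have h := nice_ent hφ 0 Fin.elim0
    rwa [ent_zero] at h
  have hψn : Nice ψ := by
    have h := nice_ent hψ 0 Fin.elim0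
    rwa [ent_zero] at h
  have hG : ∀ x j, Gt φ x j = ∫ t in (0 : ℝ)..1, Pt t (fun y => fderiv ℝ φ y (ev j)) x := fun x j => by
    show (∫ p, (fun y => fderiv ℝ φ y (ev j)) (mix x p) ∂tg n) = _
    rw [integral_prod _ (mix_int (hφn.cont_deriv _) (hφn.grow_deriv _) x),
      intervalIntegral.integral_of_le zero_le_one, integral_Ioc_eq_integral_Ioo]
    rfl
  have i1 : Integrable (fun x => φ x * ψ x) (gam n) :=
    gam_int (hφn.cont.mul hψn.cont) (grow_mul hφn.grow hψn.grow)
  have iφ := gam_int hφn.cont hφn.grow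
  have iψ := gam_int hψn.cont hψn.grow
  have e : cov (gam n) φ ψ
      = (∫ x, φ x * ψ x ∂gam n) - (∫ x, φ x ∂gam n) * ∫ x, ψ x ∂gam n := by
    unfold cov
    set a := ∫ x, φ x ∂gam n
    set b := ∫ x, ψ x ∂gam n
    have e1 : ∀ x, (φ x - a) * (ψ x - b) = φ x * ψ x - (b * φ x + (a * ψ x - a * b)) := fun x => by
      ring
    have i3 : Integrable (fun x => a * ψ x - a * b) (gam n) := (iψ.const_mul a).sub (integrable_const _)
    have i2 : Integrable (fun x => b * φ x + (a * ψ x - a * b)) (gam n) := (iφ.const_mul b).add i3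
    simp only [e1]
    rw [integral_sub i1 i2, integral_add (iφ.const_mul b) i3,
      integral_sub (iψ.const_mul a) (integrable_const _), integral_const_mul, integral_const_mul,
      integral_const, probReal_univ, one_smul]
    ring
  have hint : ∀ j, Integrable (fun x => Gt φ x j * fderiv ℝ ψ x (ev j)) (gam n) := fun j =>
    gam_int ((mixAvg_reg (hφn.cont_deriv (ev j)) (hφn.grow_deriv _)).1.fun_mul (hψn.cont_deriv _))
      (grow_mul (mixAvg_reg (hφn.cont_deriv (ev j)) (hφn.grow_deriv _)).2 (hψn.grow_deriv _))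
  rw [e, cov_nice hφn hψn, integral_finsetSum _ fun j _ => hint j]
  simp only [hG]

end Vale.Agent.P347.Zero
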