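import Vale.Agent.P347.Zero.AvgCancel
import Vale.Agent.P347.Zero.AvgPins
import Vale.Agent.P347.Zero.GateQuad

/-!
The average of a field with one leg: expansion of the centred mixture with the cancelling parts,
and Stein's identity for the mixture, the parts and the remaining noise.
-/

noncomputable section

open MeasureTheory ProbabilityTheory
open scoped RealInnerProductSpace NNReal

namespace Vale.Agent.P347.Zero

variable {S : Sys} {B Z C : Type} [Fintype B] [DecidableEq B] [Fintype Z] [DecidableEq Z]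
  [Fintype C] [DecidableEq C]

/-! ### The noise -/

theorem lapV_shift {d : ℕ} {U : Space d → ℝ} (v y : Space d) :
    lapV (fun y => U (v + y)) y = lapV U (v + y) := by
  simp only [lapV, dV, iteratedFDeriv_comp_add_left]

theorem hsT_tenV {d : ℕ} (x : Space d) : hsT (tenV x) = ‖x‖ ^ 2 := by
  rw [EuclideanSpace.real_norm_sq_eq, hsT, sum_unit]
  rfl

theorem tenV_add {d : ℕ} (x y : Space d) : tenV (x + y) = tenV x + tenV y := rfl

theorem tenV_smul {d : ℕ} (c : ℝ) (x : Space d) : tenV (c • x) = c • tenV x := rfl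

/-- Integration by parts in the noise. -/
theorem stein_noise {d : ℕ} {U : Space d → ℝ} (hU : PG U) (ν : ℝ) (u : Space d) :
    ∫ z, pairT (tenV z) (dI Unit U (u + ν • z)) ∂gam d = ν * ∫ z, lapV U (u + ν • z) ∂gam d := by
  let f := fun (c : Fin d) (z : Space d) => dI Unit U (u + ν • z) (fun _ => c)
  have hsh : ∀ {g : Space d → ℝ}, PG g → PG fun z => g (u + ν • z) := fun {g} hg => by
    have h := (hg.shift u).comp_clm (ν • ContinuousLinearMap.id ℝ (Space d))
    simpa [add_comm] using h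
  have hf : ∀ c, PG (f c) := fun c => hsh (hU.dI (fun _ : Unit => c))
  have hd : ∀ c z, fderiv ℝ (f c) z (ev c) = ν * dV 2 U (u + ν • z) (fun _ => c) := by
    intro c z
    have h1 : HasFDerivAt (fun z => u + ν • z) (ν • ContinuousLinearMap.id ℝ (Space d)) z :=
      ((hasFDerivAt_id z).const_smul ν).const_add u
    have h := ((differentiable_dI hU fun _ : Unit => c) (u + ν • z)).hasFDerivAt.comp z h1
    rw [show fderiv ℝ (f c) z = _ from h.fderiv, ContinuousLinearMap.comp_apply, fderiv_dI hU,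
      Finset.sum_eq_single c (fun j _ hj => by simp [ev, hj]) (by simp),
      ← dI_const_two U (u + ν • z) hU c]
    simp only [smul_apply, ContinuousLinearMap.id_apply, PiLp.smul_apply, smul_eq_mul]
    simp [ev]
    left
    exact congrArg (dI (Option Unit) U (u + ν • z)) (funext fun o => by cases o <;> rfl)
  have hn : ∀ c, Nice (f c) := fun c => AvgAux.pg_nice (hf c)
  have hz : ∀ c : Fin d, PG fun z : Space d => z c := fun c k =>
    PGv.linear (EuclideanSpace.proj (𝕜 := ℝ) c) k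
  have hi : ∀ c, Integrable (fun z => z c * f c z) (gam d) := fun c =>
    gam_int ((hz c).mul (hf c)).cont (AvgAux.pg_grow ((hz c).mul (hf c)))
  have hD : ∀ c : Fin d, PG fun z => dV 2 U (u + ν • z) fun _ => c := fun c => by
    simp only [← dI_const_two U _ hU c]
    exact hsh (hU.dI _)
  have hi' : ∀ c : Fin d, Integrable (fun z => dV 2 U (u + ν • z) fun _ => c) (gam d) := fun c =>
    gam_int (hD c).cont (AvgAux.pg_grow (hD c))
  simp only [lapV]
  rw [integral_finsetSum _ fun c _ => hi' c, Finset.mul_sum]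
  simp only [pairT, sum_unit, tenV]
  rw [integral_finsetSum _ fun c _ => hi c]
  refine Finset.sum_congr rfl fun c _ => ?_
  have h := gStein (hn c) (ev c)
  simp only [coord_inner, hd, integral_const_mul] at h
  exact h

/-! ### Stein's identity for the mixture -/

/-- The bracket of a mixture and its parts. -/
def brkF (G₀ : Fld S (B ⊕ C) Unit) (P : Fld S (Z ⊕ C) Unit) (v : ℕ → ℝ) : Fun S C :=
  fun i p y V => pairF G₀ G₀ i p y (avgF P i p y V)
    - pairF G₀ (zeroP S B C) i p y (avgF G₀ i p y (avgF P i p y V))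
    + balF P v i p y (avgF G₀ i p y V)

/-- The mixture, centred, with the part and noise of variance `1 - v`. -/
def mixVec (G₀ : Fld S (B ⊕ C) Unit) (P : Fld S (Z ⊕ C) Unit) (i : S.ι) (p : Space (S.dm i))
    (y : C → Space (S.dm i)) (ν : ℝ)
    (q : ((B → Space (S.dm i)) × (Z → Space (S.dm i))) × Space (S.dm i)) : Space (S.dm i) :=
  -(∫ x, vecF G₀ i p y x ∂gp B (S.dm i)) + (vecF G₀ i p y q.1.1 + vecF P i p y q.1.2) + ν • q.2

theorem integrable_mixVec {G₀ : Fld S (B ⊕ C) Unit} {P : Fld S (Z ⊕ C) Unit} (sG : Sm G₀)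
    (sP : Sm P) (i : S.ι) (p : Space (S.dm i)) (y : C → Space (S.dm i)) (ν : ℝ) :
    Integrable (mixVec G₀ P i p y ν)
      (((gp B (S.dm i)).prod (gp Z (S.dm i))).prod (gam (S.dm i))) := by
  have h1 : Integrable (vecF G₀ i p y) (gp B (S.dm i)) := integrable_vecF sG i p y
  have h2 : Integrable (vecF P i p y) (gp Z (S.dm i)) := integrable_vecF sP i p y
  have hs : Integrable (fun w : (B → Space (S.dm i)) × (Z → Space (S.dm i)) =>
      -(∫ x, vecF G₀ i p y x ∂gp B (S.dm i)) + (vecF G₀ i p y w.1 + vecF P i p y w.2))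
      ((gp B (S.dm i)).prod (gp Z (S.dm i))) :=
    (integrable_const _).add ((h1.comp_fst _).add (h2.comp_snd _))
  have hz : Integrable (fun z : Space (S.dm i) => ν • z) (gam (S.dm i)) :=
    IsGaussian.integrable_id.smul ν
  have h := (hs.comp_fst (gam (S.dm i))).add
    (hz.comp_snd ((gp B (S.dm i)).prod (gp Z (S.dm i))))
  exact h

/-- The test seen from the point, averaged over the noise. -/
def noiseAvg {d : ℕ} (U : Space d → ℝ) (m₀ : Space d) (ν : ℝ) : Space d → ℝ :=
  fun u => ∫ z, U (-m₀ + (u + ν • z)) ∂gam d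

theorem TestV.noiseAvg {d : ℕ} {Cst : ℕ → ℝ} (hC : ∀ j, 0 ≤ Cst j) {U : Space d → ℝ}
    (hU : TestV Cst U) (m₀ : Space d) (ν : ℝ) : TestV Cst (Zero.noiseAvg U m₀ ν) :=
  (hU.shift hC (-m₀)).avg hC (IsGaussian.integrable_id.smul ν)

theorem cont_pairT_test {d : ℕ} {U : Space d → ℝ} (hU : PG U) {α : Type} [TopologicalSpace α]
    {T : α → Ten d Unit} (hT : Continuous T) {Q : α → Space d} (hQ : Continuous Q) :
    Continuous fun a => pairT (T a) (dI Unit U (Q a)) :=
  cont_pairT hT hU hQ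

theorem continuous_tenV {d : ℕ} : Continuous (tenV : Space d → Ten d Unit) :=
  continuous_pi fun idx => (EuclideanSpace.proj (𝕜 := ℝ) (idx ())).continuous

theorem norm_pairT_tenV {d : ℕ} {Cst : ℕ → ℝ} (hC : ∀ j, 0 ≤ Cst j) {U : Space d → ℝ}
    (hU : TestV Cst U) (x u : Space d) :
    |pairT (tenV x) (dI Unit U u)| ≤ Cst (Fintype.card Unit) * ‖x‖ := by
  refine (pairT_bound hC hU _ _).trans_eq ?_
  rw [hsT_tenV, Real.sqrt_sq (norm_nonneg _)]

/-- Stein's operator averaged over the noise. -/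
theorem stein_inner {d : ℕ} {Cst : ℕ → ℝ} (hC : ∀ j, 0 ≤ Cst j) {U : Space d → ℝ}
    (hU : TestV Cst U) (m₀ s : Space d) (ν : ℝ) :
    ∫ z, steinOp U (-m₀ + s + ν • z) ∂gam d
      = (1 - ν ^ 2) * lapV (noiseAvg U m₀ ν) s
        - (pairT (tenV s) (dI Unit (noiseAvg U m₀ ν) s)
          - pairT (tenV m₀) (dI Unit (noiseAvg U m₀ ν) s)) := by
  have hW : Integrable (fun z : Space d => ν • z) (gam d) := IsGaussian.integrable_id.smul ν
  have hU' : TestV Cst fun y => U (-m₀ + y) := hU.shift hC _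
  have eL : lapV (noiseAvg U m₀ ν) s = ∫ z, lapV U (-m₀ + (s + ν • z)) ∂gam d := by
    refine (lapV_avg hC hU' hW s).trans ?_
    simp only [lapV_shift]
  have eP : ∀ T : Ten d Unit, ∫ z, pairT T (dI Unit U (-m₀ + (s + ν • z))) ∂gam d
      = pairT T (dI Unit (noiseAvg U m₀ ν) s) := fun T => by
    refine Eq.trans ?_ (pairT_avg hW hC hU' T s)
    simp only [dI_shift]
  have hc : Continuous fun z : Space d => -m₀ + (s + ν • z) := by fun_prop
  have i1 : Integrable (fun z => lapV U (-m₀ + (s + ν • z))) (gam d) :=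
    Integrable.of_bound ((continuous_lapV hU.1).comp hc).aestronglyMeasurable _
      (ae_of_all _ fun q => (Real.norm_eq_abs _).trans_le (lapV_bound hC hU _))
  have i2 : Integrable (fun z => pairT (tenV (-m₀ + s)) (dI Unit U (-m₀ + (s + ν • z)))) (gam d) :=
    Integrable.of_bound (cont_pairT_test hU.1 continuous_const hc).aestronglyMeasurable _
      (ae_of_all _ fun q => (Real.norm_eq_abs _).trans_le (norm_pairT_tenV hC hU _ _))
  have i3 : Integrable (fun z => pairT (tenV z) (dI Unit U (-m₀ + (s + ν • z)))) (gam d) :=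
    ((IsGaussian.integrable_id (μ := gam d)).norm.const_mul (Cst (Fintype.card Unit))).mono'
      (cont_pairT_test hU.1 continuous_tenV hc).aestronglyMeasurable
      (ae_of_all _ fun q => (Real.norm_eq_abs _).trans_le (norm_pairT_tenV hC hU _ _))
  have i23 : Integrable (fun z => pairT (tenV (-m₀ + s)) (dI Unit U (-m₀ + (s + ν • z)))
      + ν * pairT (tenV z) (dI Unit U (-m₀ + (s + ν • z)))) (gam d) := i2.add (i3.const_mul ν)
  have e2 : ∀ z, steinOp U (-m₀ + s + ν • z)
      = lapV U (-m₀ + (s + ν • z))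
        - (pairT (tenV (-m₀ + s)) (dI Unit U (-m₀ + (s + ν • z)))
          + ν * pairT (tenV z) (dI Unit U (-m₀ + (s + ν • z)))) := fun z => by
    rw [steinOp_eq hU.1, ← pairT_smul, ← pairT_add, ← tenV_smul, ← tenV_add, add_assoc]
  have hs := stein_noise hU.1 ν (-m₀ + s)
  simp only [add_assoc] at hs
  have eT : tenV (-m₀ + s) = tenV s + (-1 : ℝ) • tenV m₀ := by
    rw [← tenV_smul, ← tenV_add, neg_one_smul, add_comm]
  simp only [e2]
  rw [integral_sub i1 i23, integral_add i2 (i3.const_mul ν), integral_const_mul, hs, eP, ← eL, eT,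
    pairT_add, pairT_smul]
  ring

theorem integrable_stein {G₀ : Fld S (B ⊕ C) Unit} {P : Fld S (Z ⊕ C) Unit} {Cst : ℕ → ℝ}
    (hC : ∀ j, 0 ≤ Cst j) (sG : Sm G₀) (sP : Sm P) (i : S.ι) (p : Space (S.dm i))
    (y : C → Space (S.dm i)) (ν : ℝ) {U : Space (S.dm i) → ℝ} (hU : TestV Cst U) :
    Integrable (fun q => steinOp U (mixVec G₀ P i p y ν q))
      (((gp B (S.dm i)).prod (gp Z (S.dm i))).prod (gam (S.dm i))) := by
  have hX := integrable_mixVec sG sP i p y ν
  have h1 : Integrable (fun q => lapV U (mixVec G₀ P i p y ν q))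
      (((gp B (S.dm i)).prod (gp Z (S.dm i))).prod (gam (S.dm i))) :=
    Integrable.of_bound ((continuous_lapV hU.1).comp_aestronglyMeasurable hX.1) _
      (ae_of_all _ fun q => (Real.norm_eq_abs _).trans_le (lapV_bound hC hU _))
  have h2 : Integrable (fun q => pairT (tenV (mixVec G₀ P i p y ν q))
      (dI Unit U (mixVec G₀ P i p y ν q)))
      (((gp B (S.dm i)).prod (gp Z (S.dm i))).prod (gam (S.dm i))) :=
    (hX.norm.const_mul (Cst (Fintype.card Unit))).mono'
      ((cont_pairT_test hU.1 continuous_tenV continuous_id).comp_aestronglyMeasurable hX.1)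
      (ae_of_all _ fun q => (Real.norm_eq_abs _).trans_le (norm_pairT_tenV hC hU _ _))
  simp only [steinOp_eq hU.1]
  exact h1.sub h2

/-- The parts of the bracket, from the test averaged over the noise. -/
theorem brk_eq {Cst : ℕ → ℝ} (hC : ∀ j, 0 ≤ Cst j) {G₀ : Fld S (B ⊕ C) Unit}
    {P : Fld S (Z ⊕ C) Unit} (sG : Sm G₀) (sP : Sm P) (v : ℕ → ℝ) (i : S.ι) (p : Space (S.dm i))
    (y : C → Space (S.dm i)) {V : Space (S.dm i) → ℝ} (hV : TestV Cst V) :
    ∫ w, (v (S.dm i) * lapV V (vecF G₀ i p y w.1 + vecF P i p y w.2)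
        - (pairT (tenV (vecF G₀ i p y w.1 + vecF P i p y w.2))
            (dI Unit V (vecF G₀ i p y w.1 + vecF P i p y w.2))
          - pairT (tenV (∫ x, vecF G₀ i p y x ∂gp B (S.dm i)))
              (dI Unit V (vecF G₀ i p y w.1 + vecF P i p y w.2))))
        ∂(gp B (S.dm i)).prod (gp Z (S.dm i))
      = -brkF G₀ P v i p y V := by
  set μ := (gp B (S.dm i)).prod (gp Z (S.dm i))
  set m₀ := ∫ x, vecF G₀ i p y x ∂gp B (S.dm i) with hm₀
  have hVP : TestV Cst (avgF P i p y V) := hV.avgF sP hC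
  have hsm : AEStronglyMeasurable (fun w : (B → Space (S.dm i)) × (Z → Space (S.dm i)) =>
      vecF G₀ i p y w.1 + vecF P i p y w.2) μ :=
    (((continuous_vecF sG i p y).comp continuous_fst).add
      ((continuous_vecF sP i p y).comp continuous_snd)).aestronglyMeasurable
  have jL : Integrable (fun w => v (S.dm i) * lapV V (vecF G₀ i p y w.1 + vecF P i p y w.2)) μ :=
    (Integrable.of_bound ((continuous_lapV hV.1).comp_aestronglyMeasurable hsm) _
      (ae_of_all _ fun q => (Real.norm_eq_abs _).trans_le (lapV_bound hC hV _))).const_mul _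
  have jG : Integrable (fun w => pairT (G₀ i p (Sum.elim w.1 y))
      (dI Unit V (vecF G₀ i p y w.1 + vecF P i p y w.2))) μ :=
    integrable_pairT hC sG hV measurePreserving_fst hsm
  have jP : Integrable (fun w => pairT (P i p (Sum.elim w.2 y))
      (dI Unit V (vecF G₀ i p y w.1 + vecF P i p y w.2))) μ :=
    integrable_pairT hC sP hV measurePreserving_snd hsm
  have jm : Integrable (fun w => pairT (tenV m₀)
      (dI Unit V (vecF G₀ i p y w.1 + vecF P i p y w.2))) μ :=
    Integrable.of_bound ((cont_pairT_test hV.1 continuous_const continuous_id).comp_aestronglyMeasurable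
      hsm) _ (ae_of_all _ fun q => (Real.norm_eq_abs _).trans_le (pairT_bound hC hV _ _))
  have eG : ∫ w, pairT (G₀ i p (Sum.elim w.1 y))
      (dI Unit V (vecF G₀ i p y w.1 + vecF P i p y w.2)) ∂μ
      = pairF G₀ G₀ i p y (avgF P i p y V) := by
    rw [integral_prod _ jG]
    refine integral_congr_ae (ae_of_all _ fun x => ?_)
    exact pairT_avg (integrable_vecF sP i p y) hC hV (G₀ i p (Sum.elim x y)) (vecF G₀ i p y x)
  have eP : ∫ w, pairT (P i p (Sum.elim w.2 y))
      (dI Unit V (vecF G₀ i p y w.1 + vecF P i p y w.2)) ∂μ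
      = pairF P P i p y (avgF G₀ i p y V) := by
    rw [integral_prod_symm _ jP]
    refine integral_congr_ae (ae_of_all _ fun z => ?_)
    refine Eq.trans ?_
      (pairT_avg (integrable_vecF sG i p y) hC hV (P i p (Sum.elim z y)) (vecF P i p y z))
    exact integral_congr_ae (ae_of_all _ fun x => by simp only [add_comm (vecF P i p y z)])
  have eL : ∫ w, v (S.dm i) * lapV V (vecF G₀ i p y w.1 + vecF P i p y w.2) ∂μ
      = v (S.dm i) * ∫ z, lapV (avgF G₀ i p y V) (vecF P i p y z) ∂gp Z (S.dm i) := by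
    rw [integral_prod_symm _ jL, ← integral_const_mul]
    refine integral_congr_ae (ae_of_all _ fun z => ?_)
    beta_reduce
    rw [integral_const_mul]
    congr 1
    refine Eq.trans ?_ (lapV_avg hC hV (integrable_vecF sG i p y) (vecF P i p y z)).symm
    exact integral_congr_ae (ae_of_all _ fun x => by simp only [add_comm (vecF P i p y z)])
  have em : ∫ w, pairT (tenV m₀) (dI Unit V (vecF G₀ i p y w.1 + vecF P i p y w.2)) ∂μ
      = pairF G₀ (zeroP S B C) i p y (avgF G₀ i p y (avgF P i p y V)) := by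
    set W := avgF G₀ i p y (avgF P i p y V) with hW
    have e0 : ∫ w, pairT (tenV m₀) (dI Unit V (vecF G₀ i p y w.1 + vecF P i p y w.2)) ∂μ
        = pairT (tenV m₀) (dI Unit W 0) := by
      rw [integral_prod _ jm]
      refine Eq.trans ?_ (pairT_avg (integrable_vecF sG i p y) hC hVP (tenV m₀) 0)
      refine integral_congr_ae (ae_of_all _ fun x => ?_)
      beta_reduce
      rw [zero_add]
      exact pairT_avg (integrable_vecF sP i p y) hC hV (tenV m₀) (vecF G₀ i p y x)
    rw [e0]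
    have ez : ∀ x, vecF (zeroP S B C) i p y x = 0 := fun x => by simp [vecF, zeroP, vecT_zero]
    simp only [pairF, ez, pairT]
    rw [integral_finsetSum _ fun idx _ => (pg_int (sG.pgL i p y idx)).mul_const _]
    refine Finset.sum_congr rfl fun idx _ => ?_
    rw [integral_mul_const]
    congr 1
    rw [tenV, hm₀]
    refine Eq.trans ?_ (integral_congr_ae (ae_of_all _ fun x =>
      show vecF G₀ i p y x (idx ()) = G₀ i p (Sum.elim x y) idx from rfl))
    exact ((EuclideanSpace.proj (𝕜 := ℝ) (idx ())).integral_comp_comm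
      (integrable_vecF sG i p y)).symm
  have hT : ∀ w : (B → Space (S.dm i)) × (Z → Space (S.dm i)),
      pairT (tenV (vecF G₀ i p y w.1 + vecF P i p y w.2))
        (dI Unit V (vecF G₀ i p y w.1 + vecF P i p y w.2))
      = pairT (G₀ i p (Sum.elim w.1 y)) (dI Unit V (vecF G₀ i p y w.1 + vecF P i p y w.2))
        + pairT (P i p (Sum.elim w.2 y)) (dI Unit V (vecF G₀ i p y w.1 + vecF P i p y w.2)) :=
    fun w => by rw [← pairT_add, tenV_add, vecF, vecF, tenV_vecT, tenV_vecT]
  simp only [hT]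
  have hGP : Integrable (fun w => pairT (G₀ i p (Sum.elim w.1 y))
        (dI Unit V (vecF G₀ i p y w.1 + vecF P i p y w.2))
      + pairT (P i p (Sum.elim w.2 y)) (dI Unit V (vecF G₀ i p y w.1 + vecF P i p y w.2))) μ :=
    jG.add jP
  have hGPm : Integrable (fun w => pairT (G₀ i p (Sum.elim w.1 y))
        (dI Unit V (vecF G₀ i p y w.1 + vecF P i p y w.2))
      + pairT (P i p (Sum.elim w.2 y)) (dI Unit V (vecF G₀ i p y w.1 + vecF P i p y w.2))
      - pairT (tenV m₀) (dI Unit V (vecF G₀ i p y w.1 + vecF P i p y w.2))) μ := hGP.sub jm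
  rw [integral_sub jL hGPm, integral_sub hGP jm, integral_add jG jP, eG, eP, eL, em]
  simp only [brkF, balF]
  ring

theorem stein_mix {Cst : ℕ → ℝ} (hC : ∀ j, 0 ≤ Cst j) {G₀ : Fld S (B ⊕ C) Unit}
    {P : Fld S (Z ⊕ C) Unit} (sG : Sm G₀) (sP : Sm P) {v : ℕ → ℝ} {i : S.ι}
    (hv : v (S.dm i) ≤ 1) (p : Space (S.dm i)) (y : C → Space (S.dm i))
    {U : Space (S.dm i) → ℝ} (hU : TestV Cst U) :
    ∃ V, TestV Cst V ∧
      ∫ q, steinOp U (mixVec G₀ P i p y (Real.sqrt (1 - v (S.dm i))) q)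
          ∂((gp B (S.dm i)).prod (gp Z (S.dm i))).prod (gam (S.dm i))
        = -brkF G₀ P v i p y V := by
  set ν := Real.sqrt (1 - v (S.dm i)) with hν
  set m₀ := ∫ x, vecF G₀ i p y x ∂gp B (S.dm i) with hm₀
  have hV := TestV.noiseAvg hC hU m₀ ν
  refine ⟨_, hV, Eq.trans ?_ (brk_eq hC sG sP v i p y hV)⟩
  rw [integral_prod _ (integrable_stein hC sG sP i p y ν hU)]
  refine integral_congr_ae (ae_of_all _ fun w => ?_)
  refine (stein_inner hC hU m₀ (vecF G₀ i p y w.1 + vecF P i p y w.2) ν).trans ?_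
  rw [hν, Real.sq_sqrt (by linarith), sub_sub_cancel]

/-! ### The average -/

theorem avgCore (hP : ProductThm) : AvgCore := by
  intro S L r φ Φ θ h₁ h₂ h₃ B C _ _ _ _ G sG hG hD
  refine sam_avB_of_part sG hG fun a ha => ?_
  obtain ⟨Cst, hC, hT⟩ := avgTest
  obtain ⟨N⟩ := nodeFam quadGauss (L.kap (r + 1) + 1)
  set σ := θ - a with hσ
  have hρ := L.phi_pos r
  have hw0 := L.w_pos
  set g : ℕ → ℝ := fun d => Real.sqrt 2 * (d : ℝ) ^ a with hg
  set G₀ : Fld S (B ⊕ C) Unit := smulF (fun i => g (S.dm i)) G with hG₀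
  have sG₀ : Sm G₀ := sG.smul _
  have hgE : ∀ η : ℝ, 0 < η → S.Ev fun i => |g (S.dm i)| ≤ S.dd i ^ (η - -a) := fun η hη =>
    (S.ev_one_le.and (S.ev_le_rpow (Real.sqrt 2) hη)).mono fun i ⟨hd, h2⟩ => by
      rw [hg, abs_mul, abs_of_nonneg (Real.sqrt_nonneg _),
        abs_of_nonneg (Real.rpow_nonneg (Nat.cast_nonneg _) _)]
      refine (mul_le_mul_of_nonneg_right h2 (Real.rpow_nonneg (Nat.cast_nonneg _) _)).trans_eq ?_
      rw [← Real.rpow_add (by linarith)]
      ring_nf
  have gD : ∀ b, GdA L (r + 1) Φ (fun _ => L.w) (σ - L.w) {some ()} (dB (.inl b) G₀) := fun b => by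
    rw [hG₀, dB_smulF sG]
    exact ((hD b).scale (sG.dB _) hgE).mono (by linarith) subset_rfl fun _ => le_rfl
  have hQ : PtS L r Φ (fun _ => L.w) G₀ :=
    ⟨fun _ _ => 0, fun b => dB (.inl b) G₀, σ - L.w, by linarith, fun b => sG₀.dB _,
      fun b => ⟨_, gD b⟩, fun b η hη => S.ev_one_le.mono fun i hd => by
        simpa using Real.rpow_nonneg (show (0 : ℝ) ≤ S.dd i by linarith) _,
      fun b => Or.inl fun _ => rfl, fun b => by funext i p x idx; simp [addT, smulF]⟩
  set θ₁ := 2 * (σ - L.w) - L.phi r with hθ₁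
  have hY := GdA.node (L := L) (r := r + 1) (O := {()}) (Q := G₀) hP
    (by simp only [Nat.add_sub_cancel]; linarith) N sG₀ (e := fun _ => σ - L.w)
    (fun b => by rw [Set.image_singleton]; exact gD b) (a := fun _ _ => 0) (s := fun _ => L.w)
    (fun b η hη => S.ev_one_le.mono fun i hd => by
      simpa using Real.rpow_nonneg (show (0 : ℝ) ≤ S.dd i by linarith) _)
    (H := fun b => dB (.inl b) G₀) (fun b => sG₀.dB _) (h := σ - L.w)
    (fun b => ⟨_, gD b⟩) (fun b => by funext i p x idx; simp [addT, smulF]) (θ := θ₁)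
    (fun b => by simp only [Nat.add_sub_cancel]; linarith) (fun b => Or.inl fun _ => rfl)
  rw [Set.image_singleton] at hY
  have hopt : (Fintype.card (Option Unit) : ℝ) - 1 = 1 := by simp; norm_num
  obtain ⟨n, hn⟩ := exists_nat_ge ((L.kap (r + 1) + 1 - (θ₁ - L.w)) / (4 * L.w))
  rw [div_le_iff₀ (by linarith)] at hn
  have hA := (expand (Cst := Cst) (σ := σ) hP (by linarith) N le_rfl hC
    (cancel hP (by linarith) N le_rfl hC n) (Sm.nodeFld N sG₀ sG₀) sG₀.leftB
    (by rintro (z | z) <;> exact le_rfl) hY (hQ.leftB sG₀) (by rw [hopt]; linarith)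
    (by rw [hopt]; linarith) (by rw [hopt]; linarith)).change
      fun i p y V hV => (avgF_leftB sG₀ hC hV).symm
  obtain ⟨Z, iZ, dZ, P, v, sP, hv, hR, hs⟩ := hA
  let v' : ℕ → ℝ := fun d => if |v d| ≤ 1 then v d else 0
  have hv' : ∀ d, |v' d| ≤ 1 := fun d => by
    simp only [v']
    split_ifs with h
    · exact h
    · simp
  refine ⟨Z, iZ, dZ, P, v', sP, hR, hv', ?_⟩
  have hbr : Sml Cst (L.kap (r + 1)) (brkF G₀ P v) := by
    have hst := step_sml N hC le_rfl sG₀ sG₀ (fun b => (gD b).bd.mono (by linarith))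
      (fun b => (gD b).bd.mono (by linarith))
    refine ((hst.comp_avg hC sP).add hs).congr fun i p y V hV => ?_
    simp only [brkF]
    ring
  intro η hη
  refine (((hbr η hη).and (hv L.w hw0)).and S.ev_one_le).mono fun i ⟨⟨hi, hvi⟩, hd⟩ p => ?_
  obtain ⟨e, he, hb, hce⟩ := hi p
  refine ⟨e, he, hb, fun y ψ K hψ => ?_⟩
  have hve : v' (S.dm i) = v (S.dm i) := if_pos (hvi.trans
    (Real.rpow_le_one_of_one_le_of_nonpos hd (by linarith)))
  have hv1 : v (S.dm i) ≤ 1 := hve ▸ (abs_le.1 (hv' (S.dm i))).2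
  have hv2 : -1 ≤ v (S.dm i) := hve ▸ (abs_le.1 (hv' (S.dm i))).1
  rw [hve]
  set q := Real.sqrt (1 / 2) with hq
  set ν := Real.sqrt (1 - v (S.dm i)) with hν
  set ρ' := Real.sqrt (1 - v (S.dm i) / 2) with hρ'
  set t := S.dd i ^ a with ht
  set m := ∫ x, vecF G i p y x ∂gp B (S.dm i) with hm
  have hψ' : LipschitzWith K fun u => ψ (t • m + u) :=
    LipschitzWith.of_dist_le_mul fun u u' => (hψ.dist_le_mul _ _).trans_eq (by simp)
  have hmain := hT _ _ _ (mixVec G₀ P i p y ν) (integrable_mixVec sG₀ sP i p y ν) (e y)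
    (fun U hU => by
      obtain ⟨V, hV, hEq⟩ := stein_mix hC sG₀ sP hv1 p y hU
      rw [hν, hEq, abs_neg]
      exact hce y V hV) _ K hψ'
  refine le_of_eq_of_le ?_ hmain
  congr 2
  set μ := (gp B (S.dm i)).prod (gp Z (S.dm i))
  set γ := gam (S.dm i)
  have hψi : ∀ {α : Type} [MeasurableSpace α] {μ : Measure α} [IsProbabilityMeasure μ]
      {X : α → Space (S.dm i)}, Integrable X μ → Integrable (fun a => ψ (X a)) μ := fun {α} _ {μ} _ {X} hX => by
    refine ((hX.norm.const_mul (K : ℝ)).add (integrable_const |ψ 0|)).mono'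
      (hψ.continuous.comp_aestronglyMeasurable hX.1) (ae_of_all _ fun a => ?_)
    have h := hψ.dist_le_mul (X a) 0
    rw [Real.dist_eq, dist_zero_right] at h
    simp only [Pi.add_apply, Real.norm_eq_abs]
    linarith [abs_sub_abs_le_abs_sub (ψ (X a)) (ψ 0)]
  let Lf : (B → Space (S.dm i)) × (Z → Space (S.dm i)) → Space (S.dm i) :=
    fun w => t • vecF G i p y w.1 + q • vecF P i p y w.2
  have hbase : Integrable Lf μ := (((integrable_vecF sG i p y).comp_fst _).smul t).add
    (((integrable_vecF sP i p y).comp_snd _).smul q)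
  have hL3 : Integrable (fun u => ψ (Lf u.1 + ρ' • u.2)) (μ.prod γ) :=
    hψi ((hbase.comp_fst γ).add (((IsGaussian.integrable_id (μ := γ)).comp_snd μ).smul ρ'))
  have lhs : (∫ x, ∫ z', ∫ z, ψ (t • vecF G i p y x + q • vecF P i p y z' + ρ' • z) ∂γ
      ∂gp Z (S.dm i) ∂gp B (S.dm i)) = ∫ w, ∫ z, ψ (Lf w + ρ' • z) ∂γ ∂μ :=
    (integral_prod (fun w => ∫ z, ψ (Lf w + ρ' • z) ∂γ) hL3.integral_prod_left).symm
  have hR3 : Integrable (fun u => ψ (t • m + (q • mixVec G₀ P i p y ν u.1 + q • u.2)))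
      ((μ.prod γ).prod γ) :=
    hψi ((integrable_const (t • m)).add ((((integrable_mixVec sG₀ sP i p y ν).comp_fst γ).smul q).add
      (((IsGaussian.integrable_id (μ := γ)).comp_snd (μ.prod γ)).smul q)))
  rw [lhs, integral_prod _ hR3.integral_prod_left]
  refine integral_congr_ae (ae_of_all _ fun w => ?_)
  beta_reduce
  have hq2 : q * Real.sqrt 2 = 1 := by
    rw [hq, ← Real.sqrt_mul (by norm_num), show (1 / 2 : ℝ) * 2 = 1 by norm_num, Real.sqrt_one]
  have hmean : ∫ x, vecF G₀ i p y x ∂gp B (S.dm i) = g (S.dm i) • m := by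
    rw [hm, ← integral_smul]
    rfl
  have hqg : q * g (S.dm i) = t := by rw [hg, ← mul_assoc, hq2, one_mul, ht]
  have hpt : ∀ z₁ z₂ : Space (S.dm i), t • m + (q • mixVec G₀ P i p y ν (w, z₁) + q • z₂)
      = Lf w + (q * ν) • z₁ + q • z₂ := fun z₁ z₂ => by
    have e : vecF G₀ i p y w.1 = g (S.dm i) • vecF G i p y w.1 := rfl
    simp only [mixVec, hmean, e, smul_add, smul_neg, smul_smul, hqg, Lf]
    abel
  simp only [hpt]
  rcases eq_or_ne K 0 with rfl | hK
  · have hc : ∀ x, ψ x = ψ 0 := fun x => by simpa using hψ.dist_le_mul x 0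
    simp [hc]
  have hK0 : (0 : ℝ) < K := by exact_mod_cast pos_iff_ne_zero.2 hK
  have hφ : LipschitzWith 1 fun u => (K : ℝ)⁻¹ * ψ u := LipschitzWith.of_dist_le_mul fun x y => by
    rw [NNReal.coe_one, one_mul, Real.dist_eq, ← mul_sub, abs_mul, abs_of_pos (inv_pos.2 hK0),
      inv_mul_le_iff₀ hK0, ← Real.dist_eq]
    exact hψ.dist_le_mul _ _
  have hsm := congrFun (TestAux.sm_sm hφ (a := q * ν) (b := q) (c := ρ')
    (mul_nonneg (Real.sqrt_nonneg _) (Real.sqrt_nonneg _)) (Real.sqrt_nonneg _)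
    (Real.sqrt_pos.2 (by linarith)) (by
      rw [mul_pow, hq, hν, hρ', Real.sq_sqrt (by norm_num), Real.sq_sqrt (by linarith),
        Real.sq_sqrt (by linarith)]
      ring)) (Lf w)
  simp only [sm, integral_const_mul] at hsm
  exact mul_left_cancel₀ (inv_ne_zero hK0.ne') hsm

end Vale.Agent.P347.Zero
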