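import Vale.Agent.P347.Zero.AvgIdent

/-!
The part of a field: the field read with fresh blocks at all legs but one, contracted step by step,
and the exact balance of this part.
-/

noncomputable section

open MeasureTheory ProbabilityTheory
open scoped RealInnerProductSpace NNReal

namespace Vale.Agent.P347.Zero

variable {S : Sys} {Z C B I J : Type} [Fintype Z] [DecidableEq Z] [Fintype C] [DecidableEq C]
  [Fintype B] [DecidableEq B] [Fintype I] [DecidableEq I] [Fintype J] [DecidableEq J]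
  {Cst : ℕ → ℝ}

theorem PG.prod {E α : Type} [NormedAddCommGroup E] [NormedSpace ℝ E] (s : Finset α)
    {f : α → E → ℝ} (hf : ∀ a ∈ s, PG (f a)) : PG fun x => ∏ a ∈ s, f a x := by
  classical
  induction s using Finset.induction_on with
  | empty => simpa using pg_const (E := E) 1
  | insert a s ha ih =>
    simp only [Finset.prod_insert ha]
    exact (hf a (Finset.mem_insert_self a s)).mul (ih fun b hb => hf b (Finset.mem_insert_of_mem hb))

omit [DecidableEq B] in
theorem pg_coord {d : ℕ} (b : B) (c : Fin d) : PG fun x : B → Space d => x b c := fun k =>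
  PGv.linear ((EuclideanSpace.proj (𝕜 := ℝ) c).comp
    (ContinuousLinearMap.proj (φ := fun _ : B => Space d) b)) k

/-- The identity as a field with two legs. -/
def idT (S : Sys) (B : Type) : Fld S B (Option Unit) :=
  fun _ _ _ idx => if idx none = idx (some ()) then 1 else 0

/-- The blocks of a field inside those of its part. -/
def zOf {d : ℕ} (x : (Z ⊕ I) ⊕ C → Space d) : Z ⊕ C → Space d :=
  Sum.elim (fun z => x (.inl (.inl z))) fun c => x (.inr c)

/-- A field on the blocks of its part. -/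
def liftZ (I : Type) {J : Type} (T : Fld S (Z ⊕ C) J) : Fld S ((Z ⊕ I) ⊕ C) J :=
  fun i p x => T i p (zOf x)

/-- The field with the fresh blocks at the legs of `s`. -/
def pctS (Y : Fld S (Z ⊕ C) I) (s : Finset I) : Fld S ((Z ⊕ I) ⊕ C) {l // l ∉ s} :=
  fun i p x idx => ∑ g : I → Fin (S.dm i),
    if ∀ l : {l // l ∉ s}, g l = idx l then Y i p (zOf x) g * ∏ l ∈ s, x (.inl (.inr l)) (g l)
    else 0

/-- The legs left when one more block is released. -/
def eEr {s : Finset I} {b : I} (hb : b ∈ s) : {l // l ∉ s.erase b} ≃ Option {l // l ∉ s} where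
  toFun l := if h : l.1 = b then none else some ⟨l.1, fun hs => l.2 (Finset.mem_erase.2 ⟨h, hs⟩)⟩
  invFun o := o.elim ⟨b, fun h => (Finset.mem_erase.1 h).1 rfl⟩ fun l =>
    ⟨l.1, fun h => l.2 (Finset.mem_erase.1 h).2⟩
  left_inv l := by
    by_cases h : l.1 = b
    · simp only [h, dite_true, Option.elim_none]
      exact Subtype.ext h.symm
    · simp [h]
  right_inv o := by
    rcases o with _ | l
    · simp
    · have : l.1 ≠ b := fun h => l.2 (h ▸ hb)
      simp [this]

/-- The one leg left. -/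
def eOut (o : I) : {l // l ∉ Finset.univ.erase o} ≃ Unit where
  toFun _ := ()
  invFun _ := ⟨o, by simp⟩
  left_inv l := Subtype.ext (by
    have := l.2
    simp only [Finset.mem_erase, Finset.mem_univ, and_true, not_not] at this
    exact this.symm)
  right_inv _ := rfl

/-- All legs. -/
def eAll (I : Type) [Fintype I] [DecidableEq I] : I ≃ {l // l ∉ (∅ : Finset I)} :=
  (Equiv.subtypeUnivEquiv fun l => Finset.notMem_empty l).symm

omit [Fintype Z] [DecidableEq Z] [Fintype C] [DecidableEq C] in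
theorem pct_empty (Y : Fld S (Z ⊕ C) I) : pctS Y ∅ = reL (eAll I) (liftZ I Y) := by
  funext i p x idx
  simp only [pctS, Finset.prod_empty, mul_one, reL, reT, liftZ]
  rw [Finset.sum_eq_single (idx ∘ eAll I)]
  · rw [if_pos fun l => ?_]
    exact congrArg idx (Subtype.ext rfl)
  · intro g _ hg
    rw [if_neg fun h => hg ?_]
    funext l
    exact h (eAll I l)
  · exact fun h => absurd (Finset.mem_univ _) h

omit [Fintype Z] [DecidableEq Z] [Fintype C] [DecidableEq C] in
theorem pct_rec (Y : Fld S (Z ⊕ C) I) {s : Finset I} {b : I} (hb : b ∈ s) (i : S.ι)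
    (p : Space (S.dm i)) (x : (Z ⊕ I) ⊕ C → Space (S.dm i)) (idx : {l // l ∉ s} → Fin (S.dm i)) :
    pctS Y s i p x idx = ∑ c, x (.inl (.inr b)) c
      * reL (eEr hb) (pctS Y (s.erase b)) i p x fun o => o.elim c idx := by
  simp only [pctS, reL, reT, Finset.mul_sum]
  rw [Finset.sum_comm]
  refine Finset.sum_congr rfl fun g _ => ?_
  have hiff : ∀ c, (∀ l : {l // l ∉ s.erase b}, g l = ((fun o => o.elim c idx) ∘ eEr hb) l)
      ↔ (∀ l : {l // l ∉ s}, g l = idx l) ∧ c = g b := fun c => by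
    constructor
    · refine fun h => ⟨fun l => ?_, ?_⟩
      · have h1 := h ((eEr hb).symm (some l))
        simp only [Function.comp_apply, Equiv.apply_symm_apply, Option.elim_some] at h1
        exact h1
      · have h1 := h ((eEr hb).symm none)
        simp only [Function.comp_apply, Equiv.apply_symm_apply, Option.elim_none] at h1
        exact h1.symm
    · rintro ⟨h, rfl⟩ l
      obtain ⟨o, rfl⟩ := (eEr hb).symm.surjective l
      simp only [Function.comp_apply, Equiv.apply_symm_apply]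
      rcases o with _ | l
      · rfl
      · exact h l
  simp only [hiff, mul_ite, mul_zero]
  by_cases hP : ∀ l : {l // l ∉ s}, g l = idx l
  · rw [if_pos hP, Finset.sum_eq_single (g b), if_pos ⟨hP, rfl⟩,
      ← Finset.mul_prod_erase s _ hb]
    · ring
    · exact fun c _ hc => if_neg fun h => hc h.2
    · exact fun h => absurd (Finset.mem_univ _) h
  · rw [if_neg hP, Finset.sum_eq_zero fun c _ => if_neg fun h => hP h.1]

omit [Fintype Z] [Fintype C] in
theorem pct_indep (Y : Fld S (Z ⊕ C) I) {s : Finset I} {b : I} (hb : b ∉ s) (i : S.ι)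
    (p : Space (S.dm i)) (x : (Z ⊕ I) ⊕ C → Space (S.dm i)) (v : Space (S.dm i))
    (idx : {l // l ∉ s} → Fin (S.dm i)) :
    pctS Y s i p (x + Pi.single (Sum.inl (Sum.inr b)) v) idx = pctS Y s i p x idx := by
  have h1 : zOf (x + Pi.single (Sum.inl (Sum.inr b)) v) = zOf x := by
    funext j
    rcases j with z | c <;> simp [zOf]
  simp only [pctS, h1]
  refine Finset.sum_congr rfl fun g _ => ?_
  congr 2
  refine Finset.prod_congr rfl fun l hl => ?_
  have : (Sum.inl (Sum.inr l) : (Z ⊕ I) ⊕ C) ≠ Sum.inl (Sum.inr b) := by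
    simp [ne_of_mem_of_not_mem hl hb]
  simp [this]

theorem Sm.liftZ {T : Fld S (Z ⊕ C) J} (hT : Sm T) : Sm (liftZ I T) :=
  sm_iff.2 fun i p idx => by
    let π : ((Z ⊕ I) ⊕ C → Space (S.dm i)) →L[ℝ] (Z ⊕ C → Space (S.dm i)) :=
      ContinuousLinearMap.pi fun b => ContinuousLinearMap.proj (Sum.map Sum.inl id b)
    have e : (fun x => Zero.liftZ I T i p x idx) = fun x => T i p (π x) idx := funext fun x => by
      refine congrArg (fun u => T i p u idx) (funext fun b => ?_)
      cases b <;> rfl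
    rw [e]
    exact (hT.pg i p idx).comp_clm π

theorem Sm.pctS {Y : Fld S (Z ⊕ C) I} (hY : Sm Y) (s : Finset I) : Sm (pctS Y s) :=
  sm_iff.2 fun i p idx => PG.sum _ fun g _ => by
    by_cases h : ∀ l : {l // l ∉ s}, g l = idx l
    · simp only [if_pos h]
      exact ((hY.liftZ (I := I)).pg i p g).mul (PG.prod s fun l _ => pg_coord _ _)
    · simp only [if_neg h]
      exact pg_const 0

theorem sm_idT : Sm (idT S B) := sm_iff.2 fun _ _ _ => pg_const _

theorem Sm.idxSmul {T : Fld S B J} (hT : Sm T) (q : ℕ → ℝ) : Sm (smulF (fun i => q (S.dm i)) T) :=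
  hT.smul _

/-- The derivative in a fresh block releases its leg. -/
theorem dB_pct {Y : Fld S (Z ⊕ C) I} (hY : Sm Y) {s : Finset I} {b : I} (hb : b ∈ s) :
    dB (Sum.inl (Sum.inr b)) (pctS Y s) = reL (eEr hb) (pctS Y (s.erase b)) := by
  funext i p x idx
  set Γ := reL (eEr hb) (pctS Y (s.erase b))
  have hΓ : Sm Γ := ((hY.pctS (s.erase b)).reL _)
  have hd0 : ∀ j, fderiv ℝ (fun x => Γ i p x j) x
      (Pi.single (M := fun _ : (Z ⊕ I) ⊕ C => Space (S.dm i)) (Sum.inl (Sum.inr b)) (ev (idx none)))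
      = 0 := fun j => by
    rw [← ((hΓ.pg i p j).diff x).lineDeriv_eq_fderiv, lineDeriv]
    have : ∀ t : ℝ, Γ i p (x + t • Pi.single (M := fun _ : (Z ⊕ I) ⊕ C => Space (S.dm i))
        (Sum.inl (Sum.inr b)) (ev (idx none))) j = Γ i p x j :=
      fun t => by
        rw [← Pi.single_smul]
        exact pct_indep Y (Finset.notMem_erase b s) i p x _ _
    simp only [this, deriv_const']
  show fderiv ℝ (fun y => pctS Y s i p y fun l => idx (some l)) x _ = _
  rw [funext fun y => pct_rec Y hb i p y fun l => idx (some l)]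
  have h := HasFDerivAt.fun_sum (u := (Finset.univ : Finset (Fin (S.dm i)))) fun c _ =>
    (((pg_coord (Sum.inl (Sum.inr b) : (Z ⊕ I) ⊕ C) c).diff x).hasFDerivAt).mul
      ((hΓ.pg i p fun o => o.elim c fun l => idx (some l)).diff x).hasFDerivAt
  rw [show fderiv ℝ (fun y : (Z ⊕ I) ⊕ C → Space (S.dm i) => ∑ c, y (Sum.inl (Sum.inr b)) c *
      Γ i p y fun o => o.elim c fun l => idx (some l)) x = _ from h.fderiv,
    sum_apply]
  have hc : ∀ c, fderiv ℝ (fun y : (Z ⊕ I) ⊕ C → Space (S.dm i) => y (Sum.inl (Sum.inr b)) c) x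
      (Pi.single (Sum.inl (Sum.inr b)) (ev (idx none))) = if c = idx none then 1 else 0 := fun c => by
    rw [show (fun y : (Z ⊕ I) ⊕ C → Space (S.dm i) => y (Sum.inl (Sum.inr b)) c)
      = ⇑((EuclideanSpace.proj (𝕜 := ℝ) c).comp (ContinuousLinearMap.proj
        (φ := fun _ : (Z ⊕ I) ⊕ C => Space (S.dm i)) (Sum.inl (Sum.inr b)))) from rfl,
      ContinuousLinearMap.fderiv]
    simp [ev]
  simp only [add_apply, smul_apply, smul_eq_mul, hd0, hc, mul_zero, zero_add, mul_ite, mul_one,
    Finset.sum_ite_eq', Finset.mem_univ, if_true]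
  refine congrArg (Γ i p x) (funext fun o => ?_)
  cases o <;> rfl

omit [Fintype Z] [DecidableEq Z] [Fintype C] [DecidableEq C] in
theorem apT_pct (o : I) (Y : Fld S (Z ⊕ C) I) (i : S.ι) (p : Space (S.dm i))
    (x : (Z ⊕ I) ⊕ C → Space (S.dm i)) :
    tenV (apT o (Y i p (zOf x)) fun l => x (.inl (.inr l)))
      = reL (eOut o) (pctS Y (Finset.univ.erase o)) i p x := by
  funext idx
  have hc : ∀ g : I → Fin (S.dm i),
      (∀ l : {l // l ∉ Finset.univ.erase o}, g l = (idx ∘ eOut o) l) ↔ g o = idx () := fun g => by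
    refine ⟨fun h => h ⟨o, by simp⟩, fun h l => ?_⟩
    have hl : l.1 = o := by simpa using l.2
    rw [hl, h]
    rfl
  simp only [reL, reT, pctS, hc, tenV, apT]
  simp [ev, Pi.single_apply, Finset.sum_apply, eq_comm]

/-! ### Linearity of the pairing -/

theorem integrable_pairF [Nonempty J] (hC : ∀ j, 0 ≤ Cst j) {T : Fld S (Z ⊕ C) J}
    {Q : Fld S (Z ⊕ C) Unit} (hT : Sm T) (hQ : Sm Q) {i : S.ι} {p : Space (S.dm i)}
    {y : C → Space (S.dm i)} {V : Space (S.dm i) → ℝ} (hV : TestV Cst V) :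
    Integrable (fun z => pairT (T i p (Sum.elim z y)) (dI J V (vecF Q i p y z))) (gp Z (S.dm i)) :=
  integrable_pairT hC hT hV (MeasurePreserving.id _) (continuous_vecF hQ i p y).aestronglyMeasurable

theorem pairF_add [Nonempty J] (hC : ∀ j, 0 ≤ Cst j) {T T' : Fld S (Z ⊕ C) J}
    {Q : Fld S (Z ⊕ C) Unit} (hT : Sm T) (hT' : Sm T') (hQ : Sm Q) {i : S.ι} {p : Space (S.dm i)}
    {y : C → Space (S.dm i)} {V : Space (S.dm i) → ℝ} (hV : TestV Cst V) :
    pairF (addT T T') Q i p y V = pairF T Q i p y V + pairF T' Q i p y V := by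
  simp only [pairF, addT, pairT_add]
  exact integral_add (integrable_pairF hC hT hQ hV) (integrable_pairF hC hT' hQ hV)

omit [DecidableEq Z] [Fintype C] [DecidableEq C] in
theorem pairF_smul (q : S.ι → ℝ) (T : Fld S (Z ⊕ C) J) (Q : Fld S (Z ⊕ C) Unit) (i : S.ι)
    (p : Space (S.dm i)) (y : C → Space (S.dm i)) (V : Space (S.dm i) → ℝ) :
    pairF (smulF q T) Q i p y V = q i * pairF T Q i p y V := by
  simp only [pairF, smulF, pairT_smul]
  exact integral_const_mul _ _

omit [DecidableEq Z] [Fintype C] [DecidableEq C] in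
theorem pairF_reL (e : I ≃ J) (T : Fld S (Z ⊕ C) I) (Q : Fld S (Z ⊕ C) Unit) {i : S.ι}
    (p : Space (S.dm i)) (y : C → Space (S.dm i)) {V : Space (S.dm i) → ℝ} (hV : PG V) :
    pairF (reL e T) Q i p y V = pairF T Q i p y V := by
  simp only [pairF, reL, ← dI_reT hV e, pairT_reT]

omit [DecidableEq Z] [Fintype C] [DecidableEq C] in
theorem pairF_idT (Q : Fld S (Z ⊕ C) Unit) {i : S.ι} (p : Space (S.dm i))
    (y : C → Space (S.dm i)) {V : Space (S.dm i) → ℝ} (hV : PG V) :
    pairF (idT S (Z ⊕ C)) Q i p y V = ∫ z, lapV V (vecF Q i p y z) ∂gp Z (S.dm i) := by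
  refine integral_congr_ae (ae_of_all _ fun z => ?_)
  unfold pairT lapV
  beta_reduce
  rw [sum_option (I := Unit)]
  refine Finset.sum_congr rfl fun c _ => ?_
  rw [sum_unit, Finset.sum_eq_single c]
  · rw [← dI_const_two V _ hV c]
    simp only [idT, Option.elim_none, Option.elim_some, if_true, one_mul]
    exact congrArg (dI (Option Unit) V (vecF Q i p y z)) (funext fun o : Option Unit => by cases o <;> rfl)
  · intro j _ hj
    simp [idT, Ne.symm hj]
  · simp

omit [Fintype B] [DecidableEq B] in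
theorem dotQ_idT {J : Type} (Γ : Fld S B (Option J)) : dotQ Γ (idT S B) = Γ := by
  funext i p x idx
  rw [dotQ, Finset.sum_eq_single (idx none)]
  · simp only [idT, Option.elim_none, Option.elim_some, if_true, mul_one]
    exact congrArg (Γ i p x) (funext fun o : Option J => by cases o <;> rfl)
  · intro j _ hj
    simp [idT, hj]
  · simp

omit [Fintype B] [DecidableEq B] in
theorem idT_dotQ (H : Fld S B (Option Unit)) :
    dotQ (idT S B) H = reL (Equiv.swap none (some ())) H := by
  funext i p x idx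
  rw [dotQ, Finset.sum_eq_single (idx (some ()))]
  · simp only [idT, Option.elim_none, Option.elim_some, if_true, one_mul, reL, reT]
    exact congrArg (H i p x) (funext fun o : Option Unit => by cases o <;> rfl)
  · intro j _ hj
    simp [idT, hj]
  · simp

omit [Fintype B] [DecidableEq B] in
theorem dotQ_add {J : Type} (Γ : Fld S B (Option J)) (H H' : Fld S B (Option Unit)) :
    dotQ Γ (addT H H') = addT (dotQ Γ H) (dotQ Γ H') := by
  funext i p x idx
  simp [dotQ, addT, mul_add, Finset.sum_add_distrib]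

omit [Fintype B] [DecidableEq B] in
theorem dotQ_smul {J : Type} (q : S.ι → ℝ) (Γ : Fld S B (Option J)) (H : Fld S B (Option Unit)) :
    dotQ Γ (smulF q H) = smulF q (dotQ Γ H) := by
  funext i p x idx
  simp [dotQ, smulF, Finset.mul_sum, mul_left_comm]

omit [Fintype B] [DecidableEq B] in
theorem smul_dotQ {J : Type} (q : S.ι → ℝ) (Γ : Fld S B (Option J)) (H : Fld S B (Option Unit)) :
    dotQ (smulF q Γ) H = smulF q (dotQ Γ H) := by
  funext i p x idx
  simp [dotQ, smulF, Finset.mul_sum, mul_assoc]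

/-! ### The part -/

variable {o : I} {a b : ℕ → ℝ} {Y : Fld S (Z ⊕ C) I}

/-- The field of the part read at the free leg. -/
def pctV (o : I) (Y : Fld S (Z ⊕ C) I) : Fld S ((Z ⊕ I) ⊕ C) Unit :=
  reL (eOut o) (pctS Y (Finset.univ.erase o))

/-- The fresh block of one leg, as a vector. -/
def blkP (S : Sys) (Z C : Type) {I : Type} (a : ℕ → ℝ) (l : I) : Fld S ((Z ⊕ I) ⊕ C) Unit :=
  fun i _ x => tenV (a (S.dm i) • x (.inl (.inr l)))

/-- The sum of the fresh blocks. -/
def linP (S : Sys) (Z C : Type) {I : Type} [DecidableEq I] [Fintype I] (o : I) (a : ℕ → ℝ) :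
    Fld S ((Z ⊕ I) ⊕ C) Unit :=
  fun i _ x => tenV (a (S.dm i) • ∑ l ∈ Finset.univ.erase o, x (.inl (.inr l)))

omit [Fintype Z] [DecidableEq Z] [Fintype C] [DecidableEq C] in
theorem partP_eq (o : I) (a b : ℕ → ℝ) (Y : Fld S (Z ⊕ C) I) :
    partP o a b Y = addT (linP S Z C o a) (smulF (fun i => b (S.dm i)) (pctV o Y)) := by
  funext i p x
  simp only [partP, addT, linP, smulF, pctV, ← apT_pct]
  rfl

theorem sm_blkP (a : ℕ → ℝ) (l : I) : Sm (blkP S Z C a l) :=
  sm_iff.2 fun i _ idx => (pg_coord _ (idx ())).const_mul (a (S.dm i))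

theorem sm_linP (o : I) (a : ℕ → ℝ) : Sm (linP S Z C o a) := by
  refine sm_iff.2 fun i p idx => ?_
  have e : (fun x => linP S Z C o a i p x idx) = fun x : (Z ⊕ I) ⊕ C → Space (S.dm i) =>
      a (S.dm i) * ∑ l ∈ Finset.univ.erase o, x (.inl (.inr l)) (idx ()) := by
    funext x
    simp [linP, tenV, Finset.sum_apply]
  rw [e]
  exact (PG.sum _ fun l _ => pg_coord _ _).const_mul _

theorem Sm.partP (hY : Sm Y) (o : I) (a b : ℕ → ℝ) : Sm (partP o a b Y) := by
  rw [partP_eq]
  exact (sm_linP o a).add (((hY.pctS _).reL _).smul _)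

omit [Fintype Z] [Fintype C] in
theorem dB_linP (o : I) (a : ℕ → ℝ) {l : I} (hl : l ≠ o) :
    dB (Sum.inl (Sum.inr l)) (linP S Z C o a)
      = smulF (fun i => a (S.dm i)) (idT S ((Z ⊕ I) ⊕ C)) := by
  funext i p x idx
  let Λ : ((Z ⊕ I) ⊕ C → Space (S.dm i)) →L[ℝ] ℝ := a (S.dm i) • ∑ l ∈ Finset.univ.erase o,
    (EuclideanSpace.proj (𝕜 := ℝ) (idx (some ()))).comp
      (ContinuousLinearMap.proj (φ := fun _ : (Z ⊕ I) ⊕ C => Space (S.dm i)) (Sum.inl (Sum.inr l)))
  have e : (fun y => linP S Z C o a i p y fun j => idx (some j)) = Λ := funext fun y => by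
    simp [linP, tenV, Λ, Finset.sum_apply]
  show fderiv ℝ (fun y => linP S Z C o a i p y fun j => idx (some j)) x _ = _
  rw [e, Λ.fderiv]
  simp only [Λ, smul_apply, sum_apply, ContinuousLinearMap.comp_apply, smul_eq_mul, smulF, idT,
    Pi.smul_apply, ContinuousLinearMap.proj_apply, PiLp.proj_apply]
  congr 1
  rw [Finset.sum_eq_single l]
  · simp [ev, eq_comm]
  · intro l' _ hne
    simp [hne]
  · simp [hl]

theorem dB_partP (hY : Sm Y) (o : I) (a b : ℕ → ℝ) {l : I} (hl : l ≠ o) :
    dB (Sum.inl (Sum.inr l)) (partP o a b Y)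
      = addT (smulF (fun i => a (S.dm i)) (idT S ((Z ⊕ I) ⊕ C)))
        (smulF (fun i => b (S.dm i)) (dB (Sum.inl (Sum.inr l)) (pctV o Y))) := by
  have hp : Sm (pctV o Y) := (hY.pctS _).reL _
  rw [partP_eq]
  funext i p x idx
  have e := congrFun (congrFun (congrFun (congrFun (dB_linP (S := S) (Z := Z) (C := C) o a hl) i) p) x) idx
  simp only [dB] at e
  simp only [dB, addT, Pi.add_apply, smulF, Pi.smul_apply, smul_eq_mul] at e ⊢
  rw [fderiv_fun_add (((sm_linP o a).pg i p _).diff x) (((hp.pg i p _).diff x).const_mul _),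
    fderiv_const_mul ((hp.pg i p _).diff x), add_apply, smul_apply, smul_eq_mul, e]

/-- One contraction: the part of leading order and what it leaves. -/
theorem pct_chain (hC : ∀ j, 0 ≤ Cst j) (hY : Sm Y) (o : I) (a b : ℕ → ℝ) {s : Finset I} {l : I}
    (hl : l ∈ s) (hlo : l ≠ o) {i : S.ι} {p : Space (S.dm i)} {y : C → Space (S.dm i)}
    {V : Space (S.dm i) → ℝ} (hV : TestV Cst V) :
    pairF (pctS Y s) (partP o a b Y) i p y V
      = a (S.dm i) * pairF (pctS Y (s.erase l)) (partP o a b Y) i p y V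
        + pairF (dotQ (reL (eEr hl) (pctS Y (s.erase l)))
            (smulF (fun i => b (S.dm i)) (dB (Sum.inl (Sum.inr l)) (pctV o Y))))
          (partP o a b Y) i p y V := by
  have hΓ : Sm (reL (eEr hl) (pctS Y (s.erase l))) := (hY.pctS _).reL _
  have hP := hY.partP o a b
  have hp : Sm (pctV o Y) := (hY.pctS _).reL _
  rw [ibp_dot (Γ := reL (eEr hl) (pctS Y (s.erase l))) hΓ hP (Sum.inr l)
    (fun i p x idx => pct_rec Y hl i p x idx)
    (fun i p x v idx => pct_indep Y (Finset.notMem_erase l s) i p x v _) hV,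
    dB_partP hY o a b hlo, dotQ_add]
  rw [pairF_add hC (hΓ.dotQ (sm_idT.smul _)) (hΓ.dotQ ((hp.dB _).smul _)) hP hV]
  congr 1
  rw [dotQ_smul, dotQ_idT, pairF_smul, pairF_reL _ _ _ p y hV.1]

/-- One fresh block paired with the part. -/
theorem blk_chain (hC : ∀ j, 0 ≤ Cst j) (hY : Sm Y) (o : I) (a b : ℕ → ℝ) {l : I} (hlo : l ≠ o)
    {i : S.ι} {p : Space (S.dm i)} {y : C → Space (S.dm i)} {V : Space (S.dm i) → ℝ}
    (hV : TestV Cst V) :
    pairF (blkP S Z C a l) (partP o a b Y) i p y V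
      = a (S.dm i) ^ 2 * ∫ z, lapV V (vecF (partP o a b Y) i p y z) ∂gp (Z ⊕ I) (S.dm i)
        + a (S.dm i) * b (S.dm i)
          * pairF (pctS Y ((Finset.univ.erase o).erase l)) (partP o a b Y) i p y V := by
  have hP := hY.partP o a b
  have hp : Sm (pctV o Y) := (hY.pctS _).reL _
  rw [ibp_dot (Γ := smulF (fun i => a (S.dm i)) (idT S ((Z ⊕ I) ⊕ C))) (sm_idT.smul _) hP (Sum.inr l)
    (fun i p x idx => ?_) (fun i p x v idx => rfl) hV, dB_partP hY o a b hlo, smul_dotQ, idT_dotQ,
    pairF_smul, pairF_reL _ _ _ p y hV.1, pairF_add hC (sm_idT.smul _) ((hp.dB _).smul _) hP hV, pairF_smul, pairF_smul,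
    pairF_idT _ p y hV.1]
  · have hb : l ∈ Finset.univ.erase o := Finset.mem_erase.2 ⟨hlo, Finset.mem_univ l⟩
    have e : dB (Sum.inl (Sum.inr l)) (pctV o Y)
        = reL (eOut o).optionCongr (reL (eEr hb) (pctS Y ((Finset.univ.erase o).erase l))) := by
      rw [← dB_pct hY hb]
      rfl
    rw [e, pairF_reL _ _ _ p y hV.1, pairF_reL _ _ _ p y hV.1]
    ring
  · simp only [blkP, tenV, smulF, idT, Option.elim_none, Option.elim_some, Pi.smul_apply, smul_eq_mul,
      PiLp.smul_apply]
    rw [Finset.sum_eq_single (idx ())]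
    · simp [mul_comm]
    · intro c _ hc
      simp [hc]
    · simp

theorem pairF_linP (hC : ∀ j, 0 ≤ Cst j) (hY : Sm Y) (o : I) (a b : ℕ → ℝ) {i : S.ι}
    {p : Space (S.dm i)} {y : C → Space (S.dm i)} {V : Space (S.dm i) → ℝ} (hV : TestV Cst V) :
    pairF (linP S Z C o a) (partP o a b Y) i p y V
      = ∑ l ∈ Finset.univ.erase o, pairF (blkP S Z C a l) (partP o a b Y) i p y V := by
  have hP := hY.partP o a b
  simp only [pairF]
  rw [← integral_finsetSum _ fun l _ => integrable_pairF hC (sm_blkP a l) hP hV]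
  refine integral_congr_ae (ae_of_all _ fun z => ?_)
  simp only [pairT]
  rw [Finset.sum_comm]
  refine Finset.sum_congr rfl fun idx _ => ?_
  simp only [linP, blkP, tenV, Finset.smul_sum, WithLp.ofLp_sum, Finset.sum_apply, Finset.sum_mul]

/-- The balance of the part. -/
theorem bal_part (hC : ∀ j, 0 ≤ Cst j) (hY : Sm Y) (o : I) (a b : ℕ → ℝ) {i : S.ι}
    {p : Space (S.dm i)} {y : C → Space (S.dm i)} {V : Space (S.dm i) → ℝ} (hV : TestV Cst V) :
    balF (partP o a b Y) (fun n => ((Fintype.card I : ℝ) - 1) * a n ^ 2) i p y V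
      = a (S.dm i) * b (S.dm i) * ∑ l ∈ Finset.univ.erase o,
            pairF (pctS Y ((Finset.univ.erase o).erase l)) (partP o a b Y) i p y V
        + b (S.dm i) * pairF (pctS Y (Finset.univ.erase o)) (partP o a b Y) i p y V := by
  have hP := hY.partP o a b
  have hp : Sm (pctV o Y) := (hY.pctS _).reL _
  unfold balF
  nth_rw 1 [partP_eq o a b Y]
  rw [pairF_add hC (sm_linP o a) (hp.smul _) hP hV, pairF_smul, pairF_linP hC hY o a b hV,
    show pairF (pctV o Y) (partP o a b Y) i p y V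
      = pairF (pctS Y (Finset.univ.erase o)) (partP o a b Y) i p y V from pairF_reL _ _ _ p y hV.1,
    Finset.sum_congr rfl fun l hl => blk_chain hC hY o a b (Finset.ne_of_mem_erase hl) hV,
    Finset.sum_add_distrib, Finset.sum_const, Finset.card_erase_of_mem (Finset.mem_univ o),
    Finset.card_univ, nsmul_eq_mul, ← Finset.mul_sum,
    Nat.cast_sub (Nat.succ_le_of_lt (Fintype.card_pos_iff.2 ⟨o⟩))]
  push_cast
  ring

omit [DecidableEq I] in
/-- The field on the blocks of the part, at the origin. -/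
theorem pairF_liftZ_zero [Nonempty J] (hC : ∀ j, 0 ≤ Cst j) {T : Fld S (Z ⊕ C) J} (hT : Sm T)
    {i : S.ι} {p : Space (S.dm i)} {y : C → Space (S.dm i)} {V : Space (S.dm i) → ℝ}
    (hV : TestV Cst V) :
    pairF (liftZ I T) (zeroP S (Z ⊕ I) C) i p y V = pairF T (zeroP S Z C) i p y V := by
  have e : ∀ z, vecF (zeroP S Z C) i p y z = 0 := fun z => by simp [vecF, zeroP, vecT_zero]
  have e' : ∀ z, vecF (zeroP S (Z ⊕ I) C) i p y z = 0 := fun z => by simp [vecF, zeroP, vecT_zero]
  have hi : Integrable (fun q : (Z → Space (S.dm i)) × (I → Space (S.dm i)) =>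
      pairT (T i p (Sum.elim q.1 y)) (dI J V 0)) ((gp Z (S.dm i)).prod (gp I (S.dm i))) :=
    integrable_pairT hC hT hV measurePreserving_fst aestronglyMeasurable_const
  simp only [pairF, e, e']
  refine Eq.trans ?_ ((integral_sum_blocks
    (f := fun a (_ : I → Space (S.dm i)) => pairT (T i p (Sum.elim a y)) (dI J V 0)) hi).trans ?_)
  · exact integral_congr_ae (ae_of_all _ fun x => rfl)
  · simp

end Vale.Agent.P347.Zero
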