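import Vale.Agent.P347.Zero.AvgPins

/-!
Averaging reduces to fields with one leg: the inputs at the other legs become blocks.
-/

noncomputable section

open MeasureTheory ProbabilityTheory Function
open scoped RealInnerProductSpace NNReal

namespace Vale.Agent.P347.Zero

variable {S : Sys} {B C I : Type} [Fintype B] [DecidableEq B] [Fintype C] [DecidableEq C]
  [Fintype I] [DecidableEq I] {o : I}

/-- The legs that become blocks. -/
abbrev RestL (o : I) : Type := {l : I // l ≠ o}

/-- The inputs taken from the blocks, zero at the root. -/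
def restA {d : ℕ} (o : I) (x : RestL o → Space d) : I → Space d :=
  fun l => if h : l = o then 0 else x ⟨l, h⟩

/-- Where the blocks and fresh blocks of a field go. -/
def redS (o : I) :
    (B ⊕ {l // l ∈ Finset.univ.erase o}) ⊕ C → B ⊕ (C ⊕ RestL o) :=
  Sum.elim (Sum.elim Sum.inl fun l => .inr (.inr ⟨l.1, Finset.ne_of_mem_erase l.2⟩))
    fun c => .inr (.inl c)

/-- The field with one leg. -/
def redF (o : I) (T : Fld S (B ⊕ C) I) : Fld S (B ⊕ (C ⊕ RestL o)) Unit :=
  reL (eOut o) fun i p x => pct0 T (Finset.univ.erase o) i p fun b => x (redS o b)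

theorem sm_redF {T : Fld S (B ⊕ C) I} (hT : Sm T) (o : I) : Sm (redF o T) :=
  ((sm_pct0 hT _).sel (redS o)).reL _

theorem apT_congr {d : ℕ} (o : I) (T : Ten d I) {A A' : I → Space d}
    (h : ∀ l, l ≠ o → A l = A' l) : apT o T A = apT o T A' := by
  simp only [apT]
  refine Finset.sum_congr rfl fun idx _ => ?_
  congr 2
  exact Finset.prod_congr rfl fun l hl => by rw [h l (Finset.ne_of_mem_erase hl)]

theorem redF_eq (o : I) (T : Fld S (B ⊕ C) I) (i : S.ι) (p : Space (S.dm i))
    (x : B ⊕ (C ⊕ RestL o) → Space (S.dm i)) :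
    redF o T i p x = tenV (apT o (T i p (Sum.elim (fun b => x (.inl b)) fun c => x (.inr (.inl c))))
      (restA o fun l => x (.inr (.inr l)))) := by
  set z := extM (S.dm i) B C (Finset.univ.erase o) fun b => x (redS o b) with hz
  have e1 : zOf z = Sum.elim (fun b => x (.inl b)) fun c => x (.inr (.inl c)) := funext fun b => by
    rcases b with b | c <;> simp [hz, zOf, extM, redS]
  have e2 : ∀ l, l ≠ o → z (.inl (.inr l)) = restA o (fun l => x (.inr (.inr l))) l := fun l hl => by
    simp [hz, extM, redS, restA, hl]
  refine (apT_pct o T i p z).symm.trans (congrArg tenV ?_)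
  rw [e1]
  exact apT_congr o _ e2

theorem vecT_redF (o : I) (T : Fld S (B ⊕ C) I) (i : S.ι) (p : Space (S.dm i))
    (b : B → Space (S.dm i)) (y : C ⊕ RestL o → Space (S.dm i)) :
    vecT (redF o T i p (Sum.elim b y))
      = apT o (T i p (Sum.elim b fun c => y (.inl c))) (restA o fun l => y (.inr l)) := by
  rw [redF_eq, vecT_tenV]
  rfl

theorem apT_unit_vecT {d : ℕ} (T : Ten d Unit) (A : Unit → Space d) : apT () T A = vecT T := by
  rw [apT, sum_unit]
  refine (Finset.sum_congr rfl fun c _ => ?_).trans (TestAux.sum_coord (vecT T)).symm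
  simp [vecT_apply]

theorem apT_coord {d : ℕ} (o : I) (T : Ten d I) (A : I → Space d) (c : Fin d) :
    apT o T A c = ∑ idx : I → Fin d,
      if idx o = c then T idx * ∏ l ∈ Finset.univ.erase o, A l (idx l) else 0 := by
  simp [apT, ev, Pi.single_apply, Finset.sum_apply, eq_comm]

/-- The average commutes with the reduction. -/
theorem vecT_avB_redF {T : Fld S (B ⊕ C) I} (hT : Sm T) (o : I) (i : S.ι) (p : Space (S.dm i))
    (y : C ⊕ RestL o → Space (S.dm i)) :
    vecT (avB (redF o T) i p y)
      = apT o (avB T i p fun c => y (.inl c)) (restA o fun l => y (.inr l)) := by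
  ext c
  rw [vecT_apply, apT_coord]
  show ∫ b, vecT (redF o T i p (Sum.elim b y)) c ∂gp B (S.dm i) = _
  simp only [vecT_redF, apT_coord]
  have hi : ∀ idx : I → Fin (S.dm i), Integrable (fun b : B → Space (S.dm i) =>
      if idx o = c then T i p (Sum.elim b fun c => y (.inl c)) idx *
        ∏ l ∈ Finset.univ.erase o, restA o (fun l => y (.inr l)) l (idx l) else 0) (gp B (S.dm i)) :=
    fun idx => by
      split_ifs
      · exact (pg_slice_int (hT.pg i p idx) _).mul_const _
      · exact integrable_const _
  rw [integral_finsetSum _ fun idx _ => hi idx]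
  refine Finset.sum_congr rfl fun idx _ => ?_
  split_ifs with h
  · rw [integral_mul_const]
    rfl
  · simp

/-- The blocks and inputs of the reduction among those of the field. -/
def redPerm (C : Type) (o : I) : C ⊕ I ≃ (C ⊕ RestL o) ⊕ Unit where
  toFun := Sum.elim (fun c => .inl (.inl c))
    fun l => if h : l = o then .inr () else .inl (.inr ⟨l, h⟩)
  invFun := Sum.elim (Sum.elim .inl fun l => .inr l.1) fun _ => .inr o
  left_inv z := by
    rcases z with c | l
    · rfl
    · by_cases h : l = o
      · simp [h]
      · simp [h]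
  right_inv z := by
    rcases z with (c | ⟨l, hl⟩) | u
    · rfl
    · simp [hl]
    · simp

theorem redPerm_symm_apply {d : ℕ} (o : I) (x : C → Space d) (A : I → Space d) :
    permIO (redPerm C o).symm (x, A)
      = ((Sum.elim x fun l : RestL o => A l.1 : C ⊕ RestL o → Space d), fun _ => A o) := by
  refine (permIO_apply _ _).trans (Prod.ext (funext fun r => ?_) rfl)
  rcases r with c | l <;> rfl

theorem redPerm_apply {d : ℕ} (o : I) (y : C ⊕ RestL o → Space d) (u : Unit → Space d) :
    (permIO (redPerm C o) (y, u)).1 = (fun c => y (.inl c)) ∧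
      ∀ l, l ≠ o → (permIO (redPerm C o) (y, u)).2 l = restA o (fun l => y (.inr l)) l := by
  rw [permIO_apply]
  exact ⟨rfl, fun l hl => by simp [redPerm, restA, hl]⟩

/-- The reduction keeps the mixtures. -/
theorem samMix_redF {κ φ θ : ℝ} {T : Fld S (B ⊕ C) I} (h : SamMix κ φ θ o T) :
    SamMix κ φ θ () (redF o T) := fun a ha ε hε => by
  obtain ⟨R, hq, hl, hin, hlaw⟩ := h a ha ε hε
  refine ⟨Run.of fun k => (R.atK k).comap (permIO (redPerm C o)), hq,
    fun i => Prog.comap_lipW (hl.lipW i) _,
    Run.lipIn_of fun η hη => ((hin.lip hη).and S.ev_one_le).mono fun i ⟨h1, hd⟩ => ?_,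
    fun η hη => (hlaw η hη).mono fun i hi p => ?_⟩
  · refine (Prog.comap_lip (Real.rpow_nonneg (by linarith) _) h1 _ le_rfl fun z => ?_).mono
      (mul_one _).le
    rw [permIO_norm, one_mul]
  · obtain ⟨e, he, hb, hc⟩ := hi p
    have hmp := permIO_mp (d := S.dm i) (redPerm C o)
    refine ⟨fun z => e (permIO (redPerm C o) z), hmp.integrable_comp_of_integrable he,
      (le_of_eq ?_).trans hb, fun y A ψ L hψ => ?_⟩
    · conv_rhs => rw [← hmp.map_eq]
      rw [integral_map hmp.measurable.aemeasurable]
      rw [hmp.map_eq]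
      exact he.1
    · have h1 := hc (permIO (redPerm C o) (y, A)).1 (permIO (redPerm C o) (y, A)).2 ψ L hψ
      refine le_of_eq_of_le ?_ h1
      congr 2
      refine congrArg (fun F : (B → Space (S.dm i)) → ℝ => ∫ x, F x ∂gp B (S.dm i)) (funext fun b => ?_)
      rw [apT_unit_vecT, vecT_redF, (redPerm_apply o y A).1,
        apT_congr o (T i p _) (redPerm_apply o y A).2]

/-- The legs of the derivative that become blocks. -/
def restS (o : I) : Finset (Option I) := (Finset.univ.erase o).map Embedding.some

theorem notMem_restS (o : I) : some o ∉ restS o := by simp [restS]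

theorem none_notMem_restS (o : I) : (none : Option I) ∉ restS o := by simp [restS]

/-- The two legs left. -/
def eRest (o : I) : {l // l ∉ restS o} ≃ Option Unit where
  toFun l := l.1.map fun _ => ()
  invFun u := u.elim ⟨none, none_notMem_restS o⟩ fun _ => ⟨some o, notMem_restS o⟩
  left_inv l := by
    obtain ⟨l, hl⟩ := l
    rcases l with _ | j
    · rfl
    · have : j = o := by
        by_contra hne
        exact hl (by simp [restS, hne])
      subst this
      rfl
  right_inv u := by rcases u with _ | u <;> rfl

theorem restS_isSome (o : I) (l : {l // l ∈ restS o}) : l.1.isSome := by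
  obtain ⟨l, hl⟩ := l
  rcases l with _ | j
  · exact absurd hl (none_notMem_restS o)
  · rfl

/-- A fresh block of the derivative as a leg of the field. -/
def restJ (o : I) (l : {l // l ∈ restS o}) : RestL o :=
  ⟨l.1.get (restS_isSome o l), fun h => notMem_restS o (by
    have h2 : l.1 = some o := by rw [← Option.some_get (restS_isSome o l), h]
    exact h2 ▸ l.2)⟩

/-- Where the blocks and fresh blocks of a derivative go. -/
def redD (o : I) : (B ⊕ {l // l ∈ restS o}) ⊕ C → B ⊕ (C ⊕ RestL o) :=
  Sum.elim (Sum.elim Sum.inl fun l => .inr (.inr (restJ o l))) fun c => .inr (.inl c)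

theorem restJ_injective (o : I) : Injective (restJ o) := fun l l' h => by
  refine Subtype.ext ?_
  rw [← Option.some_get (restS_isSome o l), ← Option.some_get (restS_isSome o l')]
  exact congrArg some (congrArg Subtype.val h)

theorem redD_injective (o : I) : Injective (redD (B := B) (C := C) o) := by
  rintro ((b | l) | c) ((b' | l') | c') h <;> simp [redD] at h
  · rw [h]
  · rw [restJ_injective o h]
  · rw [h]

/-- The derivative of the reduction is the reduction of the derivative. -/
theorem dB_redF {T : Fld S (B ⊕ C) I} (hT : Sm T) (o : I) (b : B) :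
    dB (.inl b) (redF o T) = reL (eRest o)
      (fun i p x => pct0 (dB (.inl b) T) (restS o) i p fun c => x (redD o c) :
        Fld S (B ⊕ (C ⊕ RestL o)) {l // l ∉ restS o}) := by
  funext i p x idx
  set v := ev (idx none)
  set A := restA o fun l => x (.inr (.inr l)) with hA
  set π : (B ⊕ (C ⊕ RestL o) → Space (S.dm i)) →L[ℝ] (B ⊕ C → Space (S.dm i)) :=
    ContinuousLinearMap.pi fun r =>
      ContinuousLinearMap.proj (Sum.elim Sum.inl (fun c => .inr (.inl c)) r) with hπ
  have hπx : ∀ y, π y = Sum.elim (fun b => y (.inl b)) fun c => y (.inr (.inl c)) := fun y =>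
    funext fun r => by rcases r with b | c <;> rfl
  set D := fun g : I → Fin (S.dm i) => fderiv ℝ (fun z => T i p z g) (π x) (Pi.single (.inl b) v)
  set W := fun g : I → Fin (S.dm i) => ∏ l ∈ Finset.univ.erase o, A l (g l)
  have hl : dB (.inl b) (redF o T) i p x idx
      = ∑ g : I → Fin (S.dm i), if g o = idx (some ()) then D g * W g else 0 := by
    show fderiv ℝ (fun y => redF o T i p y fun j => idx (some j)) x (Pi.single (.inl b) v) = _
    rw [← (((sm_redF hT o).pg i p fun j => idx (some j)).diff x).lineDeriv_eq_fderiv, lineDeriv]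
    set u : B ⊕ (C ⊕ RestL o) → Space (S.dm i) := Pi.single (.inl b) v with hu
    have hAt : ∀ t : ℝ, restA o (fun l => (x + t • u) (.inr (.inr l))) = A := fun t => by
      simp [hA, hu]
    have hπu : π u = Pi.single (.inl b) v := by
      funext r
      rcases r with b' | c <;> simp [hπ, hu, Pi.single_apply]
    have hfun : (fun t : ℝ => redF o T i p (x + t • u) fun j => idx (some j)) = fun t =>
        ∑ g : I → Fin (S.dm i),
          if g o = idx (some ()) then T i p (π x + t • π u) g * W g else 0 := funext fun t => by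
      rw [redF_eq, ← hπx, map_add, map_smul, hAt]
      show apT o _ A (idx (some ())) = _
      rw [apT_coord]
    rw [hfun, hπu]
    refine HasDerivAt.deriv (HasDerivAt.fun_sum fun g _ => ?_)
    by_cases hg : g o = idx (some ())
    · simp only [if_pos hg]
      have h1 := ((hT.pg i p g).diff (π x)).hasFDerivAt.hasLineDerivAt (Pi.single (.inl b) v)
      exact h1.mul_const (W g)
    · simp only [if_neg hg]
      exact hasDerivAt_const _ _
  rw [hl]
  set z := extM (S.dm i) B C (restS o) fun c => x (redD o c) with hz
  have e1 : zOf z = π x := by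
    rw [hπx]
    exact funext fun r => by rcases r with b' | c <;> simp [hz, zOf, extM, redD]
  show _ = pctS (dB (.inl b) T) (restS o) i p z (idx ∘ eRest o)
  have hcond : ∀ (c : Fin (S.dm i)) (g : I → Fin (S.dm i)),
      (∀ l : {l // l ∉ restS o}, (l.1.elim c g) = (idx ∘ eRest o) l) ↔
        c = idx none ∧ g o = idx (some ()) := fun c g => by
    refine ⟨fun h => ⟨h ((eRest o).symm none), h ((eRest o).symm (some ()))⟩, fun h l => ?_⟩
    obtain ⟨u, rfl⟩ := (eRest o).symm.surjective l
    simp only [Function.comp_apply, Equiv.apply_symm_apply]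
    rcases u with _ | u
    · exact h.1
    · exact h.2
  have hprod : ∀ (c : Fin (S.dm i)) (g : I → Fin (S.dm i)),
      ∏ l ∈ restS o, z (.inl (.inr l)) (l.elim c g) = W g := fun c g => by
    rw [restS, Finset.prod_map]
    refine Finset.prod_congr rfl fun l hl => ?_
    have hlo := Finset.ne_of_mem_erase hl
    have hm : some l ∈ restS o := by simp [restS, hlo]
    simp [hz, extM, redD, restJ, hA, restA, hlo, hm]
  simp only [pctS, sum_option, hcond, hprod, e1]
  rw [Finset.sum_eq_single (idx none)]
  · simp only [true_and]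
    rfl
  · intro c _ hc
    exact Finset.sum_eq_zero fun g _ => if_neg fun h => hc h.1
  · exact fun h => absurd (Finset.mem_univ _) h

/-- Averaging follows from the case of one leg. -/
theorem avgThm_of_core (h : AvgCore) : AvgThm := by
  intro S L r φ Φ θ h1 h2 h3 B C I _ _ _ _ _ _ O o T ho hT hM hD
  have hc := h S L r φ Φ θ h1 h2 h3 B (C ⊕ RestL o) (redF o T) (sm_redF hT o) (samMix_redF hM)
    fun b n => ?_
  · refine hc.comap (fun i => permIO (redPerm C o).symm) le_rfl
      (fun i z => by rw [permIO_norm, one_mul]) (fun i => permIO_mp _) fun i p x A => ?_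
    rw [redPerm_symm_apply, apT_unit_vecT, vecT_avB_redF hT]
    exact apT_congr o _ fun l hl => by simp [restA, hl]
  · have hG : GdA L (r + 1) Φ (fun _ : B => L.w) (θ - L.w) {some o} (dB (.inl b) T) := fun n =>
      (hD b n).mono le_rfl le_rfl (Set.singleton_subset_iff.2 ⟨o, ho, rfl⟩) subset_rfl
        fun c hc => by obtain ⟨z, rfl⟩ := hc; exact le_rfl
    have hp := gdD_pct0 (hT.dB _) hG (restS o) (notMem_restS o) n
    have hs := (GdD.sel (D' := Set.range Sum.inl)
      (v := Sum.elim (fun _ : B => L.w) (0 : C ⊕ RestL o → ℝ)) (sm_pct0 (hT.dB _) _) hp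
      (σ := redD o) (redD_injective o) fun c hc => by
        rcases c with (z | l) | y
        · exact ⟨⟨_, rfl⟩, le_rfl⟩
        · obtain ⟨u, hu⟩ := hc; simp [redD] at hu
        · obtain ⟨u, hu⟩ := hc; simp [redD] at hu).reL (eRest o)
    rw [Set.image_singleton] at hs
    rw [dB_redF hT o b]
    exact hs

end Vale.Agent.P347.Zero
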