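import Vale.Agent.P347.Zero.Stein
import Vale.Agent.P347.Zero.SamBd

/-!
Smoothed Lipschitz tests: every derivative of `sm s ψ` and of its Stein solution has
Hilbert-Schmidt norm bounded in terms of `s` and the order alone. Hence a bound on the Stein
operator against such functions bounds the distance of the smoothed laws against Lipschitz tests.
-/

noncomputable section

open MeasureTheory ProbabilityTheory Filter Topology Set
open scoped RealInnerProductSpace NNReal

namespace Vale.Agent.P347.Zero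

variable {d : ℕ}

/-- The tensor of the `j`-th derivative. -/
def dV (j : ℕ) (V : Space d → ℝ) (y : Space d) : Ten d (Fin j) :=
  fun idx => iteratedFDeriv ℝ j V y fun k => ev (idx k)

/-- A test: smooth, each derivative bounded in Hilbert-Schmidt norm. -/
def TestV (C : ℕ → ℝ) (V : Space d → ℝ) : Prop :=
  PG V ∧ ∀ j, 1 ≤ j → ∀ y, hsT (dV j V y) ≤ C j ^ 2

namespace TestAux

/-- The bound of the derivative of order `n + 1`. -/
def bd (s : ℝ) (n : ℕ) : ℝ := (Real.sqrt (n + 1) / s) ^ n

theorem bd_nonneg {s : ℝ} (hs : 0 < s) (n : ℕ) : 0 ≤ bd s n :=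
  pow_nonneg (div_nonneg (Real.sqrt_nonneg _) hs.le) _

theorem sum_coord (v : Space d) : v = ∑ i, v i • ev i := by
  ext j
  simp [ev, Pi.single_apply]

/-- The entry of the `k`-th derivative at a multi-index. -/
def dEnt (f : Space d → ℝ) (k : ℕ) (idx : Fin k → Fin d) (x : Space d) : ℝ := dV k f x idx

theorem dEnt_zero (f : Space d → ℝ) (idx : Fin 0 → Fin d) : dEnt f 0 idx = f :=
  funext fun x => by simp [dEnt, dV]

theorem dEnt_succ {f : Space d → ℝ} (hf : ∀ n : ℕ, ContDiff ℝ n f) (k : ℕ)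
    (idx : Fin (k + 1) → Fin d) (x : Space d) :
    dEnt f (k + 1) idx x = fderiv ℝ (dEnt f k (Fin.tail idx)) x (ev (idx 0)) := by
  unfold dEnt dV
  rw [fderiv_continuousMultilinear_apply_const_apply
    (((hf (k + 1)).differentiable_iteratedFDeriv (by exact_mod_cast Nat.lt_succ_self k)) x),
    iteratedFDeriv_succ_apply_left]
  rfl

theorem contDiff_dEnt {f : Space d → ℝ} (hf : ∀ n : ℕ, ContDiff ℝ n f) (k : ℕ)
    (idx : Fin k → Fin d) (n : ℕ) : ContDiff ℝ n (dEnt f k idx) := by
  have h : ContDiff ℝ (n : ℕ) (iteratedFDeriv ℝ k f) :=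
    (hf (n + k)).iteratedFDeriv_right (by norm_cast)
  exact (ContinuousMultilinearMap.apply ℝ (fun _ : Fin k => Space d) ℝ
    fun l => ev (idx l)).contDiff.comp h

theorem differentiable_dEnt {f : Space d → ℝ} (hf : ∀ n : ℕ, ContDiff ℝ n f) (k : ℕ)
    (idx : Fin k → Fin d) : Differentiable ℝ (dEnt f k idx) :=
  (contDiff_dEnt hf k idx 1).differentiable (by simp)

theorem norm_clm_le (l : Space d →L[ℝ] ℝ) {C : ℝ} (hC : 0 ≤ C) (h : ∀ i, |l (ev i)| ≤ C) :
    ‖l‖ ≤ d * C := by
  refine l.opNorm_le_bound (by positivity) fun v => ?_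
  conv_lhs => rw [sum_coord v]
  simp only [map_sum, map_smul, smul_eq_mul, Real.norm_eq_abs]
  refine (Finset.abs_sum_le_sum_abs _ _).trans ?_
  refine (Finset.sum_le_sum fun i _ => (abs_mul (v i) (l (ev i))).trans_le
    (mul_le_mul (P245.abs_coord_le v i) (h i) (abs_nonneg _) (norm_nonneg v))).trans_eq ?_
  simp
  ring

theorem abs_le_of_sq {ι : Type*} [Fintype ι] {f : ι → ℝ} {C : ℝ} (hC : 0 ≤ C)
    (h : ∑ i, f i ^ 2 ≤ C ^ 2) (i : ι) : |f i| ≤ C :=
  abs_le_of_sq_le_sq ((Finset.single_le_sum (fun j _ => sq_nonneg (f j)) (Finset.mem_univ i)).trans h) hC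

theorem sum_cons {n : ℕ} (g : (Fin (n + 1) → Fin d) → ℝ) :
    ∑ idx, g idx = ∑ i, ∑ J : Fin n → Fin d, g (Fin.cons i J) := by
  rw [← Fintype.sum_prod_type']
  exact ((Fin.consEquiv fun _ => Fin d).sum_comp g).symm

/-- The gradient of a `1`-Lipschitz function. -/
theorem lip_sum_sq {g : Space d → ℝ} (hg : LipschitzWith 1 g) (x : Space d) :
    ∑ i, fderiv ℝ g x (ev i) ^ 2 ≤ 1 := by
  set l := fderiv ℝ g x with hl
  set S := ∑ i, l (ev i) ^ 2 with hS
  have h1 : l (∑ i, l (ev i) • ev i) = S := by simp [hS, sq]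
  have h2 : ‖∑ i, l (ev i) • ev i‖ ^ 2 = S := by
    simp [EuclideanSpace.real_norm_sq_eq, ev, Pi.single_apply, hS]
  have h3 : ‖l‖ ≤ 1 := by simpa using norm_fderiv_le_of_lipschitz ℝ hg (x₀ := x)
  have h4 := (le_abs_self _).trans (l.le_of_opNorm_le h3 (∑ i, l (ev i) • ev i))
  rw [h1, one_mul] at h4
  nlinarith [norm_nonneg (∑ i, l (ev i) • ev i)]

theorem sm_hasDeriv {g : Space d → ℝ} (hg : ContDiff ℝ 1 g) {C : ℝ}
    (hC : ∀ x, ‖fderiv ℝ g x‖ ≤ C) (hgr : Grow g) (s : ℝ) (x v : Space d) :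
    fderiv ℝ (sm s g) x v = sm s (fun z => fderiv ℝ g z v) x := by
  have hc : Continuous (fderiv ℝ g) := hg.continuous_fderiv one_ne_zero
  have hi : Integrable (fun ξ => fderiv ℝ g (x + s • ξ)) (gam d) :=
    Integrable.of_bound (hc.comp (by fun_prop)).aestronglyMeasurable C (ae_of_all _ fun _ => hC _)
  have hgi : Integrable (fun ξ => g (x + s • ξ)) (gam d) :=
    tame_integrable (hg.continuous.measurable.comp (by fun_prop))
      (tame_comp (tame_of_grow hgr) x s)
  have h : HasFDerivAt (sm s g) (∫ ξ, fderiv ℝ g (x + s • ξ) ∂gam d) x := by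
    refine hasFDerivAt_integral_of_dominated_of_fderiv_le (𝕜 := ℝ) (bound := fun _ => C)
      (F := fun y ξ => g (y + s • ξ)) (F' := fun y ξ => fderiv ℝ g (y + s • ξ)) Filter.univ_mem
      (Eventually.of_forall fun y =>
        (hg.continuous.comp (by fun_prop)).aestronglyMeasurable) hgi hi.aestronglyMeasurable
      (ae_of_all _ fun ξ y _ => hC _) (integrable_const _) (ae_of_all _ fun ξ y _ => ?_)
    simpa [Function.comp_def] using ((hg.differentiable one_ne_zero) (y + s • ξ)).hasFDerivAt.comp y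
      ((hasFDerivAt_id y).add_const (s • ξ))
  rw [h.fderiv, ContinuousLinearMap.integral_apply hi]
  rfl

theorem grow_bdd {g : Space d → ℝ} {C : ℝ} (h : ∀ x, |g x| ≤ C) : Grow g :=
  ⟨C, 0, fun x => by simpa using h x⟩

/-- Bessel: one Gaussian smoothing at scale `r` turns a bounded family into a bounded
derivative, with loss `1 / r`. -/
theorem bessel {ι : Type*} [Fintype ι] {g : ι → Space d → ℝ} (hg : ∀ a, Continuous (g a)) {C : ℝ}
    (hC : 0 ≤ C) (hb : ∀ x, ∑ a, g a x ^ 2 ≤ C ^ 2) {r : ℝ} (hr : 0 < r) (x : Space d) :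
    ∑ i, ∑ a, fderiv ℝ (sm r (g a)) x (ev i) ^ 2 ≤ (C / r) ^ 2 := by
  have hga : ∀ a y, |g a y| ≤ C := fun a y => abs_le_of_sq hC (hb y) a
  set T : ι → Fin d → ℝ := fun a i => fderiv ℝ (sm r (g a)) x (ev i) with hT
  set S := ∑ a, ∑ i, T a i ^ 2 with hS
  have eT : ∀ a i, T a i = r⁻¹ * ∫ ξ, g a (x + r • ξ) * ξ i ∂gam d := by
    intro a i
    obtain ⟨D, hD, he⟩ :=
      hasFDerivAt_sm hr.ne' (hg a).measurable (tame_of_grow (grow_bdd (hga a))) x
    simp only [hT, hD.fderiv, he]
    congr 1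
    exact integral_congr_ae (ae_of_all _ fun ξ => by simp [ev, PiLp.inner_apply])
  have hi : ∀ a i, Integrable (fun ξ : Space d => g a (x + r • ξ) * ξ i) (gam d) := fun a i =>
    gam_int ((hg a).comp (by fun_prop) |>.mul (by fun_prop))
      (grow_mul (grow_bdd fun ξ => hga a _) (grow_coord i))
  have hsq : ∀ a, Integrable (fun ξ : Space d => (∑ i, T a i * ξ i) ^ 2) (gam d) := fun a =>
    gam_int (by fun_prop)
      (grow_pow (grow_finsum _ fun i => grow_mul (grow_const (T a i)) (grow_coord i)) 2)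
  have hq : ∀ a, ∫ z : Space d, (∑ i, T a i * z i) ^ 2 ∂gam d = ∑ i, T a i ^ 2 := fun a => by
    have e1 : ∀ z : Space d, ⟪(WithLp.toLp 2 fun i => T a i : Space d), z⟫ = ∑ i, T a i * z i :=
      fun z => by simp [PiLp.inner_apply, mul_comm]
    have := integral_inner_sq (d := d) (WithLp.toLp 2 fun i => T a i)
    simp only [e1, EuclideanSpace.real_norm_sq_eq] at this
    exact this
  have hi2 : ∀ a, Integrable (fun ξ => g a (x + r • ξ) * (∑ i, T a i * ξ i)) (gam d) := by
    intro a
    simp only [Finset.mul_sum]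
    exact integrable_finsetSum _ fun i _ => ((hi a i).const_mul (T a i)).congr
      (ae_of_all _ fun ξ => by ring)
  have h1 : r * S = ∫ ξ, ∑ a, g a (x + r • ξ) * (∑ i, T a i * ξ i) ∂gam d := by
    rw [integral_finsetSum _ fun a _ => hi2 a, hS, Finset.mul_sum]
    refine Finset.sum_congr rfl fun a _ => ?_
    simp only [Finset.mul_sum]
    rw [integral_finsetSum _ fun i _ => ((hi a i).const_mul (T a i)).congr
        (ae_of_all _ fun ξ => by ring)]
    refine Finset.sum_congr rfl fun i _ => ?_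
    calc r * T a i ^ 2 = T a i * (r * T a i) := by ring
      _ = T a i * ∫ ξ, g a (x + r • ξ) * ξ i ∂gam d := by
          congr 1
          rw [eT a i, ← mul_assoc, mul_inv_cancel₀ hr.ne', one_mul]
      _ = _ := by
          rw [← integral_const_mul]
          exact integral_congr_ae (ae_of_all _ fun ξ => by ring)
  have h2 : r * S ≤ (C ^ 2 / r + r * S) / 2 := by
    conv_lhs => rw [h1]
    have hR : Integrable (fun ξ : Space d => C ^ 2 / (2 * r) + r / 2 * ∑ a, (∑ i, T a i * ξ i) ^ 2)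
        (gam d) := (integrable_const _).add ((integrable_finsetSum _ fun a _ => hsq a).const_mul _)
    refine (integral_mono (integrable_finsetSum _ fun a _ => hi2 a) hR fun ξ => ?_).trans_eq ?_
    · calc ∑ a, g a (x + r • ξ) * (∑ i, T a i * ξ i)
          ≤ ∑ a, (g a (x + r • ξ) ^ 2 / (2 * r) + r / 2 * (∑ i, T a i * ξ i) ^ 2) := by
            refine Finset.sum_le_sum fun a _ => ?_
            set p := g a (x + r • ξ)
            set q := ∑ i, T a i * ξ i
            have : p ^ 2 / (2 * r) + r / 2 * q ^ 2 - p * q = (p - r * q) ^ 2 / (2 * r) := by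
              field_simp; ring
            nlinarith [div_nonneg (sq_nonneg (p - r * q)) (by positivity : (0 : ℝ) ≤ 2 * r)]
        _ ≤ _ := by
            rw [Finset.sum_add_distrib, ← Finset.sum_div, ← Finset.mul_sum]
            gcongr
            exact hb _
    · rw [integral_add (integrable_const _) ((integrable_finsetSum _ fun a _ => hsq a).const_mul _),
        integral_const, probReal_univ, one_smul, integral_const_mul,
        integral_finsetSum _ fun a _ => hsq a]
      simp only [hq, ← hS]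
      field_simp
  have h3 : S ≤ (C / r) ^ 2 := by
    have : r * S ≤ C ^ 2 / r := by linarith
    rw [le_div_iff₀ hr] at this
    rw [div_pow, le_div_iff₀ (by positivity)]
    linarith [show r * S * r = S * r ^ 2 by ring]
  exact (Finset.sum_comm).trans_le h3

/-- Two smoothings compose. -/
theorem sm_sm {f : Space d → ℝ} (hf : LipschitzWith 1 f) {a b c : ℝ} (ha : 0 ≤ a) (hb : 0 ≤ b)
    (hc0 : 0 < c) (habc : a ^ 2 + b ^ 2 = c ^ 2) : sm c f = sm a (sm b f) := by
  funext x
  set θ := Real.arccos (a / c) with hθ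
  have hle : a / c ≤ 1 := by rw [div_le_one hc0]; nlinarith
  have hcos : Real.cos θ = a / c := Real.cos_arccos (by linarith [div_nonneg ha hc0.le]) hle
  have hsin : Real.sin θ = b / c := by
    rw [hθ, Real.sin_arccos, div_pow, one_sub_div (pow_ne_zero 2 hc0.ne'),
      show c ^ 2 - a ^ 2 = b ^ 2 by linarith, ← div_pow, Real.sqrt_sq (div_nonneg hb hc0.le)]
  have hfc : Continuous f := hf.continuous
  have hrot := integral_map (μ := (gam d).prod (gam d))
    (φ := ContinuousLinearMap.rotation θ) (by fun_prop)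
    (f := fun p : Space d × Space d => f (x + c • p.1))
    (hfc.comp (by fun_prop)).aestronglyMeasurable
  rw [P245.map_rotation_gam θ] at hrot
  have e : ∀ p : Space d × Space d, x + c • (ContinuousLinearMap.rotation θ p).1
      = x + a • p.1 + b • p.2 := fun p => by
    rw [ContinuousLinearMap.rotation_apply, hcos, hsin, smul_add, smul_smul, smul_smul,
      mul_div_cancel₀ _ hc0.ne', mul_div_cancel₀ _ hc0.ne', ← add_assoc]
  simp only [e] at hrot
  have hi : Integrable (fun p : Space d × Space d => f (x + a • p.1 + b • p.2))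
      ((gam d).prod (gam d)) := by
    refine Integrable.mono' ((integrable_const |f x|).add
      (((SteinAux.gam_norm_int (d := d)).comp_fst (gam d)).const_mul a |>.add
        (((SteinAux.gam_norm_int (d := d)).comp_snd (gam d)).const_mul b)))
      (hfc.comp (by fun_prop)).aestronglyMeasurable (ae_of_all _ fun p => ?_)
    have h1 := hf.dist_le_mul (x + a • p.1 + b • p.2) x
    rw [NNReal.coe_one, one_mul, Real.dist_eq, dist_eq_norm, add_assoc, add_sub_cancel_left] at h1
    have h2 : ‖a • p.1 + b • p.2‖ ≤ a * ‖p.1‖ + b * ‖p.2‖ := (norm_add_le _ _).trans (by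
      rw [norm_smul, norm_smul, Real.norm_eq_abs, Real.norm_eq_abs, abs_of_nonneg ha,
        abs_of_nonneg hb])
    simp only [Pi.add_apply, Real.norm_eq_abs, add_assoc] at h1 ⊢
    linarith [abs_sub_abs_le_abs_sub (f (x + (a • p.1 + b • p.2))) (f x)]
  rw [integral_fun_fst (f := fun z => f (x + c • z)), probReal_univ, one_smul,
    integral_prod _ hi] at hrot
  exact hrot

theorem smooth_sm {ψ : Space d → ℝ} (hψ : LipschitzWith 1 ψ) {s : ℝ} (hs : 0 < s) (n : ℕ) :
    ContDiff ℝ n (sm s ψ) :=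
  contDiff_sm hs.ne' n hψ.continuous.measurable (tame_of_grow (SteinAux.lip_grow hψ))

theorem hs_sm : ∀ (n : ℕ) {ψ : Space d → ℝ}, LipschitzWith 1 ψ → ∀ {s : ℝ}, 0 < s →
    ∀ x, ∑ idx, dEnt (sm s ψ) (n + 1) idx x ^ 2 ≤ bd s n ^ 2 := by
  intro n
  induction n using Nat.strong_induction_on with
  | _ n ih =>
    intro ψ hψ s hs x
    cases n with
    | zero =>
      rw [sum_cons]
      simp only [dEnt_succ (smooth_sm hψ hs), Fin.cons_zero, Fin.tail_cons, dEnt_zero]
      simpa [bd] using lip_sum_sq (SteinAux.sm_lip hψ s) x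
    | succ n =>
      set w := Real.sqrt ((n : ℝ) + 1) with hw
      set u := Real.sqrt ((n : ℝ) + 2) with hu
      have hw0 : 0 < w := Real.sqrt_pos.2 (by positivity)
      have hu0 : 0 < u := Real.sqrt_pos.2 (by positivity)
      set r := s / u with hr
      set s' := r * w with hs'
      have hr0 : 0 < r := div_pos hs hu0
      have hs0 : 0 < s' := mul_pos hr0 hw0
      have e0 : sm s ψ = sm r (sm s' ψ) := by
        refine sm_sm hψ hr0.le hs0.le hs ?_
        rw [hs', mul_pow, hr, div_pow, hw, hu, Real.sq_sqrt (by positivity),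
          Real.sq_sqrt (by positivity)]
        field_simp
        ring
      set G := sm s' ψ with hG
      have hGs : ∀ m : ℕ, ContDiff ℝ m G := smooth_sm hψ hs0
      have hGb : ∀ k ≤ n, ∀ (idx : Fin (k + 1) → Fin d) y, |dEnt G (k + 1) idx y| ≤ bd s' k :=
        fun k hk idx y => abs_le_of_sq (bd_nonneg hs0 k) (ih k (by omega) hψ hs0 y) idx
      have hsm : ∀ m : ℕ, ContDiff ℝ m (sm r G) := e0 ▸ smooth_sm hψ hs
      have comm : ∀ k ≤ n + 1, ∀ idx : Fin k → Fin d,
          dEnt (sm r G) k idx = sm r (dEnt G k idx) := by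
        intro k
        induction k with
        | zero => intro _ idx; rw [dEnt_zero, dEnt_zero]
        | succ k ihk =>
          intro hk idx
          funext y
          rw [dEnt_succ hsm, ihk (by omega), sm_hasDeriv (contDiff_dEnt hGs k _ 1)
            (C := d * bd s' k) (fun z => norm_clm_le _ (bd_nonneg hs0 k) fun i => ?_) ?_ r y]
          · exact congrArg (fun F => sm r F y) (funext fun z => (dEnt_succ hGs k idx z).symm)
          · cases k with
            | zero => rw [dEnt_zero]; exact SteinAux.lip_grow (SteinAux.sm_lip hψ s')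
            | succ k => exact grow_bdd fun z => hGb k (by omega) _ z
          · have h := hGb k (by omega) (Fin.cons i (Fin.tail idx)) z
            rwa [dEnt_succ hGs, Fin.cons_zero, Fin.tail_cons] at h
      rw [sum_cons, e0]
      simp only [dEnt_succ hsm, Fin.cons_zero, Fin.tail_cons, comm (n + 1) le_rfl]
      refine (bessel (fun J => (differentiable_dEnt hGs _ J).continuous) (bd_nonneg hs0 n)
        (fun y => ih n (by omega) hψ hs0 y) hr0 x).trans_eq ?_
      congr 1
      rw [bd, bd, hs', hr, ← hw]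
      have e2 : w / (s / u * w) = u / s := by field_simp
      have e3 : Real.sqrt (((n + 1 : ℕ) : ℝ) + 1) = u := by
        rw [hu]; push_cast; ring_nf
      rw [e2, e3, pow_succ]
      field_simp

/-! ### Derivatives from a family of entries -/

theorem sum_apply (l : Space d →L[ℝ] ℝ) (e : Space d) : l e = ∑ i, e i * l (ev i) := by
  conv_lhs => rw [sum_coord e]
  simp

/-- A family closed under the partial derivatives is smooth. -/
theorem contDiff_tower {V : (k : ℕ) → (Fin (k + 1) → Fin d) → Space d → ℝ}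
    (hV : ∀ k idx, Differentiable ℝ (V k idx))
    (hd : ∀ k idx i x, fderiv ℝ (V k idx) x (ev i) = V (k + 1) (Fin.cons i idx) x) :
    ∀ (n : ℕ) k idx, ContDiff ℝ n (V k idx) := by
  intro n
  induction n with
  | zero => exact fun k idx => contDiff_zero.2 (hV k idx).continuous
  | succ n ih =>
    intro k idx
    rw [Nat.cast_succ, contDiff_succ_iff_fderiv]
    refine ⟨hV k idx, fun h => absurd h (by simp), contDiff_clm_apply_iff.2 fun e => ?_⟩
    simp only [sum_apply _ e, hd]
    exact ContDiff.sum fun i _ => contDiff_const.mul (ih _ _)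

/-- A function whose entries of all orders form such a family. -/
theorem tower {U : Space d → ℝ} {V : (k : ℕ) → (Fin (k + 1) → Fin d) → Space d → ℝ}
    (hU : Differentiable ℝ U) (h0 : ∀ i x, fderiv ℝ U x (ev i) = V 0 (fun _ => i) x)
    (hV : ∀ k idx, Differentiable ℝ (V k idx))
    (hd : ∀ k idx i x, fderiv ℝ (V k idx) x (ev i) = V (k + 1) (Fin.cons i idx) x) :
    (∀ n : ℕ, ContDiff ℝ n U) ∧ ∀ k idx, dEnt U (k + 1) idx = V k idx := by
  have hsm : ∀ n : ℕ, ContDiff ℝ n U := fun n => by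
    cases n with
    | zero => exact contDiff_zero.2 hU.continuous
    | succ n =>
      rw [Nat.cast_succ, contDiff_succ_iff_fderiv]
      refine ⟨hU, fun h => absurd h (by simp), contDiff_clm_apply_iff.2 fun e => ?_⟩
      simp only [sum_apply _ e, h0]
      exact ContDiff.sum fun i _ => contDiff_const.mul (contDiff_tower hV hd n _ _)
  refine ⟨hsm, fun k => ?_⟩
  induction k with
  | zero =>
    intro idx
    funext x
    rw [dEnt_succ hsm, dEnt_zero, h0]
    congr 1
    funext j
    rw [Fin.eq_zero j]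
  | succ k ih =>
    intro idx
    funext x
    rw [dEnt_succ hsm, ih, hd, Fin.cons_self_tail]

theorem mult_norm_le {k : ℕ} (T : ContinuousMultilinearMap ℝ (fun _ : Fin k => Space d) ℝ) {C : ℝ}
    (hC : 0 ≤ C) (h : ∀ idx : Fin k → Fin d, |T fun l => ev (idx l)| ≤ C) :
    ‖T‖ ≤ (d : ℝ) ^ k * C := by
  refine T.opNorm_le_bound (by positivity) fun v => ?_
  rw [show v = fun l => ∑ i, v l i • ev i from funext fun l => sum_coord (v l), T.map_sum]
  refine (norm_sum_le _ _).trans ?_
  rw [show (fun l => ∑ i, v l i • ev i) = v from (funext fun l => sum_coord (v l)).symm]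
  refine (Finset.sum_le_sum (g := fun _ => C * ∏ l, ‖v l‖) fun idx _ => ?_).trans_eq ?_
  · rw [T.map_smul_univ (fun l => v l (idx l)) fun l => ev (idx l), smul_eq_mul,
      Real.norm_eq_abs, abs_mul, Finset.abs_prod, mul_comm]
    exact mul_le_mul (h idx) (Finset.prod_le_prod (fun l _ => abs_nonneg _)
      fun l _ => P245.abs_coord_le _ _) (by positivity) hC
  · simp [mul_assoc]

/-- All derivatives bounded entrywise: polynomial growth of every order. -/
theorem pg_of_entries {U : Space d → ℝ} (hU : ∀ n : ℕ, ContDiff ℝ n U) {C : ℕ → ℝ}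
    (hC : ∀ j, 0 ≤ C j) (h : ∀ j, 1 ≤ j → ∀ y, hsT (dV j U y) ≤ C j ^ 2) : PG U := by
  intro k
  cases k with
  | zero =>
    refine ⟨hU 0, |U 0| + d * C 1, 1, fun x => ?_⟩
    rw [norm_iteratedFDeriv_zero, Real.norm_eq_abs, pow_one]
    have hb : ∀ y, ‖fderiv ℝ U y‖ ≤ d * C 1 := fun y => norm_clm_le _ (hC 1) fun i => by
      have h1 : |dEnt U 1 (fun _ => i) y| ≤ C 1 := abs_le_of_sq (hC 1) (h 1 le_rfl y) _
      rwa [dEnt_succ hU, dEnt_zero] at h1
    have h1 := convex_univ.norm_image_sub_le_of_norm_fderiv_le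
      (fun z _ => (hU 1).differentiable (by simp) z) (fun z _ => hb z) (mem_univ 0) (mem_univ x)
    rw [sub_zero, Real.norm_eq_abs] at h1
    nlinarith [abs_sub_abs_le_abs_sub (U x) (U 0), norm_nonneg x, abs_nonneg (U 0),
      mul_nonneg (Nat.cast_nonneg (α := ℝ) d) (hC 1)]
  | succ k =>
    refine ⟨hU _, (d : ℝ) ^ (k + 1) * C (k + 1), 0, fun x => ?_⟩
    rw [pow_zero, mul_one]
    exact mult_norm_le _ (hC _) fun idx => abs_le_of_sq (hC _) (h (k + 1) (by omega) x) idx

/-- An average of shifted contractions is differentiated inside the integral. -/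
theorem avg_fderiv {Ω : Type*} [MeasurableSpace Ω] {ν : Measure Ω} [IsProbabilityMeasure ν]
    {a c : Ω → ℝ} {b : Ω → Space d} (ham : Measurable a) (hcm : Measurable c) (hbm : AEMeasurable b ν)
    (ha1 : ∀ᵐ p ∂ν, |a p| ≤ 1) (hc1 : ∀ᵐ p ∂ν, |c p| ≤ 1) {g : Space d → ℝ}
    (hg : ContDiff ℝ 1 g) {C K : ℝ} (hC : ∀ z, |g z| ≤ C) (hK : 0 ≤ K)
    (hgi : ∀ z i, |fderiv ℝ g z (ev i)| ≤ K) :
    Differentiable ℝ (fun x => ∫ p, c p * g (a p • x + b p) ∂ν) ∧
      ∀ x i, fderiv ℝ (fun x => ∫ p, c p * g (a p • x + b p) ∂ν) x (ev i)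
        = ∫ p, c p * a p * fderiv ℝ g (a p • x + b p) (ev i) ∂ν := by
  have hb : ∀ z, ‖fderiv ℝ g z‖ ≤ d * K := fun z => norm_clm_le _ hK (hgi z)
  have hm : ∀ x, AEMeasurable (fun p => a p • x + b p) ν := fun x =>
    (ham.aemeasurable.smul_const x).add hbm
  have hbd : ∀ᵐ p ∂ν, ∀ x, ‖(c p * a p) • fderiv ℝ g (a p • x + b p)‖ ≤ d * K := by
    filter_upwards [ha1, hc1] with p ha hc x
    rw [norm_smul, Real.norm_eq_abs, abs_mul]
    exact (mul_le_of_le_one_left (norm_nonneg _)
      (mul_le_one₀ hc (abs_nonneg _) ha)).trans (hb _)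
  have hcd : Continuous (fderiv ℝ g) := hg.continuous_fderiv one_ne_zero
  have him : ∀ x, AEStronglyMeasurable (fun p => c p * g (a p • x + b p)) ν := fun x =>
    (hcm.aemeasurable.mul (hg.continuous.measurable.comp_aemeasurable (hm x))).aestronglyMeasurable
  have hdm : ∀ x, AEStronglyMeasurable (fun p => (c p * a p) • fderiv ℝ g (a p • x + b p)) ν :=
    fun x => ((hcm.mul ham).aestronglyMeasurable).smul
      (hcd.comp_aestronglyMeasurable (hm x).aestronglyMeasurable)
  have hdi : ∀ x, Integrable (fun p => (c p * a p) • fderiv ℝ g (a p • x + b p)) ν := fun x =>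
    Integrable.of_bound (hdm x) (d * K) (hbd.mono fun p h => h x)
  have hD : ∀ x, HasFDerivAt (fun x => ∫ p, c p * g (a p • x + b p) ∂ν)
      (∫ p, (c p * a p) • fderiv ℝ g (a p • x + b p) ∂ν) x := by
    intro x
    refine hasFDerivAt_integral_of_dominated_of_fderiv_le (𝕜 := ℝ) (bound := fun _ => (d : ℝ) * K)
      (F' := fun y p => (c p * a p) • fderiv ℝ g (a p • y + b p)) Filter.univ_mem
      (Eventually.of_forall him) ?_ (hdm x) (hbd.mono fun p h y _ => h y) (integrable_const _)
      (ae_of_all _ fun p y _ => ?_)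
    · refine Integrable.of_bound (him x) C ?_
      filter_upwards [hc1] with p hc
      rw [Real.norm_eq_abs, abs_mul]
      exact (mul_le_of_le_one_left (abs_nonneg _) hc).trans (hC _)
    · refine ((((hg.differentiable one_ne_zero) (a p • y + b p)).hasFDerivAt.comp y
        (((hasFDerivAt_id y).const_smul (a p)).add_const (b p))).const_mul (c p)).congr_fderiv ?_
      ext v
      simp [mul_assoc]
  refine ⟨fun x => (hD x).differentiableAt, fun x i => ?_⟩
  rw [(hD x).fderiv, ContinuousLinearMap.integral_apply (hdi x)]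
  rfl

/-- An average with weights at most one of entries bounded in Hilbert-Schmidt norm. -/
theorem avg_hs {ι Ω : Type*} [Fintype ι] [MeasurableSpace Ω] {ν : Measure Ω}
    [IsProbabilityMeasure ν] {c : Ω → ℝ} (hc1 : ∀ᵐ p ∂ν, |c p| ≤ 1) {g : ι → Ω → ℝ} {C : ℝ}
    (hC : 0 ≤ C) (hgm : ∀ a, AEStronglyMeasurable (fun p => c p * g a p) ν)
    (hb : ∀ p, ∑ a, g a p ^ 2 ≤ C ^ 2) : ∑ a, (∫ p, c p * g a p ∂ν) ^ 2 ≤ C ^ 2 := by
  set T : ι → ℝ := fun a => ∫ p, c p * g a p ∂ν
  have hi : ∀ a, Integrable (fun p => c p * g a p) ν := fun a => by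
    refine Integrable.of_bound (hgm a) C ?_
    filter_upwards [hc1] with p hc
    rw [Real.norm_eq_abs, abs_mul]
    exact (mul_le_of_le_one_left (abs_nonneg _) hc).trans (abs_le_of_sq hC (hb p) a)
  have h1 : ∑ a, T a ^ 2 = ∫ p, ∑ a, T a * (c p * g a p) ∂ν := by
    rw [integral_finsetSum _ fun a _ => (hi a).const_mul _]
    simp only [integral_const_mul]
    exact Finset.sum_congr rfl fun a _ => sq _
  have h2 : ∑ a, T a ^ 2 ≤ (∑ a, T a ^ 2 + C ^ 2) / 2 := by
    conv_lhs => rw [h1]
    refine (integral_mono_ae (integrable_finsetSum _ fun a _ => (hi a).const_mul _)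
      (integrable_const _) ?_).trans_eq (by rw [integral_const, probReal_univ, one_smul])
    filter_upwards [hc1] with p hc
    refine (Finset.sum_le_sum fun a _ => (?_ : T a * (c p * g a p)
      ≤ T a ^ 2 / 2 + g a p ^ 2 / 2)).trans ?_
    · have h3 : (c p * g a p) ^ 2 ≤ g a p ^ 2 := by
        rw [mul_pow]
        exact mul_le_of_le_one_left (sq_nonneg _) ((sq_le_one_iff_abs_le_one _).2 hc)
      nlinarith [sq_nonneg (T a - c p * g a p)]
    · rw [Finset.sum_add_distrib, ← Finset.sum_div, ← Finset.sum_div]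
      linarith [hb p]
  linarith

/-- The solution with a smoothed test has all derivatives bounded. -/
theorem sol_test {φ : Space d → ℝ} (hφ : LipschitzWith 1 φ) :
    TestV (fun j => bd 1 (j - 1)) (SteinAux.sol (sm 1 φ)) ∧
      ∀ x, steinOp (SteinAux.sol (sm 1 φ)) x = sm 1 φ x - ∫ y, sm 1 φ y ∂gam d := by
  have hT := SteinAux.sm_test hφ one_pos
  refine ⟨?_, hT.steinOp_sol⟩
  have := SteinAux.tg_prob (d := d)
  set H := sm 1 φ with hH
  have hHs : ∀ n : ℕ, ContDiff ℝ n H := smooth_sm hφ one_pos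
  have hHb : ∀ k x, ∑ idx, dEnt H (k + 1) idx x ^ 2 ≤ bd 1 k ^ 2 := fun k => hs_sm k hφ one_pos
  set V : (k : ℕ) → (Fin (k + 1) → Fin d) → Space d → ℝ := fun k idx x =>
    ∫ p : ℝ × Space d, -(p.1 ^ k) *
      dEnt H (k + 1) idx (p.1 • x + Real.sqrt (1 - p.1 ^ 2) • p.2) ∂SteinAux.tg d with hV
  have hc1 : ∀ k : ℕ, ∀ᵐ p ∂SteinAux.tg d, |-(p.1 ^ k)| ≤ 1 := fun k => by
    filter_upwards [SteinAux.tg_mem] with p hp
    rw [abs_neg, abs_pow, abs_of_pos hp.1]
    exact pow_le_one₀ hp.1.le hp.2.le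
  have hbm : AEMeasurable (fun p : ℝ × Space d => Real.sqrt (1 - p.1 ^ 2) • p.2) (SteinAux.tg d) :=
    (by fun_prop : Continuous fun p : ℝ × Space d => Real.sqrt (1 - p.1 ^ 2) • p.2).measurable.aemeasurable
  have ha1 : ∀ᵐ p ∂SteinAux.tg d, |p.1| ≤ 1 := by
    filter_upwards [SteinAux.tg_mem] with p hp
    rw [abs_of_pos hp.1]
    exact hp.2.le
  have hav : ∀ k idx, Differentiable ℝ (V k idx) ∧ ∀ x i,
      fderiv ℝ (V k idx) x (ev i) = V (k + 1) (Fin.cons i idx) x := by
    intro k idx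
    have h := avg_fderiv (ν := SteinAux.tg d) (a := fun p => p.1) (c := fun p => -(p.1 ^ k)) measurable_fst
      ((measurable_fst.pow_const k).neg) hbm ha1 (hc1 k) (contDiff_dEnt hHs (k + 1) idx 1)
      (C := bd 1 k) (fun z => abs_le_of_sq (bd_nonneg one_pos k) (hHb k z) idx)
      (bd_nonneg one_pos (k + 1)) (fun z i => by
        have h := abs_le_of_sq (bd_nonneg one_pos (k + 1)) (hHb (k + 1) z) (Fin.cons i idx)
        rwa [dEnt_succ hHs, Fin.cons_zero, Fin.tail_cons] at h)
    refine ⟨h.1, fun x i => ?_⟩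
    rw [h.2 x i]
    simp only [hV]
    refine integral_congr_ae (ae_of_all _ fun p => ?_)
    beta_reduce
    rw [dEnt_succ hHs (k + 1), Fin.cons_zero, Fin.tail_cons, pow_succ]
    ring
  have h0 : ∀ i x, fderiv ℝ (SteinAux.sol H) x (ev i) = V 0 (fun _ => i) x := fun i x => by
    rw [(hT.hasFDerivAt_sol x).fderiv, neg_apply,
      ContinuousLinearMap.integral_apply (hT.dH_int x), ← integral_neg]
    refine integral_congr_ae (ae_of_all _ fun p => ?_)
    beta_reduce
    rw [dEnt_succ hHs, dEnt_zero]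
    simp [SteinAux.mix]
  have hU : Differentiable ℝ (SteinAux.sol H) := fun x => (hT.hasFDerivAt_sol x).differentiableAt
  obtain ⟨hs, he⟩ := tower hU h0 (fun k idx => (hav k idx).1) fun k idx i x => (hav k idx).2 x i
  have hb : ∀ j, 1 ≤ j → ∀ y, hsT (dV j (SteinAux.sol H) y) ≤ bd 1 (j - 1) ^ 2 := by
    intro j hj y
    obtain ⟨k, rfl⟩ := Nat.exists_eq_add_of_le' hj
    show ∑ idx, dEnt (SteinAux.sol H) (k + 1) idx y ^ 2 ≤ _
    simp only [he, hV, Nat.add_sub_cancel]
    refine avg_hs (ν := SteinAux.tg d) (hc1 k) (bd_nonneg one_pos k) (fun idx => ?_) fun p => hHb k _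
    exact ((continuous_fst.pow k).neg.mul ((differentiable_dEnt hHs _ idx).continuous.comp
      (by fun_prop : Continuous fun p : ℝ × Space d =>
        p.1 • y + Real.sqrt (1 - p.1 ^ 2) • p.2))).aestronglyMeasurable
  exact ⟨pg_of_entries hs (fun j => bd_nonneg one_pos _) hb, hb⟩

end TestAux

open TestAux

/-- A translate of a test is a test. -/
theorem TestV.shift {C : ℕ → ℝ} {U : Space d → ℝ} (hU : TestV C U) (hC : ∀ j, 0 ≤ C j) (v : Space d) :
    TestV C fun y => U (v + y) := by
  have e : ∀ j y idx, dV j (fun y => U (v + y)) y idx = dV j U (v + y) idx := fun j y idx => by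
    simp only [dV, iteratedFDeriv_comp_add_left]
  have hb : ∀ j, 1 ≤ j → ∀ y, hsT (dV j (fun y => U (v + y)) y) ≤ C j ^ 2 := fun j hj y => by
    simp only [hsT, e]
    exact hU.2 j hj (v + y)
  exact ⟨pg_of_entries (fun n => ((hU.1 n).1).comp (contDiff_const.add contDiff_id)) hC hb, hb⟩

/-- An average of a test over an independent shift is a test. -/
theorem TestV.avg {C : ℕ → ℝ} {U : Space d → ℝ} (hU : TestV C U) (hC : ∀ j, 0 ≤ C j)
    {Ω : Type*} [MeasurableSpace Ω] {ν : Measure Ω} [IsProbabilityMeasure ν] {W : Ω → Space d}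
    (hW : Integrable W ν) : TestV C fun y => ∫ ω, U (y + W ω) ∂ν := by
  have hs : ∀ n : ℕ, ContDiff ℝ n U := fun n => (hU.1 n).1
  have hb : ∀ k x, ∑ idx, dEnt U (k + 1) idx x ^ 2 ≤ C (k + 1) ^ 2 := fun k x =>
    hU.2 (k + 1) (by omega) x
  set V : (k : ℕ) → (Fin (k + 1) → Fin d) → Space d → ℝ := fun k idx x =>
    ∫ ω, (1 : ℝ) * dEnt U (k + 1) idx ((1 : ℝ) • x + W ω) ∂ν with hV
  have h1 : ∀ᵐ _ ∂ν, |(1 : ℝ)| ≤ 1 := ae_of_all _ fun _ => by simp
  have hav : ∀ k idx, Differentiable ℝ (V k idx) ∧ ∀ x i,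
      fderiv ℝ (V k idx) x (ev i) = V (k + 1) (Fin.cons i idx) x := by
    intro k idx
    have h := avg_fderiv (ν := ν) (a := fun _ => (1 : ℝ)) (c := fun _ => (1 : ℝ)) measurable_const
      measurable_const hW.aemeasurable h1 h1 (contDiff_dEnt hs (k + 1) idx 1)
      (C := C (k + 1)) (fun z => abs_le_of_sq (hC _) (hb k z) idx)
      (hC (k + 2)) (fun z i => by
        have h := abs_le_of_sq (hC _) (hb (k + 1) z) (Fin.cons i idx)
        rwa [dEnt_succ hs, Fin.cons_zero, Fin.tail_cons] at h)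
    refine ⟨h.1, fun x i => ?_⟩
    rw [h.2 x i]
    simp only [hV, dEnt_succ hs (k + 1), Fin.cons_zero, Fin.tail_cons, one_mul]
  have hd : ∀ z, ‖fderiv ℝ U z‖ ≤ d * C 1 := fun z => norm_clm_le _ (hC 1) fun i => by
    have h := abs_le_of_sq (hC 1) (hb 0 z) fun _ => i
    rwa [dEnt_succ hs, dEnt_zero] at h
  have hc : Continuous (fderiv ℝ U) := (hs 1).continuous_fderiv one_ne_zero
  have hdi : ∀ x, Integrable (fun ω => fderiv ℝ U (x + W ω)) ν := fun x =>
    Integrable.of_bound (hc.comp_aestronglyMeasurable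
      ((aestronglyMeasurable_const).add hW.1)) _ (ae_of_all _ fun ω => hd _)
  have hD : ∀ x, HasFDerivAt (fun y => ∫ ω, U (y + W ω) ∂ν)
      (∫ ω, fderiv ℝ U (x + W ω) ∂ν) x := by
    intro x
    refine hasFDerivAt_integral_of_dominated_of_fderiv_le (𝕜 := ℝ)
      (bound := fun _ => (d : ℝ) * C 1) (F' := fun y ω => fderiv ℝ U (y + W ω)) Filter.univ_mem
      (Eventually.of_forall fun y => (hs 0).continuous.comp_aestronglyMeasurable
        ((aestronglyMeasurable_const).add hW.1)) ?_ (hdi x).1 (ae_of_all _ fun ω y _ => hd _)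
      (integrable_const _) (ae_of_all _ fun ω y _ => ?_)
    · refine Integrable.mono' (((hW.norm).add (integrable_const ‖x‖)).const_mul (d * C 1) |>.add
        (integrable_const |U 0|)) ((hs 0).continuous.comp_aestronglyMeasurable
          ((aestronglyMeasurable_const).add hW.1)) (ae_of_all _ fun ω => ?_)
      have h1 := convex_univ.norm_image_sub_le_of_norm_fderiv_le
        (fun z _ => (hs 1).differentiable (by simp) z) (fun z _ => hd z) (mem_univ 0)
        (mem_univ (x + W ω))
      rw [sub_zero, Real.norm_eq_abs] at h1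
      simp only [Pi.add_apply, Real.norm_eq_abs]
      nlinarith [abs_sub_abs_le_abs_sub (U (x + W ω)) (U 0), norm_add_le x (W ω),
        mul_nonneg (Nat.cast_nonneg (α := ℝ) d) (hC 1)]
    · simpa [Function.comp_def] using (((hs 1).differentiable (by simp)) (y + W ω)).hasFDerivAt.comp y
        ((hasFDerivAt_id y).add_const (W ω))
  have h0 : ∀ i x, fderiv ℝ (fun y => ∫ ω, U (y + W ω) ∂ν) x (ev i) = V 0 (fun _ => i) x :=
    fun i x => by
      rw [(hD x).fderiv, ContinuousLinearMap.integral_apply (hdi x)]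
      simp only [hV, dEnt_succ hs, dEnt_zero, one_mul, one_smul]
  obtain ⟨hsm, he⟩ := tower (fun x => (hD x).differentiableAt) h0 (fun k idx => (hav k idx).1)
    fun k idx i x => (hav k idx).2 x i
  have hb' : ∀ j, 1 ≤ j → ∀ y, hsT (dV j (fun y => ∫ ω, U (y + W ω) ∂ν) y) ≤ C j ^ 2 := by
    intro j hj y
    obtain ⟨k, rfl⟩ := Nat.exists_eq_add_of_le' hj
    show ∑ idx, dEnt _ (k + 1) idx y ^ 2 ≤ _
    simp only [he, hV]
    refine avg_hs (ν := ν) h1 (hC _) (fun idx => ?_) fun p => hb k _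
    exact ((differentiable_dEnt hs _ idx).continuous.comp_aestronglyMeasurable
      ((aestronglyMeasurable_const).add hW.1)).const_mul 1
  exact ⟨pg_of_entries hsm hC hb', hb'⟩

/-- Keeping half of the noise as smoothing, a bound on the Stein operator against tests bounds
the distance from the Gaussian law against Lipschitz tests. -/
theorem avgTest : ∃ C : ℕ → ℝ, (∀ j, 0 ≤ C j) ∧
    ∀ (d : ℕ) (Ω : Type) [MeasurableSpace Ω] (P : Measure Ω) [IsProbabilityMeasure P]
      (X : Ω → Space d), Integrable X P → ∀ B : ℝ,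
      (∀ U, TestV C U → |∫ w, steinOp U (X w) ∂P| ≤ B) →
      ∀ (ψ : Space d → ℝ) (L : ℝ≥0), LipschitzWith L ψ →
        |(∫ w, ∫ z, ψ (Real.sqrt (1 / 2) • X w + Real.sqrt (1 / 2) • z) ∂gam d ∂P)
          - ∫ z, ψ z ∂gam d| ≤ B * L := by
  refine ⟨fun j => bd 1 (j - 1), fun j => bd_nonneg one_pos _, ?_⟩
  intro d Ω _ P _ X hX B hB ψ L hψ
  rcases eq_or_ne L 0 with rfl | hL
  · have hc : ∀ x, ψ x = ψ 0 := fun x => by
      have := hψ.dist_le_mul x 0
      simpa using this
    obtain ⟨c, rfl⟩ : ∃ c, ψ = fun _ => c := ⟨ψ 0, funext hc⟩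
    simp
  have hL0 : (0 : ℝ) < L := by exact_mod_cast pos_iff_ne_zero.2 hL
  set q := Real.sqrt (1 / 2) with hq
  have hq0 : 0 ≤ q := Real.sqrt_nonneg _
  have hq1 : q ≤ 1 := Real.sqrt_le_one.2 (by norm_num)
  set φ : Space d → ℝ := fun y => (L : ℝ)⁻¹ * ψ (q • y) with hφd
  have hφ : LipschitzWith 1 φ := LipschitzWith.of_dist_le_mul fun x y => by
    rw [NNReal.coe_one, one_mul, Real.dist_eq, hφd, ← mul_sub, abs_mul,
      abs_of_pos (inv_pos.2 hL0), inv_mul_le_iff₀ hL0, ← Real.dist_eq]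
    refine (hψ.dist_le_mul _ _).trans (mul_le_mul_of_nonneg_left ?_ hL0.le)
    rw [dist_smul₀, Real.norm_eq_abs, abs_of_nonneg hq0]
    exact mul_le_of_le_one_left dist_nonneg hq1
  obtain ⟨hU, hUe⟩ := sol_test hφ
  have h0 := hB _ hU
  simp only [hUe] at h0
  have hsX : Integrable (fun w => sm 1 φ (X w)) P := by
    refine Integrable.mono' ((hX.norm).add (integrable_const |sm 1 φ 0|))
      ((SteinAux.sm_lip hφ 1).continuous.comp_aestronglyMeasurable hX.1) (ae_of_all _ fun w => ?_)
    have h1 := (SteinAux.sm_lip hφ 1).dist_le_mul (X w) 0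
    rw [NNReal.coe_one, one_mul, Real.dist_eq, dist_zero_right] at h1
    simp only [Pi.add_apply, Real.norm_eq_abs]
    linarith [abs_sub_abs_le_abs_sub (sm 1 φ (X w)) (sm 1 φ 0)]
  rw [integral_sub hsX (integrable_const _), integral_const, probReal_univ, one_smul] at h0
  have e1 : ∀ x, sm 1 φ x = (L : ℝ)⁻¹ * ∫ z, ψ (q • x + q • z) ∂gam d := fun x => by
    simp only [sm, hφd, one_smul, smul_add, integral_const_mul]
  have e2 : ∫ y, sm 1 φ y ∂gam d = (L : ℝ)⁻¹ * ∫ z, ψ z ∂gam d := by
    have h2 := congrFun (sm_sm hφ zero_le_one zero_le_one (Real.sqrt_pos.2 (two_pos (α := ℝ)))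
      (by rw [Real.sq_sqrt zero_le_two]; norm_num)) 0
    simp only [sm, zero_add, one_smul, hφd, integral_const_mul, smul_smul] at h2
    rw [hq, ← Real.sqrt_mul (by norm_num), show (1 / 2 : ℝ) * 2 = 1 by norm_num, Real.sqrt_one]
      at h2
    simp only [one_smul] at h2
    simp only [e1, integral_const_mul]
    rw [h2]
    simp only [smul_add, hq]
  rw [e2] at h0
  simp only [e1, integral_const_mul, ← mul_sub, abs_mul, abs_of_pos (inv_pos.2 hL0)] at h0
  rw [inv_mul_le_iff₀ hL0, mul_comm] at h0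
  exact h0

end Vale.Agent.P347.Zero
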