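import Vale.Agent.P347.Zero.AvgMain
import Vale.Agent.P347.Zero.AvgReduce
import Vale.Agent.P347.Zero.Product

/-!
Averaging over blocks.
-/

noncomputable section

namespace Vale.Agent.P347.Zero

/-- Averaging over blocks is realisable. -/
theorem avgThm : AvgThm := avgThm_of_core (avgCore productThm)

end Vale.Agent.P347.Zero
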