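import Vale.Agent.P347.Zero.Smooth

/-!
The posterior mean of the gradient solves the viscous Burgers equation in (variance, centre).
-/

noncomputable section

open MeasureTheory Filter Topology Set
open scoped RealInnerProductSpace ContDiff

namespace Vale.Agent.P347.Zero

variable {d : ℕ} {h : ℝ}

/-- The derivative in the variance. -/
def tD (f : ℝ × Space d → ℝ) (q : ℝ × Space d) : ℝ := fderiv ℝ f q (1, 0)

/-- The derivative in the `c`-th coordinate of the centre. -/
def pD (c : Fin d) (f : ℝ × Space d → ℝ) (q : ℝ × Space d) : ℝ := fderiv ℝ f q (0, ev c)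

/-- The Laplacian in the centre. -/
def lapA (f : ℝ × Space d → ℝ) (q : ℝ × Space d) : ℝ := ∑ c, pD c (pD c f) q

/-- The posterior mean of the gradient at variance `q.1` and centre `q.2`. -/
def drift (P : Pot d h) (i : Fin d) (q : ℝ × Space d) : ℝ := post P q.1 (fun x => P.g x i) q.2

theorem grow_gcoord (P : Pot d h) (i : Fin d) : Grow fun x => P.g x i :=
  ⟨‖P.g 0‖ + h, 1, fun x => by
    refine (show ‖P.g x i‖ ≤ ‖P.g x‖ from PiLp.norm_apply_le _ _).trans ?_
    have := P.norm_g_le x
    rw [pow_one]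
    nlinarith [norm_nonneg (P.g 0), norm_nonneg x, P.h_nonneg]⟩

theorem measurable_gcoord (P : Pot d h) (i : Fin d) : Measurable fun x => P.g x i :=
  ((EuclideanSpace.proj (𝕜 := ℝ) i).continuous.comp P.smooth.continuous).measurable

theorem sm_eq_Jk (G : Space d → ℝ) {v : ℝ} (hv : 0 < v) (a : Space d) :
    sm (Real.sqrt v) G a =
      (√(2 * Real.pi))⁻¹ ^ d * ((Real.sqrt v)⁻¹) ^ d * Jk G (v, a) := by
  have hs : 0 < Real.sqrt v := Real.sqrt_pos.2 hv
  have h1 := Measure.integral_comp_smul (μ := (volume : Measure (Space d)))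
    (fun y => (√(2 * Real.pi))⁻¹ ^ d * (G (a + y) * kern (v, a) (a + y))) (Real.sqrt v)
  rw [finrank_euclideanSpace_fin, smul_eq_mul, abs_of_pos (inv_pos.2 (pow_pos hs d))] at h1
  have h2 := integral_add_left_eq_self (μ := (volume : Measure (Space d)))
    (fun x => G x * kern (v, a) x) a
  rw [sm, P245.integral_gam]
  rw [show (fun ξ => P245.gd ξ * G (a + Real.sqrt v • ξ)) = fun ξ =>
    (√(2 * Real.pi))⁻¹ ^ d * (G (a + Real.sqrt v • ξ) * kern (v, a) (a + Real.sqrt v • ξ)) from
      funext fun ξ => by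
        simp only [kern, P245.gd, add_sub_cancel_left, norm_smul, Real.norm_eq_abs, mul_pow, sq_abs,
          Real.sq_sqrt hv.le]
        rw [show v * ‖ξ‖ ^ 2 / (2 * v) = 1 / 2 * ‖ξ‖ ^ 2 by field_simp, neg_mul]
        ring]
  rw [h1, integral_const_mul, h2, inv_pow]
  simp only [Jk]
  ring

theorem Jk_dens_pos (P : Pot d h) {q : ℝ × Space d} (hq : 0 < q.1) : 0 < Jk (dens P) q := by
  have := sm_dens_pos P (Real.sqrt q.1) q.2
  rw [sm_eq_Jk _ hq] at this
  exact (pos_iff_pos_of_mul_pos this).1 (by positivity)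

theorem post_eq_Jk (P : Pot d h) {q : ℝ × Space d} (hq : 0 < q.1) (f : Space d → ℝ) :
    post P q.1 f q.2 = Jk (fun x => dens P x * f x) q / Jk (dens P) q := by
  rw [post_eq, sm_eq_Jk _ hq, sm_eq_Jk _ hq, mul_div_mul_left]
  have : 0 < Real.sqrt q.1 := Real.sqrt_pos.2 hq
  positivity

theorem contDiffOn_drift (P : Pot d h) (i : Fin d) (k : ℕ) :
    ContDiffOn ℝ k (drift P i) (posV d) := by
  have hdm := (continuous_dens P).measurable
  refine ContDiffOn.congr ?_ fun q hq => post_eq_Jk P hq fun x => P.g x i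
  exact (contDiffOn_Jk k (hdm.mul (measurable_gcoord P i))
    (tame_mul (tame_dens P) (tame_of_grow (grow_gcoord P i)))).div
      (contDiffOn_Jk k hdm (tame_dens P)) fun q hq => (Jk_dens_pos P hq).ne'

/-- Stein's identity for the posterior: `E[x] - a = -v u`. -/
theorem post_coord (P : Pot d h) {q : ℝ × Space d} (hq : 0 < q.1) (i : Fin d) :
    post P q.1 (fun x => x i) q.2 = q.2 i - q.1 * drift P i q := by
  set s := Real.sqrt q.1 with hs
  have hst := steinMu d _ (P.aff q.2 s) (fun _ => 1) (ev i) contDiff_const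
    ⟨0, 0, fun x => by simp⟩
  have := mu_prob (P.aff q.2 s)
  simp only [mul_one, coord_inner, PiLp.add_apply, Pot.aff, PiLp.smul_apply, smul_eq_mul,
    fderiv_fun_const, Pi.zero_apply, ContinuousLinearMap.zero_apply, integral_zero] at hst
  have i1 : Integrable (fun x : Space d => x i) (mu (P.aff q.2 s)) :=
    mu_int (by fun_prop) (grow_coord i)
  have i2 : Integrable (fun x : Space d => P.g (q.2 + s • x) i) (mu (P.aff q.2 s)) :=
    mu_int ((measurable_gcoord P i).comp (by fun_prop)) (grow_comp (grow_gcoord P i) q.2 s)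
  change ∫ x, (x i + s * P.g (q.2 + s • x) i) ∂mu (P.aff q.2 s) = 0 at hst
  rw [integral_add i1 (i2.const_mul s), integral_const_mul] at hst
  rw [drift, post, post, ← hs]
  simp only [PiLp.add_apply, PiLp.smul_apply, smul_eq_mul]
  rw [integral_add (integrable_const _) (i1.const_mul s), integral_const, probReal_univ, one_smul,
    integral_const_mul]
  have h2 : s ^ 2 = q.1 := Real.sq_sqrt hq.le
  have h3 : ∫ x, x i ∂mu (P.aff q.2 s) = -(s * ∫ x, P.g (q.2 + s • x) i ∂mu (P.aff q.2 s)) := by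
    linarith
  rw [h3, ← h2]
  ring

theorem pD_Jk {G : Space d → ℝ} (hm : Measurable G) (hG : Tame G) {q : ℝ × Space d} (hq : 0 < q.1)
    (c : Fin d) : pD c (Jk G) q = q.1⁻¹ * (Jk (fun x => G x * x c) q - q.2 c * Jk G q) := by
  rw [pD, fderiv_Jk hm hG hq, real_inner_comm, coord_inner]
  simp [EuclideanSpace.single_apply]

theorem differentiableAt_Jk {G : Space d → ℝ} (hm : Measurable G) (hG : Tame G) {q : ℝ × Space d}
    (hq : 0 < q.1) : DifferentiableAt ℝ (Jk G) q := (hasFDerivAt_Jk hm hG hq).1.differentiableAt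

/-- The heat identity. -/
theorem lapA_Jk {G : Space d → ℝ} (hm : Measurable G) (hG : Tame G) {q : ℝ × Space d}
    (hq : 0 < q.1) : lapA (Jk G) q = 2 * tD (Jk G) q - d / q.1 * Jk G q := by
  have hc : ∀ c, pD c (pD c (Jk G)) q = q.1⁻¹ ^ 2 * (Jk (fun x => G x * (x c * x c)) q
      - 2 * q.2 c * Jk (fun x => G x * x c) q + q.2 c ^ 2 * Jk G q) - q.1⁻¹ * Jk G q := by
    intro c
    have hm' : Measurable fun x => G x * x c := hm.mul (by fun_prop)
    have hG' : Tame fun x => G x * x c := tame_mul hG (tame_of_grow (grow_coord c))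
    have he : pD c (Jk G) =ᶠ[𝓝 q] fun p => p.1⁻¹ * (Jk (fun x => G x * x c) p - p.2 c * Jk G p) :=
      Filter.eventuallyEq_of_mem (isOpen_posV.mem_nhds hq) fun p hp => pD_Jk hm hG hp c
    rw [pD, he.fderiv_eq]
    have h2 : HasFDerivAt (fun p : ℝ × Space d => p.2 c)
        ((EuclideanSpace.proj (𝕜 := ℝ) c).comp (ContinuousLinearMap.snd ℝ ℝ (Space d))) q :=
      (EuclideanSpace.proj (𝕜 := ℝ) c).hasFDerivAt.comp q hasFDerivAt_snd
    have h1 := ((hasDerivAt_inv hq.ne').comp_hasFDerivAt q (hasFDerivAt_fst (𝕜 := ℝ) (p := q))).fun_mul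
      ((differentiableAt_Jk hm' hG' hq).hasFDerivAt.fun_sub
        (h2.fun_mul (differentiableAt_Jk hm hG hq).hasFDerivAt))
    simp only [Function.comp_apply] at h1
    have a1 : fderiv ℝ (Jk fun x => G x * x c) q (0, ev c)
        = q.1⁻¹ * (Jk (fun x => G x * x c * x c) q - q.2 c * Jk (fun x => G x * x c) q) :=
      pD_Jk hm' hG' hq c
    have a2 := pD_Jk hm hG hq c
    rw [pD] at a2
    rw [h1.fderiv]
    simp only [mul_assoc (G _)] at a1
    simp [a1, a2]
    ring
  simp only [lapA, hc, Finset.sum_sub_distrib, ← Finset.mul_sum, Finset.sum_add_distrib,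
    Finset.sum_const, Finset.card_univ, Fintype.card_fin, nsmul_eq_mul]
  rw [tD, fderiv_Jk hm hG hq]
  simp only [inner_zero_right, zero_mul, sub_zero, PiLp.zero_apply, Finset.sum_const_zero,
    mul_zero, add_zero, one_mul, mul_assoc (2 : ℝ), ← Finset.mul_sum, ← Finset.sum_mul,
    EuclideanSpace.real_norm_sq_eq]
  field_simp

/-- The gradient of the log normalisation is minus the drift. -/
theorem pD_logZ (P : Pot d h) {q : ℝ × Space d} (hq : 0 < q.1) (c : Fin d) :
    pD c (Jk (dens P)) q = -(drift P c q * Jk (dens P) q) := by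
  have h1 := post_coord P hq c
  rw [post_eq_Jk P hq, div_eq_iff (Jk_dens_pos P hq).ne'] at h1
  rw [pD_Jk (continuous_dens P).measurable (tame_dens P) hq, h1]
  field_simp
  ring

/-- The viscous Burgers equation. -/
theorem burgers (P : Pot d h) (i : Fin d) {q : ℝ × Space d} (hq : 0 < q.1) :
    tD (drift P i) q = lapA (drift P i) q / 2 - ∑ c, drift P c q * pD c (drift P i) q := by
  have hdm := (continuous_dens P).measurable
  set G := fun x => dens P x * P.g x i with hGdef
  have hm : Measurable G := hdm.mul (measurable_gcoord P i)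
  have hG : Tame G := tame_mul (tame_dens P) (tame_of_grow (grow_gcoord P i))
  have hU : ∀ {p : ℝ × Space d}, 0 < p.1 → DifferentiableAt ℝ (drift P i) p := fun {p} hp =>
    ((contDiffOn_drift P i 1).differentiableOn (by simp)).differentiableAt
      (isOpen_posV.mem_nhds hp)
  have hN : ∀ {p : ℝ × Space d}, 0 < p.1 → Jk G p = drift P i p * Jk (dens P) p := fun {p} hp => by
    rw [drift, post_eq_Jk P hp, div_mul_cancel₀ _ (Jk_dens_pos P hp).ne']
  have hfd : ∀ {p : ℝ × Space d}, 0 < p.1 → ∀ w, fderiv ℝ (Jk G) p w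
      = drift P i p * fderiv ℝ (Jk (dens P)) p w + Jk (dens P) p * fderiv ℝ (drift P i) p w := by
    intro p hp w
    have he : Jk G =ᶠ[𝓝 p] fun x => drift P i x * Jk (dens P) x :=
      Filter.eventuallyEq_of_mem (isOpen_posV.mem_nhds hp) fun x hx => hN hx
    rw [he.fderiv_eq, ((hU hp).hasFDerivAt.fun_mul
      (differentiableAt_Jk hdm (tame_dens P) hp).hasFDerivAt).fderiv]
    simp
  have hdiff : ∀ {f : ℝ × Space d → ℝ}, ContDiffOn ℝ 2 f (posV d) → ∀ c,
      DifferentiableAt ℝ (pD c f) q := fun {f} hf c =>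
    ((((hf.fderiv_of_isOpen isOpen_posV (m := 1) le_rfl).clm_apply
      contDiffOn_const).differentiableOn one_ne_zero).differentiableAt (isOpen_posV.mem_nhds hq))
  have hcU : ∀ c, DifferentiableAt ℝ (pD c (drift P i)) q := hdiff (contDiffOn_drift P i 2)
  have hcZ : ∀ c, DifferentiableAt ℝ (pD c (Jk (dens P))) q :=
    hdiff (contDiffOn_Jk 2 hdm (tame_dens P))
  have hsec : ∀ c, pD c (pD c (Jk G)) q = drift P i q * pD c (pD c (Jk (dens P))) q
      + 2 * (pD c (drift P i) q * pD c (Jk (dens P)) q)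
      + Jk (dens P) q * pD c (pD c (drift P i)) q := by
    intro c
    have he : pD c (Jk G) =ᶠ[𝓝 q] fun p => drift P i p * pD c (Jk (dens P)) p
        + Jk (dens P) p * pD c (drift P i) p :=
      Filter.eventuallyEq_of_mem (isOpen_posV.mem_nhds hq) fun p hp => hfd hp _
    show fderiv ℝ (pD c (Jk G)) q (0, ev c) = _
    rw [he.fderiv_eq, (((hU hq).hasFDerivAt.fun_mul (hcZ c).hasFDerivAt).fun_add
      ((differentiableAt_Jk hdm (tame_dens P) hq).hasFDerivAt.fun_mul
        (hcU c).hasFDerivAt)).fderiv]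
    simp [pD]
    ring
  have h1 := lapA_Jk hm hG hq
  have h2 := lapA_Jk hdm (tame_dens P) hq
  have h3 : lapA (Jk G) q = drift P i q * lapA (Jk (dens P)) q
      - 2 * Jk (dens P) q * (∑ c, drift P c q * pD c (drift P i) q)
      + Jk (dens P) q * lapA (drift P i) q := by
    simp only [lapA, hsec, pD_logZ P hq, Finset.sum_add_distrib, Finset.mul_sum, ← Finset.sum_sub_distrib]
    congr 1
    rw [← Finset.sum_add_distrib]
    exact Finset.sum_congr rfl fun c _ => by ring
  rw [tD] at h1
  rw [h3, h2, hfd hq, hN hq, tD] at h1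
  show fderiv ℝ (drift P i) q (1, 0) = _
  have hz := (Jk_dens_pos P hq).ne'
  refine mul_left_cancel₀ (mul_ne_zero two_ne_zero hz) ?_
  linear_combination -h1

end Vale.Agent.P347.Zero
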