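import Vale.Agent.P347.Zero.Tensor
import Vale.Agent.P347.Zero.PinsC

/-!
The classes of the all-order sampler: families of tensor fields, their moment bound on every split,
and the programs that realise them with unit Gaussian noise at every scale.
-/

noncomputable section

open MeasureTheory ProbabilityTheory
open scoped RealInnerProductSpace NNReal

namespace Vale.Agent.P347.Zero

/-- A family of problems: what a program is told, with the dimension it gives, and the problems,
each with a gradient oracle and an error weight at every centre. -/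
structure Sys where
  /-- What a program is told. -/
  key : Type
  /-- The dimension. -/
  kdm : key → ℕ
  /-- The index of the family. -/
  ι : Type
  /-- The part of an index that a program is told. -/
  pub : ι → key
  /-- The oracle. -/
  og : ∀ i, Space (kdm (pub i)) → Space (kdm (pub i))
  /-- The weight of the errors at a centre. -/
  wt : ∀ i, Space (kdm (pub i)) → ℝ
  one_le_wt : ∀ i p, 1 ≤ wt i p
  og_lip : ∀ i, ∃ L : ℝ≥0, LipschitzWith L (og i)

/-- The dimension of a problem. -/
abbrev Sys.dm (S : Sys) (i : S.ι) : ℕ := S.kdm (S.pub i)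

/-- The dimension of a key as a real number. -/
abbrev Sys.kdd (S : Sys) (k : S.key) : ℝ := (S.kdm k : ℝ)

/-- The dimension as a real number. -/
abbrev Sys.dd (S : Sys) (i : S.ι) : ℝ := (S.dm i : ℝ)

/-- In every large dimension. -/
def Sys.Ev (S : Sys) (P : S.ι → Prop) : Prop := ∃ d₀ : ℕ, ∀ i, d₀ ≤ S.dm i → P i

/-- The same family with one more parameter, known to the programs. -/
def Sys.par (S : Sys) (T : Type) : Sys where
  key := S.key × T
  kdm x := S.kdm x.1
  ι := S.ι × T
  pub x := (S.pub x.1, x.2)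
  og x := S.og x.1
  wt x := S.wt x.1
  one_le_wt x := S.one_le_wt x.1
  og_lip x := S.og_lip x.1

/-- A family of tensor fields: at each index and centre, a tensor for each value of the blocks. -/
abbrev Fld (S : Sys) (B I : Type) :=
  ∀ i, Space (S.dm i) → (B → Space (S.dm i)) → Ten (S.dm i) I

variable {S : Sys} {B C I J K : Type} [Fintype B] [DecidableEq B] [Fintype C] [DecidableEq C]
  [Fintype I] [DecidableEq I] [Fintype J] [DecidableEq J] [Fintype K] [DecidableEq K]

/-! ### The bound -/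

/-- Every split is bounded by `d ^ (-θ)` in every moment, up to arbitrarily small powers. -/
def Bd (θ : ℝ) (T : Fld S B I) : Prop :=
  ∀ η : ℝ, 0 < η → ∀ m : ℕ, S.Ev fun i => ∀ p, ∃ f : (B → Space (S.dm i)) → ℝ,
    Measurable f ∧ (∀ x, 0 ≤ f x ∧ SplitB (f x) (T i p x)) ∧
      Integrable (fun x => f x ^ m) (gp B (S.dm i)) ∧
      ∫ x, f x ^ m ∂gp B (S.dm i) ≤ (S.dd i ^ (η - θ)) ^ m

/-- Every derivative exists and has polynomial growth, entry by entry. -/
def Sm (T : Fld S B I) : Prop :=
  ∀ i p idx (k : ℕ), ContDiff ℝ k (fun x => T i p x idx) ∧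
    ∃ (c : ℝ) (n : ℕ), ∀ x, ‖iteratedFDeriv ℝ k (fun x => T i p x idx) x‖ ≤ c * (1 + ‖x‖) ^ n

/-! ### Operations -/

/-- The derivative in the block `b`, as one more leg. -/
def dB (b : B) (T : Fld S B I) : Fld S B (Option I) :=
  fun i p x idx => fderiv ℝ (fun y => T i p y fun j => idx (some j)) x (Pi.single b (ev (idx none)))

/-- Relabelling of the legs. -/
def reL (e : I ≃ J) (T : Fld S B I) : Fld S B J := fun i p x => reT e (T i p x)

/-- Contraction along the middle legs. -/
def ctL (F : Fld S B (I ⊕ K)) (H : Fld S B (K ⊕ J)) : Fld S B (I ⊕ J) :=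
  fun i p x => ctr (F i p x) (H i p x)

/-- The average over the blocks on the left. -/
def avB (T : Fld S (B ⊕ C) I) : Fld S C I :=
  fun i p y idx => ∫ x, T i p (Sum.elim x y) idx ∂gp B (S.dm i)

/-- The tensor applied to one vector at each leg except `o`, read at `o`. -/
def apT {d : ℕ} (o : I) (T : Ten d I) (A : I → Space d) : Space d :=
  ∑ idx : I → Fin d, (T idx * ∏ l ∈ Finset.univ.erase o, A l (idx l)) • ev (idx o)

/-! ### Programs -/

/-- The arguments of a program: centre, blocks, inputs at the legs and seeds. -/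
abbrev Inp (d : ℕ) (B I : Type) (n : ℕ) :=
  Space d × (B → Space d) × (I → Space d) × (Fin n → Space d)

/-- A family of programs, one for each key: all problems with one key share their program. -/
structure Run (S : Sys) (B I : Type) [Fintype B] [Fintype I] where
  /-- The number of seeds at a key. -/
  ksd : S.key → ℕ
  /-- The number of queries at a key. -/
  kq : S.key → ℕ
  /-- The programs. -/
  kF : ∀ k, (Space (S.kdm k) → Space (S.kdm k)) → Inp (S.kdm k) B I (ksd k) → Space (S.kdm k)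
  kcomp : ∀ k, Computes (kq k) (kF k)

/-- The number of seeds at a problem. -/
abbrev Run.sd (R : Run S B I) (i : S.ι) : ℕ := R.ksd (S.pub i)

/-- The number of queries at a problem. -/
abbrev Run.q (R : Run S B I) (i : S.ι) : ℕ := R.kq (S.pub i)

/-- The program run at a problem. -/
abbrev Run.F (R : Run S B I) (i : S.ι) :
    (Space (S.dm i) → Space (S.dm i)) → Inp (S.dm i) B I (R.sd i) → Space (S.dm i) :=
  R.kF (S.pub i)

/-- At most `d ^ ε` queries. -/
def Run.Cheap (R : Run S B I) (ε : ℝ) : Prop := S.Ev fun i => (R.q i : ℝ) ≤ S.dd i ^ ε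

/-- Lipschitz in all arguments. -/
def Run.LipAll (R : Run S B I) : Prop :=
  ∀ i, ∃ L : ℝ≥0, LipschitzWith L (R.F i (S.og i))

/-- Lipschitz with constant `d ^ (-g)` in the centre, the blocks and the inputs. -/
def Run.LipIn (R : Run S B I) (g : ℝ) : Prop :=
  ∀ η : ℝ, 0 < η → S.Ev fun i => ∀ (p p' : Space (S.dm i)) (x x' : B → Space (S.dm i))
    (A A' : I → Space (S.dm i)) (ω : Fin (R.sd i) → Space (S.dm i)),
    ‖R.F i (S.og i) (p, x, A, ω) - R.F i (S.og i) (p', x', A', ω)‖
      ≤ S.dd i ^ (η - g) * (‖p - p'‖ + ∑ b, ‖x b - x' b‖ + ∑ l, ‖A l - A' l‖)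

/-- Against Lipschitz tests, averaged over standard blocks and inputs, the output is `d ^ (-κ)`
close to `d ^ a` times the tensor applied to the inputs, plus a standard Gaussian. -/
def Run.Law (R : Run S B I) (κ a : ℝ) (o : I) (T : Fld S B I) : Prop :=
  ∀ η : ℝ, 0 < η → S.Ev fun i => ∀ p, ∃ e : (B → Space (S.dm i)) × (I → Space (S.dm i)) → ℝ,
    Integrable e ((gp B (S.dm i)).prod (gp I (S.dm i))) ∧
      ∫ z, e z ∂(gp B (S.dm i)).prod (gp I (S.dm i)) ≤ S.dd i ^ (η - κ) * S.wt i p ∧
      ∀ x A (ψ : Space (S.dm i) → ℝ) (L : ℝ≥0), LipschitzWith L ψ →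
        |(∫ ω, ψ (R.F i (S.og i) (p, x, A, ω)) ∂gp (Fin (R.sd i)) (S.dm i))
            - ∫ z, ψ ((S.dd i ^ a) • apT o (T i p x) A + z) ∂gam (S.dm i)| ≤ e (x, A) * L

/-- As `Run.Law`, for the law averaged over the blocks on the left: the program only receives
the blocks on the right. -/
def Run.LawMix (R : Run S C I) (κ a : ℝ) (o : I) (T : Fld S (B ⊕ C) I) : Prop :=
  ∀ η : ℝ, 0 < η → S.Ev fun i => ∀ p, ∃ e : (C → Space (S.dm i)) × (I → Space (S.dm i)) → ℝ,
    Integrable e ((gp C (S.dm i)).prod (gp I (S.dm i))) ∧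
      ∫ z, e z ∂(gp C (S.dm i)).prod (gp I (S.dm i)) ≤ S.dd i ^ (η - κ) * S.wt i p ∧
      ∀ y A (ψ : Space (S.dm i) → ℝ) (L : ℝ≥0), LipschitzWith L ψ →
        |(∫ ω, ψ (R.F i (S.og i) (p, y, A, ω)) ∂gp (Fin (R.sd i)) (S.dm i))
            - ∫ x, ∫ z, ψ ((S.dd i ^ a) • apT o (T i p (Sum.elim x y)) A + z) ∂gam (S.dm i)
              ∂gp B (S.dm i)| ≤ e (y, A) * L

/-- Realisable at the leg `o` to accuracy `d ^ (-κ)`, at every scale leaving a margin of more than
`φ` below the exponent `θ`, with Lipschitz constant nearly `d` to the minus that margin. -/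
def Sam (κ φ θ : ℝ) (o : I) (T : Fld S B I) : Prop :=
  ∀ a : ℝ, a < θ - φ → ∀ ε : ℝ, 0 < ε →
    ∃ R : Run S B I, R.Cheap ε ∧ R.LipAll ∧ R.LipIn (θ - a - ε) ∧ R.Law κ a o T

/-- As `Sam`, for the law averaged over the blocks on the left, which the program does not
receive. -/
def SamMix (κ φ θ : ℝ) (o : I) (T : Fld S (B ⊕ C) I) : Prop :=
  ∀ a : ℝ, a < θ - φ → ∀ ε : ℝ, 0 < ε →
    ∃ R : Run S C I, R.Cheap ε ∧ R.LipAll ∧ R.LipIn (θ - a - ε) ∧ R.LawMix κ a o T

/-- The accuracy levels, the margins they need and the gain of one level. -/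
structure Lad where
  /-- The accuracy of a level. -/
  kap : ℕ → ℝ
  /-- The margin of a level. -/
  phi : ℕ → ℝ
  /-- The gain. -/
  g : ℝ
  /-- The loss of one derivative. -/
  w : ℝ
  g_pos : 0 < g
  w_pos : 0 < w
  g_lt : g < phi 0
  gap : ∀ r, phi r + 8 * w ≤ phi (r + 1)
  kap_succ : ∀ r, kap (r + 1) ≤ kap r + g
  kap_zero : kap 0 ≤ -1

/-- Bounded, realisable at level `r` and margin `φ` at the legs of `O`, and at every lower level
at every leg. -/
def Gd (L : Lad) (r : ℕ) (φ θ : ℝ) (O : Set I) (T : Fld S B I) : Prop :=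
  Bd θ T ∧ (∀ o ∈ O, Sam (L.kap r) φ θ o T) ∧
    ∀ r' < r, ∀ o, Sam (L.kap r') (L.phi r') θ o T

/-- `Gd` for a field and its derivatives in the blocks of `D`, each derivative in `b` costing
`w b`. -/
def GdD (L : Lad) (r : ℕ) (φ : ℝ) (D : Set B) (w : B → ℝ) :
    ℕ → ℝ → {I : Type} → [Fintype I] → [DecidableEq I] → Set I → Fld S B I → Prop
  | 0, θ, _, _, _, O, T => Gd L r φ θ O T
  | n + 1, θ, _, _, _, O, T =>
      Gd L r φ θ O T ∧ ∀ b ∈ D, GdD L r φ D w n (θ - w b) (some '' O) (dB b T)

/-! ### The closure statements -/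

/-- A contraction along one leg is realised with the inner factor one level lower, losing the
margin of that level once. -/
def ProductThm : Prop :=
  ∀ (S : Sys) (g φ φ' κ κ' θF θH : ℝ), 0 < g → g < φ' → φ' ≤ φ → κ ≤ κ' + g →
    ∀ (B A D : Type) [Fintype B] [DecidableEq B] [Fintype A] [DecidableEq A] [Fintype D]
      [DecidableEq D] (F : Fld S B (A ⊕ Unit)) (H : Fld S B (Unit ⊕ D)) (a₀ : A) (b₀ : D),
      Sm F → Sm H → Bd θF F → Bd θH H →
      Sam κ φ θF (.inl a₀) F → Sam κ' φ' θF (.inl a₀) F → Sam κ' φ' θF (.inr ()) F →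
      Sam κ' φ' θH (.inl ()) H → Sam κ' φ' θH (.inr b₀) H →
      Sam κ φ (θF + θH - φ') (.inl a₀) (ctL F H)

/-- Averaging over blocks: the compensation only needs derivatives, at a margin `Φ` that may be
larger than the margin `φ` of the average. -/
def AvgThm : Prop :=
  ∀ (S : Sys) (L : Lad) (r : ℕ) (φ Φ θ : ℝ), L.phi r + 8 * L.w ≤ φ → φ ≤ Φ →
    Φ + 8 * L.w ≤ 2 * φ - L.phi r →
    ∀ (B C I : Type) [Fintype B] [DecidableEq B] [Fintype C] [DecidableEq C] [Fintype I]
      [DecidableEq I] (O : Set I) (o : I) (T : Fld S (B ⊕ C) I),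
      o ∈ O → Sm T → SamMix (L.kap (r + 1)) φ θ o T →
      (∀ b, ∀ n, GdD L (r + 1) Φ (Set.range Sum.inl) (fun _ => L.w) n (θ - L.w) (some '' O)
        (dB (.inl b) T)) →
      Sam (L.kap (r + 1)) φ θ o (avB T)

end Vale.Agent.P347.Zero
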