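import Vale.Agent.P347.Schedule
import Vale.Agent.P347.Poincare

/-!
Distance of laws against Lipschitz tests: a calculus for independent seeds. It composes through a
Lipschitz map with a factor equal to the Lipschitz constant, averages over a mixture, adds over
independent parts, becomes a bound against bounded tests after smoothing, and follows from such a
bound and second moments.
-/

noncomputable section

open MeasureTheory ProbabilityTheory Function
open scoped RealInnerProductSpace NNReal

namespace Vale.Agent.P347.Zero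

variable {d : ℕ} {α α' β β' γ δ : Type} [MeasurableSpace α] [MeasurableSpace α'] [MeasurableSpace β]
  [MeasurableSpace β'] [MeasurableSpace γ] [MeasurableSpace δ]

/-- The laws of `X` and `Y` are within `e` against 1-Lipschitz tests. -/
structure Close (P : Measure α) (X : α → Space d) (Q : Measure β) (Y : β → Space d) (e : ℝ) :
    Prop where
  intX : Integrable X P
  intY : Integrable Y Q
  le : ∀ ψ : Space d → ℝ, LipschitzWith 1 ψ → |(∫ a, ψ (X a) ∂P) - ∫ b, ψ (Y b) ∂Q| ≤ e

theorem norm_le_norm_zero_add {E : Type*} [NormedAddCommGroup E] {ψ : Space d → E} {L : ℝ}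
    (h : ∀ a b, ‖ψ a - ψ b‖ ≤ L * ‖a - b‖) (x : Space d) : ‖ψ x‖ ≤ ‖ψ 0‖ + L * ‖x‖ := by
  have h1 := h x 0
  rw [sub_zero] at h1
  linarith [norm_le_norm_add_norm_sub' (ψ x) (ψ 0)]

theorem norm_sub_le_of_lip {L : ℝ≥0} {ψ : Space d → ℝ} (h : LipschitzWith L ψ) (a b : Space d) :
    ‖ψ a - ψ b‖ ≤ L * ‖a - b‖ := h.norm_sub_le a b

/-- A Lipschitz test of an integrable map is integrable. -/
theorem integrable_test {P : Measure α} [IsFiniteMeasure P] {X : α → Space d} {L : ℝ≥0}
    {ψ : Space d → ℝ} (hψ : LipschitzWith L ψ) (hX : Integrable X P) :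
    Integrable (fun a => ψ (X a)) P :=
  ((integrable_const ‖ψ 0‖).add (hX.norm.const_mul L)).mono'
    (hψ.continuous.comp_aestronglyMeasurable hX.1)
    (ae_of_all _ fun a => norm_le_norm_zero_add (norm_sub_le_of_lip hψ) (X a))

theorem test_one {ψ : Space d → ℝ} (hψ : LipschitzWith 1 ψ) (a b : Space d) :
    |ψ a - ψ b| ≤ ‖a - b‖ := by
  have := norm_sub_le_of_lip hψ a b
  rwa [NNReal.coe_one, one_mul, Real.norm_eq_abs] at this

theorem lip_of_le {E : Type*} [NormedAddCommGroup E] {φ : Space d → E} {L : ℝ≥0}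
    (h : ∀ a b, ‖φ a - φ b‖ ≤ L * ‖a - b‖) : LipschitzWith L φ :=
  LipschitzWith.of_dist_le_mul fun a b => by simpa [dist_eq_norm] using h a b

variable {P : Measure α} {Q : Measure β} {X : α → Space d} {Y : β → Space d} {e : ℝ}

theorem Close.mono (h : Close P X Q Y e) {e' : ℝ} (he : e ≤ e') : Close P X Q Y e' :=
  ⟨h.intX, h.intY, fun ψ hψ => (h.le ψ hψ).trans he⟩

theorem Close.nonneg (h : Close P X Q Y e) : 0 ≤ e := by
  simpa using h.le (fun _ => 0) ((LipschitzWith.const 0).weaken zero_le_one)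

theorem Close.symm (h : Close P X Q Y e) : Close Q Y P X e :=
  ⟨h.intY, h.intX, fun ψ hψ => by rw [abs_sub_comm]; exact h.le ψ hψ⟩

theorem Close.trans (h : Close P X Q Y e) {R : Measure γ} {Z : γ → Space d} {e' : ℝ}
    (h' : Close Q Y R Z e') : Close P X R Z (e + e') :=
  ⟨h.intX, h'.intY, fun ψ hψ =>
    (abs_sub_le _ (∫ b, ψ (Y b) ∂Q) _).trans (add_le_add (h.le ψ hψ) (h'.le ψ hψ))⟩

/-- A coupling bounds the distance. -/
theorem Close.of_coupled [IsFiniteMeasure P] {X' : α → Space d} (hX : Integrable X P)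
    (hX' : Integrable X' P) (he : ∫ a, ‖X a - X' a‖ ∂P ≤ e) : Close P X P X' e := by
  refine ⟨hX, hX', fun ψ hψ => ?_⟩
  rw [← integral_sub (integrable_test hψ hX) (integrable_test hψ hX'), ← Real.norm_eq_abs]
  refine (norm_integral_le_of_norm_le (hX.sub hX').norm (ae_of_all _ fun a => ?_)).trans he
  rw [Real.norm_eq_abs]
  exact test_one hψ _ _

theorem Close.refl [IsFiniteMeasure P] (hX : Integrable X P) : Close P X P X 0 :=
  Close.of_coupled hX hX (by simp)

theorem Close.scaled (h : Close P X Q Y e) {L : ℝ≥0} {ψ : Space d → ℝ} (hψ : LipschitzWith L ψ)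
    [IsProbabilityMeasure P] [IsProbabilityMeasure Q] :
    |(∫ a, ψ (X a) ∂P) - ∫ b, ψ (Y b) ∂Q| ≤ L * e := by
  rcases eq_or_ne L 0 with rfl | hL
  · have hc : ∀ x, ψ x = ψ 0 := fun x => by
      have := norm_sub_le_of_lip hψ x 0
      rw [NNReal.coe_zero, zero_mul, norm_le_zero_iff, sub_eq_zero] at this
      exact this
    simp [fun a => hc (X a), fun b => hc (Y b)]
  have hL0 : (0 : ℝ) < L := by exact_mod_cast pos_iff_ne_zero.2 hL
  have h1 := h.le (fun x => (L : ℝ)⁻¹ * ψ x) (lip_of_le fun a b => by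
    rw [← mul_sub, norm_mul, norm_inv, Real.norm_of_nonneg hL0.le, NNReal.coe_one, one_mul,
      inv_mul_le_iff₀ hL0]
    exact norm_sub_le_of_lip hψ a b)
  simp only [integral_const_mul, ← mul_sub, abs_mul, abs_inv, abs_of_pos hL0] at h1
  rwa [inv_mul_le_iff₀ hL0] at h1

/-- A change of seeds keeping the law. -/
theorem Close.comp_left (h : Close P X Q Y e) {P' : Measure α'} {f : α' → α}
    (hf : MeasurePreserving f P' P) : Close P' (fun a => X (f a)) Q Y e := by
  refine ⟨hf.integrable_comp_of_integrable h.intX, h.intY, fun ψ hψ => ?_⟩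
  have e1 : ∫ a, ψ (X (f a)) ∂P' = ∫ a, ψ (X a) ∂P := by
    rw [← hf.map_eq, integral_map hf.measurable.aemeasurable]
    rw [hf.map_eq]
    exact hψ.continuous.comp_aestronglyMeasurable h.intX.1
  rw [e1]
  exact h.le ψ hψ

theorem Close.comp_right (h : Close P X Q Y e) {Q' : Measure β'} {f : β' → β}
    (hf : MeasurePreserving f Q' Q) : Close P X Q' (fun b => Y (f b)) e :=
  (h.symm.comp_left hf).symm

/-- Composition with a Lipschitz map. -/
theorem Close.lmap [IsProbabilityMeasure P] [IsProbabilityMeasure Q] (h : Close P X Q Y e)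
    {L : ℝ≥0} {φ : Space d → Space d} (hφ : ∀ a b, ‖φ a - φ b‖ ≤ L * ‖a - b‖) :
    Close P (fun a => φ (X a)) Q (fun b => φ (Y b)) (L * e) := by
  have hi : ∀ {α₁ : Type} [MeasurableSpace α₁] {P₁ : Measure α₁} [IsProbabilityMeasure P₁]
      {Z : α₁ → Space d}, Integrable Z P₁ → Integrable (fun a => φ (Z a)) P₁ := fun hZ =>
    ((integrable_const ‖φ 0‖).add (hZ.norm.const_mul L)).mono'
      ((lip_of_le hφ).continuous.comp_aestronglyMeasurable hZ.1)
      (ae_of_all _ fun a => norm_le_norm_zero_add hφ _)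
  exact ⟨hi h.intX, hi h.intY, fun ψ hψ => h.scaled (ψ := fun a => ψ (φ a))
    (lip_of_le fun a b => by rw [Real.norm_eq_abs]; exact (test_one hψ _ _).trans (hφ a b))⟩

/-- An affine change of scale. -/
theorem Close.affine [IsProbabilityMeasure P] [IsProbabilityMeasure Q] (h : Close P X Q Y e)
    (m : Space d) (s : ℝ) :
    Close P (fun a => m + s • X a) Q (fun b => m + s • Y b) (|s| * e) := by
  simpa using h.lmap (L := ‖s‖₊) (φ := fun a => m + s • a) fun a b => by
    rw [add_sub_add_left_eq_sub, ← smul_sub, norm_smul, coe_nnnorm]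

/-- Composition with a map that is Lipschitz in the substituted argument. -/
theorem Close.bind [IsProbabilityMeasure P] [IsProbabilityMeasure Q] (h : Close P X Q Y e)
    {R : Measure γ} [IsProbabilityMeasure R] {L : ℝ≥0} {K : Space d → γ → Space d}
    (hKm : Measurable (uncurry K)) (hKl : ∀ c a b, ‖K a c - K b c‖ ≤ L * ‖a - b‖)
    (hK0 : Integrable (K 0) R) :
    Close (P.prod R) (fun p => K (X p.1) p.2) (Q.prod R) (fun p => K (Y p.1) p.2) (L * e) := by
  have hi : ∀ {α₁ : Type} [MeasurableSpace α₁] (P₁ : Measure α₁) [IsProbabilityMeasure P₁]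
      {X₁ : α₁ → Space d}, Integrable X₁ P₁ →
        Integrable (fun p : α₁ × γ => K (X₁ p.1) p.2) (P₁.prod R) := by
    intro α₁ _ P₁ _ X₁ hX₁
    refine ((hK0.norm.comp_snd P₁).add ((hX₁.norm.const_mul L).comp_fst R)).mono'
      (hKm.comp_aemeasurable (hX₁.1.aemeasurable.comp_fst.prodMk
        measurable_snd.aemeasurable)).aestronglyMeasurable (ae_of_all _ fun p => ?_)
    exact norm_le_norm_zero_add (hKl p.2) (X₁ p.1)
  refine ⟨hi P h.intX, hi Q h.intY, fun ψ hψ => ?_⟩
  have i1 := integrable_test hψ (hi P h.intX)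
  have i2 := integrable_test hψ (hi Q h.intY)
  rw [integral_prod_symm _ i1, integral_prod_symm _ i2,
    ← integral_sub i1.integral_prod_right i2.integral_prod_right, ← Real.norm_eq_abs]
  refine (norm_integral_le_of_norm_le_const (C := L * e) (ae_of_all _ fun c => ?_)).trans
    (by simp)
  rw [Real.norm_eq_abs]
  refine h.scaled (ψ := fun a => ψ (K a c)) (lip_of_le fun a b => ?_)
  rw [Real.norm_eq_abs]
  exact (test_one hψ _ _).trans (hKl c a b)

/-- Mixtures. -/
theorem Close.mix [IsProbabilityMeasure Q] {R : Measure γ} [IsProbabilityMeasure R] {S : Measure δ}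
    [IsProbabilityMeasure S] {K : β → γ → Space d} {T : β → δ → Space d} {E : β → ℝ}
    (hK : Integrable (uncurry K) (Q.prod R)) (hT : AEStronglyMeasurable (uncurry T) (Q.prod S))
    (h : ∀ᵐ b ∂Q, Close R (K b) S (T b) (E b)) (hE : Integrable E Q) :
    Close (Q.prod R) (uncurry K) (Q.prod S) (uncurry T) (∫ b, E b ∂Q) := by
  have hTi : Integrable (uncurry T) (Q.prod S) := by
    refine (integrable_prod_iff hT).2 ⟨h.mono fun b hb => hb.intY, ?_⟩
    refine (hK.norm.integral_prod_left.add hE).mono'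
      hT.norm.integral_prod_right' ?_
    filter_upwards [h] with b hb
    rw [Real.norm_of_nonneg (integral_nonneg fun _ => norm_nonneg _), Pi.add_apply]
    have := (abs_le.1 (hb.le (fun x => ‖x‖) lipschitzWith_one_norm)).1
    simp only [uncurry]
    linarith
  refine ⟨hK, hTi, fun ψ hψ => ?_⟩
  have i1 := integrable_test hψ hK
  have i2 := integrable_test hψ hTi
  rw [integral_prod _ i1, integral_prod _ i2,
    ← integral_sub i1.integral_prod_left i2.integral_prod_left, ← Real.norm_eq_abs]
  refine norm_integral_le_of_norm_le hE ?_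
  filter_upwards [h] with b hb
  rw [Real.norm_eq_abs]
  exact hb.le ψ hψ

/-- Independent sums. -/
theorem Close.add [IsProbabilityMeasure P] [IsProbabilityMeasure Q] (h : Close P X Q Y e)
    {P' : Measure α'} [IsProbabilityMeasure P'] {Q' : Measure β'} [IsProbabilityMeasure Q']
    {X' : α' → Space d} {Y' : β' → Space d} {e' : ℝ} (h' : Close P' X' Q' Y' e') :
    Close (P.prod P') (fun p => X p.1 + X' p.2) (Q.prod Q') (fun p => Y p.1 + Y' p.2) (e + e') := by
  have iX := (h.intX.comp_fst P').add (h'.intX.comp_snd P)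
  have iM := (h.intX.comp_fst Q').add (h'.intY.comp_snd P)
  have iY := (h.intY.comp_fst Q').add (h'.intY.comp_snd Q)
  refine ⟨iX, iY, fun ψ hψ => ?_⟩
  have j1 := integrable_test hψ iX
  have j2 := integrable_test hψ iM
  have j3 := integrable_test hψ iY
  simp only [Pi.add_apply] at j1 j2 j3
  have shift : ∀ x : Space d, LipschitzWith 1 fun y => ψ (x + y) := fun x => lip_of_le fun a b => by
    simpa using test_one hψ (x + a) (x + b)
  rw [add_comm e]
  refine (abs_sub_le _ (∫ p, ψ (X p.1 + Y' p.2) ∂P.prod Q') _).trans (add_le_add ?_ ?_)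
  · rw [integral_prod _ j1, integral_prod _ j2,
      ← integral_sub j1.integral_prod_left j2.integral_prod_left, ← Real.norm_eq_abs]
    refine (norm_integral_le_of_norm_le_const (C := e') (ae_of_all _ fun a => ?_)).trans (by simp)
    exact h'.le _ (shift (X a))
  · rw [integral_prod_symm _ j2, integral_prod_symm _ j3,
      ← integral_sub j2.integral_prod_right j3.integral_prod_right, ← Real.norm_eq_abs]
    refine (norm_integral_le_of_norm_le_const (C := e) (ae_of_all _ fun c => ?_)).trans (by simp)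
    have := h.le (fun y => ψ (Y' c + y)) (shift (Y' c))
    simpa only [add_comm (Y' c), Real.norm_eq_abs] using this

/-- After smoothing the bound holds against bounded tests. -/
theorem Close.smooth [IsProbabilityMeasure P] [IsProbabilityMeasure Q] (h : Close P X Q Y e)
    {U : Space d → ℝ} (hU : Measurable U) (hU1 : ∀ x, |U x| ≤ 1) {r : ℝ} (hr : 0 < r) :
    |(∫ a, Pf r U (X a) ∂P) - ∫ b, Pf r U (Y b) ∂Q| ≤ e / Real.sqrt r := by
  obtain ⟨hH, hG, -⟩ := pf_bounds (postDeriv poincareMu) hU hU1 hr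
  refine (h.scaled (L := (1 / Real.sqrt r).toNNReal)
    (lipschitzWith_of_nnnorm_fderiv_le (hH.differentiable two_ne_zero) fun x => ?_)).trans_eq ?_
  · rw [← NNReal.coe_le_coe, coe_nnnorm, Real.coe_toNNReal _ (by positivity)]
    exact hG x
  · rw [Real.coe_toNNReal _ (by positivity)]; ring

/-- A bound against bounded tests gives one against Lipschitz tests, by second moments. -/
theorem Close.of_bounded [IsProbabilityMeasure P] [IsProbabilityMeasure Q]
    (hX : Integrable X P) (hY : Integrable Y Q) (hX2 : Integrable (fun a => ‖X a‖ ^ 2) P)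
    (hY2 : Integrable (fun b => ‖Y b‖ ^ 2) Q) {η R : ℝ} (hR : 0 < R)
    (h : ∀ U : Space d → ℝ, Measurable U → (∀ x, |U x| ≤ 1) →
      |(∫ a, U (X a) ∂P) - ∫ b, U (Y b) ∂Q| ≤ η) :
    Close P X Q Y (R * η + ((∫ a, ‖X a‖ ^ 2 ∂P) + ∫ b, ‖Y b‖ ^ 2 ∂Q) / R) := by
  refine ⟨hX, hY, fun ψ hψ => ?_⟩
  set φ : Space d → ℝ := fun x => max (-R) (min R (ψ x - ψ 0)) with hφ
  have hφm : Measurable φ :=
    measurable_const.max (measurable_const.min (hψ.continuous.measurable.sub_const _))
  have hφb : ∀ x, |φ x| ≤ R := fun x =>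
    abs_le.2 ⟨le_max_left _ _, max_le (by linarith) (min_le_left _ _)⟩
  have hφc : ∀ x, |ψ x - ψ 0 - φ x| ≤ ‖x‖ ^ 2 / R := fun x => by
    have h1 : |ψ x - ψ 0| ≤ ‖x‖ := by simpa using test_one hψ x 0
    by_cases hc : |ψ x - ψ 0| ≤ R
    · obtain ⟨a, b⟩ := abs_le.1 hc
      rw [hφ]
      simp only [min_eq_right b, max_eq_right a, sub_self, abs_zero]
      positivity
    · push Not at hc
      have h2 : |ψ x - ψ 0 - φ x| ≤ |ψ x - ψ 0| := by
        rw [hφ]
        rcases le_total (ψ x - ψ 0) 0 with h3 | h3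
        · rw [abs_of_nonpos h3] at hc
          simp only [min_eq_right (h3.trans hR.le), max_eq_left (show ψ x - ψ 0 ≤ -R by linarith)]
          rw [abs_of_nonpos h3, abs_of_nonpos (by linarith)]
          linarith
        · rw [abs_of_nonneg h3] at hc
          simp only [min_eq_left hc.le, max_eq_right (show -R ≤ R by linarith)]
          rw [abs_of_nonneg h3, abs_of_nonneg (by linarith)]
          linarith
      refine (h2.trans h1).trans ?_
      rw [le_div_iff₀ hR, sq]
      exact mul_le_mul_of_nonneg_left (hc.le.trans h1) (norm_nonneg _)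
  have key : ∀ {α₁ : Type} [MeasurableSpace α₁] (P₁ : Measure α₁) [IsProbabilityMeasure P₁]
      {X₁ : α₁ → Space d}, Integrable X₁ P₁ → Integrable (fun a => ‖X₁ a‖ ^ 2) P₁ →
        |(∫ a, ψ (X₁ a) ∂P₁) - ψ 0 - ∫ a, φ (X₁ a) ∂P₁| ≤ (∫ a, ‖X₁ a‖ ^ 2 ∂P₁) / R := by
    intro α₁ _ P₁ _ X₁ h1 h2
    have i1 := integrable_test hψ h1
    have i2 : Integrable (fun a => φ (X₁ a)) P₁ :=
      Integrable.of_bound (hφm.comp_aemeasurable h1.1.aemeasurable).aestronglyMeasurable R
        (ae_of_all _ fun a => (Real.norm_eq_abs _).trans_le (hφb _))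
    have e1 : (∫ a, ψ (X₁ a) ∂P₁) - ψ 0 - ∫ a, φ (X₁ a) ∂P₁
        = ∫ a, (ψ (X₁ a) - ψ 0 - φ (X₁ a)) ∂P₁ := by
      have i3 : Integrable (fun a => ψ (X₁ a) - ψ 0) P₁ := i1.sub (integrable_const _)
      rw [integral_sub i3 i2, integral_sub i1 (integrable_const _)]
      simp
    rw [e1, ← integral_div, ← Real.norm_eq_abs]
    exact norm_integral_le_of_norm_le (h2.div_const R)
      (ae_of_all _ fun a => (Real.norm_eq_abs _).trans_le (hφc _))
  have h0 := h (fun x => R⁻¹ * φ x) (hφm.const_mul _) fun x => by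
    rw [abs_mul, abs_inv, abs_of_pos hR, inv_mul_le_iff₀ hR, mul_one]
    exact hφb x
  simp only [integral_const_mul, ← mul_sub, abs_mul, abs_inv, abs_of_pos hR] at h0
  rw [inv_mul_le_iff₀ hR] at h0
  have a1 := abs_le.1 (key P hX hX2)
  have a2 := abs_le.1 (key Q hY hY2)
  obtain ⟨a3, a4⟩ := abs_le.1 h0
  rw [add_div, abs_le]
  constructor <;> linarith [a1.1, a1.2, a2.1, a2.2]

/-! ### Gaussian laws -/

theorem integrable_gau (f : Space d) (σ : ℝ) : Integrable (fun z => f + σ • z) (gam d) :=
  (integrable_const f).add ((IsGaussian.integrable_id (μ := gam d)).smul σ)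

/-- Two Gaussian laws with different means and deviations. -/
theorem Close.gauss_shift (f f' : Space d) (σ σ' : ℝ) :
    Close (gam d) (fun z => f + σ • z) (gam d) (fun z => f' + σ' • z)
      (‖f - f'‖ + |σ - σ'| * ∫ z, ‖z‖ ∂gam d) := by
  refine Close.of_coupled (integrable_gau f σ) (integrable_gau f' σ') ?_
  refine (integral_mono ((integrable_gau f σ).sub (integrable_gau f' σ')).norm
    ((integrable_const ‖f - f'‖).add (integrable_norm_gam.const_mul |σ - σ'|)) fun z => ?_).trans_eq ?_
  · simp only [Pi.sub_apply, Pi.add_apply]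
    rw [show f + σ • z - (f' + σ' • z) = (f - f') + (σ - σ') • z by module]
    exact (norm_add_le _ _).trans_eq (by rw [norm_smul, Real.norm_eq_abs])
  · rw [integral_add' (integrable_const _) (integrable_norm_gam.const_mul _), integral_const_mul,
      integral_const, probReal_univ, one_smul]

/-- A combination of two independent standard vectors is a multiple of one. -/
theorem Close.gauss_add (f : Space d) (a b : ℝ) :
    Close ((gam d).prod (gam d)) (fun p => f + (a • p.1 + b • p.2)) (gam d)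
      (fun z => f + Real.sqrt (a ^ 2 + b ^ 2) • z) 0 := by
  set θ := Complex.arg ⟨a, b⟩ with hθ
  set c := Real.sqrt (a ^ 2 + b ^ 2) with hc
  have hn : ‖(⟨a, b⟩ : ℂ)‖ = c := by
    rw [hc, Complex.norm_def, Complex.normSq_mk, sq, sq]
  have hca : c * Real.cos θ = a := by rw [← hn, hθ]; exact Complex.norm_mul_cos_arg _
  have hsb : c * Real.sin θ = b := by rw [← hn, hθ]; exact Complex.norm_mul_sin_arg _
  have hrot : MeasurePreserving (ContinuousLinearMap.rotation θ : Space d × Space d →L[ℝ] _)
      ((gam d).prod (gam d)) ((gam d).prod (gam d)) :=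
    ⟨ContinuousLinearMap.measurable _, P245.map_rotation_gam θ⟩
  have h := (Close.refl (integrable_gau f c)).comp_left ((measurePreserving_fst (μ := gam d)
    (ν := gam d)).comp hrot)
  refine cast (congrArg (fun X => Close _ X _ _ _) (funext fun p => ?_)) h
  simp only [Function.comp_apply, ContinuousLinearMap.rotation_apply, smul_add, smul_smul, hca, hsb]

end Vale.Agent.P347.Zero
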