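import Vale.Agent.P347.Basics
import Vale.Agent.P347.Zero.Universal

/-!
The Stein equation of the standard Gaussian law in `ℝ^d`: for a test with gradient of norm at most
one, the solution has gradient of norm at most one and second derivative of Hilbert-Schmidt norm at
most one. Hence a bound on the Stein operator against such functions bounds the distance from the
Gaussian law against Lipschitz tests, with constant one.
-/

noncomputable section

open MeasureTheory ProbabilityTheory Filter Topology Set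
open scoped RealInnerProductSpace NNReal

namespace Vale.Agent.P347.Zero

set_option maxSynthPendingDepth 3

variable {d : ℕ}

/-- The Stein operator `Δ U - ⟪x, ∇U⟫` of the standard Gaussian law. -/
def steinOp (U : Space d → ℝ) (x : Space d) : ℝ :=
  (∑ i, fderiv ℝ (fderiv ℝ U) x (ev i) (ev i)) - fderiv ℝ U x x

namespace SteinAux

/-- The correlation, uniform in the unit interval, and an independent Gaussian vector. -/
abbrev tg (d : ℕ) : Measure (ℝ × Space d) := (volume.restrict (Ioo (0 : ℝ) 1)).prod (gam d)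

/-- The interpolated point. -/
def mix (x : Space d) (p : ℝ × Space d) : Space d := p.1 • x + Real.sqrt (1 - p.1 ^ 2) • p.2

theorem unit_prob : IsProbabilityMeasure (volume.restrict (Ioo (0 : ℝ) 1)) := ⟨by simp⟩

theorem tg_prob : IsProbabilityMeasure (tg d) := by
  have := unit_prob
  infer_instance

theorem tg_mem : ∀ᵐ p ∂tg d, p.1 ∈ Ioo (0 : ℝ) 1 :=
  (Measure.quasiMeasurePreserving_fst (μ := volume.restrict (Ioo (0 : ℝ) 1)) (ν := gam d)).ae
    (ae_restrict_mem measurableSet_Ioo)

theorem gam_norm_int : Integrable (fun z : Space d => ‖z‖) (gam d) :=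
  (IsGaussian.integrable_id (μ := gam d)).norm

theorem tg_norm_int : Integrable (fun p : ℝ × Space d => ‖p.2‖) (tg d) := by
  have := unit_prob
  exact Integrable.comp_snd gam_norm_int _

theorem continuous_mix (x : Space d) : Continuous (mix x) := by unfold mix; fun_prop

theorem continuous_mix_left (p : ℝ × Space d) : Continuous fun x => mix x p := by unfold mix; fun_prop

/-- The correlation weight has integral one. -/
theorem weight_spec :
    IntegrableOn (fun t : ℝ => t / Real.sqrt (1 - t ^ 2)) (Ioo 0 1) ∧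
      ∫ t in Ioo (0 : ℝ) 1, t / Real.sqrt (1 - t ^ 2) = 1 := by
  have hd : ∀ t ∈ Ioo (0 : ℝ) 1,
      HasDerivAt (fun t : ℝ => -Real.sqrt (1 - t ^ 2)) (t / Real.sqrt (1 - t ^ 2)) t := fun t ht => by
    have h0 : 0 < 1 - t ^ 2 := by nlinarith [ht.1, ht.2]
    refine (((hasDerivAt_pow 2 t).const_sub 1).sqrt h0.ne').neg.congr_deriv ?_
    have := (Real.sqrt_pos.2 h0).ne'
    field_simp
    norm_num
  have hc : ContinuousOn (fun t : ℝ => -Real.sqrt (1 - t ^ 2)) (Icc 0 1) :=
    (by fun_prop : Continuous fun t : ℝ => -Real.sqrt (1 - t ^ 2)).continuousOn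
  have hi := intervalIntegral.integrableOn_deriv_of_nonneg hc hd fun t ht =>
    div_nonneg ht.1.le (Real.sqrt_nonneg _)
  refine ⟨hi.mono_set Ioo_subset_Ioc_self, ?_⟩
  have h := intervalIntegral.integral_eq_sub_of_hasDerivAt_of_le zero_le_one hc hd
    ((intervalIntegrable_iff_integrableOn_Ioc_of_le zero_le_one).2 hi)
  rw [intervalIntegral.integral_of_le zero_le_one, integral_Ioc_eq_integral_Ioo] at h
  rw [h]
  norm_num

theorem weight_norm_int :
    Integrable (fun p : ℝ × Space d => p.1 / Real.sqrt (1 - p.1 ^ 2) * ‖p.2‖) (tg d) :=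
  Integrable.mul_prod weight_spec.1 gam_norm_int

/-- The norm of a linear image of a Gaussian vector is bounded in mean by the Hilbert-Schmidt
norm. -/
theorem mean_norm_le (M : Fin d → Fin d → ℝ) :
    ∫ z, ‖∑ j, (∑ i, M i j * z i) • ev j‖ ∂gam d ≤ Real.sqrt (∑ i, ∑ j, M i j ^ 2) := by
  set S := ∑ i, ∑ j, M i j ^ 2 with hS
  have e : ∀ z : Space d, ‖∑ j, (∑ i, M i j * z i) • ev j‖ ^ 2 = ∑ j, (∑ i, M i j * z i) ^ 2 :=
    fun z => by simp [EuclideanSpace.real_norm_sq_eq, ev, Pi.single_apply]
  have hq : ∀ j, ∫ z : Space d, (∑ i, M i j * z i) ^ 2 ∂gam d = ∑ i, M i j ^ 2 := fun j => by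
    have e1 : ∀ z : Space d, ⟪(WithLp.toLp 2 fun i => M i j : Space d), z⟫ = ∑ i, M i j * z i :=
      fun z => by simp [PiLp.inner_apply, mul_comm]
    have := integral_inner_sq (d := d) (WithLp.toLp 2 fun i => M i j)
    simp only [e1, EuclideanSpace.real_norm_sq_eq] at this
    exact this
  have hgi : ∀ j, Integrable (fun z : Space d => (∑ i, M i j * z i) ^ 2) (gam d) := fun j =>
    gam_int (by fun_prop)
      (grow_pow (grow_finsum _ fun i => grow_mul (grow_const (M i j)) (grow_coord i)) 2)
  have h2 : ∫ z : Space d, ‖∑ j, (∑ i, M i j * z i) • ev j‖ ^ 2 ∂gam d = S := by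
    simp only [e]
    rw [integral_finsetSum _ fun j _ => hgi j, hS, Finset.sum_comm]
    exact Finset.sum_congr rfl fun j _ => hq j
  have i2 : Integrable (fun z : Space d => ‖∑ j, (∑ i, M i j * z i) • ev j‖ ^ 2) (gam d) := by
    simp only [e]
    exact integrable_finsetSum _ fun j _ => hgi j
  refine le_of_forall_pos_le_add fun ε hε => ?_
  have ha : 0 < Real.sqrt S + ε := by positivity
  set a := Real.sqrt S + ε
  have hp : ∀ z : Space d, ‖∑ j, (∑ i, M i j * z i) • ev j‖
      ≤ ‖∑ j, (∑ i, M i j * z i) • ev j‖ ^ 2 / (2 * a) + a / 2 := fun z => by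
    set w := ‖∑ j, (∑ i, M i j * z i) • ev j‖
    have : w ^ 2 / (2 * a) + a / 2 - w = (w - a) ^ 2 / (2 * a) := by field_simp; ring
    nlinarith [div_nonneg (sq_nonneg (w - a)) (by positivity : (0 : ℝ) ≤ 2 * a)]
  refine (integral_mono_of_nonneg (ae_of_all _ fun z => norm_nonneg _)
    ((i2.div_const _).add (integrable_const _)) (ae_of_all _ hp)).trans ?_
  simp only [Pi.add_apply]
  rw [integral_add (i2.div_const _) (integrable_const _), integral_div, h2, integral_const,
    probReal_univ, one_smul]
  have hSa : S ≤ a * a := by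
    have h0 : 0 ≤ S := by positivity
    nlinarith [Real.mul_self_sqrt h0, Real.sqrt_nonneg S, mul_nonneg (Real.sqrt_nonneg S) hε.le,
      sq_nonneg ε]
  have h3 : S / (2 * a) ≤ a / 2 := by
    rw [div_le_iff₀ (by positivity)]; linarith
  linarith

/-- A test: twice continuously differentiable, gradient at most one, bounded second derivative. -/
structure Test (H : Space d → ℝ) (K : ℝ) : Prop where
  smooth : ContDiff ℝ 2 H
  grad : GradBound H 1
  hess : ∀ x, ‖fderiv ℝ (fderiv ℝ H) x‖ ≤ K

variable {H : Space d → ℝ} {K : ℝ}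

theorem Test.diff (h : Test H K) : Differentiable ℝ H := h.smooth.differentiable two_ne_zero

theorem Test.contD (h : Test H K) : Continuous (fderiv ℝ H) :=
  h.smooth.continuous_fderiv two_ne_zero

theorem Test.smoothD (h : Test H K) : ContDiff ℝ 1 (fderiv ℝ H) :=
  h.smooth.fderiv_right (by norm_num)

theorem Test.diffD (h : Test H K) : Differentiable ℝ (fderiv ℝ H) :=
  h.smoothD.differentiable one_ne_zero

theorem Test.contD2 (h : Test H K) : Continuous (fderiv ℝ (fderiv ℝ H)) :=
  h.smoothD.continuous_fderiv one_ne_zero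

theorem Test.lip (h : Test H K) (x y : Space d) : |H x - H y| ≤ ‖x - y‖ := by
  have := convex_univ.norm_image_sub_le_of_norm_fderiv_le (fun z _ => h.diff z)
    (fun z _ => h.grad z) (mem_univ y) (mem_univ x)
  simpa [Real.norm_eq_abs] using this

theorem Test.apply_le (h : Test H K) (y v : Space d) : |fderiv ℝ H y v| ≤ ‖v‖ := by
  have := (fderiv ℝ H y).le_of_opNorm_le (h.grad y) v
  simpa [Real.norm_eq_abs] using this

/-- The solution of the Stein equation. -/
def sol (H : Space d → ℝ) (x : Space d) : ℝ := -∫ p, (H (mix x p) - H p.2) / p.1 ∂tg d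

theorem Test.sol_int (h : Test H K) (x : Space d) :
    Integrable (fun p => (H (mix x p) - H p.2) / p.1) (tg d) := by
  have := tg_prob (d := d)
  have hm : Measurable fun p : ℝ × Space d => (H (mix x p) - H p.2) / p.1 :=
    ((h.smooth.continuous.comp (continuous_mix x)).sub
      (h.smooth.continuous.comp continuous_snd)).measurable.div measurable_fst
  refine Integrable.mono' ((integrable_const ‖x‖).add tg_norm_int) hm.aestronglyMeasurable ?_
  filter_upwards [tg_mem] with p hp
  rw [Real.norm_eq_abs, abs_div, abs_of_pos hp.1, div_le_iff₀ hp.1]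
  refine (h.lip _ _).trans ?_
  have e : mix x p - p.2 = p.1 • x + (Real.sqrt (1 - p.1 ^ 2) - 1) • p.2 := by
    unfold mix; module
  rw [e]
  refine (norm_add_le _ _).trans ?_
  rw [norm_smul, norm_smul, Real.norm_eq_abs, Real.norm_eq_abs, abs_of_pos hp.1]
  have h0 : 0 ≤ 1 - p.1 ^ 2 := by nlinarith [hp.1, hp.2]
  have hs := Real.sq_sqrt h0
  have hs1 : Real.sqrt (1 - p.1 ^ 2) ≤ 1 := Real.sqrt_le_one.2 (by nlinarith)
  have hw : |Real.sqrt (1 - p.1 ^ 2) - 1| ≤ p.1 := by
    rw [abs_le]
    constructor
    · nlinarith [Real.sqrt_nonneg (1 - p.1 ^ 2), hp.1, hp.2]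
    · linarith [hp.1]
  simp only [Pi.add_apply]
  nlinarith [mul_le_mul_of_nonneg_right hw (norm_nonneg p.2)]

theorem Test.dH_int (h : Test H K) (x : Space d) :
    Integrable (fun p => fderiv ℝ H (mix x p)) (tg d) := by
  have := tg_prob (d := d)
  exact Integrable.of_bound (h.contD.comp (continuous_mix x)).aestronglyMeasurable 1
    (ae_of_all _ fun p => h.grad _)

theorem Test.d2H_int (h : Test H K) (x : Space d) :
    Integrable (fun p : ℝ × Space d => p.1 • fderiv ℝ (fderiv ℝ H) (mix x p)) (tg d) := by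
  have := tg_prob (d := d)
  refine Integrable.of_bound
    (continuous_fst.smul (h.contD2.comp (continuous_mix x))).aestronglyMeasurable K ?_
  filter_upwards [tg_mem] with p hp
  rw [norm_smul, Real.norm_eq_abs, abs_of_pos hp.1]
  exact (mul_le_of_le_one_left (norm_nonneg _) hp.2.le).trans (h.hess _)

theorem Test.hasFDerivAt_sol (h : Test H K) (x : Space d) :
    HasFDerivAt (sol H) (-∫ p, fderiv ℝ H (mix x p) ∂tg d) x := by
  have := tg_prob (d := d)
  refine (hasFDerivAt_integral_of_dominated_of_fderiv_le (𝕜 := ℝ) (bound := fun _ => (1 : ℝ))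
    (F := fun x p => (H (mix x p) - H p.2) / p.1) (F' := fun x p => fderiv ℝ H (mix x p))
    Filter.univ_mem (Eventually.of_forall fun y => (h.sol_int y).aestronglyMeasurable)
    (h.sol_int x) (h.dH_int x).aestronglyMeasurable (ae_of_all _ fun p y _ => h.grad _)
    (integrable_const _) ?_).neg
  filter_upwards [tg_mem] with p hp y _
  have h1 : HasFDerivAt (fun y => mix y p) (p.1 • ContinuousLinearMap.id ℝ (Space d)) y := by
    unfold mix
    exact ((hasFDerivAt_id y).const_smul p.1).add_const _
  refine ((((h.diff (mix y p)).hasFDerivAt.comp y h1).sub_const (H p.2)).mul_const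
    p.1⁻¹).congr_of_eventuallyEq (Eventually.of_forall fun z => by simp [div_eq_mul_inv])
    |>.congr_fderiv ?_
  ext v
  simp only [smul_apply, ContinuousLinearMap.comp_apply,
    ContinuousLinearMap.id_apply, map_smul, smul_eq_mul]
  field_simp [hp.1.ne']

theorem Test.fderiv_sol (h : Test H K) :
    fderiv ℝ (sol H) = fun x => -∫ p, fderiv ℝ H (mix x p) ∂tg d :=
  funext fun x => (h.hasFDerivAt_sol x).fderiv

theorem Test.hasFDerivAt_dsol (h : Test H K) (x : Space d) :
    HasFDerivAt (fderiv ℝ (sol H)) (-∫ p, p.1 • fderiv ℝ (fderiv ℝ H) (mix x p) ∂tg d) x := by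
  have := tg_prob (d := d)
  rw [h.fderiv_sol]
  refine (hasFDerivAt_integral_of_dominated_of_fderiv_le (𝕜 := ℝ) (bound := fun _ => K)
    (F := fun x p => fderiv ℝ H (mix x p))
    (F' := fun x p => p.1 • fderiv ℝ (fderiv ℝ H) (mix x p))
    Filter.univ_mem (Eventually.of_forall fun y => (h.dH_int y).aestronglyMeasurable)
    (h.dH_int x) (h.d2H_int x).aestronglyMeasurable ?_ (integrable_const _) ?_).neg
  · filter_upwards [tg_mem] with p hp y _
    rw [norm_smul, Real.norm_eq_abs, abs_of_pos hp.1]
    exact (mul_le_of_le_one_left (norm_nonneg _) hp.2.le).trans (h.hess _)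
  · refine ae_of_all _ fun p y _ => ?_
    have h1 : HasFDerivAt (fun y => mix y p) (p.1 • ContinuousLinearMap.id ℝ (Space d)) y := by
      unfold mix
      exact ((hasFDerivAt_id y).const_smul p.1).add_const _
    refine ((h.diffD (mix y p)).hasFDerivAt.comp y h1).congr_fderiv ?_
    ext v w
    simp

theorem Test.contDiff_sol (h : Test H K) : ContDiff ℝ 2 (sol H) := by
  have := tg_prob (d := d)
  rw [show (2 : WithTop ℕ∞) = 1 + 1 from rfl, contDiff_succ_iff_fderiv]
  refine ⟨fun x => (h.hasFDerivAt_sol x).differentiableAt, fun e => absurd e (by simp),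
    contDiff_one_iff_fderiv.2 ⟨fun x => (h.hasFDerivAt_dsol x).differentiableAt, ?_⟩⟩
  rw [funext fun x => (h.hasFDerivAt_dsol x).fderiv]
  refine (continuous_of_dominated (bound := fun _ => K)
    (fun x => (h.d2H_int x).aestronglyMeasurable) (fun x => ?_) (integrable_const _)
    (ae_of_all _ fun p =>
      (h.contD2.comp (continuous_mix_left p)).const_smul p.1)).neg
  filter_upwards [tg_mem] with p hp
  rw [norm_smul, Real.norm_eq_abs, abs_of_pos hp.1]
  exact (mul_le_of_le_one_left (norm_nonneg _) hp.2.le).trans (h.hess _)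

theorem Test.grad_sol (h : Test H K) : GradBound (sol H) 1 := fun x => by
  have := tg_prob (d := d)
  rw [(h.hasFDerivAt_sol x).fderiv, norm_neg]
  simpa using norm_integral_le_of_norm_le_const (μ := tg d)
    (f := fun p => fderiv ℝ H (mix x p)) (C := 1) (ae_of_all _ fun p => h.grad _)

/-! ### Gaussian integration by parts of the second derivative -/

/-- The weight of the entry `i, j` of the second derivative. -/
def wt (H : Space d → ℝ) (x : Space d) (i j : Fin d) (p : ℝ × Space d) : ℝ :=
  p.1 / Real.sqrt (1 - p.1 ^ 2) * (p.2 i * fderiv ℝ H (mix x p) (ev j))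

theorem norm_ev (j : Fin d) : ‖ev j‖ = 1 := by simp [ev]

theorem Test.wt_int (h : Test H K) (x : Space d) (i j : Fin d) :
    Integrable (wt H x i j) (tg d) := by
  refine Integrable.mono' weight_norm_int ?_ ?_
  · unfold wt
    exact ((measurable_fst.div (by fun_prop : Measurable fun p : ℝ × Space d =>
      Real.sqrt (1 - p.1 ^ 2))).mul ((by fun_prop : Continuous fun p : ℝ × Space d =>
        p.2 i).mul ((h.contD.comp (continuous_mix x)).clm_apply
          continuous_const)).measurable).aestronglyMeasurable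
  · filter_upwards [tg_mem] with p hp
    rw [wt, Real.norm_eq_abs, abs_mul,
      abs_of_nonneg (div_nonneg hp.1.le (Real.sqrt_nonneg _)), abs_mul]
    refine mul_le_mul_of_nonneg_left ?_ (div_nonneg hp.1.le (Real.sqrt_nonneg _))
    have h1 := h.apply_le (mix x p) (ev j)
    rw [norm_ev] at h1
    calc |p.2 i| * |fderiv ℝ H (mix x p) (ev j)| ≤ ‖p.2‖ * 1 :=
          mul_le_mul (P245.abs_coord_le _ i) h1 (abs_nonneg _) (norm_nonneg _)
      _ = ‖p.2‖ := mul_one _

theorem Test.entry (h : Test H K) (x : Space d) (i j : Fin d) :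
    fderiv ℝ (fderiv ℝ (sol H)) x (ev i) (ev j) = -∫ p, wt H x i j p ∂tg d := by
  have := unit_prob
  have hi := h.d2H_int x
  rw [(h.hasFDerivAt_dsol x).fderiv]
  simp only [neg_apply, neg_inj]
  rw [ContinuousLinearMap.integral_apply hi,
    ContinuousLinearMap.integral_apply (hi.apply_continuousLinearMap (ev i))]
  simp only [smul_apply, smul_eq_mul]
  have ei : Integrable
      (fun p : ℝ × Space d => p.1 * fderiv ℝ (fderiv ℝ H) (mix x p) (ev i) (ev j)) (tg d) := by
    simpa using (hi.apply_continuousLinearMap (ev i)).apply_continuousLinearMap (ev j)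
  rw [integral_prod _ ei, integral_prod _ (h.wt_int x i j)]
  refine integral_congr_ae ?_
  filter_upwards [ae_restrict_mem measurableSet_Ioo] with t ht
  simp only [wt]
  set s := Real.sqrt (1 - t ^ 2) with hs
  have hs0 : 0 < s := Real.sqrt_pos.2 (by nlinarith [ht.1, ht.2])
  have hmz : Continuous fun z : Space d => mix x (t, z) :=
    (continuous_mix x).comp (by fun_prop)
  have hst := P245.stein (n := d) i (F := fun z => fderiv ℝ H (mix x (t, z)) (ev j))
    (F' := fun z => s * fderiv ℝ (fderiv ℝ H) (mix x (t, z)) (ev i) (ev j)) ?_ ?_ ?_ ?_ ?_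
  · rw [integral_const_mul, integral_const_mul, hst, integral_const_mul]
    field_simp
  · intro z
    refine DifferentiableAt.clm_apply ?_ (differentiableAt_const _)
    refine (h.diffD _).comp z ?_
    simp only [mix]
    exact ((differentiable_id.const_smul s).const_add (t • x)) z
  · intro z
    have h1 : HasDerivAt (fun r : ℝ => mix x (t, z + r • ev i)) (s • ev i) 0 := by
      simp only [mix]
      have := ((((hasDerivAt_id (0 : ℝ)).smul_const (ev i)).const_add z).const_smul s).const_add
        (t • x)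
      simpa using this
    have h2 := (h.diffD (mix x (t, z))).hasFDerivAt.comp_hasDerivAt_of_eq (0 : ℝ) h1 (by simp)
    have h3 := h2.clm_apply (hasDerivAt_const (0 : ℝ) (ev j))
    simpa [map_smul] using h3
  · exact continuous_const.mul
      (((h.contD2.comp hmz).clm_apply continuous_const).clm_apply continuous_const)
  · refine ⟨1, 0, fun z => ?_⟩
    simpa [norm_ev] using h.apply_le (mix x (t, z)) (ev j)
  · refine ⟨s * K, 0, fun z => ?_⟩
    have h1 := (fderiv ℝ (fderiv ℝ H) (mix x (t, z))).le_opNorm₂ (ev i) (ev j)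
    rw [norm_ev, norm_ev, mul_one, mul_one, Real.norm_eq_abs] at h1
    rw [abs_mul, abs_of_pos hs0, zero_mul, Real.exp_zero, mul_one]
    exact mul_le_mul_of_nonneg_left (h1.trans (h.hess _)) hs0.le

theorem Test.hess_sol (h : Test H K) : HessBound (sol H) 1 := by
  intro x
  have := unit_prob
  set M : Fin d → Fin d → ℝ := fun i j => fderiv ℝ (fderiv ℝ (sol H)) x (ev i) (ev j) with hM
  set S := ∑ i, ∑ j, M i j ^ 2 with hS
  set w : Space d → ℝ := fun z => ‖∑ j, (∑ i, M i j * z i) • ev j‖ with hw
  have hwi : Integrable w (gam d) :=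
    gam_int (by fun_prop) (grow_mono (f := w)
      (g := fun z => ∑ j, |∑ i, M i j * z i|)
      (grow_finsum _ fun j => by
        simpa only [Real.norm_eq_abs] using
          grow_norm (grow_finsum Finset.univ fun i => grow_mul (grow_const (M i j)) (grow_coord i)))
      fun z => by
        rw [Real.norm_eq_abs, Real.norm_eq_abs, abs_of_nonneg (norm_nonneg _)]
        refine le_trans ((norm_sum_le _ _).trans_eq ?_) (le_abs_self _)
        exact Finset.sum_congr rfl fun j _ => by
          rw [norm_smul, norm_ev, mul_one, Real.norm_eq_abs])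
  have hi : ∀ i j, Integrable (fun p => -M i j * wt H x i j p) (tg d) := fun i j =>
    (h.wt_int x i j).const_mul _
  have e1 : S = ∫ p, ∑ i, ∑ j, -M i j * wt H x i j p ∂tg d := by
    rw [integral_finsetSum _ fun i _ => integrable_finsetSum _ fun j _ => hi i j, hS]
    refine Finset.sum_congr rfl fun i _ => ?_
    rw [integral_finsetSum _ fun j _ => hi i j]
    refine Finset.sum_congr rfl fun j _ => ?_
    rw [integral_const_mul, neg_mul, ← mul_neg, ← h.entry x i j, sq]
  have hb : Integrable (fun p : ℝ × Space d => p.1 / Real.sqrt (1 - p.1 ^ 2) * w p.2) (tg d) :=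
    Integrable.mul_prod weight_spec.1 hwi
  have h1 : S ≤ Real.sqrt S := by
    rw [e1]
    refine (integral_mono_ae (integrable_finsetSum _ fun i _ => integrable_finsetSum _
      fun j _ => hi i j) hb ?_).trans ?_
    · filter_upwards [tg_mem] with p hp
      have e2 : ∑ i, ∑ j, -M i j * wt H x i j p = p.1 / Real.sqrt (1 - p.1 ^ 2)
          * -(fderiv ℝ H (mix x p) (∑ j, (∑ i, M i j * p.2 i) • ev j)) := by
        simp only [wt, map_sum, map_smul, smul_eq_mul, Finset.sum_mul, Finset.mul_sum,
          ← Finset.sum_neg_distrib]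
        rw [Finset.sum_comm]
        exact Finset.sum_congr rfl fun j _ => Finset.sum_congr rfl fun i _ => by ring
      rw [e2]
      refine mul_le_mul_of_nonneg_left ?_ (div_nonneg hp.1.le (Real.sqrt_nonneg _))
      exact (neg_le_abs _).trans (h.apply_le _ _)
    · rw [integral_prod_mul (fun t : ℝ => t / Real.sqrt (1 - t ^ 2)) w, weight_spec.2, one_mul]
      rw [← e1]
      exact mean_norm_le M
  have hS0 : 0 ≤ S := by positivity
  show S ≤ 1 ^ 2
  nlinarith [Real.mul_self_sqrt hS0, Real.sqrt_nonneg S]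

/-! ### The equation -/

theorem Test.steinOp_sol (h : Test H K) (x : Space d) :
    steinOp (sol H) x = H x - ∫ y, H y ∂gam d := by
  have := unit_prob
  have := tg_prob (d := d)
  set G : ℝ × Space d → ℝ := fun p =>
    fderiv ℝ H (mix x p) (x + (-(p.1 / Real.sqrt (1 - p.1 ^ 2))) • p.2) with hG
  have hda : Integrable (fun p => fderiv ℝ H (mix x p) x) (tg d) :=
    (h.dH_int x).apply_continuousLinearMap x
  have hwsum : Integrable (fun p => ∑ i, wt H x i i p) (tg d) :=
    integrable_finsetSum _ fun i _ => h.wt_int x i i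
  have eG : ∀ p, G p = fderiv ℝ H (mix x p) x - ∑ i, wt H x i i p := fun p => by
    have e : p.2 = ∑ i, p.2 i • ev i := by
      ext j
      simp [ev, Pi.single_apply]
    simp only [hG, map_add, map_smul, smul_eq_mul, wt, ← Finset.mul_sum]
    conv_lhs => arg 2; arg 2; arg 2; rw [e]
    simp only [map_sum, map_smul, smul_eq_mul]
    ring
  have hGi : Integrable G (tg d) := by
    rw [show G = fun p => fderiv ℝ H (mix x p) x - ∑ i, wt H x i i p from funext eG]
    exact hda.sub hwsum
  have e0 : steinOp (sol H) x = ∫ p, G p ∂tg d := by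
    simp only [steinOp, h.entry]
    rw [(h.hasFDerivAt_sol x).fderiv, neg_apply,
      ContinuousLinearMap.integral_apply (h.dH_int x), Finset.sum_neg_distrib,
      ← integral_finsetSum _ fun i _ => h.wt_int x i i]
    simp only [eG]
    rw [integral_sub hda hwsum]
    ring
  rw [e0, integral_prod_symm _ hGi]
  have key : ∀ᵐ z ∂gam d, ∫ t, G (t, z) ∂volume.restrict (Ioo (0 : ℝ) 1) = H x - H z := by
    filter_upwards [hGi.prod_left_ae] with z hz
    have hd : ∀ t ∈ Ioo (0 : ℝ) 1, HasDerivAt (fun t : ℝ => H (mix x (t, z))) (G (t, z)) t := by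
      intro t ht
      have h0 : 0 < 1 - t ^ 2 := by nlinarith [ht.1, ht.2]
      have h1 : HasDerivAt (fun t : ℝ => mix x (t, z))
          (x + (-(t / Real.sqrt (1 - t ^ 2))) • z) t := by
        simp only [mix]
        refine ((hasDerivAt_id t).smul_const x |>.add
          ((((hasDerivAt_pow 2 t).const_sub 1).sqrt h0.ne').smul_const z)).congr_deriv ?_
        have := (Real.sqrt_pos.2 h0).ne'
        rw [one_smul]
        congr 2
        field_simp
        norm_num
      exact (h.diff _).hasFDerivAt.comp_hasDerivAt t h1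
    have hc : ContinuousOn (fun t : ℝ => H (mix x (t, z))) (Icc 0 1) :=
      (h.smooth.continuous.comp ((continuous_mix x).comp (by fun_prop))).continuousOn
    have := intervalIntegral.integral_eq_sub_of_hasDerivAt_of_le zero_le_one hc hd
      ((intervalIntegrable_iff_integrableOn_Ioc_of_le zero_le_one).2
        ((integrableOn_Ioc_iff_integrableOn_Ioo).2 hz))
    rw [intervalIntegral.integral_of_le zero_le_one, integral_Ioc_eq_integral_Ioo] at this
    simpa [mix] using this
  rw [integral_congr_ae key, integral_sub (integrable_const _), integral_const, probReal_univ,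
    one_smul]
  refine tame_integrable h.smooth.continuous.measurable (tame_of_grow ⟨|H 0| + 1, 1, fun y => ?_⟩)
  rw [Real.norm_eq_abs, pow_one]
  have h1 := h.lip y 0
  rw [sub_zero] at h1
  nlinarith [abs_sub_abs_le_abs_sub (H y) (H 0), norm_nonneg y, abs_nonneg (H 0)]

end SteinAux

open SteinAux

/-- The Stein equation, with the bounds on its solution. -/
theorem stein_solution {H : Space d → ℝ} {K : ℝ} (hH : ContDiff ℝ 2 H) (hg : GradBound H 1)
    (hK : ∀ x, ‖fderiv ℝ (fderiv ℝ H) x‖ ≤ K) :
    ∃ U : Space d → ℝ, ContDiff ℝ 2 U ∧ GradBound U 1 ∧ HessBound U 1 ∧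
      ∀ x, steinOp U x = H x - ∫ y, H y ∂gam d :=
  have h : Test H K := ⟨hH, hg, hK⟩
  ⟨sol H, h.contDiff_sol, h.grad_sol, h.hess_sol, h.steinOp_sol⟩

/-! ### Lipschitz tests -/

namespace SteinAux

theorem lip_grow {f : Space d → ℝ} (hf : LipschitzWith 1 f) : Grow f := by
  refine ⟨|f 0| + 1, 1, fun y => ?_⟩
  rw [Real.norm_eq_abs, pow_one]
  have h1 := hf.dist_le_mul y 0
  rw [Real.dist_eq, dist_zero_right, NNReal.coe_one, one_mul] at h1
  nlinarith [abs_sub_abs_le_abs_sub (f y) (f 0), norm_nonneg y, abs_nonneg (f 0)]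

theorem sm_lip {f : Space d → ℝ} (hf : LipschitzWith 1 f) (s : ℝ) : LipschitzWith 1 (sm s f) := by
  have hi : ∀ a, Integrable (fun ξ => f (a + s • ξ)) (gam d) := fun a =>
    gam_int (hf.continuous.comp (by fun_prop)) (grow_comp (lip_grow hf) a s)
  refine LipschitzWith.of_dist_le_mul fun a b => ?_
  rw [NNReal.coe_one, one_mul, Real.dist_eq, sm, sm, ← integral_sub (hi a) (hi b)]
  rw [← Real.norm_eq_abs]
  refine le_trans (norm_integral_le_of_norm_le_const (C := dist a b)
    (ae_of_all _ fun ξ => ?_)) ?_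
  swap
  · simp
  have h1 := hf.dist_le_mul (a + s • ξ) (b + s • ξ)
  rw [NNReal.coe_one, one_mul, dist_add_right, Real.dist_eq] at h1
  exact h1

theorem sm_test {f : Space d → ℝ} (hf : LipschitzWith 1 f) {s : ℝ} (hs : 0 < s) :
    Test (sm s f) (s⁻¹ * ∫ ξ, ‖ξ‖ ∂gam d) := by
  have hm := hf.continuous.measurable
  have hT : Tame f := tame_of_grow (lip_grow hf)
  refine ⟨by exact_mod_cast contDiff_sm hs.ne' 2 hm hT, fun x => ?_, fun x => ?_⟩
  · simpa using norm_fderiv_le_of_lipschitz ℝ (sm_lip hf s) (x₀ := x)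
  set Kn : ℝ≥0 := ⟨s⁻¹ * ∫ ξ, ‖ξ‖ ∂gam d, by positivity⟩
  suffices hL : LipschitzWith Kn (fderiv ℝ (sm s f)) from
    norm_fderiv_le_of_lipschitz ℝ hL
  refine LipschitzWith.of_dist_le_mul fun a b => ?_
  obtain ⟨Da, ha, ea⟩ := hasFDerivAt_sm hs.ne' hm hT a
  obtain ⟨Db, hb, eb⟩ := hasFDerivAt_sm hs.ne' hm hT b
  rw [dist_eq_norm, ha.fderiv, hb.fderiv]
  refine ContinuousLinearMap.opNorm_le_bound _ (by positivity) fun e => ?_
  have hi : ∀ c, Integrable (fun ξ => f (c + s • ξ) * ⟪e, ξ⟫) (gam d) := fun c =>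
    gam_int ((hf.continuous.comp (by fun_prop)).mul (by fun_prop))
      (grow_mul (grow_comp (lip_grow hf) c s) (grow_inner e))
  rw [sub_apply, ea, eb, ← mul_sub, ← integral_sub (hi a) (hi b), norm_mul,
    Real.norm_eq_abs, abs_of_pos (inv_pos.2 hs)]
  show _ ≤ s⁻¹ * (∫ ξ, ‖ξ‖ ∂gam d) * dist a b * ‖e‖
  rw [mul_assoc, mul_assoc]
  refine mul_le_mul_of_nonneg_left ?_ (inv_pos.2 hs).le
  rw [← integral_mul_const]
  refine norm_integral_le_of_norm_le (gam_norm_int.mul_const _) (ae_of_all _ fun ξ => ?_)
  rw [← sub_mul, norm_mul, Real.norm_eq_abs, Real.norm_eq_abs]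
  have h1 := hf.dist_le_mul (a + s • ξ) (b + s • ξ)
  rw [NNReal.coe_one, one_mul, dist_add_right, Real.dist_eq] at h1
  refine (mul_le_mul h1 (abs_real_inner_le_norm e ξ) (abs_nonneg _) dist_nonneg).trans_eq ?_
  ring

theorem sm_close {f : Space d → ℝ} (hf : LipschitzWith 1 f) {s : ℝ} (hs : 0 ≤ s) (a : Space d) :
    |sm s f a - f a| ≤ s * ∫ ξ, ‖ξ‖ ∂gam d := by
  have hi : Integrable (fun ξ => f (a + s • ξ)) (gam d) :=
    gam_int (hf.continuous.comp (by fun_prop)) (grow_comp (lip_grow hf) a s)
  have e : sm s f a - f a = ∫ ξ, (f (a + s • ξ) - f a) ∂gam d := by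
    rw [integral_sub hi (integrable_const _), integral_const, probReal_univ, one_smul, sm]
  rw [e, ← integral_const_mul]
  rw [← Real.norm_eq_abs]
  refine norm_integral_le_of_norm_le ((gam_norm_int (d := d)).const_mul s) (ae_of_all _ fun ξ => ?_)
  have h1 := hf.dist_le_mul (a + s • ξ) a
  rw [NNReal.coe_one, one_mul, dist_self_add_left, norm_smul, Real.norm_eq_abs, abs_of_nonneg hs,
    Real.dist_eq] at h1
  exact h1

end SteinAux

open SteinAux

/-- Against Lipschitz tests the law of `X` is as close to the Gaussian law as its Stein operator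
is small on functions with first and second derivative at most one. -/
theorem stein_w1 {Ω : Type*} [MeasurableSpace Ω] {P : Measure Ω} [IsProbabilityMeasure P]
    {X : Ω → Space d} (hX : Integrable X P) {B : ℝ}
    (hB : ∀ U : Space d → ℝ, ContDiff ℝ 2 U → GradBound U 1 → HessBound U 1 →
      |∫ ω, steinOp U (X ω) ∂P| ≤ B)
    {H : Space d → ℝ} {L : ℝ≥0} (hH : LipschitzWith L H) :
    |(∫ ω, H (X ω) ∂P) - ∫ x, H x ∂gam d| ≤ B * L := by
  rcases eq_or_ne L 0 with rfl | hL
  · have hc : ∀ x, H x = H 0 := fun x => by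
      have := hH.dist_le_mul x 0
      simpa using this
    obtain ⟨c, rfl⟩ : ∃ c, H = fun _ => c := ⟨H 0, funext hc⟩
    simp
  have hL0 : (0 : ℝ) < L := by exact_mod_cast pos_iff_ne_zero.2 hL
  set f : Space d → ℝ := fun x => (L : ℝ)⁻¹ * H x with hfdef
  have hf : LipschitzWith 1 f := LipschitzWith.of_dist_le_mul fun x y => by
    rw [NNReal.coe_one, one_mul, Real.dist_eq, hfdef, ← mul_sub, abs_mul,
      abs_of_pos (inv_pos.2 hL0), inv_mul_le_iff₀ hL0, ← Real.dist_eq]
    exact hH.dist_le_mul x y
  have hXf : ∀ g : Space d → ℝ, LipschitzWith 1 g → Integrable (fun ω => g (X ω)) P :=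
    fun g hg => by
      refine Integrable.mono' ((hX.norm).add (integrable_const |g 0|))
        (hg.continuous.comp_aestronglyMeasurable hX.1) (ae_of_all _ fun ω => ?_)
      have h1 := hg.dist_le_mul (X ω) 0
      rw [NNReal.coe_one, one_mul, Real.dist_eq, dist_zero_right] at h1
      simp only [Pi.add_apply, Real.norm_eq_abs]
      linarith [abs_sub_abs_le_abs_sub (g (X ω)) (g 0)]
  set m := ∫ ξ, ‖ξ‖ ∂gam d with hm
  have hgf : Integrable f (gam d) := gam_int hf.continuous (lip_grow hf)
  have key : |(∫ ω, f (X ω) ∂P) - ∫ x, f x ∂gam d| ≤ B := by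
    refine le_of_forall_pos_le_add fun ε hε => ?_
    have hm0 : 0 ≤ m := by positivity
    set s := ε / (2 * (m + 1)) with hs
    have hs0 : 0 < s := by positivity
    obtain ⟨U, hU, hUg, hUh, hUe⟩ :=
      stein_solution (sm_test hf hs0).smooth (sm_test hf hs0).grad (sm_test hf hs0).hess
    have h0 := hB U hU hUg hUh
    simp only [hUe] at h0
    have hsX := hXf _ (sm_lip hf s)
    rw [integral_sub hsX (integrable_const _), integral_const, probReal_univ, one_smul] at h0
    have h1 : |(∫ ω, sm s f (X ω) ∂P) - ∫ ω, f (X ω) ∂P| ≤ s * m := by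
      rw [← integral_sub hsX (hXf f hf)]
      simpa using norm_integral_le_of_norm_le_const (μ := P)
        (f := fun ω => sm s f (X ω) - f (X ω)) (C := s * m)
        (ae_of_all _ fun ω => sm_close hf hs0.le _)
    have h2 : |(∫ x, sm s f x ∂gam d) - ∫ x, f x ∂gam d| ≤ s * m := by
      rw [← integral_sub (gam_int (sm_lip hf s).continuous (lip_grow (sm_lip hf s))) hgf]
      simpa using norm_integral_le_of_norm_le_const (μ := gam d)
        (f := fun x => sm s f x - f x) (C := s * m) (ae_of_all _ fun x => sm_close hf hs0.le _)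
    have h3 : s * m ≤ ε / 2 := by
      rw [hs, div_mul_eq_mul_div, div_le_iff₀ (by positivity)]
      nlinarith
    rw [abs_le] at h0 h1 h2 ⊢
    constructor <;> linarith [h0.1, h0.2, h1.1, h1.2, h2.1, h2.2]
  simp only [hfdef, integral_const_mul, ← mul_sub, abs_mul, abs_of_pos (inv_pos.2 hL0)] at key
  rw [inv_mul_le_iff₀ hL0, mul_comm] at key
  exact key

end Vale.Agent.P347.Zero
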