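import Vale.Agent.P347.Zero.Close
import Vale.Agent.P347.Zero.Stein

/-!
A small Stein operator gives closeness to a Gaussian law of any mean and scale.
-/

noncomputable section

open MeasureTheory ProbabilityTheory
open scoped NNReal

namespace Vale.Agent.P347.Zero

variable {d : ℕ} {α : Type} [MeasurableSpace α] {P : Measure α} [IsProbabilityMeasure P]
  {X : α → Space d} {B : ℝ}

/-- Closeness to the standard Gaussian law from the Stein operator. -/
theorem Close.of_stein (hX : Integrable X P)
    (hB : ∀ U : Space d → ℝ, ContDiff ℝ 2 U → GradBound U 1 → HessBound U 1 →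
      |∫ a, steinOp U (X a) ∂P| ≤ B) :
    Close P X (gam d) (fun z => z) B :=
  ⟨hX, IsGaussian.integrable_id, fun ψ hψ => (stein_w1 hX hB hψ).trans_eq (by simp)⟩

end Vale.Agent.P347.Zero
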