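import Vale.Agent.P347.Algo

/-!
Interfaces of the all-order bound `Q(d) ≤ d^ε`: the statement, and the abstract local sampler that the
outer chain consumes.
-/

noncomputable section

open MeasureTheory ProbabilityTheory Filter
open scoped RealInnerProductSpace NNReal

namespace Vale.Agent.P347.Zero

/-- Every positive exponent suffices: `Q(d) ≤ d^ε` for all large `d`. -/
def ZeroBound : Prop :=
  ∀ ε : ℝ, 0 < ε → ∃ d₀ : ℕ, ∀ d : ℕ, d₀ ≤ d →
    ∃ q : ℕ, (q : ℝ) ≤ (d : ℝ) ^ ε ∧ CanSample d q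

/-- A sampler with `q` gradient queries whose output, against Lipschitz tests, is within `e` of the
tilted Gaussian law smoothed by a Gaussian of variance `1 / 8`, for every potential whose gradient
is `h`-Lipschitz and of size at most `2 h √d`. -/
def SamplesLocal (d q : ℕ) (h e : ℝ) : Prop :=
  ∃ (ι : Type) (_ : Fintype ι) (F : (Space d → Space d) → (ι → Space d) → Space d),
    Computes q F ∧
      ∀ P : Pot d h, gsize P ≤ 2 * (h * Real.sqrt d) → ∀ (ψ : Space d → ℝ) (L : ℝ≥0),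
        LipschitzWith L ψ →
          Integrable (fun ω => ψ (F P.g ω)) (gp ι d) ∧
            |(∫ ω, ψ (F P.g ω) ∂gp ι d)
                - ∫ x, ∫ z, ψ (x + Real.sqrt (1 / 8) • z) ∂gam d ∂mu P| ≤ e * L

/-- Local sampling to every polynomial accuracy with `d^ε` queries, for tilts between `d⁻¹` and
`d^(-γ)`. -/
def LocalAll : Prop :=
  ∀ γ : ℝ, 0 < γ → γ ≤ 1 / 4 → ∀ κ : ℝ, 0 < κ → ∀ ε : ℝ, 0 < ε → ∀ᶠ d : ℕ in atTop,
    ∀ h : ℝ, (d : ℝ) ^ (-1 : ℝ) ≤ h → h ≤ (d : ℝ) ^ (-γ) →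
      ∃ q : ℕ, (q : ℝ) ≤ (d : ℝ) ^ ε ∧ SamplesLocal d q h ((d : ℝ) ^ (-κ))

end Vale.Agent.P347.Zero
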