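import Vale.Agent.P347.Zero.Appell
import Vale.Agent.P347.Zero.Burgers

/-!
The derivative tensors of the posterior mean of the gradient: every splitting of the `k`-th
derivative is bounded by `C h v^(-(k-1)/2)`, in every dimension and at every centre.
-/

noncomputable section

open MeasureTheory ProbabilityTheory Finset
open scoped RealInnerProductSpace Nat

namespace Vale.Agent.P347.Zero

open Ser

variable {d : ℕ} {h : ℝ}

/-! ### Series with differentiable entries -/

theorem contDiff_cv {ι : Type} {n : ℕ} : ∀ (l : List ι) (F G : Space d → List ι → ℝ),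
    (∀ m, m.length ≤ l.length → ContDiff ℝ n fun b => F b m) →
    (∀ m, m.length ≤ l.length → ContDiff ℝ n fun b => G b m) →
      ContDiff ℝ n fun b => cv (F b) (G b) l
  | [], _, _, hF, hG => (hF [] le_rfl).mul (hG [] le_rfl)
  | i :: l, F, G, hF, hG =>
    (contDiff_cv l (fun b => sh (F b) i) G (fun m hm => hF (i :: m) (by simpa using hm))
        fun m hm => hG m (by simp; omega)).add
      (contDiff_cv l F (fun b => sh (G b) i) (fun m hm => hF m (by simp; omega))
        fun m hm => hG (i :: m) (by simpa using hm))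

theorem contDiff_inv {ι : Type} {n : ℕ} {F : Space d → List ι → ℝ}
    (hF : ∀ m, ContDiff ℝ n fun b => F b m) (l : List ι) :
    ContDiff ℝ n fun b => Ser.inv (F b) l := by
  suffices H : ∀ (j : ℕ) (l : List ι), l.length ≤ j → ContDiff ℝ n fun b => Ser.inv (F b) l from
    H _ l le_rfl
  intro j
  induction j with
  | zero =>
    intro l hl
    rw [List.eq_nil_of_length_eq_zero (Nat.le_zero.1 hl)]
    exact contDiff_const
  | succ j ih =>
    rintro (_ | ⟨i, l⟩) hl
    · exact contDiff_const
    · simp only [List.length_cons, Nat.add_le_add_iff_right] at hl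
      have e : (fun b => Ser.inv (F b) (i :: l))
          = fun b => -cv (sh (F b) i) (cv (Ser.inv (F b)) (Ser.inv (F b))) l := by
        funext b
        rw [← sh_apply (Ser.inv (F b)), sh_inv]
        rfl
      rw [e]
      exact (contDiff_cv l _ (fun b => cv (Ser.inv (F b)) (Ser.inv (F b)))
        (fun m _ => hF (i :: m)) fun m hm => contDiff_cv m _ _
          (fun m' hm' => ih m' (by omega)) fun m' hm' => ih m' (by omega)).neg

theorem fderiv_cv {ι : Type} : ∀ (l : List ι) (F G : Space d → List ι → ℝ),
    (∀ m, Differentiable ℝ fun b => F b m) → (∀ m, Differentiable ℝ fun b => G b m) →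
      Differentiable ℝ (fun b => cv (F b) (G b) l) ∧ ∀ b e,
        fderiv ℝ (fun b => cv (F b) (G b) l) b e
          = cv (fun m => fderiv ℝ (fun c => F c m) b e) (G b) l
            + cv (F b) (fun m => fderiv ℝ (fun c => G c m) b e) l
  | [], F, G, hF, hG => by
    refine ⟨(hF []).mul (hG []), fun b e => ?_⟩
    simp only [cv_nil]
    rw [fderiv_fun_mul ((hF []) b) ((hG []) b), add_apply, smul_apply, smul_apply, smul_eq_mul,
      smul_eq_mul]
    ring
  | i :: l, F, G, hF, hG => by
    obtain ⟨a1, a2⟩ := fderiv_cv l (fun b => sh (F b) i) G (fun m => hF (i :: m)) hG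
    obtain ⟨b1, b2⟩ := fderiv_cv l F (fun b => sh (G b) i) hF fun m => hG (i :: m)
    simp only [cv_cons]
    refine ⟨a1.add b1, fun b e => ?_⟩
    rw [fderiv_fun_add (a1 b) (b1 b), add_apply, a2, b2]
    simp only [sh]
    exact add_add_add_comm _ _ _ _

/-- Multiplication by a series with constant term one is injective. -/
theorem cv_cancel {ι : Type} {M X Y : List ι → ℝ} (hM : M [] = 1) (h : cv M X = cv M Y) :
    X = Y := by
  have e : ∀ Z : List ι → ℝ, cv (Ser.inv M) (cv M Z) = Z := fun Z => funext fun l => by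
    rw [← cv_assoc, cv_congr l (cv (Ser.inv M) M) unit Z Z
      (fun l' _ => by rw [cv_comm, cv_inv hM]) (fun _ _ => rfl), cv_unit_left]
  rw [← e X, h, e Y]

/-! ### Moments of the posterior -/

/-- The posterior moments. -/
def pM (P : Pot d h) (v : ℝ) (a : Space d) : List (Fin d) → ℝ :=
  fun l => post P v (fun x => mon x l) a

/-- The posterior joint moments with a function. -/
def pG (P : Pot d h) (v : ℝ) (f : Space d → ℝ) (a : Space d) : List (Fin d) → ℝ :=
  fun l => post P v (fun x => f x * mon x l) a

/-- The posterior joint cumulants with a function. -/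
def pK (P : Pot d h) (v : ℝ) (f : Space d → ℝ) (a : Space d) : List (Fin d) → ℝ :=
  cv (Ser.inv (pM P v a)) (pG P v f a)

variable (P : Pot d h) {v : ℝ} {f : Space d → ℝ}

theorem pM_nil (a : Space d) : pM P v a [] = 1 := by
  have := mu_prob (P.aff a (Real.sqrt v))
  simp [pM, post]

theorem pK_nil (a : Space d) : pK P v f a [] = post P v f a := by simp [pK, pG]

theorem cv_pK (a : Space d) : cv (pM P v a) (pK P v f a) = pG P v f a := funext fun l => by
  rw [pK, ← cv_assoc, cv_inv (pM_nil P a), cv_unit_left]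

theorem symm_pK (a : Space d) : Symm (pK P v f a) :=
  (Symm.inv fun l l' hl => by simp only [pM, symm_mon _ l l' hl]).cv
    fun l l' hl => by simp only [pG, symm_mon _ l l' hl]

variable (hv : 0 < v) (hf : Measurable f) (hfg : Grow f)

include hv in
theorem contDiff_pM (l : List (Fin d)) (n : ℕ) : ContDiff ℝ n fun b => pM P v b l :=
  contDiff_post P hv (gd_mon l).meas (gd_mon l).grow n

include hv hf hfg

theorem contDiff_pG (l : List (Fin d)) (n : ℕ) : ContDiff ℝ n fun b => pG P v f b l :=
  contDiff_post P hv (hf.mul (gd_mon l).meas) (grow_mul hfg (gd_mon l).grow) n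

theorem contDiff_pK (l : List (Fin d)) (n : ℕ) : ContDiff ℝ n fun b => pK P v f b l :=
  contDiff_cv l _ _ (fun m _ => contDiff_inv (fun m' => contDiff_pM P hv m' n) m)
    fun m _ => contDiff_pG P hv hf hfg m n

/-- Differentiating in the centre adds a leg. -/
theorem fderiv_pK (a : Space d) (i : Fin d) (l : List (Fin d)) :
    fderiv ℝ (fun b => pK P v f b l) a (ev i) = v⁻¹ * pK P v f a (i :: l) := by
  set M := pM P v a with hM
  set K := pK P v f a with hK
  set G := pG P v f a with hG
  have hev : ∀ x : Space d, ⟪ev i, x⟫ = x i := fun x => by simp [EuclideanSpace.inner_single_left]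
  have hμ : post P v (fun x => ⟪ev i, x⟫) a = M [i] := by simp [hM, pM, hev, mon_cons]
  have dM : ∀ m, fderiv ℝ (fun b => pM P v b m) a (ev i) = v⁻¹ * (M (i :: m) - M [i] * M m) := by
    intro m
    rw [show (fun b => pM P v b m) = post P v (fun x => mon x m) from rfl,
      fderiv_post P hv (gd_mon m).meas (gd_mon m).grow, hμ]
    simp only [hM, pM, hev, mon_cons]
    rw [mul_comm (post P v (fun x => mon x m) a)]
    simp [mul_comm]
  have dG : ∀ m, fderiv ℝ (fun b => pG P v f b m) a (ev i) = v⁻¹ * (G (i :: m) - M [i] * G m) := by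
    intro m
    rw [show (fun b => pG P v f b m) = post P v (fun x => f x * mon x m) from rfl,
      fderiv_post P hv (f := fun x => f x * mon x m) (hf.mul (gd_mon m).meas)
        (grow_mul hfg (gd_mon m).grow), hμ]
    simp only [hG, pG, hev, mon_cons]
    rw [mul_comm (post P v (fun x => f x * mon x m) a)]
    simp [mul_comm, mul_assoc]
  set DK : List (Fin d) → ℝ := fun m => fderiv ℝ (fun b => pK P v f b m) a (ev i) with hDK
  suffices h0 : DK = v⁻¹ • sh K i from congrFun h0 l
  refine cv_cancel (M := M) (pM_nil P a) (funext fun m => ?_)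
  have hd := (fderiv_cv m (pM P v) (pK P v f)
    (fun m' => (contDiff_pM P hv m' 1).differentiable (by norm_num))
    fun m' => (contDiff_pK P hv hf hfg m' 1).differentiable (by norm_num)).2 a (ev i)
  rw [show (fun b => cv (pM P v b) (pK P v f b) m) = fun b => pG P v f b m from
      funext fun b => congrFun (cv_pK P b) m, dG,
    show (fun m' => fderiv ℝ (fun c => pM P v c m') a (ev i))
      = v⁻¹ • (sh M i - M [i] • M) from funext fun m' => by simp [dM],
    cv_smul_left, cv_sub_left, cv_smul_left, ← hM, ← hK] at hd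
  rw [cv_smul_right]
  have e1 : G (i :: m) = cv (sh M i) K m + cv M (sh K i) m := by
    rw [hG, ← cv_pK P a, cv_cons]
  have e2 : cv M K m = G m := congrFun (cv_pK P a) m
  rw [← hDK, e1, e2] at hd
  linear_combination -hd

/-- Every derivative of a posterior average is a joint cumulant. -/
theorem iterated_post : ∀ (k : ℕ) (a : Space d) (w : Fin k → Fin d),
    iteratedFDeriv ℝ k (post P v f) a (fun j => ev (w j))
      = v⁻¹ ^ k * pK P v f a (List.ofFn w)
  | 0, a, w => by simp [pK_nil]
  | k + 1, a, w => by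
    have hk : DifferentiableAt ℝ (iteratedFDeriv ℝ k (post P v f)) a :=
      (contDiff_post P hv hf hfg (k + 1)).differentiable_iteratedFDeriv
        (by exact_mod_cast Nat.lt_succ_self k) a
    rw [iteratedFDeriv_succ_apply_left]
    have e : (fun b => iteratedFDeriv ℝ k (post P v f) b (Fin.tail fun j => ev (w j)))
        = fun b => v⁻¹ ^ k * pK P v f b (List.ofFn (Fin.tail w)) :=
      funext fun b => iterated_post k b (Fin.tail w)
    have hap := fderiv_continuousMultilinear_apply_const hk (Fin.tail fun j => ev (w j))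
    rw [e, fderiv_const_mul ((contDiff_pK P hv hf hfg _ 1).differentiable (by norm_num) a)] at hap
    have hap2 := congrArg (fun T => T (ev (w 0))) hap
    simp only [smul_apply, ContinuousLinearMap.flipMultilinear_apply_apply, smul_eq_mul] at hap2
    rw [← hap2, fderiv_pK P hv hf hfg, List.ofFn_succ, pow_succ]
    simp only [Fin.tail_def]
    ring

omit hf hfg hv

/-- Reduction to unit variance. -/
theorem pK_eq_scale {h' : ℝ} {L : ℝ} (g : Space d → Space d) (hg : ContDiff ℝ 1 g)
    (hL : ∀ x y, ‖g x - g y‖ ≤ L * ‖x - y‖) (hL0 : 0 ≤ L) (a : Space d) (e : Fin d)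
    (Q : Pot d h') (hQ : mu Q = mu (P.aff a (Real.sqrt v)))
    (hge : ∀ ξ, g ξ e = f (a + Real.sqrt v • ξ)) :
    pK P v f a = scale (Real.sqrt v) (kap Q g e) := by
  set s := Real.sqrt v
  have hmon : ∀ (ξ : Space d) (l : List (Fin d)),
      mon (a + s • ξ) l = cv (mon a) (scale s (mon ξ)) l := by
    intro ξ l
    induction l with
    | nil => simp [scale]
    | cons i l ih =>
      have e2 : sh (scale s (mon ξ)) i = (s * ξ i) • scale s (mon ξ) := by
        funext m; simp [scale, mon_cons, pow_succ]; ring
      rw [mon_cons, cv_cons, sh_mon, cv_smul_left, e2, cv_smul_right, ← ih]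
      simp; ring
  have hscM : ∀ m, Gd fun ξ : Space d => scale s (mon ξ) m := fun m => (gd_mon m).smul _
  have eM : pM P v a = cv (mon a) (scale s (mom Q)) := funext fun l => by
    show ∫ ξ, mon (a + s • ξ) l ∂mu (P.aff a s) = _
    simp only [hmon]
    rw [← hQ, (cv_lin Q l _ _ hscM).2.2]
    exact congrArg (fun F => cv (mon a) F l) (funext fun m => integral_const_mul _ _)
  have hgG : ∀ m, Gd fun ξ : Space d => (g ξ e • scale s (mon ξ)) m := fun m =>
    (gd_coord hg hL hL0 e).mul (hscM m)
  have eG : pG P v f a = cv (mon a) (scale s (gmom Q g e)) := funext fun l => by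
    show ∫ ξ, f (a + s • ξ) * mon (a + s • ξ) l ∂mu (P.aff a s) = _
    have e2 : ∀ ξ, f (a + s • ξ) * mon (a + s • ξ) l
        = cv (mon a) (g ξ e • scale s (mon ξ)) l := fun ξ => by
      rw [cv_smul_right, ← hmon, hge]
    simp only [e2]
    rw [← hQ, (cv_lin Q l _ _ hgG).2.2]
    refine congrArg (fun F => cv (mon a) F l) (funext fun m => ?_)
    simp only [scale, gmom, Pi.smul_apply, smul_eq_mul, ← integral_const_mul]
    congr 1
    funext ξ
    ring
  refine cv_cancel (M := pM P v a) (pM_nil P a) ?_
  rw [cv_pK, eM, eG]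
  funext l
  rw [cv_assoc]
  refine cv_congr l _ _ _ _ (fun _ _ => rfl) fun l' _ => ?_
  rw [cv_scale]
  have e3 : cv (mom Q) (kap Q g e) l' = gmom Q g e l' := by
    rw [kap, ← cv_assoc, cv_inv (mom_nil Q), cv_unit_left]
  rw [e3]
  rfl

/-! ### Splittings -/

theorem ms_option {β γ : Type} [Fintype β] (F : Option β → γ) :
    (Finset.univ : Finset (Option β)).val.map F
      = F none ::ₘ (Finset.univ : Finset β).val.map (F ∘ some) := by
  simp [univ_option, Finset.insertNone, Multiset.map_map]

theorem ms_sum {α β γ : Type} [Fintype α] [Fintype β] (F : α ⊕ β → γ) :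
    (Finset.univ : Finset (α ⊕ β)).val.map F
      = (Finset.univ : Finset α).val.map (F ∘ Sum.inl)
        + (Finset.univ : Finset β).val.map (F ∘ Sum.inr) := by
  rw [← Finset.univ_disjSum_univ, Finset.val_disjSum, Multiset.disjSum, Multiset.map_add,
    Multiset.map_map, Multiset.map_map]

/-- The tensor of joint cumulants. -/
def kapT (Q : Pot d h) (g : Space d → Space d) (k : ℕ) : Ten d (Option (Fin k)) :=
  fun idx => kap Q g (idx none) (List.ofFn fun j => idx (some j))

/-- The cumulant tensors are bounded on every splitting. -/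
theorem kapT_splitB (k : ℕ) : ∃ C : ℝ, 0 ≤ C ∧ ∀ (d : ℕ) (h : ℝ) (Q : Pot d h)
    (g : Space d → Space d) (L : ℝ), ContDiff ℝ 1 g → (∀ x y, ‖g x - g y‖ ≤ L * ‖x - y‖) → 0 ≤ L →
      SplitB (C * L) (kapT Q g k) := by
  choose C hC hb using kap_bound
  refine ⟨∑ p ∈ range (k + 1), ∑ q ∈ range (k + 1), C p q,
    Finset.sum_nonneg fun p _ => Finset.sum_nonneg fun q _ => hC p q,
    fun d h Q g L hg hL hL0 => ?_⟩
  have key : ∀ (A B : Type) [Fintype A] [DecidableEq A] [Fintype B] [DecidableEq B] [Nonempty B]
      (e : A ⊕ B ≃ Option (Fin k)) (a₀ : A), e (.inl a₀) = none →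
        MatB ((∑ p ∈ range (k + 1), ∑ q ∈ range (k + 1), C p q) * L)
          fun u w => kapT Q g k (glue e u w) := by
    intro A B _ _ _ _ _ e a₀ he
    obtain ⟨q, hq⟩ := Nat.exists_eq_add_one_of_ne_zero (Fintype.card_ne_zero (α := B))
    set p := Fintype.card {a : A // a ≠ a₀}
    let eA : Option (Fin p) ≃ A :=
      (Equiv.optionCongr (Fintype.equivFin {a : A // a ≠ a₀}).symm).trans (Equiv.optionSubtypeNe a₀)
    let eB : Fin (q + 1) ≃ B := (finCongr hq.symm).trans (Fintype.equivFin B).symm
    have hcard : p + 1 + (q + 1) = k + 1 := by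
      have h1 := Fintype.card_congr e
      rw [Fintype.card_sum, ← Fintype.card_congr eA, ← Fintype.card_congr eB] at h1
      simpa using h1
    have hC' : C p q ≤ ∑ p ∈ range (k + 1), ∑ q ∈ range (k + 1), C p q :=
      (Finset.single_le_sum (fun i _ => hC p i) (Finset.mem_range.2 (by omega))).trans
        (Finset.single_le_sum (f := fun p => ∑ q ∈ range (k + 1), C p q)
          (fun i _ => Finset.sum_nonneg fun j _ => hC i j) (Finset.mem_range.2 (by omega)))
    have h0 : MatB ((∑ p ∈ range (k + 1), ∑ q ∈ range (k + 1), C p q) * L)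
        fun (a : Fin d × (Fin p → Fin d)) (w : Fin (q + 1) → Fin d) =>
          kap Q g a.1 (List.ofFn a.2 ++ List.ofFn w) := by
      refine ⟨mul_nonneg (le_trans (hC p q) hC') hL0, fun x y => ?_⟩
      refine (le_of_eq ?_).trans ((hb p q d h Q g L hg hL hL0 x y).trans ?_)
      · congr 1
        exact Finset.sum_congr rfl fun a _ => Finset.sum_congr rfl fun w _ => by ring
      · exact mul_le_mul_of_nonneg_right (mul_le_mul_of_nonneg_right
          (mul_le_mul_of_nonneg_right hC' hL0) (nrm_nonneg _)) (nrm_nonneg _)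
    have h1 := h0.equiv
      ((Equiv.arrowCongr eA.symm (Equiv.refl (Fin d))).trans Equiv.piOptionEquivProd)
      (Equiv.arrowCongr eB.symm (Equiv.refl (Fin d)))
    convert h1 using 1
    funext u w
    have hn : glue e u w none = u (eA none) := by
      have e0 : eA none = a₀ := rfl
      rw [e0, glue, Function.comp_apply, ← he, Equiv.symm_apply_apply]
      rfl
    show kap Q g (glue e u w none) _ = kap Q g (u (eA none))
      (List.ofFn (fun i => u (eA (some i))) ++ List.ofFn fun i => w (eB i))
    rw [hn]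
    refine symm_kap Q g _ _ _ (Multiset.coe_eq_coe.1 ?_)
    rw [← Multiset.coe_add, ← Multiset.cons_inj_right (glue e u w none)]
    simp only [← Fin.univ_val_map]
    show _ ::ₘ Multiset.map (glue e u w ∘ some) _ = _
    rw [← ms_option (glue e u w), ← Multiset.map_univ_val_equiv e, Multiset.map_map, ms_sum,
      ← Multiset.map_univ_val_equiv eA, ← Multiset.map_univ_val_equiv eB, Multiset.map_map,
      Multiset.map_map, ms_option, Multiset.cons_add, hn]
    simp [glue, Function.comp_def]
  intro A B _ _ _ _ _ _ e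
  rcases he : e.symm none with a₀ | b₀
  · exact key A B e a₀ (by rw [← he, Equiv.apply_symm_apply])
  · have h1 := key B A ((Equiv.sumComm B A).trans e) b₀ (by simp [← he])
    convert h1.flip using 1
    funext u w
    congr 1
    funext o
    simp only [glue, Function.comp_apply, Equiv.symm_trans_apply, Equiv.sumComm_symm,
      Equiv.sumComm_apply]
    rcases e.symm o with a | b <;> rfl

/-- The `k`-th derivative of the posterior mean of the gradient, the output leg first. -/
def driftT (P : Pot d h) (v : ℝ) (k : ℕ) (a : Space d) : Ten d (Option (Fin k)) :=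
  fun idx => iteratedFDeriv ℝ k (post P v fun x => P.g x (idx none)) a fun j => ev (idx (some j))

theorem driftT_eq_drift (k : ℕ) (a : Space d) (idx : Option (Fin k) → Fin d) :
    driftT P v k a idx
      = iteratedFDeriv ℝ k (fun b => drift P (idx none) (v, b)) a fun j => ev (idx (some j)) := rfl

include hv in
theorem driftT_eq_pK (k : ℕ) (a : Space d) (idx : Option (Fin k) → Fin d) :
    driftT P v k a idx
      = v⁻¹ ^ k * pK P v (fun x => P.g x (idx none)) a (List.ofFn fun j => idx (some j)) :=
  iterated_post P hv (measurable_gcoord P _) (grow_gcoord P _) k a fun j => idx (some j)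

include hv in
theorem contDiff_driftT (n k : ℕ) (idx : Option (Fin k) → Fin d) :
    ContDiff ℝ n fun a => driftT P v k a idx := by
  simp only [driftT_eq_pK P hv]
  exact contDiff_const.mul (contDiff_pK P hv (measurable_gcoord P _) (grow_gcoord P _) _ n)

include hv in
/-- The step to the next order. -/
theorem fderiv_driftT (k : ℕ) (a : Space d) (idx : Option (Fin k) → Fin d) (i : Fin d) :
    fderiv ℝ (fun b => driftT P v k b idx) a (ev i)
      = driftT P v (k + 1) a fun o => o.elim (idx none) (Fin.cons i fun j => idx (some j)) := by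
  simp only [driftT_eq_pK P hv]
  rw [fderiv_const_mul ((contDiff_pK P hv (measurable_gcoord P _) (grow_gcoord P _) _ 1).differentiable
    (by norm_num) a), smul_apply, fderiv_pK P hv (measurable_gcoord P _) (grow_gcoord P _)]
  simp [List.ofFn_succ, pow_succ]
  ring

/-- The derivative tensors of the drift are bounded on every splitting. -/
theorem drift_splitB (k : ℕ) : ∃ C : ℝ, 0 ≤ C ∧ ∀ (d : ℕ) (h : ℝ) (P : Pot d h) (v : ℝ), 0 < v →
    ∀ a, SplitB (C * h * v ^ (-((k : ℝ) - 1) / 2)) (driftT P v k a) := by
  obtain ⟨C, hC, hb⟩ := kapT_splitB k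
  refine ⟨C, hC, fun d h P v hv a => ?_⟩
  set s := Real.sqrt v with hs
  set g : Space d → Space d := fun ξ => P.g (a + s • ξ) with hg
  have hgc : ContDiff ℝ 1 g := P.smooth.comp (by fun_prop)
  have hgl : ∀ x y, ‖g x - g y‖ ≤ h * s * ‖x - y‖ := fun x y => by
    refine (P.lip _ _).trans_eq ?_
    rw [add_sub_add_left_eq_sub, ← smul_sub, norm_smul, Real.norm_eq_abs,
      abs_of_nonneg (Real.sqrt_nonneg v)]
    ring
  have hL : 0 ≤ h * s := mul_nonneg P.h_nonneg (Real.sqrt_nonneg v)
  have e : driftT P v k a = (v⁻¹ ^ k * s ^ k) • kapT (P.aff a s) g k := by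
    funext idx
    rw [driftT_eq_pK P hv, pK_eq_scale P g hgc hgl hL a (idx none) (P.aff a s) rfl fun ξ => rfl]
    simp [kapT, scale, ← hs, mul_assoc]
  have hval : |v⁻¹ ^ k * s ^ k| * (C * (h * s)) = C * h * v ^ (-((k : ℝ) - 1) / 2) := by
    rw [abs_of_nonneg (by positivity)]
    have e1 : v⁻¹ ^ k * s ^ (k + 1) = v ^ (-((k : ℝ) - 1) / 2) := by
      rw [hs, Real.sqrt_eq_rpow, ← Real.rpow_natCast, ← Real.rpow_natCast,
        Real.inv_rpow hv.le, ← Real.rpow_neg hv.le, ← Real.rpow_mul hv.le, ← Real.rpow_add hv]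
      congr 1
      push_cast
      ring
    rw [← e1]
    ring
  rw [e, ← hval]
  exact (hb d _ (P.aff a s) g _ hgc hgl hL).smul _

/-- The posterior mean of the gradient is Lipschitz at the size of the gradient. -/
theorem drift_lipschitz : ∃ C : ℝ, 0 ≤ C ∧ ∀ (d : ℕ) (h : ℝ) (P : Pot d h) (v : ℝ), 0 < v →
    ∀ a e : Space d, ∑ i, fderiv ℝ (post P v fun x => P.g x i) a e ^ 2 ≤ (C * h) ^ 2 * ‖e‖ ^ 2 := by
  obtain ⟨C, hC, hb⟩ := drift_splitB 1
  refine ⟨C, hC, fun d h P v hv a e => ?_⟩
  have h1 := hb d h P v hv a Unit Unit ((Equiv.sumComm Unit Unit).trans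
    ((Equiv.sumCongr (finOneEquiv.symm) (Equiv.refl Unit)).trans
      (Equiv.optionEquivSumPUnit (Fin 1)).symm))
  rw [Nat.cast_one, sub_self, neg_zero, zero_div, Real.rpow_zero, mul_one] at h1
  have h2 := (h1.equiv (Equiv.funUnique Unit (Fin d)).symm
    (Equiv.funUnique Unit (Fin d)).symm).flip.apply fun j => e j
  rw [EuclideanSpace.real_norm_sq_eq]
  refine le_trans (le_of_eq ?_) h2
  refine Finset.sum_congr rfl fun i _ => ?_
  congr 1
  have he : e = ∑ j, e j • ev j := by
    ext i; simp [Finset.sum_apply, Pi.single_apply]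
  conv_lhs => rw [he]
  rw [map_sum]
  refine Finset.sum_congr rfl fun j _ => ?_
  rw [map_smul, smul_eq_mul, mul_comm]
  congr 1
  simp [driftT, glue]

end Vale.Agent.P347.Zero
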