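import Vale.Agent.P347.Zero.Burgers

/-!
Families of tensor fields over (variance, centre): derivative in the centre, the Burgers operator,
and their rules for contractions.
-/

noncomputable section

open Filter Topology Set
open scoped RealInnerProductSpace ContDiff

namespace Vale.Agent.P347.Zero

variable {d : ℕ} {h : ℝ}

/-- Smooth of every order on positive variances. -/
def CSm (f : ℝ × Space d → ℝ) : Prop := ∀ k : ℕ, ContDiffOn ℝ k f (posV d)

/-- The directional derivative. -/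
def wD (w : ℝ × Space d) (f : ℝ × Space d → ℝ) (q : ℝ × Space d) : ℝ := fderiv ℝ f q w

theorem CSm.diff {f : ℝ × Space d → ℝ} (hf : CSm f) {q : ℝ × Space d} (hq : 0 < q.1) :
    DifferentiableAt ℝ f q :=
  ((hf 1).differentiableOn (by simp)).differentiableAt (isOpen_posV.mem_nhds hq)

theorem CSm.wD {f : ℝ × Space d → ℝ} (hf : CSm f) (w : ℝ × Space d) : CSm (Zero.wD w f) :=
  fun k => ((hf (k + 1)).fderiv_of_isOpen isOpen_posV (by norm_cast)).clm_apply contDiffOn_const

theorem CSm.pD {f : ℝ × Space d → ℝ} (hf : CSm f) (c : Fin d) : CSm (Zero.pD c f) := hf.wD _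

theorem CSm.tD {f : ℝ × Space d → ℝ} (hf : CSm f) : CSm (Zero.tD f) := hf.wD _

theorem CSm.add {f g : ℝ × Space d → ℝ} (hf : CSm f) (hg : CSm g) : CSm fun q => f q + g q :=
  fun k => (hf k).add (hg k)

theorem CSm.mul {f g : ℝ × Space d → ℝ} (hf : CSm f) (hg : CSm g) : CSm fun q => f q * g q :=
  fun k => (hf k).mul (hg k)

theorem CSm.sum {ι : Type} [Fintype ι] {f : ι → ℝ × Space d → ℝ} (hf : ∀ i, CSm (f i)) :
    CSm fun q => ∑ i, f i q := fun k => ContDiffOn.sum fun i _ => hf i k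

theorem csm_drift (P : Pot d h) (i : Fin d) : CSm (drift P i) := contDiffOn_drift P i

theorem CSm.congr {f g : ℝ × Space d → ℝ} (hf : CSm f)
    (he : ∀ q : ℝ × Space d, 0 < q.1 → g q = f q) : CSm g := fun k => (hf k).congr fun q hq => he q hq

theorem wD_congr {f g : ℝ × Space d → ℝ} (he : ∀ q : ℝ × Space d, 0 < q.1 → f q = g q)
    {q : ℝ × Space d} (hq : 0 < q.1) (w : ℝ × Space d) : wD w f q = wD w g q := by
  rw [wD, wD, (Filter.eventuallyEq_of_mem (isOpen_posV.mem_nhds hq) fun p hp => he p hp).fderiv_eq]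

theorem wD_add {f g : ℝ × Space d → ℝ} (hf : CSm f) (hg : CSm g) {q : ℝ × Space d} (hq : 0 < q.1)
    (w : ℝ × Space d) : wD w (fun p => f p + g p) q = wD w f q + wD w g q := by
  rw [wD, ((hf.diff hq).hasFDerivAt.fun_add (hg.diff hq).hasFDerivAt).fderiv]
  rfl

theorem wD_mul {f g : ℝ × Space d → ℝ} (hf : CSm f) (hg : CSm g) {q : ℝ × Space d} (hq : 0 < q.1)
    (w : ℝ × Space d) : wD w (fun p => f p * g p) q = wD w f q * g q + f q * wD w g q := by
  rw [wD, ((hf.diff hq).hasFDerivAt.fun_mul (hg.diff hq).hasFDerivAt).fderiv]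
  simp [wD]
  ring

theorem wD_sum {ι : Type} [Fintype ι] {f : ι → ℝ × Space d → ℝ} (hf : ∀ i, CSm (f i))
    {q : ℝ × Space d} (hq : 0 < q.1) (w : ℝ × Space d) :
    wD w (fun p => ∑ i, f i p) q = ∑ i, wD w (f i) q := by
  rw [wD, (HasFDerivAt.fun_sum fun i _ => ((hf i).diff hq).hasFDerivAt).fderiv]
  simp [wD]

theorem wD_const_mul {f : ℝ × Space d → ℝ} (hf : CSm f) (a : ℝ) {q : ℝ × Space d} (hq : 0 < q.1)
    (w : ℝ × Space d) : wD w (fun p => a * f p) q = a * wD w f q := by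
  rw [wD, ((hf.diff hq).hasFDerivAt.const_mul a).fderiv]
  simp [wD]

theorem wD_comm {f : ℝ × Space d → ℝ} (hf : CSm f) {q : ℝ × Space d} (hq : 0 < q.1)
    (w w' : ℝ × Space d) : wD w (wD w' f) q = wD w' (wD w f) q := by
  have hd : DifferentiableAt ℝ (fderiv ℝ f) q :=
    (((hf 2).fderiv_of_isOpen isOpen_posV (m := 1) le_rfl).differentiableOn
      one_ne_zero).differentiableAt (isOpen_posV.mem_nhds hq)
  have e : ∀ u v, wD u (wD v f) q = fderiv ℝ (fderiv ℝ f) q u v := fun u v => by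
    show fderiv ℝ (fun p => fderiv ℝ f p v) q u = _
    rw [fderiv_clm_apply hd (differentiableAt_const v)]
    simp
  rw [e, e]
  exact ((hf 2).contDiffAt (isOpen_posV.mem_nhds hq)).isSymmSndFDerivAt (by simp) w w'

/-- The operator `-∂_v + Δ/2 - u ∇`. -/
def bopS (P : Pot d h) (f : ℝ × Space d → ℝ) (q : ℝ × Space d) : ℝ :=
  -tD f q + lapA f q / 2 - ∑ c, drift P c q * pD c f q

theorem CSm.bopS {f : ℝ × Space d → ℝ} (hf : CSm f) (P : Pot d h) : CSm (Zero.bopS P f) := fun k =>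
  ((hf.tD k).neg.add ((ContDiffOn.sum fun c _ => ((hf.pD c).pD c) k).div_const 2)).sub
    (ContDiffOn.sum fun c _ => ((csm_drift P c).mul (hf.pD c)) k)

theorem bopS_congr (P : Pot d h) {f g : ℝ × Space d → ℝ}
    (he : ∀ q : ℝ × Space d, 0 < q.1 → f q = g q) {q : ℝ × Space d} (hq : 0 < q.1) :
    bopS P f q = bopS P g q := by
  have h1 : ∀ w, ∀ p : ℝ × Space d, 0 < p.1 → wD w f p = wD w g p := fun w p hp => wD_congr he hp w
  simp only [bopS, tD, lapA, pD]
  rw [show fderiv ℝ f q = fderiv ℝ g q from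
    (Filter.eventuallyEq_of_mem (isOpen_posV.mem_nhds hq) fun p hp => he p hp).fderiv_eq]
  congr 3
  exact Finset.sum_congr rfl fun c _ => wD_congr (h1 _) hq _

theorem bopS_mul (P : Pot d h) {f g : ℝ × Space d → ℝ} (hf : CSm f) (hg : CSm g)
    {q : ℝ × Space d} (hq : 0 < q.1) :
    bopS P (fun p => f p * g p) q
      = bopS P f q * g q + f q * bopS P g q + ∑ c, pD c f q * pD c g q := by
  have h2 : ∀ c, pD c (pD c fun p => f p * g p) q
      = pD c (pD c f) q * g q + 2 * (pD c f q * pD c g q) + f q * pD c (pD c g) q := fun c => by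
    show wD (0, ev c) (wD (0, ev c) fun p => f p * g p) q = _
    rw [wD_congr (fun p hp => wD_mul hf hg hp _) hq,
      wD_add ((hf.wD _).mul hg) (hf.mul (hg.wD _)) hq, wD_mul (hf.wD _) hg hq,
      wD_mul hf (hg.wD _) hq]
    show _ = wD (0, ev c) (wD (0, ev c) f) q * g q
      + 2 * (wD (0, ev c) f q * wD (0, ev c) g q) + f q * wD (0, ev c) (wD (0, ev c) g) q
    ring
  have h1 : ∀ w, fderiv ℝ (fun p => f p * g p) q w = fderiv ℝ f q w * g q + f q * fderiv ℝ g q w :=
    fun w => wD_mul hf hg hq w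
  have h3 : ∀ c, pD c (fun p => f p * g p) q = pD c f q * g q + f q * pD c g q := fun c => h1 _
  simp only [bopS, tD, lapA, h1, h2, h3, Finset.sum_add_distrib, mul_add, ← mul_assoc,
    ← Finset.mul_sum, ← Finset.sum_mul]
  simp only [mul_comm (drift P _ q) (f q), mul_assoc (f q), ← Finset.mul_sum]
  simp only [mul_assoc (2 : ℝ), ← Finset.mul_sum]
  ring

theorem bopS_sum (P : Pot d h) {ι : Type} [Fintype ι] {f : ι → ℝ × Space d → ℝ}
    (hf : ∀ i, CSm (f i)) {q : ℝ × Space d} (hq : 0 < q.1) :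
    bopS P (fun p => ∑ i, f i p) q = ∑ i, bopS P (f i) q := by
  have h2 : ∀ c, pD c (pD c fun p => ∑ i, f i p) q = ∑ i, pD c (pD c (f i)) q := fun c => by
    show wD (0, ev c) (wD (0, ev c) fun p => ∑ i, f i p) q = _
    rw [wD_congr (fun p hp => wD_sum hf hp _) hq, wD_sum (fun i => (hf i).wD _) hq]
    rfl
  have h1 : ∀ w, fderiv ℝ (fun p => ∑ i, f i p) q w = ∑ i, fderiv ℝ (f i) q w := fun w =>
    wD_sum hf hq w
  have h3 : ∀ c, pD c (fun p => ∑ i, f i p) q = ∑ i, pD c (f i) q := fun c => h1 _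
  simp only [bopS, tD, lapA, h1, h2, h3, Finset.mul_sum, Finset.sum_sub_distrib,
    Finset.sum_add_distrib, Finset.sum_neg_distrib, Finset.sum_div]
  rw [Finset.sum_comm (f := fun c i => pD c (pD c (f i)) q / 2)]
  rw [Finset.sum_comm (f := fun c i => drift P c q * pD c (f i) q)]

/-- The operator against a derivative in the centre. -/
theorem bopS_pD (P : Pot d h) {f : ℝ × Space d → ℝ} (hf : CSm f) (c : Fin d) {q : ℝ × Space d}
    (hq : 0 < q.1) :
    bopS P (pD c f) q = pD c (bopS P f) q + ∑ b, pD c (drift P b) q * pD b f q := by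
  have ht : CSm fun p => -1 * tD f p := fun k => contDiffOn_const.mul (hf.tD k)
  have hlap : CSm (lapA f) := CSm.sum fun b => (hf.pD b).pD b
  have hl : CSm fun p => (1 / 2 : ℝ) * lapA f p := fun k => contDiffOn_const.mul (hlap k)
  have hu : CSm fun p => -1 * ∑ b, drift P b p * pD b f p := fun k =>
    contDiffOn_const.mul ((CSm.sum fun b => (csm_drift P b).mul (hf.pD b)) k)
  have e : bopS P f = fun p =>
      (-1 * tD f p + (1 / 2 : ℝ) * lapA f p) + -1 * ∑ b, drift P b p * pD b f p := by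
    funext p; simp only [bopS]; ring
  have hw : pD c (bopS P f) q = -1 * pD c (tD f) q + (1 / 2 : ℝ) * pD c (lapA f) q
      + -1 * ∑ b, (pD c (drift P b) q * pD b f q + drift P b q * pD c (pD b f) q) := by
    show wD (0, ev c) (bopS P f) q = _
    rw [e, wD_add (ht.add hl) hu hq, wD_add ht hl hq, wD_const_mul hf.tD _ hq,
      wD_const_mul hlap _ hq,
      wD_const_mul (CSm.sum fun b => (csm_drift P b).mul (hf.pD b)) _ hq,
      wD_sum (fun b => (csm_drift P b).mul (hf.pD b)) hq]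
    simp only [fun b => wD_mul (csm_drift P b) (hf.pD b) hq (0, ev c)]
    rfl
  have h1 : pD c (tD f) q = tD (pD c f) q := wD_comm hf hq _ _
  have h2 : pD c (lapA f) q = lapA (pD c f) q := by
    show wD (0, ev c) (fun p => ∑ b, pD b (pD b f) p) q = _
    rw [wD_sum (fun b => (hf.pD b).pD b) hq]
    refine Finset.sum_congr rfl fun b _ => ?_
    show wD (0, ev c) (wD (0, ev b) (wD (0, ev b) f)) q = wD (0, ev b) (wD (0, ev b) (wD (0, ev c) f)) q
    rw [wD_comm (hf.wD _) hq]
    exact wD_congr (fun p hp => wD_comm hf hp _ _) hq _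
  have h3 : ∀ b, pD c (pD b f) q = pD b (pD c f) q := fun b => wD_comm hf hq _ _
  rw [hw, h1, h2]
  simp only [h3, bopS, Finset.sum_add_distrib]
  ring

end Vale.Agent.P347.Zero
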