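import Vale.Agent.P347.Zero.TrajReg

/-!
One Euler step of the flow carries the law of the channel at `r` to the law at `r + Δ` up to `Δ²`,
against tests with bounded gradient and Lipschitz gradient.
-/

noncomputable section

open MeasureTheory Filter Topology Set
open scoped RealInnerProductSpace ContDiff

namespace Vale.Agent.P347.Zero

variable {d : ℕ} {h : ℝ}

/-- The joint law behind the channel. -/
abbrev jnt (P : Pot d h) : Measure (Space d × Space d) := (mu P).prod (gam d)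

/-- At most quadratic growth in each factor. -/
def Quad (F : Space d × Space d → ℝ) : Prop :=
  ∃ C : ℝ, ∀ p : Space d × Space d, |F p| ≤ C * ((1 + ‖p.1‖) ^ 2 * (1 + ‖p.2‖) ^ 2)

theorem contDiffOn_velocity' (P : Pot d h) (r : ℝ) (hr : r ∈ Ioo (-1 : ℝ) 1) :
    ContDiff ℝ 2 fun y : Space d => driftV P (chan (r, y)) :=
  contDiff_euclidean.2 fun i => by exact_mod_cast (rsm_uR P i).slice hr 2

theorem grow_sq_norm : Grow fun x : Space d => (1 + ‖x‖) ^ 2 :=
  grow_pow (grow_add (grow_const 1) (grow_norm grow_id)) 2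

theorem jnt_int (P : Pot d h) {F : Space d × Space d → ℝ} (hm : Measurable F) (hF : Quad F) :
    Integrable F (jnt P) := by
  have := mu_prob P
  obtain ⟨C, hC⟩ := hF
  refine Integrable.mono' ((Integrable.mul_prod (mu_int (P := P) (by fun_prop) grow_sq_norm)
    (gam_int (F := fun x : Space d => (1 + ‖x‖) ^ 2) (by fun_prop) grow_sq_norm)).const_mul C)
    hm.aestronglyMeasurable (ae_of_all _ fun p => by simpa [Real.norm_eq_abs] using hC p)

theorem jnt_channel (P : Pot d h) {r : ℝ} (hr : r ∈ Ioo (-1 : ℝ) 1) {f : Space d → ℝ}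
    (hf : Measurable f) {C : ℝ} (hC : ∀ y, |f y| ≤ C * (1 + ‖y‖)) :
    Integrable (fun p => f (r • p.1 + Real.sqrt (1 - r ^ 2) • p.2)) (jnt P) ∧
      ∫ p, f (r • p.1 + Real.sqrt (1 - r ^ 2) • p.2) ∂jnt P = ∫ y, f y ∂mu (potR P r hr) := by
  have := mu_prob P
  have hC0 : 0 ≤ C := by
    have := (abs_nonneg _).trans (hC 0)
    simpa using this
  have hi : Integrable (fun p => f (r • p.1 + Real.sqrt (1 - r ^ 2) • p.2)) (jnt P) := by
    refine jnt_int P (hf.comp (by fun_prop)) ⟨C, fun p => (hC _).trans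
      (mul_le_mul_of_nonneg_left ?_ hC0)⟩
    have h1 : ‖r • p.1 + Real.sqrt (1 - r ^ 2) • p.2‖ ≤ ‖p.1‖ + ‖p.2‖ := by
      refine (norm_add_le _ _).trans ?_
      rw [norm_smul, norm_smul, Real.norm_eq_abs, Real.norm_eq_abs, abs_of_nonneg (Real.sqrt_nonneg _)]
      exact add_le_add (mul_le_of_le_one_left (norm_nonneg _) (abs_le.2 ⟨hr.1.le, hr.2.le⟩))
        (mul_le_of_le_one_left (norm_nonneg _)
          (Real.sqrt_le_one.2 (by linarith [sq_nonneg r])))
    have ha := norm_nonneg p.1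
    have hb := norm_nonneg p.2
    calc 1 + ‖r • p.1 + Real.sqrt (1 - r ^ 2) • p.2‖ ≤ (1 + ‖p.1‖) * (1 + ‖p.2‖) := by
          nlinarith [mul_nonneg ha hb]
      _ ≤ (1 + ‖p.1‖) ^ 2 * (1 + ‖p.2‖) ^ 2 :=
          mul_le_mul (le_self_pow₀ (by linarith) two_ne_zero)
            (le_self_pow₀ (by linarith) two_ne_zero) (by positivity) (by positivity)
  refine ⟨hi, ?_⟩
  rw [integral_prod _ hi]
  exact channel_law P hr hf ⟨C, 1, fun y => by simpa [Real.norm_eq_abs] using hC y⟩

/-- Testing a bounded smooth coordinate against the two directions of the channel. -/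
theorem channel_grad (P : Pot d h) {r : ℝ} (hr : r ∈ Ioo (-1 : ℝ) 1) {f : Space d → ℝ}
    (hf : ContDiff ℝ 1 f) {A B : ℝ} (hA : ∀ y, |f y| ≤ A) (hB : GradBound f B) (c : Fin d) :
    ∫ p, f (r • p.1 + Real.sqrt (1 - r ^ 2) • p.2)
        * (p.1 c - r / Real.sqrt (1 - r ^ 2) * p.2 c) ∂jnt P
      = -∫ y, f y * drift P c (chan (r, y)) ∂mu (potR P r hr) := by
  have := mu_prob P
  set s := Real.sqrt (1 - r ^ 2) with hs
  have hs0 : 0 < s := Real.sqrt_pos.2 (var_pos hr)
  have hA0 : 0 ≤ A := (abs_nonneg _).trans (hA 0)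
  have hB0 : 0 ≤ B := (norm_nonneg _).trans (hB 0)
  set y : Space d × Space d → Space d := fun p => r • p.1 + s • p.2 with hy
  set D : Space d → ℝ := fun u => fderiv ℝ f u (ev c) with hD
  have hfm := hf.continuous.measurable
  have hDc : Continuous D := (hf.continuous_fderiv one_ne_zero).clm_apply continuous_const
  have hDb : ∀ u, |D u| ≤ B * ‖(ev c : Space d)‖ := fun u =>
    ((fderiv ℝ f u).le_opNorm _).trans (mul_le_mul_of_nonneg_right (hB u) (norm_nonneg _))
  have q0 : ∀ p : Space d × Space d, 1 ≤ (1 + ‖p.1‖) ^ 2 * (1 + ‖p.2‖) ^ 2 := fun p =>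
    one_le_mul_of_one_le_of_one_le (one_le_pow₀ (by linarith [norm_nonneg p.1]))
      (one_le_pow₀ (by linarith [norm_nonneg p.2]))
  have q1 : ∀ p : Space d × Space d, ‖p.1‖ ≤ (1 + ‖p.1‖) ^ 2 * (1 + ‖p.2‖) ^ 2 := fun p =>
    (by nlinarith [norm_nonneg p.1] : ‖p.1‖ ≤ (1 + ‖p.1‖) ^ 2).trans
      (le_mul_of_one_le_right (by positivity) (one_le_pow₀ (by linarith [norm_nonneg p.2])))
  have q2 : ∀ p : Space d × Space d, ‖p.2‖ ≤ (1 + ‖p.1‖) ^ 2 * (1 + ‖p.2‖) ^ 2 := fun p =>
    (by nlinarith [norm_nonneg p.2] : ‖p.2‖ ≤ (1 + ‖p.2‖) ^ 2).trans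
      (le_mul_of_one_le_left (by positivity) (one_le_pow₀ (by linarith [norm_nonneg p.1])))
  have iX : Integrable (fun p => f (y p) * p.1 c) (jnt P) :=
    jnt_int P ((hfm.comp (by fun_prop)).mul (by fun_prop)) ⟨A, fun p => by
      rw [abs_mul]
      exact mul_le_mul (hA _) ((P245.abs_coord_le p.1 c).trans (q1 p)) (abs_nonneg _) hA0⟩
  have iZ : Integrable (fun p => f (y p) * p.2 c) (jnt P) :=
    jnt_int P ((hfm.comp (by fun_prop)).mul (by fun_prop)) ⟨A, fun p => by
      rw [abs_mul]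
      exact mul_le_mul (hA _) ((P245.abs_coord_le p.2 c).trans (q2 p)) (abs_nonneg _) hA0⟩
  have iG : Integrable (fun p => f (y p) * P.g p.1 c) (jnt P) :=
    jnt_int P ((hfm.comp (by fun_prop)).mul ((measurable_gcoord P c).comp measurable_fst))
      ⟨A * (‖P.g 0‖ + h), fun p => by
        rw [abs_mul, mul_assoc]
        refine mul_le_mul (hA _) ?_ (abs_nonneg _) hA0
        refine (P245.abs_coord_le (P.g p.1) c).trans ((P.norm_g_le p.1).trans ?_)
        nlinarith [q0 p, q1 p, norm_nonneg (P.g 0), P.h_nonneg]⟩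
  have iD : Integrable (fun p => D (y p)) (jnt P) :=
    jnt_int P (hDc.measurable.comp (by fun_prop)) ⟨B * ‖(ev c : Space d)‖, fun p =>
      (hDb _).trans (le_mul_of_one_le_right (by positivity) (q0 p))⟩
  have sZ : ∫ p, f (y p) * p.2 c ∂jnt P = s * ∫ p, D (y p) ∂jnt P := by
    rw [integral_prod _ iZ, integral_prod _ iD, ← integral_const_mul]
    refine integral_congr_ae (ae_of_all _ fun x => ?_)
    have hd : ∀ z, HasFDerivAt (fun z => f (r • x + s • z))
        ((fderiv ℝ f (r • x + s • z)).comp (s • ContinuousLinearMap.id ℝ (Space d))) z := fun z =>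
      ((hf.differentiable one_ne_zero _).hasFDerivAt).comp z
        (((hasFDerivAt_id z).const_smul s).const_add (r • x))
    have hn : Nice fun z => f (r • x + s • z) := ⟨hf.comp (by fun_prop), B * |s|, 0, fun z => by
      beta_reduce
      rw [(hd z).fderiv, pow_zero, mul_one, ContinuousLinearMap.comp_smul,
        ContinuousLinearMap.comp_id, norm_smul, Real.norm_eq_abs, mul_comm B]
      exact mul_le_mul_of_nonneg_left (hB _) (abs_nonneg s)⟩
    have h1 := gStein hn (ev c)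
    simp only [EuclideanSpace.inner_single_left, map_one, one_mul] at h1
    show ∫ z, f (r • x + s • z) * z c ∂gam d = s * ∫ z, D (r • x + s • z) ∂gam d
    rw [← integral_const_mul]
    simp only [mul_comm (f _), h1]
    refine integral_congr_ae (ae_of_all _ fun z => ?_)
    simp [(hd z).fderiv, hD]
  have sX : ∫ p, f (y p) * p.1 c ∂jnt P
      = r * (∫ p, D (y p) ∂jnt P) - ∫ p, f (y p) * P.g p.1 c ∂jnt P := by
    rw [eq_sub_iff_add_eq, ← integral_add iX iG,
      integral_prod_symm (f := fun p => f (y p) * p.1 c + f (y p) * P.g p.1 c) (iX.add iG),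
      integral_prod_symm _ iD, ← integral_const_mul]
    refine integral_congr_ae (ae_of_all _ fun z => ?_)
    have hd : ∀ x, HasFDerivAt (fun x => f (r • x + s • z))
        ((fderiv ℝ f (r • x + s • z)).comp (r • ContinuousLinearMap.id ℝ (Space d))) x := fun x =>
      ((hf.differentiable one_ne_zero _).hasFDerivAt).comp x
        (((hasFDerivAt_id x).const_smul r).add_const (s • z))
    have h1 := steinMu d h P (fun x => f (r • x + s • z)) (ev c) (hf.comp (by fun_prop))
      ⟨B * |r|, 0, fun x => by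
        beta_reduce
        rw [(hd x).fderiv, pow_zero, mul_one, ContinuousLinearMap.comp_smul,
          ContinuousLinearMap.comp_id, norm_smul, Real.norm_eq_abs, mul_comm B]
        exact mul_le_mul_of_nonneg_left (hB _) (abs_nonneg r)⟩
    simp only [EuclideanSpace.inner_single_left, map_one, one_mul, PiLp.add_apply] at h1
    show ∫ x, (f (r • x + s • z) * x c + f (r • x + s • z) * P.g x c) ∂mu P
      = r * ∫ x, D (r • x + s • z) ∂mu P
    rw [← integral_const_mul]
    rw [show (fun x : Space d => f (r • x + s • z) * x c + f (r • x + s • z) * P.g x c)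
      = fun x => (x c + P.g x c) * f (r • x + s • z) from funext fun x => by ring, h1]
    refine integral_congr_ae (ae_of_all _ fun x => ?_)
    simp [(hd x).fderiv, hD]
  have sG : ∫ p, f (y p) * P.g p.1 c ∂jnt P
      = ∫ u, f u * drift P c (chan (r, u)) ∂mu (potR P r hr) := by
    have hrs : r ^ 2 + s ^ 2 = 1 := by rw [hs, Real.sq_sqrt (var_pos hr).le]; ring
    have hp := posteriorId d h P r s hs0.ne' (fun u x => f u * P.g x c)
      ((hfm.comp measurable_fst).mul ((measurable_gcoord P c).comp measurable_snd))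
      ⟨A * (‖P.g 0‖ + h), 1, fun u x => by
        rw [abs_mul, mul_assoc, pow_one]
        refine mul_le_mul (hA _) ?_ (abs_nonneg _) hA0
        refine (P245.abs_coord_le (P.g x) c).trans ((P.norm_g_le x).trans ?_)
        nlinarith [norm_nonneg (P.g 0), P.h_nonneg, norm_nonneg u, norm_nonneg x]⟩
    rw [integral_prod _ iG]
    refine hp.trans ?_
    have hs2 : s ^ 2 = 1 - r ^ 2 := by linarith
    rw [hrs, div_one, div_one, hs2]
    simp only [post, integral_const_mul]
    refine channel_law P hr (hfm.mul ((rsm_uR P c).meas hr))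
      (grow_mul ⟨A, 0, fun u => by simpa using hA u⟩ (grow_uR P hr c))
  simp only [mul_sub, mul_left_comm (f _) (r / s)]
  rw [integral_sub iX (iZ.const_mul (r / s)), integral_const_mul, sX, sZ, sG, ← mul_assoc,
    div_mul_cancel₀ r hs0.ne']
  ring

/-! ### The step -/

/-- The gradient bounded by `L` and Lipschitz with constant `H`. -/
def Reg2 (g : Space d → ℝ) (L H : ℝ) : Prop :=
  ContDiff ℝ 2 g ∧ GradBound g L ∧ ∀ y z, ‖fderiv ℝ g y - fderiv ℝ g z‖ ≤ H * ‖y - z‖

theorem Reg2.taylor {g : Space d → ℝ} {L H : ℝ} (hg : Reg2 g L H) (hH : 0 ≤ H) (a b : Space d) :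
    |g b - g a - fderiv ℝ g a (b - a)| ≤ H * ‖b - a‖ ^ 2 := by
  have hd : ∀ x ∈ Metric.closedBall a ‖b - a‖, ‖fderiv ℝ g x - fderiv ℝ g a‖ ≤ H * ‖b - a‖ :=
    fun x hx => (hg.2.2 x a).trans (mul_le_mul_of_nonneg_left (by
      rwa [Metric.mem_closedBall, dist_eq_norm] at hx) hH)
  have := (convex_closedBall a ‖b - a‖).norm_image_sub_le_of_norm_fderiv_le'
    (fun x _ => hg.1.differentiable two_ne_zero x) hd (Metric.mem_closedBall_self (norm_nonneg _))
    (by rw [Metric.mem_closedBall, dist_eq_norm])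
  rw [Real.norm_eq_abs] at this
  exact this.trans_eq (by ring)

theorem clm_expand (T : Space d →L[ℝ] ℝ) (v : Space d) : T v = ∑ c, v c * T (ev c) := by
  conv_lhs => rw [show v = ∑ c, v c • ev c by
    simpa using ((EuclideanSpace.basisFun (Fin d) ℝ).sum_repr v).symm]
  simp [map_sum]

/-- The velocity in the first order of the channel. -/
theorem channel_velocity (P : Pot d h) {r : ℝ} (hr : r ∈ Ioo (-1 : ℝ) 1) {g : Space d → ℝ}
    {L H : ℝ} (hg : Reg2 g L H) (hH : 0 ≤ H) :
    ∫ p, fderiv ℝ g (r • p.1 + Real.sqrt (1 - r ^ 2) • p.2)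
        (p.1 - (r / Real.sqrt (1 - r ^ 2)) • p.2) ∂jnt P
      = -∫ y, fderiv ℝ g y (driftV P (chan (r, y))) ∂mu (potR P r hr) := by
  have := mu_prob P
  set f : Fin d → Space d → ℝ := fun c y => fderiv ℝ g y (ev c) with hf
  have hL : 0 ≤ L := (norm_nonneg _).trans (hg.2.1 0)
  have hfc : ∀ c, ContDiff ℝ 1 (f c) := fun c =>
    (hg.1.fderiv_right (m := 1) (by norm_num)).clm_apply contDiff_const
  have hfA : ∀ c y, |f c y| ≤ L * ‖(ev c : Space d)‖ := fun c y =>
    ((fderiv ℝ g y).le_opNorm _).trans (mul_le_mul_of_nonneg_right (hg.2.1 y) (norm_nonneg _))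
  have hfB : ∀ c, GradBound (f c) (H * ‖(ev c : Space d)‖) := fun c x => by
    refine norm_fderiv_le_of_lip' ℝ (mul_nonneg hH (norm_nonneg _))
      (Eventually.of_forall fun y => ?_)
    show ‖fderiv ℝ g y (ev c) - fderiv ℝ g x (ev c)‖ ≤ _
    rw [← sub_apply, mul_right_comm]
    exact ((fderiv ℝ g y - fderiv ℝ g x).le_opNorm _).trans
      (mul_le_mul_of_nonneg_right (hg.2.2 y x) (norm_nonneg _))
  have key := fun c => channel_grad P hr (hfc c) (hfA c) (hfB c) c
  have e1 : ∀ p : Space d × Space d, fderiv ℝ g (r • p.1 + Real.sqrt (1 - r ^ 2) • p.2)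
      (p.1 - (r / Real.sqrt (1 - r ^ 2)) • p.2)
      = ∑ c, (p.1 c - r / Real.sqrt (1 - r ^ 2) * p.2 c)
          * f c (r • p.1 + Real.sqrt (1 - r ^ 2) • p.2) := fun p =>
    (clm_expand _ _).trans (Finset.sum_congr rfl fun c _ => by simp [hf])
  have e2 : ∀ y, fderiv ℝ g y (driftV P (chan (r, y)))
      = ∑ c, drift P c (chan (r, y)) * f c y := fun y => clm_expand _ _
  simp only [e1, e2]
  rw [integral_finsetSum _ fun c _ => ?_, integral_finsetSum _ fun c _ => ?_,
    ← Finset.sum_neg_distrib]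
  · refine Finset.sum_congr rfl fun c _ => ?_
    simp only [mul_comm _ (f c _)]
    exact key c
  · exact mu_int (((rsm_uR P c).meas hr).mul (hfc c).continuous.measurable)
      (grow_mul (grow_uR P hr c) ⟨L * ‖(ev c : Space d)‖, 0, fun y => by simpa using hfA c y⟩)
  · refine jnt_int P ((by fun_prop : Measurable fun p : Space d × Space d =>
      p.1 c - r / Real.sqrt (1 - r ^ 2) * p.2 c).mul ((hfc c).continuous.measurable.comp
        (by fun_prop))) ⟨(1 + |r / Real.sqrt (1 - r ^ 2)|) * (L * ‖(ev c : Space d)‖), fun p => ?_⟩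
    rw [abs_mul]
    refine (mul_le_mul ((abs_sub _ _).trans (add_le_add (P245.abs_coord_le p.1 c)
      ((abs_mul _ _).trans_le (mul_le_mul_of_nonneg_left (P245.abs_coord_le p.2 c) (abs_nonneg _)))))
      (hfA c _) (abs_nonneg _) (by positivity)).trans ?_
    rw [mul_right_comm (1 + _)]
    refine mul_le_mul_of_nonneg_right ?_ (by positivity)
    have h1 : (1 + ‖p.1‖) * (1 + ‖p.2‖) ≤ (1 + ‖p.1‖) ^ 2 * (1 + ‖p.2‖) ^ 2 :=
      mul_le_mul (le_self_pow₀ (by linarith [norm_nonneg p.1]) two_ne_zero)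
        (le_self_pow₀ (by linarith [norm_nonneg p.2]) two_ne_zero) (by positivity) (by positivity)
    refine le_trans ?_ (mul_le_mul_of_nonneg_left h1 (by positivity))
    nlinarith [norm_nonneg p.1, norm_nonneg p.2, mul_nonneg (norm_nonneg p.1) (norm_nonneg p.2),
      abs_nonneg (r / Real.sqrt (1 - r ^ 2)),
      mul_nonneg (abs_nonneg (r / Real.sqrt (1 - r ^ 2))) (norm_nonneg p.1)]

/-- The constant of one step. -/
def stepConst (P : Pot d h) (R U L H : ℝ) : ℝ :=
  H * U + 2 * H * ((∫ x, ‖x‖ ^ 2 ∂mu P) + ((Real.sqrt (1 - R ^ 2))⁻¹) ^ 2 * (4 * (2 * d)))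
    + L * (2 * ((Real.sqrt (1 - R ^ 2))⁻¹) ^ 3 * (1 + 2 * d))

theorem sqrt_step {R r Δ : ℝ} (hR : R < 1) (hr0 : 0 ≤ r) (hΔ : 0 ≤ Δ) (hrR : r + Δ ≤ R) :
    |Real.sqrt (1 - (r + Δ) ^ 2) - Real.sqrt (1 - r ^ 2)| ≤ (Real.sqrt (1 - R ^ 2))⁻¹ * (2 * Δ) ∧
    |Real.sqrt (1 - (r + Δ) ^ 2) - Real.sqrt (1 - r ^ 2) + Δ * (r / Real.sqrt (1 - r ^ 2))|
      ≤ 2 * ((Real.sqrt (1 - R ^ 2))⁻¹) ^ 3 * Δ ^ 2 := by
  have hR0 : 0 ≤ R := by linarith
  have h0 : 0 < 1 - R ^ 2 := by nlinarith
  have hsR : Real.sqrt (1 - R ^ 2) ≤ Real.sqrt (1 - (r + Δ) ^ 2) :=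
    Real.sqrt_le_sqrt (by nlinarith)
  have hsr : Real.sqrt (1 - R ^ 2) ≤ Real.sqrt (1 - r ^ 2) := Real.sqrt_le_sqrt (by nlinarith)
  set a := Real.sqrt (1 - (r + Δ) ^ 2) with ha
  set b := Real.sqrt (1 - r ^ 2) with hb
  set m := Real.sqrt (1 - R ^ 2) with hm
  have hm0 : 0 < m := Real.sqrt_pos.2 h0
  have hm1 : m ≤ 1 := Real.sqrt_le_one.2 (by linarith [sq_nonneg R])
  have ha2 : a ^ 2 = 1 - (r + Δ) ^ 2 := Real.sq_sqrt (by nlinarith)
  have hb2 : b ^ 2 = 1 - r ^ 2 := Real.sq_sqrt (by nlinarith)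
  have hbne : b ≠ 0 := by linarith
  have hab : a + b ≠ 0 := by linarith
  have e1 : a - b = -(2 * r * Δ + Δ ^ 2) / (a + b) := by
    rw [eq_div_iff hab]
    linear_combination ha2 - hb2
  have h1 : |a - b| ≤ m⁻¹ * (2 * Δ) := by
    rw [e1, abs_div, abs_neg, abs_of_nonneg (show 0 ≤ 2 * r * Δ + Δ ^ 2 by positivity),
      abs_of_pos (show 0 < a + b by linarith), div_le_iff₀ (by linarith)]
    calc 2 * r * Δ + Δ ^ 2 ≤ m⁻¹ * (2 * Δ) * (2 * m) := by
          field_simp
          nlinarith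
      _ ≤ m⁻¹ * (2 * Δ) * (a + b) := mul_le_mul_of_nonneg_left (by linarith) (by positivity)
  refine ⟨h1, ?_⟩
  have e2 : a - b + Δ * (r / b) = r * Δ * (a - b) / (b * (a + b)) - Δ ^ 2 / (a + b) := by
    field_simp
    linear_combination b * (ha2 - hb2)
  rw [e2]
  refine (abs_sub _ _).trans ?_
  rw [abs_div, abs_div, abs_mul, abs_of_nonneg (mul_nonneg hr0 hΔ),
    abs_of_pos (show 0 < b * (a + b) from mul_pos (by linarith) (by linarith)),
    abs_of_nonneg (sq_nonneg Δ), abs_of_pos (show 0 < a + b by linarith)]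
  have h2 : r * Δ * |a - b| / (b * (a + b)) ≤ r * Δ * (m⁻¹ * (2 * Δ)) / (m * (2 * m)) :=
    div_le_div₀ (by positivity) (mul_le_mul_of_nonneg_left h1 (by positivity)) (by positivity)
      (mul_le_mul hsr (by linarith) (by positivity) (by linarith))
  have h3 : Δ ^ 2 / (a + b) ≤ Δ ^ 2 / (2 * m) :=
    div_le_div_of_nonneg_left (sq_nonneg Δ) (by positivity) (by linarith)
  refine (add_le_add h2 h3).trans ?_
  field_simp
  nlinarith [mul_nonneg (sq_nonneg Δ) (show 0 ≤ 4 - (r * 2 + m ^ 2) by nlinarith)]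

/-- One step. -/
theorem step_law (P : Pot d h) {R r Δ L H U : ℝ} {g : Space d → ℝ} (hg : Reg2 g L H) (hH : 0 ≤ H)
    (hR : R < 1) (hr0 : 0 ≤ r) (hΔ : 0 ≤ Δ) (hrR : r + Δ ≤ R) (hr : r ∈ Ioo (-1 : ℝ) 1)
    (hs : r + Δ ∈ Ioo (-1 : ℝ) 1)
    (hU : ∫ y, ‖driftV P (chan (r, y))‖ ^ 2 ∂mu (potR P r hr) ≤ U) :
    |(∫ y, g (y - Δ • driftV P (chan (r, y))) ∂mu (potR P r hr))
        - ∫ y, g y ∂mu (potR P (r + Δ) hs)| ≤ stepConst P R U L H * Δ ^ 2 := by
  have := mu_prob P
  have := mu_prob (potR P r hr)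
  have hL : 0 ≤ L := (norm_nonneg _).trans (hg.2.1 0)
  have hgc := hg.1.continuous
  have hlip : ∀ a b, |g b - g a| ≤ L * ‖b - a‖ := fun a b => by
    simpa [Real.norm_eq_abs] using convex_univ.norm_image_sub_le_of_norm_fderiv_le
      (fun x _ => hg.1.differentiable two_ne_zero x) (fun x _ => hg.2.1 x) (mem_univ a) (mem_univ b)
  have hgl : ∀ y, |g y| ≤ (|g 0| + L) * (1 + ‖y‖) := fun y => by
    have h1 := hlip 0 y
    rw [sub_zero] at h1
    have h2 := abs_sub_abs_le_abs_sub (g y) (g 0)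
    nlinarith [norm_nonneg y, abs_nonneg (g 0)]
  obtain ⟨i0, e0⟩ := jnt_channel P hr hgc.measurable hgl
  obtain ⟨i1, e1⟩ := jnt_channel P hs hgc.measurable hgl
  set σ := Real.sqrt (1 - r ^ 2) with hσ
  set σ' := Real.sqrt (1 - (r + Δ) ^ 2) with hσ'
  set m := (Real.sqrt (1 - R ^ 2))⁻¹ with hm
  set u : Space d → Space d := fun y => driftV P (chan (r, y)) with hu
  have huc : Continuous u := (contDiffOn_velocity' P r hr).continuous
  have hTg : Continuous fun y => g (y - Δ • u y) := hgc.comp (by fun_prop)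
  have gu : Grow fun y => ‖u y‖ := by
    refine grow_mono (g := fun y => ∑ c, |drift P c (chan (r, y))|)
      (grow_finsum _ fun c => grow_abs (grow_uR P hr c)) fun y => ?_
    rw [Real.norm_eq_abs, Real.norm_eq_abs, abs_of_nonneg (norm_nonneg _)]
    refine le_trans ?_ (le_abs_self _)
    conv_lhs => rw [show u y = ∑ c, u y c • ev c by
      simpa using ((EuclideanSpace.basisFun (Fin d) ℝ).sum_repr (u y)).symm]
    refine (norm_sum_le _ _).trans (Finset.sum_le_sum fun c _ => ?_)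
    simp [norm_smul, hu, driftV_apply]
  have iu2 : Integrable (fun y => ‖u y‖ ^ 2) (mu (potR P r hr)) :=
    mu_int (by fun_prop) (grow_pow gu 2)
  have iL : Integrable (fun y => fderiv ℝ g y (u y)) (mu (potR P r hr)) := by
    refine mu_int ((hg.1.continuous_fderiv two_ne_zero).clm_apply huc).measurable
      (grow_mono (grow_mul (grow_const L) gu) fun y => ?_)
    refine (((fderiv ℝ g y).le_opNorm _).trans
      (mul_le_mul_of_nonneg_right (hg.2.1 y) (norm_nonneg _))).trans (le_abs_self _)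
  have ig : Integrable g (mu (potR P r hr)) :=
    mu_int hgc.measurable ⟨|g 0| + L, 1, fun y => by simpa [Real.norm_eq_abs] using hgl y⟩
  -- the step at `r`
  have hA : |(∫ y, g (y - Δ • u y) ∂mu (potR P r hr)) - ((∫ y, g y ∂mu (potR P r hr))
      - Δ * ∫ y, fderiv ℝ g y (u y) ∂mu (potR P r hr))| ≤ H * U * Δ ^ 2 := by
    have iT : Integrable (fun y => g (y - Δ • u y)) (mu (potR P r hr)) :=
      mu_int hTg.measurable (grow_mono (grow_mul (grow_const (|g 0| + L))
        (grow_add (grow_const 1) (grow_add (grow_norm grow_id) (grow_mul (grow_const |Δ|) gu))))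
        fun y => by
          refine ((hgl _).trans ?_).trans (le_abs_self _)
          refine mul_le_mul_of_nonneg_left ?_ (by positivity)
          refine add_le_add le_rfl ((norm_sub_le _ _).trans ?_)
          rw [norm_smul, Real.norm_eq_abs])
    rw [← integral_const_mul, ← integral_sub ig (iL.const_mul Δ),
      ← integral_sub iT ((show Integrable (fun y => g y - Δ * fderiv ℝ g y (u y)) (mu (potR P r hr)) from ig.sub (iL.const_mul Δ)))]
    rw [← Real.norm_eq_abs]
    refine (norm_integral_le_of_norm_le (iu2.const_mul (H * Δ ^ 2)) (ae_of_all _ fun y => ?_)).trans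
      ?_
    · rw [Real.norm_eq_abs]
      have := hg.taylor hH y (y - Δ • u y)
      rw [sub_sub_cancel_left, map_neg, map_smul, norm_neg, norm_smul, mul_pow, Real.norm_eq_abs,
        sq_abs] at this
      refine (le_of_eq ?_).trans (this.trans_eq (by ring))
      congr 1
      simp [smul_eq_mul]
      ring
    · rw [integral_const_mul]
      exact (mul_le_mul_of_nonneg_left hU (by positivity)).trans_eq (by ring)
  -- the step of the channel
  have hσs := sqrt_step hR hr0 hΔ hrR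
  set y : Space d × Space d → Space d := fun p => r • p.1 + σ • p.2 with hy
  set δ : Space d × Space d → Space d := fun p => Δ • p.1 + (σ' - σ) • p.2 with hδ
  have hv := channel_velocity P hr hg hH
  have iV : Integrable (fun p => fderiv ℝ g (y p) (p.1 - (r / σ) • p.2)) (jnt P) := by
    refine jnt_int P ((((hg.1.continuous_fderiv two_ne_zero).comp (by fun_prop)).clm_apply
      (by fun_prop)).measurable) ⟨L * (1 + |r / σ|), fun p => ?_⟩
    refine ((fderiv ℝ g _).le_opNorm _).trans ?_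
    rw [mul_assoc]
    refine mul_le_mul (hg.2.1 _) ?_ (norm_nonneg _) hL
    refine (norm_sub_le _ _).trans ?_
    rw [norm_smul, Real.norm_eq_abs]
    have h1 : (1 + ‖p.1‖) * (1 + ‖p.2‖) ≤ (1 + ‖p.1‖) ^ 2 * (1 + ‖p.2‖) ^ 2 :=
      mul_le_mul (le_self_pow₀ (by linarith [norm_nonneg p.1]) two_ne_zero)
        (le_self_pow₀ (by linarith [norm_nonneg p.2]) two_ne_zero) (by positivity) (by positivity)
    refine le_trans ?_ (mul_le_mul_of_nonneg_left h1 (by positivity))
    nlinarith [norm_nonneg p.1, norm_nonneg p.2, mul_nonneg (norm_nonneg p.1) (norm_nonneg p.2),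
      abs_nonneg (r / σ), mul_nonneg (abs_nonneg (r / σ)) (norm_nonneg p.1)]
  have hX2 : Integrable (fun x : Space d => ‖x‖ ^ 2) (mu P) :=
    mu_int (by fun_prop) (grow_pow (grow_norm grow_id) 2)
  have hZ2 : Integrable (fun x : Space d => ‖x‖ ^ 2) (gam d) :=
    gam_int (by fun_prop) (grow_pow (grow_norm grow_id) 2)
  have iE : Integrable (fun p : Space d × Space d =>
      2 * H * Δ ^ 2 * (‖p.1‖ ^ 2 + m ^ 2 * (4 * ‖p.2‖ ^ 2))
        + L * (2 * m ^ 3 * Δ ^ 2) * (1 + ‖p.2‖ ^ 2)) (jnt P) :=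
    ((((hX2.comp_fst _).add (((hZ2.comp_snd _).const_mul 4).const_mul (m ^ 2))).const_mul _).add
      (((integrable_const (1 : ℝ)).add (hZ2.comp_snd _)).const_mul _))
  have hB : |(∫ y, g y ∂mu (potR P (r + Δ) hs)) - ((∫ y, g y ∂mu (potR P r hr))
      - Δ * ∫ y, fderiv ℝ g y (u y) ∂mu (potR P r hr))|
      ≤ 2 * H * Δ ^ 2 * ((∫ x, ‖x‖ ^ 2 ∂mu P) + m ^ 2 * (4 * (2 * d)))
        + L * (2 * m ^ 3 * Δ ^ 2) * (1 + 2 * d) := by
    rw [← e0, ← e1, sub_eq_add_neg _ (Δ * _), ← mul_neg, ← hv, ← integral_const_mul,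
      ← integral_add i0 (iV.const_mul Δ), ← integral_sub i1 ((show Integrable (fun p => g (r • p.1 + σ • p.2) + Δ * fderiv ℝ g (y p) (p.1 - (r / σ) • p.2)) (jnt P) from i0.add (iV.const_mul Δ)))]
    rw [← Real.norm_eq_abs]
    refine (norm_integral_le_of_norm_le iE (ae_of_all _ fun p => ?_)).trans ?_
    · rw [Real.norm_eq_abs]
      have hT := hg.taylor hH (y p) (y p + δ p)
      rw [add_sub_cancel_left] at hT
      have eY : y p + δ p = (r + Δ) • p.1 + σ' • p.2 := by
        simp only [hy, hδ, add_smul, sub_smul]; abel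
      rw [eY] at hT
      have eD : δ p = Δ • (p.1 - (r / σ) • p.2) + (σ' - σ + Δ * (r / σ)) • p.2 := by
        simp only [hδ, smul_sub, smul_smul, add_smul, sub_smul]; abel
      have hδn : ‖δ p‖ ^ 2 ≤ 2 * Δ ^ 2 * (‖p.1‖ ^ 2 + m ^ 2 * (4 * ‖p.2‖ ^ 2)) := by
        have h1 : ‖δ p‖ ≤ Δ * ‖p.1‖ + m * (2 * Δ) * ‖p.2‖ := by
          refine (norm_add_le _ _).trans ?_
          rw [norm_smul, norm_smul, Real.norm_eq_abs, Real.norm_eq_abs, abs_of_nonneg hΔ]
          exact add_le_add le_rfl (mul_le_mul_of_nonneg_right hσs.1 (norm_nonneg _))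
        refine (pow_le_pow_left₀ (norm_nonneg _) h1 2).trans ?_
        nlinarith [sq_nonneg (Δ * ‖p.1‖ - m * (2 * Δ) * ‖p.2‖)]
      have hL2 : |fderiv ℝ g (y p) ((σ' - σ + Δ * (r / σ)) • p.2)|
          ≤ L * (2 * m ^ 3 * Δ ^ 2) * (1 + ‖p.2‖ ^ 2) := by
        refine ((fderiv ℝ g _).le_opNorm _).trans ?_
        rw [norm_smul, mul_assoc L]
        refine mul_le_mul (hg.2.1 _) ?_ (by positivity) hL
        exact mul_le_mul hσs.2 (by nlinarith [sq_nonneg (‖p.2‖ - 1), norm_nonneg p.2])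
          (norm_nonneg _) (by positivity)
      have hkey : g ((r + Δ) • p.1 + σ' • p.2) - (g (y p)
            + Δ * fderiv ℝ g (y p) (p.1 - (r / σ) • p.2))
          = (g ((r + Δ) • p.1 + σ' • p.2) - g (y p) - fderiv ℝ g (y p) (δ p))
            + fderiv ℝ g (y p) ((σ' - σ + Δ * (r / σ)) • p.2) := by
        rw [eD, map_add, map_smul, smul_eq_mul]; ring
      rw [show g (r • p.1 + σ • p.2) = g (y p) from rfl,
        show fderiv ℝ g (r • p.1 + σ • p.2) = fderiv ℝ g (y p) from rfl, hkey]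
      refine (abs_add_le _ _).trans (add_le_add (hT.trans ?_) hL2)
      exact (mul_le_mul_of_nonneg_left hδn hH).trans_eq (by ring)
    · have hz : ∫ x : Space d, ‖x‖ ^ 2 ∂gam d ≤ 2 * d := by
        have h1 := (momentMu d 0 (Pot.zero d) zero_le_one).1
        rw [mu_zero] at h1
        simpa [Pot.zero] using h1
      rw [integral_add (((hX2.comp_fst _).fun_add (((hZ2.comp_snd _).const_mul 4).const_mul _)
        ).const_mul _) (((integrable_const (1 : ℝ)).fun_add (hZ2.comp_snd _)).const_mul _),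
        integral_const_mul, integral_const_mul,
        integral_add (hX2.comp_fst _) (((hZ2.comp_snd _).const_mul 4).const_mul _),
        integral_add (integrable_const _) (hZ2.comp_snd _), integral_const_mul, integral_const_mul,
        integral_fun_fst (fun x => ‖x‖ ^ 2), integral_fun_snd (fun x => ‖x‖ ^ 2),
        integral_const, probReal_univ, probReal_univ, probReal_univ, one_smul, one_smul, one_smul]
      have hm0 : 0 ≤ m := inv_nonneg.2 (Real.sqrt_nonneg _)
      exact add_le_add (mul_le_mul_of_nonneg_left (add_le_add le_rfl (mul_le_mul_of_nonneg_left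
        (by linarith) (sq_nonneg m))) (by positivity))
        (mul_le_mul_of_nonneg_left (by linarith) (by positivity))
  refine (abs_sub_le _ ((∫ y, g y ∂mu (potR P r hr))
    - Δ * ∫ y, fderiv ℝ g y (u y) ∂mu (potR P r hr)) _).trans ?_
  rw [abs_sub_comm ((∫ y, g y ∂mu (potR P r hr)) - _)]
  refine (add_le_add hA hB).trans_eq ?_
  rw [stepConst, ← hm]
  ring

end Vale.Agent.P347.Zero
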