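import Vale.Agent.P347.Zero.DriftFl
import Vale.Agent.P347.Zero.Flow
import Vale.Agent.P347.Zero.FlowStep

/-!
The probability flow has the law of the channel at every correlation: Euler maps carry the law up to
`Δ` and converge pointwise to the flow.
-/

noncomputable section

open MeasureTheory Filter Topology Set Metric
open scoped RealInnerProductSpace ContDiff NNReal

namespace Vale.Agent.P347.Zero

variable {d : ℕ} {h : ℝ}

/-! ### The second derivative of the velocity -/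

theorem velocity_second (P : Pot d h) (hh : h ≤ 1) {R : ℝ} (hR : R ∈ Ico (0 : ℝ) 1) :
    ∃ K : ℝ, 0 ≤ K ∧ ∀ r ∈ Icc (0 : ℝ) R, ∀ y z : Space d,
      ‖fderiv ℝ (fun w => driftV P (chan (r, w))) y - fderiv ℝ (fun w => driftV P (chan (r, w))) z‖
        ≤ K * ‖y - z‖ := by
  obtain ⟨-, C, hC, hb⟩ := fl_Kf 1
  set M := C * (Real.sqrt (1 - R ^ 2))⁻¹ ^ 1 with hM
  have hM0 : 0 ≤ M := by positivity
  refine ⟨(d : ℝ) * (d * (d * M)), by positivity, fun r hr y z => ?_⟩
  have hr' : r ∈ Ioo (-1 : ℝ) 1 := ⟨by linarith [hr.1], by linarith [hr.2, hR.2]⟩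
  have hq : ∀ w : Space d, (r, w) ∈ domR d := fun _ => hr'
  -- one entry of the first derivative
  have hentry : ∀ i c, LipschitzWith (Real.toNNReal ((d : ℝ) * M))
      fun w => pD c (uR P i) (r, w) := by
    intro i c
    have hs : RSm fun p => pD c (uR P i) p := (rsm_uR P i).pD c
    refine lipschitzWith_of_nnnorm_fderiv_le (𝕜 := ℝ)
      ((hs.slice hr' 1).differentiable one_ne_zero) fun w => ?_
    rw [← NNReal.coe_le_coe, coe_nnnorm, Real.coe_toNNReal _ (by positivity)]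
    refine (norm_clm_le _).trans ((Finset.sum_le_sum fun b _ => ?_).trans_eq
      (b := ∑ _b : Fin d, M) (by simp))
    have hpd : pD b (fun p => pD c (uR P i) p) (r, w) = r * r * pD b (pD c (drift P i)) (chan (r, w)) := by
      have e1 : pD b (fun p => pD c (uR P i) p) (r, w)
          = pD b (fun p => p.1 * kR P c i p) (r, w) :=
        rwD_congr (fun p hp => pD_uR P i c hp) (hq w) _
      rw [e1, show pD b (fun p => p.1 * kR P c i p) (r, w) = _ from
        rwD_mul rsm_fst (rsm_kR P c i) (hq w) _,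
        show wD (0, ev b) (fun p : ℝ × Space d => p.1) (r, w) = 0 from pD_fst b _,
        show wD (0, ev b) (kR P c i) (r, w) = r * pD b (pD c (drift P i)) (chan (r, w)) from
          pD_chan ((csm_drift P i).pD c) (hq w) b]
      ring
    rw [fderiv_slice hs hr' w b, hpd, abs_mul, abs_of_nonneg (mul_self_nonneg r)]
    refine (mul_le_of_le_one_left (abs_nonneg _) (by nlinarith [hr'.1, hr'.2])).trans ?_
    set idx : Option (Option Unit) → Fin d := fun o => o.elim b fun o' => o'.elim c fun _ => i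
    have h1 := ((hb d h P hh (chan (r, w)) (var_pos hr') (by simp [chan, sq_nonneg])).relabel
      (optU (Option Unit))).abs_le (idx ∘ (optU (Option Unit)).symm)
    simp only [reT, Function.comp_assoc, Equiv.symm_comp_self, Function.comp_id] at h1
    refine h1.trans (mul_le_mul_of_nonneg_left ?_ hC)
    refine pow_le_pow_left₀ (inv_nonneg.2 (Real.sqrt_nonneg _)) ?_ _
    refine inv_anti₀ (Real.sqrt_pos.2 (by nlinarith [hR.1, hR.2])) (Real.sqrt_le_sqrt ?_)
    show 1 - R ^ 2 ≤ 1 - r ^ 2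
    nlinarith [hr.1, hr.2]
  -- the operator norm
  set A := fderiv ℝ (fun w => driftV P (chan (r, w))) y -
    fderiv ℝ (fun w => driftV P (chan (r, w))) z with hA
  have hd : ∀ w, DifferentiableAt ℝ (fun w => driftV P (chan (r, w))) w := fun w =>
    (contDiffOn_velocity' P r hr').differentiable two_ne_zero w
  have hrow : ∀ w i c, fderiv ℝ (fun w => driftV P (chan (r, w))) w (ev c) i
      = pD c (uR P i) (r, w) := fun w i c => by
    have h1 : HasFDerivAt (fun w => driftV P (chan (r, w)) i) _ w :=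
      (EuclideanSpace.proj (𝕜 := ℝ) i).hasFDerivAt.comp w (hd w).hasFDerivAt
    rw [← fderiv_slice (rsm_uR P i) hr' w c]
    show _ = fderiv ℝ (fun w => driftV P (chan (r, w)) i) w (ev c)
    rw [h1.fderiv]
    rfl
  refine ContinuousLinearMap.opNorm_le_bound _ (by positivity) fun e => ?_
  have hn : ‖A e‖ ≤ ∑ i, |A e i| := by
    conv_lhs => rw [show A e = ∑ i, A e i • ev i by
      simpa using ((EuclideanSpace.basisFun (Fin d) ℝ).sum_repr (A e)).symm]
    refine (norm_sum_le _ _).trans (Finset.sum_le_sum fun i _ => ?_)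
    simp [norm_smul]
  refine hn.trans ((Finset.sum_le_sum fun i _ => ?_).trans_eq
    (b := ∑ _i : Fin d, (d * (d * M) * ‖y - z‖) * ‖e‖) (by simp; ring))
  set T : Space d →L[ℝ] ℝ := (EuclideanSpace.proj (𝕜 := ℝ) i).comp A
  have hT : ‖T‖ ≤ d * (d * M) * ‖y - z‖ := by
    refine (norm_clm_le T).trans ((Finset.sum_le_sum fun c _ => ?_).trans_eq
      (b := ∑ _c : Fin d, (d * M) * ‖y - z‖) (by simp; ring))
    show |A (ev c) i| ≤ _
    rw [hA, sub_apply, PiLp.sub_apply, hrow, hrow]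
    have := (hentry i c).dist_le_mul y z
    rwa [Real.dist_eq, dist_eq_norm, Real.coe_toNNReal _ (by positivity)] at this
  exact (Real.norm_eq_abs (A e i)).symm.trans_le
    ((T.le_opNorm e).trans (mul_le_mul_of_nonneg_right hT (norm_nonneg e)))

/-! ### Euler maps -/

/-- The Euler map at correlation `r`. -/
def eul (P : Pot d h) (Δ r : ℝ) (y : Space d) : Space d := y - Δ • driftV P (chan (r, y))

/-- The Euler points. -/
def zE (P : Pot d h) (Δ : ℝ) : ℕ → Space d → Space d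
  | 0, ξ => ξ
  | j + 1, ξ => eul P Δ (j * Δ) (zE P Δ j ξ)

theorem reg2_comp (P : Pot d h) (hh : h ≤ 1) {r Δ K L H : ℝ} (hr : r ∈ Ioo (-1 : ℝ) 1) (hΔ : 0 ≤ Δ)
    (hH : 0 ≤ H) (hK : ∀ y z : Space d, ‖fderiv ℝ (fun w => driftV P (chan (r, w))) y
      - fderiv ℝ (fun w => driftV P (chan (r, w))) z‖ ≤ K * ‖y - z‖)
    {g : Space d → ℝ} (hg : Reg2 g L H) :
    Reg2 (fun y => g (eul P Δ r y)) (L * (1 + Δ)) (H * (1 + Δ) ^ 2 + L * Δ * K) := by
  have hL : 0 ≤ L := (norm_nonneg _).trans (hg.2.1 0)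
  set u := fun w => driftV P (chan (r, w)) with hu
  have huc : ContDiff ℝ 2 u := contDiffOn_velocity' P r hr
  have hud : ∀ y, HasFDerivAt u (fderiv ℝ u y) y := fun y =>
    (huc.differentiable two_ne_zero y).hasFDerivAt
  have hu1 : ∀ y, ‖fderiv ℝ u y‖ ≤ 1 := fun y => by
    refine norm_fderiv_le_of_lipschitz ℝ (C := 1) (LipschitzWith.of_dist_le_mul fun a b => ?_)
    rw [NNReal.coe_one, one_mul, dist_eq_norm, dist_eq_norm]
    refine (norm_driftV_sub P (var_pos hr) (r • a) (r • b)).trans ?_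
    refine (mul_le_of_le_one_left (norm_nonneg _) hh).trans ?_
    rw [← smul_sub, norm_smul, Real.norm_eq_abs]
    exact mul_le_of_le_one_left (norm_nonneg _) (abs_le.2 ⟨hr.1.le, hr.2.le⟩)
  set D := fun y => ContinuousLinearMap.id ℝ (Space d) - Δ • fderiv ℝ u y with hD
  have hT : ∀ y, HasFDerivAt (eul P Δ r) (D y) y := fun y =>
    (hasFDerivAt_id y).sub ((hud y).const_smul Δ)
  have hD1 : ∀ y, ‖D y‖ ≤ 1 + Δ := fun y => by
    refine (norm_sub_le _ _).trans (add_le_add ContinuousLinearMap.norm_id_le ?_)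
    rw [norm_smul, Real.norm_eq_abs, abs_of_nonneg hΔ]
    exact mul_le_of_le_one_right hΔ (hu1 y)
  have hd : ∀ y, fderiv ℝ (fun y => g (eul P Δ r y)) y
      = (fderiv ℝ g (eul P Δ r y)).comp (D y) := fun y =>
    ((hg.1.differentiable two_ne_zero _).hasFDerivAt.comp y (hT y)).fderiv
  refine ⟨hg.1.comp (contDiff_id.sub (huc.const_smul Δ)), fun y => ?_, fun y z => ?_⟩
  · rw [hd]
    exact (ContinuousLinearMap.opNorm_comp_le _ _).trans
      (mul_le_mul (hg.2.1 _) (hD1 y) (norm_nonneg _) hL)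
  · rw [hd, hd]
    set a := fderiv ℝ g (eul P Δ r y)
    set b := fderiv ℝ g (eul P Δ r z)
    have hl : ‖eul P Δ r y - eul P Δ r z‖ ≤ (1 + Δ) * ‖y - z‖ :=
      convex_univ.norm_image_sub_le_of_norm_fderiv_le (fun x _ => (hT x).differentiableAt)
        (fun x _ => (hT x).fderiv ▸ hD1 x) (mem_univ z) (mem_univ y)
    have e : a.comp (D y) - b.comp (D z) = (a - b).comp (D y) + b.comp (D y - D z) := by
      ext v; simp
    rw [e, add_mul]
    refine (norm_add_le _ _).trans (add_le_add ?_ ?_)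
    · refine (ContinuousLinearMap.opNorm_comp_le _ _).trans ?_
      refine (mul_le_mul ((hg.2.2 _ _).trans (mul_le_mul_of_nonneg_left hl hH)) (hD1 y)
        (norm_nonneg _) (by positivity)).trans_eq ?_
      ring
    · refine (ContinuousLinearMap.opNorm_comp_le _ _).trans ?_
      rw [show D y - D z = Δ • (fderiv ℝ u z - fderiv ℝ u y) by simp only [hD, smul_sub]; abel,
        norm_smul,
        Real.norm_eq_abs, abs_of_nonneg hΔ, norm_sub_rev (fderiv ℝ u z), mul_assoc L, mul_assoc L,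
        mul_assoc Δ]
      exact mul_le_mul (hg.2.1 _) (mul_le_mul_of_nonneg_left (hK y z) hΔ) (by positivity) hL

theorem potR_congr (P : Pot d h) {r r' : ℝ} (e : r = r') (hr : r ∈ Ioo (-1 : ℝ) 1)
    (hr' : r' ∈ Ioo (-1 : ℝ) 1) : potR P r hr = potR P r' hr' := by subst e; rfl

theorem mu_potR_zero (P : Pot d h) (h0 : (0 : ℝ) ∈ Ioo (-1 : ℝ) 1) :
    mu (potR P 0 h0) = gam d := by
  have e : (fun x : Space d => -(potR P 0 h0).W x)
      = fun _ => Real.log (Jk (dens P) (1 - (0 : ℝ) ^ 2, 0)) := by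
    funext x
    simp [potR]
  rw [mu, e, tilted_const]

theorem euler_law (P : Pot d h) (hh : h ≤ 1) {R : ℝ} (hR : R ∈ Ico (0 : ℝ) 1) :
    ∃ K : ℝ, 0 ≤ K ∧ ∀ L H : ℝ, 0 ≤ L → 0 ≤ H → ∃ S : ℝ,
      ∀ (Δ : ℝ), 0 ≤ Δ → ∀ (j : ℕ), (j : ℝ) * Δ ≤ R → ∀ g : Space d → ℝ, ∀ L' H' : ℝ, 0 ≤ H' →
        Reg2 g L' H' → L' * (1 + Δ) ^ (3 * j) ≤ L →
        (H' + j * Δ * K * L') * (1 + Δ) ^ (3 * j) ≤ H →
        ∀ hj : (j : ℝ) * Δ ∈ Ioo (-1 : ℝ) 1,
          |(∫ ξ, g (zE P Δ j ξ) ∂gam d) - ∫ y, g y ∂mu (potR P (j * Δ) hj)| ≤ j * (S * Δ ^ 2) := by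
  obtain ⟨K, hK0, hK⟩ := velocity_second P hh hR
  obtain ⟨C, hC, hU⟩ := lb_Uf
  refine ⟨K, hK0, fun L H hL hH => ⟨stepConst P R (C * siz P) L H, fun Δ hΔ j => ?_⟩⟩
  induction j with
  | zero =>
    intro _ g L' H' _ _ _ _ hj
    have h0 : (0 : ℝ) ∈ Ioo (-1 : ℝ) 1 := by norm_num
    rw [potR_congr P (by simp : ((0 : ℕ) : ℝ) * Δ = 0) hj h0, mu_potR_zero]
    simp [zE]
  | succ j ih =>
    intro hle g L' H' hH' hg hLg hHg hj
    have hL' : 0 ≤ L' := (norm_nonneg _).trans (hg.2.1 0)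
    push_cast at hle hj
    have hjR : (j : ℝ) * Δ ≤ R := by nlinarith
    have hjm : (j : ℝ) * Δ ∈ Icc (0 : ℝ) R := ⟨by positivity, hjR⟩
    have hr : (j : ℝ) * Δ ∈ Ioo (-1 : ℝ) 1 := ⟨by linarith [hjm.1], by linarith [hR.2]⟩
    have hg' := reg2_comp P hh hr hΔ hH' (hK _ hjm) hg
    have h1 : 1 ≤ 1 + Δ := by linarith
    have hp : (1 + Δ) ^ (3 * (j + 1)) = (1 + Δ) ^ 3 * (1 + Δ) ^ (3 * j) := by
      rw [← pow_add]; ring_nf
    have e := ih hjR _ _ _ (by positivity) hg' ?_ ?_ hr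
    · have hLL : L' ≤ L := le_trans (le_mul_of_one_le_right hL' (one_le_pow₀ h1)) hLg
      have hHH : H' ≤ H := by
        refine le_trans ?_ hHg
        refine le_trans ?_ (le_mul_of_one_le_right (by positivity) (one_le_pow₀ h1))
        exact le_add_of_nonneg_right (by positivity)
      have hu : ∫ y, ‖driftV P (chan ((j : ℝ) * Δ, y))‖ ^ 2 ∂mu (potR P _ hr) ≤ C * siz P := by
        have := (hU d h P hh _ hr).2
        rw [wgt_zero, mul_one] at this
        refine le_of_eq_of_le (integral_congr_ae (ae_of_all _ fun y => ?_)) this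
        beta_reduce
        rw [EuclideanSpace.real_norm_sq_eq, hsT, ← (Equiv.funUnique Unit (Fin d)).symm.sum_comp]
        rfl
      have hs : (j : ℝ) * Δ + Δ ∈ Ioo (-1 : ℝ) 1 := by rwa [← add_one_mul]
      have s := step_law P ⟨hg.1, fun y => (hg.2.1 y).trans hLL,
        fun y z => (hg.2.2 y z).trans (mul_le_mul_of_nonneg_right hHH (norm_nonneg _))⟩ hH
        hR.2 hjm.1 hΔ (by linarith) hr hs hu
      rw [potR_congr P (show ((j + 1 : ℕ) : ℝ) * Δ = j * Δ + Δ by push_cast; ring) _ hs]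
      refine (abs_sub_le _ (∫ y, g (eul P Δ (j * Δ) y) ∂mu (potR P _ hr)) _).trans
        ((add_le_add e s).trans_eq ?_)
      push_cast
      ring
    · rw [hp] at hLg
      refine le_trans ?_ hLg
      rw [mul_assoc]
      refine mul_le_mul_of_nonneg_left (mul_le_mul_of_nonneg_right ?_ (by positivity)) hL'
      exact le_self_pow₀ h1 (by norm_num)
    · rw [hp, ← mul_assoc] at hHg
      refine le_trans (mul_le_mul_of_nonneg_right ?_ (by positivity)) hHg
      have a1 : (1 + Δ) ^ 2 ≤ (1 + Δ) ^ 3 := pow_le_pow_right₀ h1 (by norm_num)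
      have a2 : 1 + Δ ≤ (1 + Δ) ^ 3 := le_self_pow₀ h1 (by norm_num)
      have a3 : 1 ≤ (1 + Δ) ^ 3 := one_le_pow₀ h1
      push_cast
      nlinarith [mul_le_mul_of_nonneg_left a1 hH',
        mul_le_mul_of_nonneg_left a2 (show 0 ≤ j * Δ * K * L' by positivity),
        mul_le_mul_of_nonneg_left a3 (show 0 ≤ L' * Δ * K by positivity)]

/-! ### Convergence to the flow -/

/-- The Euler points stay near a trajectory. -/
theorem euler_error {P : Pot d h} {R t Δ η : ℝ} (hh : h ≤ 1) (hR : R ∈ Ico (0 : ℝ) 1) (hΔ : 0 ≤ Δ)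
    (hη : 0 ≤ η) (ht : t ≤ R) {Y : ℝ → Space d} {ξ : Space d} (h0 : Y 0 = ξ)
    (hY : ∀ s ∈ Icc (0 : ℝ) t, HasDerivAt Y (fldR P R s (Y s)) s)
    (hm : ∀ s ∈ Icc (0 : ℝ) t, ∀ s' ∈ Icc (0 : ℝ) t, |s - s'| ≤ Δ →
      ‖fldR P R s (Y s) - fldR P R s' (Y s')‖ ≤ η) :
    ∀ j : ℕ, (j : ℝ) * Δ ≤ t → ‖zE P Δ j ξ - Y (j * Δ)‖ ≤ (1 + Δ) ^ j * (j * (Δ * η)) := by
  intro j
  induction j with
  | zero => intro _; simp [zE, h0]
  | succ j ih =>
    intro hj
    push_cast at hj
    set a := (j : ℝ) * Δ with ha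
    have ha' : a ∈ Icc 0 t := ⟨by positivity, by linarith⟩
    have hb : a + Δ ∈ Icc 0 t := ⟨by linarith [ha'.1], by linarith⟩
    have hsub : Icc a (a + Δ) ⊆ Icc 0 t := Icc_subset_Icc ha'.1 hb.2
    set w := fldR P R a (Y a)
    have hres : ‖(Y (a + Δ) - (a + Δ) • w) - (Y a - a • w)‖ ≤ η * (a + Δ - a) :=
      norm_image_sub_le_of_norm_deriv_le_segment' (f := fun s => Y s - s • w)
        (f' := fun s => fldR P R s (Y s) - w)
        (fun s hs => by
          simpa using ((hY s (hsub hs)).fun_sub ((hasDerivAt_id s).smul_const w)).hasDerivWithinAt)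
        (fun s hs => hm s (hsub (Ico_subset_Icc_self hs)) a ha'
          (abs_le.2 ⟨by linarith [hs.1], by linarith [hs.2]⟩))
        (a + Δ) ⟨by linarith, le_rfl⟩
    have e0 := ih ha'.2
    set z := zE P Δ j ξ
    have he : eul P Δ a z = z + Δ • fldR P R a z := by
      rw [fldR, clamp_eq ⟨by linarith [ha'.1, hR.1], ha'.2.trans ht⟩, eul, smul_neg, sub_eq_add_neg]
    have hl : ‖fldR P R a z - w‖ ≤ ‖z - Y a‖ := by
      have := (fldR_lip P hh hR a).dist_le_mul z (Y a)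
      rwa [NNReal.coe_one, one_mul, dist_eq_norm, dist_eq_norm] at this
    rw [show ((j + 1 : ℕ) : ℝ) * Δ = a + Δ by push_cast; ring, zE, he,
      show z + Δ • fldR P R a z - Y (a + Δ) = (z - Y a) + Δ • (fldR P R a z - w)
          - ((Y (a + Δ) - (a + Δ) • w) - (Y a - a • w)) by
        rw [add_smul, smul_sub]; abel]
    refine (norm_sub_le _ _).trans ((add_le_add ((norm_add_le _ _).trans
      (add_le_add e0 (le_of_eq (norm_smul _ _)))) hres).trans ?_)
    rw [Real.norm_eq_abs, abs_of_nonneg hΔ, add_sub_cancel_left]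
    have h1 : (1 : ℝ) ≤ (1 + Δ) ^ (j + 1) := one_le_pow₀ (by linarith)
    have h2 := mul_le_mul_of_nonneg_left (hl.trans e0) hΔ
    have h3 := mul_le_mul_of_nonneg_right h1 (show 0 ≤ Δ * η by positivity)
    rw [pow_succ] at h3 ⊢
    push_cast
    nlinarith

theorem continuousOn_pair {G : ℝ → Space d → Space d}
    (hG : Continuous fun p : ℝ × Space d => G p.1 p.2) {Y : ℝ → Space d} {T : Set ℝ}
    (hY : ContinuousOn Y T) : ContinuousOn (fun u => G u (Y u)) T :=
  hG.comp_continuousOn (f := fun u => (u, Y u)) (continuousOn_id.prodMk hY)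

theorem tendsto_euler {P : Pot d h} {R t : ℝ} (hh : h ≤ 1) (hR : R ∈ Ioo (0 : ℝ) 1)
    (ht : t ∈ Ico 0 R) (ξ : Space d) :
    Tendsto (fun N : ℕ => zE P (t / (N + 1)) (N + 1) ξ) atTop (𝓝 (flow P R ξ t)) := by
  have hex : ∃ Y : ℝ → Space d, Y 0 = ξ ∧ ContinuousOn Y (Icc (-R) R) ∧
      (∀ s ∈ Ioo (-R) R, HasDerivAt Y (-driftV P (chan (s, Y s))) s) ∧ Y t = flow P R ξ t :=
    ⟨flow P R ξ, (flow_spec hh hR ξ).1, flow_continuousOn hh hR ξ,
      fun s hs => flow_hasDerivAt hh hR ξ hs, rfl⟩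
  obtain ⟨Y, h0, hc, hD, hYt⟩ := hex
  rw [← hYt]
  have hmem : Icc (0 : ℝ) t ⊆ Icc (-R) R :=
    Icc_subset_Icc (by linarith [hR.1]) ht.2.le
  have hφ : ContinuousOn (fun s => fldR P R s (Y s)) (Icc 0 t) :=
    continuousOn_pair (fldR_cont P ⟨hR.1.le, hR.2⟩) (hc.mono hmem)
  have hY : ∀ s ∈ Icc (0 : ℝ) t, HasDerivAt Y (fldR P R s (Y s)) s := fun s hs => by
    rw [fldR, clamp_eq (hmem hs)]
    exact hD s ⟨by linarith [hs.1, hR.1], by linarith [hs.2, ht.2]⟩
  rw [Metric.tendsto_atTop]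
  intro ε hε
  obtain ⟨δ, hδ, hu⟩ := Metric.uniformContinuousOn_iff.1
    (isCompact_Icc.uniformContinuousOn_of_continuous hφ) (ε / 6) (by positivity)
  obtain ⟨N₀, hN₀⟩ := exists_nat_gt (t / δ)
  refine ⟨N₀, fun N hN => ?_⟩
  have hN1 : (0 : ℝ) < N + 1 := by positivity
  set Δ := t / (N + 1 : ℝ) with hΔ
  have hΔ0 : 0 ≤ Δ := div_nonneg ht.1 hN1.le
  have hΔδ : Δ < δ := by
    rw [hΔ, div_lt_iff₀ hN1]
    rw [div_lt_iff₀ hδ] at hN₀
    have : (N₀ : ℝ) ≤ N := by exact_mod_cast hN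
    nlinarith
  have e : ((N + 1 : ℕ) : ℝ) * Δ = t := by push_cast; exact mul_div_cancel₀ t hN1.ne'
  have hk := euler_error hh ⟨hR.1.le, hR.2⟩ hΔ0 (η := ε / 6) (by positivity) ht.2.le h0 hY
    (fun s hs s' hs' hd => by
      have := (hu s hs s' hs' (by rw [Real.dist_eq]; linarith)).le
      rwa [dist_eq_norm] at this) (N + 1) e.le
  rw [e, ← mul_assoc ((N + 1 : ℕ) : ℝ), e] at hk
  rw [dist_eq_norm]
  refine hk.trans_lt ?_
  have h2 : (1 + Δ) ^ (N + 1) ≤ 3 := by
    refine (pow_le_pow_left₀ (by positivity)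
      (show 1 + Δ ≤ Real.exp Δ by linarith [Real.add_one_le_exp Δ]) _).trans ?_
    rw [← Real.exp_nat_mul, e]
    exact (Real.exp_le_exp.2 (by linarith [ht.2, hR.2] : t ≤ 1)).trans Real.exp_one_lt_three.le
  have h4 : 0 ≤ t * (ε / 6) := mul_nonneg ht.1 (by positivity)
  have h5 : t * (ε / 6) ≤ ε / 6 := mul_le_of_le_one_left (by positivity) (by linarith [ht.2, hR.2])
  nlinarith [mul_le_mul_of_nonneg_right h2 h4]

/-! ### The law -/

theorem contDiff_zE (P : Pot d h) {Δ R : ℝ} (hΔ : 0 ≤ Δ) (hR : R < 1) :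
    ∀ j : ℕ, (j : ℝ) * Δ ≤ R → Continuous fun ξ : Space d => zE P Δ j ξ
  | 0, _ => continuous_id
  | j + 1, hle => by
    have h1 : (j : ℝ) * Δ ≤ R := by push_cast at hle; nlinarith
    have h2 := (contDiff_zE P hΔ hR j h1)
    have hr : (j : ℝ) * Δ ∈ Ioo (-1 : ℝ) 1 :=
      ⟨by linarith [show (0 : ℝ) ≤ j * Δ by positivity], by linarith⟩
    exact (continuous_id.sub ((contDiffOn_velocity' P _ hr).continuous.const_smul Δ)).comp h2

theorem flow_test {P : Pot d h} {R t : ℝ} (hh : h ≤ 1) (hR : R ∈ Ioo (0 : ℝ) 1)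
    (ht : t ∈ Ico 0 R) (htm : t ∈ Ioo (-1 : ℝ) 1) {g : Space d → ℝ} {L H B : ℝ} (hH : 0 ≤ H)
    (hg : Reg2 g L H) (hB : ∀ y, |g y| ≤ B) :
    ∫ ξ, g (flow P R ξ t) ∂gam d = ∫ y, g y ∂mu (potR P t htm) := by
  obtain ⟨K, hK, hE⟩ := euler_law P hh ⟨hR.1.le, hR.2⟩
  have hL : 0 ≤ L := (norm_nonneg _).trans (hg.2.1 0)
  obtain ⟨S, hS⟩ := hE (L * Real.exp 3) ((H + K * L) * Real.exp 3) (by positivity) (by positivity)
  set I := ∫ y, g y ∂mu (potR P t htm)
  have hle : ∀ N : ℕ, ((N + 1 : ℕ) : ℝ) * (t / (N + 1)) = t := fun N => by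
    push_cast; exact mul_div_cancel₀ t (by positivity)
  have h1 : Tendsto (fun N : ℕ => ∫ ξ, g (zE P (t / (N + 1)) (N + 1) ξ) ∂gam d) atTop
      (𝓝 (∫ ξ, g (flow P R ξ t) ∂gam d)) :=
    tendsto_integral_of_dominated_convergence (fun _ => B)
      (fun N => (hg.1.continuous.comp (contDiff_zE P (div_nonneg ht.1 (by positivity)) hR.2 _
        (by rw [hle]; exact ht.2.le))).aestronglyMeasurable)
      (integrable_const B) (fun N => ae_of_all _ fun ξ => by simpa using hB _)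
      (ae_of_all _ fun ξ => (hg.1.continuous.tendsto _).comp (tendsto_euler hh hR ht ξ))
  have h2 : Tendsto (fun N : ℕ => ∫ ξ, g (zE P (t / (N + 1)) (N + 1) ξ) ∂gam d) atTop (𝓝 I) := by
    have h3 : Tendsto (fun N : ℕ => S * t * (t / (N + 1))) atTop (𝓝 0) := by
      simpa using ((tendsto_const_nhds (x := t)).div_atTop (tendsto_atTop_add_const_right atTop
        (1 : ℝ) tendsto_natCast_atTop_atTop)).const_mul (S * t)
    rw [tendsto_iff_norm_sub_tendsto_zero]
    refine squeeze_zero (fun N => norm_nonneg _) (fun N => ?_) h3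
    set Δ := t / ((N : ℝ) + 1) with hΔ
    have hΔ0 : 0 ≤ Δ := div_nonneg ht.1 (by positivity)
    have hp : (1 + Δ) ^ (3 * (N + 1)) ≤ Real.exp 3 := by
      refine (pow_le_pow_left₀ (by positivity)
      (show 1 + Δ ≤ Real.exp Δ by linarith [Real.add_one_le_exp Δ]) _).trans ?_
      rw [← Real.exp_nat_mul, Nat.cast_mul, mul_assoc, hle]
      refine Real.exp_le_exp.2 ?_
      push_cast
      linarith [ht.2, hR.2]
    have hm : ((N + 1 : ℕ) : ℝ) * Δ ∈ Ioo (-1 : ℝ) 1 := by rwa [hle]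
    have := hS Δ hΔ0 (N + 1) (by rw [hle]; exact ht.2.le) g L H hH hg
      (mul_le_mul_of_nonneg_left hp hL)
      (mul_le_mul (add_le_add le_rfl (mul_le_mul_of_nonneg_right
        (mul_le_of_le_one_left hK (by rw [hle]; linarith [ht.2, hR.2])) hL)) hp (by positivity)
        (by positivity)) hm
    rw [potR_congr P (hle N) hm htm] at this
    rw [Real.norm_eq_abs]
    refine this.trans_eq ?_
    rw [show ((N + 1 : ℕ) : ℝ) * (S * Δ ^ 2) = S * (((N + 1 : ℕ) : ℝ) * Δ) * Δ by ring, hle]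
  exact tendsto_nhds_unique h1 h2

theorem reg2_wave {φ φ' : ℝ → ℝ} (hc : ContDiff ℝ 2 φ) (hd : ∀ s, HasDerivAt φ (φ' s) s)
    (h1 : ∀ s, |φ' s| ≤ 1) (h2 : ∀ s s', |φ' s - φ' s'| ≤ |s - s'|) (τ : Space d) :
    Reg2 (fun y : Space d => φ ⟪y, τ⟫) ‖τ‖ (‖τ‖ ^ 2) := by
  have hf : ∀ y : Space d, HasFDerivAt (fun y : Space d => φ ⟪y, τ⟫)
      (φ' ⟪y, τ⟫ • innerSL ℝ τ) y := fun y => by
    have e : (fun y : Space d => φ ⟪y, τ⟫) = fun y => φ (innerSL ℝ τ y) :=
      funext fun y => by rw [innerSL_apply_apply, real_inner_comm]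
    rw [e, real_inner_comm, ← innerSL_apply_apply ℝ]
    exact (hd _).comp_hasFDerivAt y (innerSL ℝ τ).hasFDerivAt
  refine ⟨hc.comp (contDiff_id.inner ℝ contDiff_const), fun y => ?_, fun y z => ?_⟩
  · rw [(hf y).fderiv, norm_smul, innerSL_apply_norm, Real.norm_eq_abs]
    exact mul_le_of_le_one_left (norm_nonneg _) (h1 _)
  · rw [(hf y).fderiv, (hf z).fderiv, ← sub_smul, norm_smul, innerSL_apply_norm, Real.norm_eq_abs,
      sq, mul_comm (‖τ‖ * ‖τ‖), ← mul_assoc]
    refine mul_le_mul_of_nonneg_right ((h2 _ _).trans ?_) (norm_nonneg _)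
    rw [← inner_sub_left]
    exact abs_real_inner_le_norm _ _

/-- The law of the flow. -/
theorem flow_law {P : Pot d h} {R t : ℝ} (hh : h ≤ 1) (hR : R ∈ Ioo (0 : ℝ) 1)
    (ht : t ∈ Ico 0 R) (htm : t ∈ Ioo (-1 : ℝ) 1) :
    (gam d).map (fun ξ => flow P R ξ t) = mu (potR P t htm) := by
  have := mu_prob (potR P t htm)
  have hc : Continuous fun ξ => flow P R ξ t := (flow_lip hh hR ht).continuous
  have : IsProbabilityMeasure ((gam d).map fun ξ => flow P R ξ t) :=
    Measure.isProbabilityMeasure_map hc.aemeasurable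
  refine Measure.ext_of_charFun (funext fun τ => ?_)
  have hcc : Continuous fun x : Space d => Complex.exp ((⟪x, τ⟫ : ℝ) * Complex.I) := by fun_prop
  rw [charFun_apply, charFun_apply,
    integral_map hc.aemeasurable hcc.aestronglyMeasurable]
  have i1 : Integrable (fun ξ => Complex.exp ((⟪flow P R ξ t, τ⟫ : ℝ) * Complex.I)) (gam d) :=
    Integrable.mono' (integrable_const 1) (hcc.comp hc).aestronglyMeasurable
      (ae_of_all _ fun x => le_of_eq (Complex.norm_exp_ofReal_mul_I _))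
  have i2 : Integrable (fun y : Space d => Complex.exp ((⟪y, τ⟫ : ℝ) * Complex.I))
      (mu (potR P t htm)) :=
    Integrable.mono' (integrable_const 1) hcc.aestronglyMeasurable
      (ae_of_all _ fun x => le_of_eq (Complex.norm_exp_ofReal_mul_I _))
  refine Complex.ext ?_ ?_
  · rw [← RCLike.re_to_complex, ← RCLike.re_to_complex, ← integral_re i1, ← integral_re i2]
    simp only [RCLike.re_to_complex, Complex.exp_ofReal_mul_I_re]
    exact flow_test hh hR ht htm (sq_nonneg _) (reg2_wave Real.contDiff_cos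
      (fun s => Real.hasDerivAt_cos s) (fun s => by simpa using Real.abs_sin_le_one s)
      (fun s s' => by
        rw [neg_sub_neg, abs_sub_comm]
        exact Real.abs_sin_sub_sin_le s s') τ) (fun y => Real.abs_cos_le_one _)
  · rw [← RCLike.im_to_complex, ← RCLike.im_to_complex, ← integral_im i1, ← integral_im i2]
    simp only [RCLike.im_to_complex, Complex.exp_ofReal_mul_I_im]
    exact flow_test hh hR ht htm (sq_nonneg _) (reg2_wave Real.contDiff_sin
      (fun s => Real.hasDerivAt_sin s) (fun s => Real.abs_cos_le_one s)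
      (fun s s' => Real.abs_cos_sub_cos_le s s') τ) (fun y => Real.abs_sin_le_one _)

end Vale.Agent.P347.Zero
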