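import Vale.Agent.P347.Zero.FlowTime

/-!
Collocation on the exact trajectory: composite interpolatory rules on geometric pieces of relative
length `η` reproduce the probability flow to `η ^ n` in square mean, with total weight of order one,
and the discrete iterates converge to it.
-/

noncomputable section

open MeasureTheory Filter Topology Set Finset
open scoped RealInnerProductSpace

namespace Vale.Agent.P347.Zero

variable {d : ℕ} {h : ℝ}

/-! ### One interpolatory piece -/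

theorem taylor_le : ∀ (n : ℕ) {φ : ℕ → ℝ → ℝ} {a b : ℝ}, a ≤ b →
    (∀ k, ∀ x ∈ Icc a b, HasDerivAt (φ k) (φ (k + 1) x) x) → ∀ x ∈ Icc a b,
      |φ 0 x - ∑ k ∈ range (n + 1), φ k a * (x - a) ^ k / (k.factorial : ℝ)|
        ≤ (b - a) ^ n * ∫ t in a..b, |φ (n + 1) t| := by
  intro n
  induction n with
  | zero =>
    intro φ a b hab hd x hx
    have hc : ContinuousOn (φ 1) (Icc a b) := fun t ht => (hd 1 t ht).continuousAt.continuousWithinAt
    have hi : IntervalIntegrable (φ 1) volume a b := hc.intervalIntegrable_of_Icc hab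
    have hix : IntervalIntegrable (φ 1) volume a x :=
      (hc.mono (Icc_subset_Icc_right hx.2)).intervalIntegrable_of_Icc hx.1
    have e : φ 0 x - φ 0 a = ∫ t in a..x, φ 1 t := by
      refine (intervalIntegral.integral_eq_sub_of_hasDerivAt (fun t ht => hd 0 t ?_) hix).symm
      rw [uIcc_of_le hx.1] at ht
      exact ⟨ht.1, ht.2.trans hx.2⟩
    simp only [zero_add, Finset.sum_range_one, pow_zero, mul_one, Nat.factorial_zero, Nat.cast_one,
      div_one, one_mul]
    rw [e]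
    refine (intervalIntegral.abs_integral_le_integral_abs hx.1).trans ?_
    exact intervalIntegral.integral_mono_interval le_rfl hx.1 hx.2
      (ae_of_all _ fun t => abs_nonneg _) hi.abs
  | succ n ih =>
    intro φ a b hab hd x hx
    set D : ℝ → ℝ := fun y => φ 0 y - ∑ k ∈ range (n + 2), φ k a * (y - a) ^ k / (k.factorial : ℝ) with hD
    set E := (b - a) ^ n * ∫ t in a..b, |φ (n + 2) t| with hE
    have hder : ∀ y ∈ Icc a b, HasDerivWithinAt D
        (φ 1 y - ∑ k ∈ range (n + 1), φ (k + 1) a * (y - a) ^ k / (k.factorial : ℝ)) (Icc a b) y := by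
      intro y hy
      have h1 : ∀ k, HasDerivAt (fun y : ℝ => φ (k + 1) a * (y - a) ^ (k + 1) / ((k + 1).factorial : ℝ))
          (φ (k + 1) a * (y - a) ^ k / (k.factorial : ℝ)) y := fun k => by
        refine ((((hasDerivAt_id y).sub_const a).fun_pow (k + 1)).const_mul (φ (k + 1) a)
          |>.div_const _).congr_deriv ?_
        rw [Nat.factorial_succ]
        push_cast
        field_simp
        simp
      have h2 : HasDerivAt (fun y : ℝ => φ 0 y - ((∑ k ∈ range (n + 1),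
          φ (k + 1) a * (y - a) ^ (k + 1) / ((k + 1).factorial : ℝ)) + φ 0 a)) _ y :=
        (hd 0 y hy).fun_sub ((HasDerivAt.fun_sum fun k _ => h1 k).add_const (φ 0 a))
      refine h2.hasDerivWithinAt.congr_of_eventuallyEq (Eventually.of_forall fun z => ?_) ?_ <;>
      · simp only [hD]
        rw [Finset.sum_range_succ']
        simp
    have hbd : ∀ y ∈ Icc a b,
        ‖φ 1 y - ∑ k ∈ range (n + 1), φ (k + 1) a * (y - a) ^ k / (k.factorial : ℝ)‖ ≤ E := fun y hy =>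
      (Real.norm_eq_abs _).trans_le (ih (φ := fun k => φ (k + 1)) hab (fun k => hd (k + 1)) y hy)
    have h3 := (convex_Icc a b).norm_image_sub_le_of_norm_hasDerivWithin_le hder hbd
      (left_mem_Icc.2 hab) hx
    have hDa : D a = 0 := by
      simp only [hD]
      rw [Finset.sum_range_succ']
      simp
    rw [hDa, sub_zero, Real.norm_eq_abs, Real.norm_eq_abs] at h3
    refine h3.trans ?_
    have hI : 0 ≤ ∫ t in a..b, |φ (n + 2) t| :=
      intervalIntegral.integral_nonneg hab fun t _ => abs_nonneg _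
    rw [abs_of_nonneg (sub_nonneg.2 hx.1)]
    calc E * (x - a) ≤ E * (b - a) :=
          mul_le_mul_of_nonneg_left (by linarith [hx.2])
            (mul_nonneg (pow_nonneg (sub_nonneg.2 hab) n) hI)
      _ = _ := by rw [hE]; ring

/-- The interpolatory weights for `∫ ₀^θ` at the nodes `l / (n + 1)`. -/
def qW (n : ℕ) (θ : ℝ) (l : Fin (n + 1)) : ℝ :=
  ∫ x in (0 : ℝ)..θ, (Lagrange.basis Finset.univ (fun i : Fin (n + 1) => (i : ℝ) / (n + 1)) l).eval x

theorem qW_exact (n : ℕ) (θ : ℝ) {p : ℕ} (hp : p ≤ n) :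
    ∑ l, qW n θ l * ((l : ℝ) / (n + 1)) ^ p = θ ^ (p + 1) / (p + 1) := by
  set v : Fin (n + 1) → ℝ := fun i => (i : ℝ) / (n + 1) with hv
  have hinj : Set.InjOn v (Finset.univ : Finset (Fin (n + 1))) := fun i _ j _ e => by
    simp only [hv, div_left_inj' (show (n : ℝ) + 1 ≠ 0 by positivity), Nat.cast_inj] at e
    exact Fin.ext e
  have hx := Lagrange.eq_interpolate (f := (Polynomial.X : Polynomial ℝ) ^ p) hinj (by
    rw [Polynomial.degree_X_pow, Finset.card_univ, Fintype.card_fin]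
    exact_mod_cast Nat.lt_succ_of_le hp)
  have he : ∀ x : ℝ, x ^ p = ∑ l, v l ^ p * (Lagrange.basis Finset.univ v l).eval x := fun x => by
    have := congrArg (Polynomial.eval x) hx
    rw [Lagrange.interpolate_apply, Polynomial.eval_finsetSum, Polynomial.eval_pow,
      Polynomial.eval_X] at this
    rw [this]
    exact Finset.sum_congr rfl fun l _ => by
      rw [Polynomial.eval_mul, Polynomial.eval_C, Polynomial.eval_pow, Polynomial.eval_X]
  have hint : ∫ x in (0 : ℝ)..θ, x ^ p = θ ^ (p + 1) / (p + 1) := by simp [integral_pow]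
  rw [← hint, show (fun x : ℝ => x ^ p)
      = fun x => ∑ l, v l ^ p * (Lagrange.basis Finset.univ v l).eval x from funext he,
    intervalIntegral.integral_finsetSum fun l _ =>
      ((Lagrange.basis Finset.univ v l).continuous.const_mul (v l ^ p)).intervalIntegrable 0 θ]
  exact Finset.sum_congr rfl fun l _ => by
    rw [intervalIntegral.integral_const_mul, qW, mul_comm]

/-- The error of one piece. -/
theorem piece_err (n : ℕ) {φ : ℕ → ℝ → ℝ} {a Δ θ : ℝ} (hΔ : 0 ≤ Δ) (hθ : θ ∈ Icc (0 : ℝ) 1)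
    (hd : ∀ k, ∀ x ∈ Icc a (a + Δ), HasDerivAt (φ k) (φ (k + 1) x) x) :
    |(∫ x in a..(a + θ * Δ), φ 0 x)
        - Δ * ∑ l : Fin (n + 1), qW n θ l * φ 0 (a + Δ * ((l : ℝ) / (n + 1)))|
      ≤ (1 + ∑ l, |qW n θ l|) * (Δ ^ (n + 1) * ∫ t in a..(a + Δ), |φ (n + 1) t|) := by
  set E := Δ ^ n * ∫ t in a..(a + Δ), |φ (n + 1) t| with hE
  have hE0 : 0 ≤ E := mul_nonneg (pow_nonneg hΔ n)
    (intervalIntegral.integral_nonneg (by linarith) fun t _ => abs_nonneg _)
  set T : ℝ → ℝ := fun x => ∑ k ∈ range (n + 1), φ k a * (x - a) ^ k / (k.factorial : ℝ) with hT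
  have hb : ∀ x ∈ Icc a (a + Δ), |φ 0 x - T x| ≤ E := fun x hx => by
    have := taylor_le n (by linarith : a ≤ a + Δ) hd x hx
    rwa [add_sub_cancel_left] at this
  have hend : a + θ * Δ ∈ Icc a (a + Δ) :=
    ⟨le_add_of_nonneg_right (mul_nonneg hθ.1 hΔ),
      add_le_add le_rfl (mul_le_of_le_one_left hΔ hθ.2)⟩
  have hnode : ∀ l : Fin (n + 1), a + Δ * ((l : ℝ) / (n + 1)) ∈ Icc a (a + Δ) := fun l =>
    ⟨le_add_of_nonneg_right (by positivity), add_le_add le_rfl (mul_le_of_le_one_right hΔ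
      (by rw [div_le_one (by positivity)]; exact_mod_cast l.2.le))⟩
  have hci : IntervalIntegrable (φ 0) volume a (a + θ * Δ) :=
    ContinuousOn.intervalIntegrable_of_Icc hend.1 fun t ht =>
      (hd 0 t ⟨ht.1, ht.2.trans hend.2⟩).continuousAt.continuousWithinAt
  have hTi : IntervalIntegrable T volume a (a + θ * Δ) :=
    (continuous_finsetSum _ fun k _ => by fun_prop).intervalIntegrable _ _
  have hexact : ∫ x in a..(a + θ * Δ), T x
      = Δ * ∑ l : Fin (n + 1), qW n θ l * T (a + Δ * ((l : ℝ) / (n + 1))) := by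
    simp only [hT, Finset.mul_sum, add_sub_cancel_left]
    rw [intervalIntegral.integral_finsetSum fun k _ =>
        (by fun_prop : Continuous fun x : ℝ => φ k a * (x - a) ^ k / (k.factorial : ℝ)).intervalIntegrable _ _,
      Finset.sum_comm]
    refine Finset.sum_congr rfl fun k hk => ?_
    have e1 : ∫ x in a..(a + θ * Δ), φ k a * (x - a) ^ k / (k.factorial : ℝ)
        = φ k a / (k.factorial : ℝ) * ((θ * Δ) ^ (k + 1) / (k + 1)) := by
      rw [show (fun x : ℝ => φ k a * (x - a) ^ k / (k.factorial : ℝ)) = fun x => φ k a / (k.factorial : ℝ) * (x - a) ^ k from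
        funext fun x => by ring, intervalIntegral.integral_const_mul,
        intervalIntegral.integral_comp_sub_right (fun x => x ^ k)]
      simp [integral_pow]
    rw [e1, mul_pow, mul_div_right_comm (θ ^ (k + 1)),
      ← qW_exact n θ (Nat.le_of_lt_succ (Finset.mem_range.1 hk)), Finset.sum_mul, Finset.mul_sum]
    exact Finset.sum_congr rfl fun l _ => by rw [mul_pow]; ring
  have e : (∫ x in a..(a + θ * Δ), φ 0 x)
      - Δ * ∑ l : Fin (n + 1), qW n θ l * φ 0 (a + Δ * ((l : ℝ) / (n + 1)))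
      = (∫ x in a..(a + θ * Δ), (φ 0 x - T x)) - Δ * ∑ l : Fin (n + 1), qW n θ l
          * (φ 0 (a + Δ * ((l : ℝ) / (n + 1))) - T (a + Δ * ((l : ℝ) / (n + 1)))) := by
    rw [intervalIntegral.integral_sub hci hTi, hexact]
    simp only [mul_sub, Finset.sum_sub_distrib]
    ring
  rw [e]
  have b1 : |∫ x in a..(a + θ * Δ), (φ 0 x - T x)| ≤ E * Δ := by
    have := intervalIntegral.norm_integral_le_of_norm_le_const (C := E)
      (f := fun x => φ 0 x - T x) (a := a) (b := a + θ * Δ) fun x hx => by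
        rw [uIoc_of_le hend.1] at hx
        exact hb x ⟨hx.1.le, hx.2.trans hend.2⟩
    refine ((Real.norm_eq_abs _).symm.trans_le this).trans (mul_le_mul_of_nonneg_left ?_ hE0)
    rw [add_sub_cancel_left, abs_of_nonneg (mul_nonneg hθ.1 hΔ)]
    exact mul_le_of_le_one_left hΔ hθ.2
  have b2 : |Δ * ∑ l : Fin (n + 1), qW n θ l
      * (φ 0 (a + Δ * ((l : ℝ) / (n + 1))) - T (a + Δ * ((l : ℝ) / (n + 1))))|
      ≤ Δ * ((∑ l, |qW n θ l|) * E) := by
    rw [abs_mul, abs_of_nonneg hΔ, Finset.sum_mul]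
    refine mul_le_mul_of_nonneg_left ((Finset.abs_sum_le_sum_abs _ _).trans
      (Finset.sum_le_sum fun l _ => ?_)) hΔ
    rw [abs_mul]
    exact mul_le_mul_of_nonneg_left (hb _ (hnode l)) (abs_nonneg _)
  refine ((abs_sub _ _).trans (add_le_add b1 b2)).trans_eq ?_
  rw [hE, pow_succ]
  ring

/-! ### Geometric pieces -/

/-- The ends of the pieces. -/
def cut (η re : ℝ) (j : ℕ) : ℝ := min re (1 - (1 - η) ^ j)

/-- The number of pieces. -/
def nPiece (η re : ℝ) : ℕ := ⌈Real.log (2 / (1 - re ^ 2)) / η⌉₊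

section pieces

variable {η re : ℝ}

theorem cut_zero (hre : 0 ≤ re) : cut η re 0 = 0 := by simp [cut, hre]

theorem cut_le (j : ℕ) : cut η re j ≤ re := min_le_left _ _

theorem cut_mono (hη : η ∈ Ioc (0 : ℝ) (1 / 2)) (j : ℕ) : cut η re j ≤ cut η re (j + 1) :=
  min_le_min le_rfl (sub_le_sub_left (pow_le_pow_of_le_one (by linarith [hη.2]) (by linarith [hη.1])
    (Nat.le_succ j)) 1)

theorem cut_nonneg (hη : η ∈ Ioc (0 : ℝ) (1 / 2)) (hre : 0 ≤ re) (j : ℕ) : 0 ≤ cut η re j :=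
  le_min hre (sub_nonneg.2 (pow_le_one₀ (by linarith [hη.2]) (by linarith [hη.1])))

theorem cut_len (hη : η ∈ Ioc (0 : ℝ) (1 / 2)) (hre : re ∈ Ico (0 : ℝ) 1) (j : ℕ) {t : ℝ}
    (ht : t ∈ Icc (cut η re j) (cut η re (j + 1))) :
    cut η re (j + 1) - cut η re j ≤ 2 * η * (1 - t ^ 2) := by
  have hq : (0 : ℝ) ≤ 1 - η := by linarith [hη.2]
  have h0 : 0 ≤ t := (cut_nonneg hη hre.1 j).trans ht.1
  have h1 : t ≤ 1 - (1 - η) ^ (j + 1) := ht.2.trans (min_le_right _ _)
  have h2 : (1 - η) ^ j ≤ 2 * (1 - η) ^ (j + 1) := by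
    rw [pow_succ]; nlinarith [pow_nonneg hq j, hη.2]
  have h3 : cut η re (j + 1) - cut η re j ≤ η * (1 - η) ^ j := by
    rcases min_choice re (1 - (1 - η) ^ j) with e | e
    · rw [show cut η re j = re from e]
      linarith [cut_le (η := η) (re := re) (j + 1), mul_nonneg hη.1.le (pow_nonneg hq j)]
    · rw [show cut η re j = 1 - (1 - η) ^ j from e]
      have := min_le_right re (1 - (1 - η) ^ (j + 1))
      simp only [cut] at this ⊢
      rw [show η * (1 - η) ^ j = (1 - η) ^ j - (1 - η) ^ (j + 1) by ring]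
      linarith
  have h4 : (1 - η) ^ (j + 1) ≤ 1 - t ^ 2 := by
    nlinarith [ht.2.trans (cut_le (j + 1)), hre.2]
  nlinarith [hη.1]

theorem cut_last (hη : η ∈ Ioc (0 : ℝ) (1 / 2)) (hre : re ∈ Ico (0 : ℝ) 1) :
    cut η re (nPiece η re) = re := by
  have hv : 0 < 1 - re ^ 2 := by nlinarith [hre.1, hre.2]
  refine min_eq_left ?_
  have h1 : (1 - η) ^ nPiece η re ≤ (1 - re ^ 2) / 2 := by
    refine (pow_le_pow_left₀ (by linarith [hη.2]) (Real.one_sub_le_exp_neg η) _).trans ?_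
    rw [← Real.exp_nat_mul, show (1 - re ^ 2) / 2 = Real.exp (-Real.log (2 / (1 - re ^ 2))) by
      rw [Real.exp_neg, Real.exp_log (by positivity), inv_div], Real.exp_le_exp]
    have h2 := Nat.le_ceil (Real.log (2 / (1 - re ^ 2)) / η)
    rw [div_le_iff₀ hη.1] at h2
    rw [nPiece]
    linarith
  nlinarith [hre.1, hre.2]

theorem nPiece_le (hη : η ∈ Ioc (0 : ℝ) (1 / 2)) (hre : re ∈ Ico (0 : ℝ) 1) :
    (nPiece η re : ℝ) ≤ 2 * (1 + Real.log (1 / (1 - re ^ 2))) / η := by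
  have hv : 0 < 1 - re ^ 2 := by nlinarith [hre.1, hre.2]
  have hv1 : 1 ≤ 1 / (1 - re ^ 2) := by
    rw [le_div_iff₀ hv]; linarith [sq_nonneg re]
  have hl : 0 ≤ Real.log (1 / (1 - re ^ 2)) := Real.log_nonneg hv1
  have e : Real.log (2 / (1 - re ^ 2)) = Real.log 2 + Real.log (1 / (1 - re ^ 2)) := by
    rw [← Real.log_mul two_ne_zero (by positivity), mul_one_div]
  have h2 := Real.log_two_lt_d9
  have h20 := Real.log_two_gt_d9
  refine (Nat.ceil_lt_add_one (div_nonneg (by rw [e]; linarith) hη.1.le)).le.trans ?_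
  rw [le_div_iff₀ hη.1, add_mul, div_mul_cancel₀ _ hη.1.ne', one_mul, e]
  linarith [hη.2]

theorem comp_err (n : ℕ) (hη : η ∈ Ioc (0 : ℝ) (1 / 2)) (hre : re ∈ Ico (0 : ℝ) 1)
    {φ : ℕ → ℝ → ℝ} (hd : ∀ k, ∀ x ∈ Icc (0 : ℝ) re, HasDerivAt (φ k) (φ (k + 1) x) x)
    {A : ℝ} (hA : ∀ θ ∈ Icc (0 : ℝ) 1, θ = 1 ∨ (∃ l : Fin (n + 1), θ = (l : ℝ) / (n + 1)) →
      1 + ∑ l, |qW n θ l| ≤ A) (j : ℕ) {θ : ℝ} (hθ : θ ∈ Icc (0 : ℝ) 1)
    (hθ' : θ = 1 ∨ ∃ l : Fin (n + 1), θ = (l : ℝ) / (n + 1)) :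
    |(∫ t in (0 : ℝ)..(cut η re j + θ * (cut η re (j + 1) - cut η re j)), φ 0 t)
        - ((∑ i ∈ range j, (cut η re (i + 1) - cut η re i) * ∑ l : Fin (n + 1), qW n 1 l
            * φ 0 (cut η re i + (cut η re (i + 1) - cut η re i) * ((l : ℝ) / (n + 1))))
          + (cut η re (j + 1) - cut η re j) * ∑ l : Fin (n + 1), qW n θ l
            * φ 0 (cut η re j + (cut η re (j + 1) - cut η re j) * ((l : ℝ) / (n + 1))))|
      ≤ A * (2 * η) ^ (n + 1)
          * ∫ t in (0 : ℝ)..cut η re (j + 1), |(1 - t ^ 2) ^ (n + 1) * φ (n + 1) t| := by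
  set w : ℝ → ℝ := fun t => |(1 - t ^ 2) ^ (n + 1) * φ (n + 1) t|
  have hc : ∀ k, ContinuousOn (φ k) (Icc 0 re) := fun k t ht =>
    (hd k t ht).continuousAt.continuousWithinAt
  have hwc : ContinuousOn w (Icc 0 re) :=
    (((continuous_const.sub (continuous_pow 2)).pow (n + 1)).continuousOn.mul (hc (n + 1))).abs
  have hA0 : 0 ≤ A := le_trans (by positivity) (hA 1 ⟨zero_le_one, le_rfl⟩ (Or.inl rfl))
  have hint : ∀ {g : ℝ → ℝ}, ContinuousOn g (Icc 0 re) → ∀ {x y : ℝ}, 0 ≤ x → x ≤ y → y ≤ re →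
      IntervalIntegrable g volume x y := fun hg x y hx hxy hy =>
    (hg.mono (Icc_subset_Icc hx hy)).intervalIntegrable_of_Icc hxy
  have hp : ∀ i, ∀ θ' ∈ Icc (0 : ℝ) 1, (θ' = 1 ∨ ∃ l : Fin (n + 1), θ' = (l : ℝ) / (n + 1)) →
      |(∫ x in (cut η re i)..(cut η re i + θ' * (cut η re (i + 1) - cut η re i)), φ 0 x)
        - (cut η re (i + 1) - cut η re i) * ∑ l : Fin (n + 1), qW n θ' l
            * φ 0 (cut η re i + (cut η re (i + 1) - cut η re i) * ((l : ℝ) / (n + 1)))|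
        ≤ A * (2 * η) ^ (n + 1) * ∫ t in (cut η re i)..(cut η re (i + 1)), w t := by
    intro i θ' h1 h2
    have hm := cut_mono (re := re) hη i
    have h0 := cut_nonneg hη hre.1 i
    have hle := cut_le (η := η) (re := re) (i + 1)
    have hΔ : 0 ≤ cut η re (i + 1) - cut η re i := by linarith
    have e : cut η re i + (cut η re (i + 1) - cut η re i) = cut η re (i + 1) := by ring
    refine (piece_err n hΔ h1 fun k x hx => hd k x ⟨by linarith [hx.1], by
      rw [e] at hx; linarith [hx.2]⟩).trans ?_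
    rw [e, mul_assoc A]
    refine mul_le_mul (hA θ' h1 h2) ?_ (mul_nonneg (pow_nonneg hΔ _)
      (intervalIntegral.integral_nonneg hm fun t _ => abs_nonneg _)) hA0
    rw [← intervalIntegral.integral_const_mul, ← intervalIntegral.integral_const_mul]
    refine intervalIntegral.integral_mono_on hm ((hint (hc (n + 1)).abs h0 hm hle).const_mul _)
      ((hint hwc h0 hm hle).const_mul _) fun t ht => ?_
    have hv : 0 ≤ 1 - t ^ 2 := by
      nlinarith [ht.1, h0, ht.2.trans hle, hre.2]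
    show _ ≤ (2 * η) ^ (n + 1) * |(1 - t ^ 2) ^ (n + 1) * φ (n + 1) t|
    rw [abs_mul, abs_of_nonneg (pow_nonneg hv _), ← mul_assoc, ← mul_pow]
    exact mul_le_mul_of_nonneg_right (pow_le_pow_left₀ hΔ (cut_len hη hre i ht) _) (abs_nonneg _)
  have full : ∀ i, |(∫ t in (0 : ℝ)..cut η re i, φ 0 t) - ∑ i' ∈ range i,
      (cut η re (i' + 1) - cut η re i') * ∑ l : Fin (n + 1), qW n 1 l
        * φ 0 (cut η re i' + (cut η re (i' + 1) - cut η re i') * ((l : ℝ) / (n + 1)))|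
      ≤ A * (2 * η) ^ (n + 1) * ∫ t in (0 : ℝ)..cut η re i, w t := by
    intro i
    induction i with
    | zero => simp [cut_zero hre.1]
    | succ i ih =>
      have h0 := cut_nonneg hη hre.1 i
      have hm := cut_mono (re := re) hη i
      have hl := cut_le (η := η) (re := re) (i + 1)
      have := hp i 1 ⟨zero_le_one, le_rfl⟩ (Or.inl rfl)
      rw [one_mul, add_sub_cancel] at this
      rw [Finset.sum_range_succ,
        ← intervalIntegral.integral_add_adjacent_intervals (hint (hc 0) le_rfl h0 (hm.trans hl))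
          (hint (hc 0) h0 hm hl),
        ← intervalIntegral.integral_add_adjacent_intervals (hint hwc le_rfl h0 (hm.trans hl))
          (hint hwc h0 hm hl), mul_add, add_sub_add_comm]
      exact (abs_add_le _ _).trans (add_le_add ih this)
  have h0 := cut_nonneg hη hre.1 j
  have hm := cut_mono (re := re) hη j
  have hl := cut_le (η := η) (re := re) (j + 1)
  have hend : cut η re j + θ * (cut η re (j + 1) - cut η re j) ≤ cut η re (j + 1) := by
    nlinarith [hθ.2]
  have hst : cut η re j ≤ cut η re j + θ * (cut η re (j + 1) - cut η re j) :=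
    le_add_of_nonneg_right (mul_nonneg hθ.1 (by linarith))
  rw [← intervalIntegral.integral_add_adjacent_intervals (hint (hc 0) le_rfl h0 (hm.trans hl))
      (hint (hc 0) h0 hst (hend.trans hl)),
    ← intervalIntegral.integral_add_adjacent_intervals (hint hwc le_rfl h0 (hm.trans hl))
      (hint hwc h0 hm hl), mul_add, add_sub_add_comm]
  exact (abs_add_le _ _).trans (add_le_add (full j) (hp j θ hθ hθ'))

end pieces

theorem sq_integral_le {f : ℝ → ℝ} {T : ℝ} (hT : 0 ≤ T) (hf : ContinuousOn f (Icc 0 T)) :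
    (∫ t in (0 : ℝ)..T, f t) ^ 2 ≤ T * ∫ t in (0 : ℝ)..T, f t ^ 2 := by
  rcases hT.lt_or_eq with hp | hp
  · set c := (∫ t in (0 : ℝ)..T, f t) / T with hc
    have i1 : IntervalIntegrable (fun t => f t ^ 2) volume 0 T :=
      (hf.pow 2).intervalIntegrable_of_Icc hT
    have i2 : IntervalIntegrable (fun t => 2 * c * f t) volume 0 T :=
      (continuousOn_const.mul hf).intervalIntegrable_of_Icc hT
    have h0 : 0 ≤ ∫ t in (0 : ℝ)..T, (f t ^ 2 - 2 * c * f t + c ^ 2) :=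
      intervalIntegral.integral_nonneg hT fun t _ => by nlinarith [sq_nonneg (f t - c)]
    rw [intervalIntegral.integral_add (i1.sub i2) intervalIntegrable_const,
      intervalIntegral.integral_sub i1 i2, intervalIntegral.integral_const_mul,
      intervalIntegral.integral_const, smul_eq_mul, sub_zero] at h0
    have e : ∫ t in (0 : ℝ)..T, f t = c * T := (div_mul_cancel₀ _ hp.ne').symm
    rw [e] at h0 ⊢
    nlinarith
  · subst hp; simp

/-! ### Along the flow -/

/-- The square of the `k`-th derivative along the trajectory, with its natural weight. -/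
def flSq (P : Pot d h) (R re : ℝ) (k : ℕ) (ξ : Space d) : ℝ :=
  ∫ t in (0 : ℝ)..re, ∑ i, ((1 - t ^ 2) ^ k * uFl P R k i t ξ) ^ 2

theorem flSq_int (k : ℕ) : ∃ C : ℝ, 0 ≤ C ∧ ∀ (d : ℕ) (h : ℝ) (P : Pot d h) (R re : ℝ), h ≤ 1 →
    R ∈ Ioo (0 : ℝ) 1 → re ∈ Ico (0 : ℝ) R →
      Integrable (flSq P R re k) (gam d) ∧ ∫ ξ, flSq P R re k ξ ∂gam d ≤ C * siz P := by
  obtain ⟨C, hC, hb⟩ := uFl_sq k
  refine ⟨C, hC, fun d h P R re hh hR hre => ?_⟩
  set f : Space d × ℝ → ℝ := fun p => ∑ i, ((1 - p.2 ^ 2) ^ k * uFl P R k i p.2 p.1) ^ 2 with hf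
  set ν := (volume : Measure ℝ).restrict (Ioc 0 re)
  have hsub : (univ : Set (Space d)) ×ˢ Ioc 0 re ⊆
      Prod.swap ⁻¹' (Ico 0 R ×ˢ (univ : Set (Space d))) :=
    fun p hp => ⟨⟨hp.2.1.le, lt_of_le_of_lt hp.2.2 hre.2⟩, mem_univ _⟩
  have hco : ContinuousOn f ((univ : Set (Space d)) ×ˢ Ioc 0 re) :=
    continuousOn_finsetSum _ fun i _ =>
      ((Continuous.continuousOn (by fun_prop : Continuous fun p : Space d × ℝ => (1 - p.2 ^ 2) ^ k)).mul
        ((uFl_cont hh hR k i).comp (f := Prod.swap) continuous_swap.continuousOn hsub)).pow 2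
  have hms : AEStronglyMeasurable f ((gam d).prod ν) := by
    have := hco.aestronglyMeasurable (μ := (gam d).prod volume)
      (MeasurableSet.univ.prod measurableSet_Ioc)
    rwa [← Measure.prod_restrict, Measure.restrict_univ] at this
  have hnn : ∀ p, 0 ≤ f p := fun p => Finset.sum_nonneg fun i _ => sq_nonneg _
  have hcore : ∀ t ∈ Ioc 0 re, Integrable (fun ξ => f (ξ, t)) (gam d) ∧
      ∫ ξ, f (ξ, t) ∂gam d ≤ C * siz P := by
    intro t ht
    obtain ⟨hi, hb'⟩ := hb d h P R hh hR t ⟨ht.1.le, lt_of_le_of_lt ht.2 hre.2⟩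
    have hv : 0 < 1 - t ^ 2 := var_pos (mem_dom hR ⟨by linarith [ht.1, hR.1],
      lt_of_le_of_lt ht.2 hre.2⟩)
    have e : ∀ ξ, f (ξ, t) = ((1 - t ^ 2) ^ k) ^ 2 * ∑ i, uFl P R k i t ξ ^ 2 := fun ξ => by
      simp only [hf, mul_pow, Finset.mul_sum]
    simp only [e]
    refine ⟨hi.const_mul _, ?_⟩
    rw [integral_const_mul]
    refine (mul_le_mul_of_nonneg_left hb' (sq_nonneg _)).trans_eq ?_
    rw [← pow_mul, inv_pow, mul_comm k 2]
    field_simp
  have hae : ∀ᵐ t ∂ν, Integrable (fun ξ => f (ξ, t)) (gam d) ∧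
      ∫ ξ, f (ξ, t) ∂gam d ≤ C * siz P :=
    (ae_restrict_mem measurableSet_Ioc).mono fun t ht => hcore t ht
  have : IsFiniteMeasure ν := ⟨by simp [ν]⟩
  have hsiz : 0 ≤ C * siz P := mul_nonneg hC (siz_pos P).le
  have hF : Integrable f ((gam d).prod ν) := by
    refine (integrable_prod_iff' hms).2 ⟨hae.mono fun t ht => ht.1,
      Integrable.mono' (integrable_const (C * siz P))
        hms.norm.prod_swap.integral_prod_right' (hae.mono fun t ht => ?_)⟩
    simp only [Real.norm_eq_abs, abs_of_nonneg (hnn _)]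
    rw [abs_of_nonneg (integral_nonneg fun ξ => hnn _)]
    exact ht.2
  have e : flSq P R re k = fun ξ => ∫ t, f (ξ, t) ∂ν := funext fun ξ => by
    rw [flSq, intervalIntegral.integral_of_le hre.1]
  rw [e]
  refine ⟨hF.integral_prod_left, ?_⟩
  rw [integral_integral_swap hF]
  refine (integral_mono_ae hF.integral_prod_right (integrable_const (C * siz P))
    (hae.mono fun t ht => ht.2)).trans ?_
  rw [integral_const, smul_eq_mul]
  refine mul_le_of_le_one_left hsiz ?_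
  simp [ν, Real.volume_real_Ioc_of_le hre.1]
  linarith [hre.2, hR.2]

/-- The velocity at the correlation `t` of the trajectory from `ξ`. -/
def velY (P : Pot d h) (R t : ℝ) (ξ : Space d) : Space d := driftV P (chan (t, flow P R ξ t))

theorem flow_err (hh : h ≤ 1) {P : Pot d h} {R re : ℝ} (hR : R ∈ Ioo (0 : ℝ) 1)
    (hre : re ∈ Ico (0 : ℝ) R) (n : ℕ) {B : ℝ} (ξ : Space d) {t : ℝ} (ht : t ∈ Icc (0 : ℝ) re)
    {ι : Type} [Fintype ι] (s c : ι → ℝ)
    (hb : ∀ i : Fin d, |(∫ u in (0 : ℝ)..t, uFl P R 0 i u ξ) - ∑ b, c b * uFl P R 0 i (s b) ξ|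
      ≤ B * ∫ u in (0 : ℝ)..re, |(1 - u ^ 2) ^ n * uFl P R n i u ξ|) :
    ‖flow P R ξ t - ξ + ∑ b, c b • velY P R (s b) ξ‖ ^ 2 ≤ B ^ 2 * flSq P R re n ξ := by
  have hi : ∀ i, (flow P R ξ t - ξ + ∑ b, c b • velY P R (s b) ξ) i
      = -((∫ u in (0 : ℝ)..t, uFl P R 0 i u ξ) - ∑ b, c b * uFl P R 0 i (s b) ξ) := fun i => by
    have h1 := flow_integral (P := P) hh hR ξ i ⟨ht.1, lt_of_le_of_lt ht.2 hre.2⟩
    simp only [PiLp.add_apply, PiLp.sub_apply, WithLp.ofLp_sum, Finset.sum_apply, PiLp.smul_apply,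
      smul_eq_mul, h1, uFl_zero, uR, velY, driftV_apply]
    ring
  have hcont : ∀ i, ContinuousOn (fun u => uFl P R n i u ξ) (Icc 0 re) := fun i =>
    continuousOn_slice (G := uFl P R n i) (uFl_cont hh hR n i) ξ (Icc_subset_Ico_right hre.2)
  have hcw : ∀ i, ContinuousOn (fun u => (1 - u ^ 2) ^ n * uFl P R n i u ξ) (Icc 0 re) := fun i =>
    (Continuous.continuousOn (by fun_prop : Continuous fun u : ℝ => (1 - u ^ 2) ^ n)).mul (hcont i)
  rw [EuclideanSpace.real_norm_sq_eq, flSq, intervalIntegral.integral_finsetSum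
    (f := fun i u => ((1 - u ^ 2) ^ n * uFl P R n i u ξ) ^ 2) fun i _ =>
      ((hcw i).pow 2).intervalIntegrable_of_Icc hre.1, Finset.mul_sum]
  refine Finset.sum_le_sum fun i _ => ?_
  rw [hi, neg_sq, ← sq_abs]
  refine (pow_le_pow_left₀ (abs_nonneg _) (hb i) 2).trans ?_
  rw [mul_pow]
  refine mul_le_mul_of_nonneg_left ((sq_integral_le hre.1 (hcw i).abs).trans ?_) (sq_nonneg B)
  simp only [sq_abs]
  exact mul_le_of_le_one_left (intervalIntegral.integral_nonneg hre.1 fun u _ => sq_nonneg _)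
    (by linarith [hre.2, hR.2])

/-- Collocation on the exact trajectory, with nodes and weights that do not depend on the
potential. -/
theorem flow_colloc (n : ℕ) : ∃ C : ℝ, 0 ≤ C ∧ ∀ η ∈ Ioc (0 : ℝ) (1 / 2), ∀ re ∈ Ico (0 : ℝ) 1,
    ∃ (N : ℕ) (s : Fin N → ℝ) (W : Fin N → Fin N → ℝ) (we ω : Fin N → ℝ),
      (N : ℝ) ≤ C * (1 + Real.log (1 / (1 - re ^ 2))) / η ∧ (∀ a, s a ∈ Icc 0 re) ∧
      (∀ a b, |W a b| ≤ ω b) ∧ (∀ b, |we b| ≤ ω b) ∧ ∑ b, ω b ≤ C ∧
      ∀ (d : ℕ) (h : ℝ) (P : Pot d h) (R : ℝ), h ≤ 1 → R ∈ Ioo (0 : ℝ) 1 → re < R →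
        ∃ M : Space d → ℝ, (∀ ξ, 0 ≤ M ξ) ∧ Integrable (fun ξ => M ξ ^ 2) (gam d) ∧
          ∫ ξ, M ξ ^ 2 ∂gam d ≤ C * η ^ (2 * (n + 1)) * siz P ∧
          ∀ ξ, (∀ a, ‖flow P R ξ (s a) - ξ + ∑ b, W a b • velY P R (s b) ξ‖ ≤ M ξ) ∧
            ‖flow P R ξ re - ξ + ∑ b, we b • velY P R (s b) ξ‖ ≤ M ξ := by
  obtain ⟨C₀, hC₀, hsq⟩ := flSq_int (n + 1)
  set A := 1 + ((∑ l, |qW n 1 l|) + ∑ l' : Fin (n + 1), ∑ l, |qW n ((l' : ℝ) / (n + 1)) l|) with hA
  have hA1 : 1 + ∑ l, |qW n 1 l| ≤ A :=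
    add_le_add le_rfl (le_add_of_nonneg_right (Finset.sum_nonneg fun l' _ =>
      Finset.sum_nonneg fun l _ => abs_nonneg _))
  have hA0 : 0 ≤ A := le_trans (by positivity) hA1
  have hAθ : ∀ θ ∈ Icc (0 : ℝ) 1, θ = 1 ∨ (∃ l : Fin (n + 1), θ = (l : ℝ) / (n + 1)) →
      1 + ∑ l, |qW n θ l| ≤ A := by
    rintro θ - (rfl | ⟨l', rfl⟩)
    · exact hA1
    · refine add_le_add le_rfl ((Finset.single_le_sum
        (f := fun l' : Fin (n + 1) => ∑ l, |qW n ((l' : ℝ) / (n + 1)) l|)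
        (fun i _ => Finset.sum_nonneg fun l _ => abs_nonneg _) (Finset.mem_univ l')).trans
          (le_add_of_nonneg_left (Finset.sum_nonneg fun l _ => abs_nonneg _)))
  refine ⟨max (2 * ((n : ℝ) + 1)) (max (((n : ℝ) + 1) * A) (A ^ 2 * 2 ^ (2 * (n + 1)) * C₀)),
    le_max_of_le_left (by positivity), fun η hη re hre => ?_⟩
  set K := nPiece η re with hK
  set Δ : ℕ → ℝ := fun j => cut η re (j + 1) - cut η re j with hΔ
  have hΔ0 : ∀ j, 0 ≤ Δ j := fun j => sub_nonneg.2 (cut_mono hη j)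
  set e : Fin (K * (n + 1)) → ℕ × Fin (n + 1) :=
    fun a => ((finProdFinEquiv.symm a).1, (finProdFinEquiv.symm a).2) with he
  set s : Fin (K * (n + 1)) → ℝ := fun a => cut η re (e a).1 + Δ (e a).1 * (((e a).2 : ℝ) / (n + 1))
  set W : Fin (K * (n + 1)) → Fin (K * (n + 1)) → ℝ := fun a b =>
    if (e b).1 < (e a).1 then Δ (e b).1 * qW n 1 (e b).2
    else if (e b).1 = (e a).1 then Δ (e b).1 * qW n (((e a).2 : ℝ) / (n + 1)) (e b).2 else 0
  have hdiv : ∀ l : Fin (n + 1), ((l : ℝ) / (n + 1)) ∈ Icc (0 : ℝ) 1 := fun l =>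
    ⟨by positivity, by rw [div_le_one (by positivity)]; exact_mod_cast l.2.le⟩
  have hsum : ∀ (F : ℕ × Fin (n + 1) → ℝ), ∑ b, F (e b) = ∑ j ∈ range K, ∑ l, F (j, l) := fun F => by
    rw [← finProdFinEquiv.sum_comp, Fintype.sum_prod_type,
      ← Fin.sum_univ_eq_sum_range fun j => ∑ l, F (j, l)]
    refine Finset.sum_congr rfl fun x _ => Finset.sum_congr rfl fun l _ => ?_
    simp only [he, Equiv.symm_apply_apply]
  have hpos : ∀ (j : ℕ) (l : Fin (n + 1)), cut η re j + Δ j * ((l : ℝ) / (n + 1)) ∈ Icc 0 re :=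
    fun j l => by
    constructor
    · exact add_nonneg (cut_nonneg hη hre.1 j) (mul_nonneg (hΔ0 j) (hdiv l).1)
    · refine le_trans ?_ (cut_le (η := η) (re := re) (j + 1))
      have := mul_le_of_le_one_right (hΔ0 j) (hdiv l).2
      simp only [hΔ] at this ⊢
      linarith
  refine ⟨K * (n + 1), s, W, fun b => Δ (e b).1 * qW n 1 (e b).2, fun b => Δ (e b).1 * A,
    ?_, fun a => hpos _ _, fun a b => ?_, fun b => ?_, ?_, fun d h P R hh hR hRe => ?_⟩
  · push_cast
    refine (mul_le_mul_of_nonneg_right (nPiece_le hη hre) (by positivity)).trans ?_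
    rw [div_mul_eq_mul_div, mul_right_comm]
    refine div_le_div_of_nonneg_right (mul_le_mul_of_nonneg_right (le_max_left _ _) ?_) hη.1.le
    have : 0 ≤ Real.log (1 / (1 - re ^ 2)) := Real.log_nonneg (by
      rw [le_div_iff₀ (by nlinarith [hre.1, hre.2])]; linarith [sq_nonneg re])
    linarith
  · have hle : ∀ θ ∈ Icc (0 : ℝ) 1, (θ = 1 ∨ ∃ l : Fin (n + 1), θ = (l : ℝ) / (n + 1)) →
        |Δ (e b).1 * qW n θ (e b).2| ≤ Δ (e b).1 * A := fun θ h1 h2 => by
      rw [abs_mul, abs_of_nonneg (hΔ0 _)]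
      refine mul_le_mul_of_nonneg_left (le_trans ?_ (hAθ θ h1 h2)) (hΔ0 _)
      exact (Finset.single_le_sum (f := fun l => |qW n θ l|) (fun _ _ => abs_nonneg _)
        (Finset.mem_univ _)).trans (le_add_of_nonneg_left zero_le_one)
    simp only [W]
    split_ifs
    · exact hle 1 ⟨zero_le_one, le_rfl⟩ (Or.inl rfl)
    · exact hle _ (hdiv _) (Or.inr ⟨_, rfl⟩)
    · rw [abs_zero]; exact mul_nonneg (hΔ0 _) hA0
  · rw [abs_mul, abs_of_nonneg (hΔ0 _)]
    refine mul_le_mul_of_nonneg_left (le_trans ?_ hA1) (hΔ0 _)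
    exact (Finset.single_le_sum (f := fun l => |qW n 1 l|) (fun _ _ => abs_nonneg _)
      (Finset.mem_univ _)).trans (le_add_of_nonneg_left zero_le_one)
  · rw [hsum fun p => Δ p.1 * A]
    simp only [Finset.sum_const, Finset.card_univ, Fintype.card_fin, nsmul_eq_mul, Nat.cast_add,
      Nat.cast_one]
    rw [← Finset.mul_sum, ← Finset.sum_mul, Finset.sum_range_sub (fun j => cut η re j), cut_last hη hre,
      cut_zero hre.1, sub_zero]
    refine le_trans ?_ ((le_max_left _ _).trans (le_max_right _ _))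
    exact mul_le_mul_of_nonneg_left (mul_le_of_le_one_left hA0 hre.2.le) (by positivity)
  · have hreR : re ∈ Ico (0 : ℝ) R := ⟨hre.1, hRe⟩
    obtain ⟨iM, bM⟩ := hsq d h P R re hh hR hreR
    set B := A * (2 * η) ^ (n + 1) with hB
    have hB0 : 0 ≤ B := mul_nonneg hA0 (pow_nonneg (by linarith [hη.1]) _)
    have hI : ∀ ξ, 0 ≤ flSq P R re (n + 1) ξ := fun ξ =>
      intervalIntegral.integral_nonneg hre.1 fun t _ => Finset.sum_nonneg fun i _ => sq_nonneg _
    have eM : ∀ ξ, (B * Real.sqrt (flSq P R re (n + 1) ξ)) ^ 2 = B ^ 2 * flSq P R re (n + 1) ξ :=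
      fun ξ => by rw [mul_pow, Real.sq_sqrt (hI ξ)]
    refine ⟨fun ξ => B * Real.sqrt (flSq P R re (n + 1) ξ),
      fun ξ => mul_nonneg hB0 (Real.sqrt_nonneg _), by simpa only [eM] using iM.const_mul (B ^ 2),
      ?_, fun ξ => ?_⟩
    · simp only [eM, integral_const_mul]
      refine (mul_le_mul_of_nonneg_left bM (sq_nonneg B)).trans ?_
      rw [show B ^ 2 * (C₀ * siz P) = A ^ 2 * 2 ^ (2 * (n + 1)) * C₀ * η ^ (2 * (n + 1)) * siz P by
        rw [hB]; ring]
      exact mul_le_mul_of_nonneg_right (mul_le_mul_of_nonneg_right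
        ((le_max_right _ _).trans (le_max_right _ _)) (pow_nonneg hη.1.le _)) (siz_pos P).le
    have hd : ∀ i k, ∀ x ∈ Icc (0 : ℝ) re, HasDerivAt (fun u => uFl P R k i u ξ)
        (uFl P R (k + 1) i x ξ) x := fun i k x hx =>
      uFl_hasDerivAt hh hR k i ξ ⟨by linarith [hx.1, hR.1], lt_of_le_of_lt hx.2 hRe⟩
    have hw : ∀ i, IntervalIntegrable (fun u => |(1 - u ^ 2) ^ (n + 1) * uFl P R (n + 1) i u ξ|)
        volume 0 re := fun i =>
      (((Continuous.continuousOn (by fun_prop : Continuous fun u : ℝ => (1 - u ^ 2) ^ (n + 1))).mul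
        (continuousOn_slice (G := uFl P R (n + 1) i) (uFl_cont hh hR (n + 1) i) ξ
          (Icc_subset_Ico_right hRe))).abs).intervalIntegrable_of_Icc hre.1
    have main : ∀ t ∈ Icc (0 : ℝ) re, ∀ (c : Fin (K * (n + 1)) → ℝ) (j : ℕ) (θ : ℝ),
        θ ∈ Icc (0 : ℝ) 1 → (θ = 1 ∨ ∃ l : Fin (n + 1), θ = (l : ℝ) / (n + 1)) →
        t = cut η re j + θ * Δ j →
        (∀ f : ℝ → ℝ, ∑ b, c b * f (s b) = (∑ i ∈ range j, Δ i * ∑ l : Fin (n + 1), qW n 1 l
          * f (cut η re i + Δ i * ((l : ℝ) / (n + 1)))) + Δ j * ∑ l : Fin (n + 1), qW n θ l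
          * f (cut η re j + Δ j * ((l : ℝ) / (n + 1)))) →
        ‖flow P R ξ t - ξ + ∑ b, c b • velY P R (s b) ξ‖
          ≤ B * Real.sqrt (flSq P R re (n + 1) ξ) := by
      intro t ht c j θ h1 h2 h3 h4
      refine le_of_sq_le_sq ?_ (mul_nonneg hB0 (Real.sqrt_nonneg _))
      rw [eM]
      refine flow_err hh hR hreR (n + 1) ξ ht s c fun i => ?_
      rw [h4 fun u => uFl P R 0 i u ξ, h3]
      refine (comp_err n hη hre (φ := fun k u => uFl P R k i u ξ) (hd i) hAθ j h1 h2).trans ?_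
      refine mul_le_mul_of_nonneg_left (intervalIntegral.integral_mono_interval le_rfl
        (cut_nonneg hη hre.1 _) (cut_le _) (ae_of_all _ fun u => abs_nonneg _) (hw i)) hB0
    refine ⟨fun a => main (s a) (hpos _ _) (W a) (e a).1 (((e a).2 : ℝ) / (n + 1)) (hdiv _)
      (Or.inr ⟨_, rfl⟩) (by simp only [s]; ring) fun f => ?_, ?_⟩
    · have hlt : (e a).1 < K := (finProdFinEquiv.symm a).1.2
      simp only [W, s]
      rw [hsum fun p => (if p.1 < (e a).1 then Δ p.1 * qW n 1 p.2 else if p.1 = (e a).1 then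
          Δ p.1 * qW n (((e a).2 : ℝ) / (n + 1)) p.2 else 0)
          * f (cut η re p.1 + Δ p.1 * ((p.2 : ℝ) / (n + 1))),
        ← Finset.sum_subset (Finset.range_subset_range.2 (Nat.succ_le_of_lt hlt))
          (fun j _ hj => Finset.sum_eq_zero fun l _ => by
            rw [Finset.mem_range, not_lt] at hj
            rw [if_neg (by simp only; omega), if_neg (by simp only; omega), zero_mul]),
        Finset.sum_range_succ]
      congr 1
      · refine Finset.sum_congr rfl fun j hj => ?_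
        rw [Finset.mem_range] at hj
        simp only [if_pos hj, Finset.mul_sum, mul_assoc]
      · simp only [lt_irrefl, if_false, if_true, Finset.mul_sum, mul_assoc]
    · obtain ⟨j, hj⟩ : ∃ j, K = j + 1 := Nat.exists_eq_add_one.2 (Nat.ceil_pos.2 (div_pos
        (Real.log_pos (by rw [lt_div_iff₀ (by nlinarith [hre.1, hre.2])]; nlinarith [sq_nonneg re]))
        hη.1))
      refine main re ⟨hre.1, le_rfl⟩ _ j 1 ⟨zero_le_one, le_rfl⟩ (Or.inl rfl) ?_ fun f => ?_
      · have hlast := cut_last hη hre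
        rw [← hK, hj] at hlast
        simp only [hΔ]
        linarith
      · simp only [s]
        rw [hsum fun p => Δ p.1 * qW n 1 p.2 * f (cut η re p.1 + Δ p.1 * ((p.2 : ℝ) / (n + 1))),
          hj, Finset.sum_range_succ]
        simp only [Finset.mul_sum, mul_assoc]

/-- The distance travelled, in square mean. -/
theorem flow_move : ∃ C : ℝ, 0 ≤ C ∧ ∀ (d : ℕ) (h : ℝ) (P : Pot d h) (R re : ℝ), h ≤ 1 →
    R ∈ Ioo (0 : ℝ) 1 → re ∈ Ico (0 : ℝ) R →
      ∃ D : Space d → ℝ, (∀ ξ, 0 ≤ D ξ) ∧ Integrable (fun ξ => D ξ ^ 2) (gam d) ∧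
        ∫ ξ, D ξ ^ 2 ∂gam d ≤ C * siz P ∧
        ∀ ξ, ∀ t ∈ Icc (0 : ℝ) re, ‖flow P R ξ t - ξ‖ ≤ D ξ := by
  obtain ⟨C, hC, hsq⟩ := flSq_int 0
  refine ⟨C, hC, fun d h P R re hh hR hre => ?_⟩
  obtain ⟨iM, bM⟩ := hsq d h P R re hh hR hre
  have hI : ∀ ξ, 0 ≤ flSq P R re 0 ξ := fun ξ =>
    intervalIntegral.integral_nonneg hre.1 fun t _ => Finset.sum_nonneg fun i _ => sq_nonneg _
  refine ⟨fun ξ => Real.sqrt (flSq P R re 0 ξ), fun ξ => Real.sqrt_nonneg _,
    by simpa only [Real.sq_sqrt (hI _)] using iM, by simpa only [Real.sq_sqrt (hI _)] using bM,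
    fun ξ t ht => Real.le_sqrt_of_sq_le ?_⟩
  have hw : ∀ i, IntervalIntegrable (fun u => |(1 - u ^ 2) ^ 0 * uFl P R 0 i u ξ|) volume 0 re :=
    fun i => (((Continuous.continuousOn (by fun_prop : Continuous fun u : ℝ => (1 - u ^ 2) ^ 0)).mul
      (continuousOn_slice (G := uFl P R 0 i) (uFl_cont hh hR 0 i) ξ
        (Icc_subset_Ico_right hre.2))).abs).intervalIntegrable_of_Icc hre.1
  have := flow_err (P := P) hh hR hre 0 (B := 1) ξ ht (ι := Empty) (fun b => b.elim)
    (fun b => b.elim) fun i => by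
      simp only [Finset.univ_eq_empty, Finset.sum_empty, sub_zero, one_mul]
      refine (intervalIntegral.abs_integral_le_integral_abs ht.1).trans ?_
      refine le_of_eq_of_le ?_ (intervalIntegral.integral_mono_interval le_rfl ht.1 ht.2
        (ae_of_all _ fun u => abs_nonneg _) (hw i))
      simp
  simpa using this

/-- The discrete iterates approach the trajectory. -/
theorem picard_err {ι : Type} [Fintype ι] (W : ι → ι → ℝ) (ω : ι → ℝ) (hW : ∀ a b, |W a b| ≤ ω b)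
    {L q : ℝ} (hL : 0 ≤ L) (hq : L * ∑ b, ω b ≤ q) (hq2 : q ≤ 1 / 2) (Y : ι → Space d)
    (U : ι → Space d) (U' : ι → Space d → Space d)
    (hU : ∀ b x y, ‖U' b x - U' b y‖ ≤ L * ‖x - y‖) (ξ : Space d)
    (Z : ℕ → ι → Space d) (hZ : ∀ k a, Z (k + 1) a = ξ - ∑ b, W a b • U' b (Z k b))
    {M D : ℝ} (hM : ∀ a, ‖Y a - ξ + ∑ b, W a b • U b‖ ≤ M) (hD : ∀ a, ‖Z 0 a - Y a‖ ≤ D)
    (k : ℕ) (a : ι) :
    ‖Z k a - Y a‖ ≤ 2 * (M + ∑ b, ω b * ‖U' b (Y b) - U b‖) + q ^ k * D := by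
  have hω : ∀ b, 0 ≤ ω b := fun b => (abs_nonneg _).trans (hW a b)
  have hq0 : 0 ≤ q := (mul_nonneg hL (Finset.sum_nonneg fun b _ => hω b)).trans hq
  set E := M + ∑ b, ω b * ‖U' b (Y b) - U b‖ with hE
  have hE0 : 0 ≤ E := add_nonneg ((norm_nonneg _).trans (hM a))
    (Finset.sum_nonneg fun b _ => mul_nonneg (hω b) (norm_nonneg _))
  have hD0 : 0 ≤ D := (norm_nonneg _).trans (hD a)
  induction k generalizing a with
  | zero =>
    rw [pow_zero, one_mul]
    linarith [hD a]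
  | succ k ih =>
    have e : Z (k + 1) a - Y a = -(∑ b, W a b • (U' b (Z k b) - U' b (Y b)))
        - (∑ b, W a b • (U' b (Y b) - U b)) - (Y a - ξ + ∑ b, W a b • U b) := by
      simp only [hZ, smul_sub, Finset.sum_sub_distrib]
      abel
    rw [e]
    refine ((norm_sub_le _ _).trans (add_le_add ((norm_sub_le _ _).trans
      (add_le_add (le_of_eq (norm_neg _)) le_rfl)) (hM a))).trans ?_
    have hB0 : 0 ≤ 2 * E + q ^ k * D := by positivity
    have b1 : ‖∑ b, W a b • (U' b (Z k b) - U' b (Y b))‖ ≤ q * (2 * E + q ^ k * D) := by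
      refine le_trans ?_ (mul_le_mul_of_nonneg_right hq hB0)
      rw [Finset.mul_sum, Finset.sum_mul]
      refine (norm_sum_le _ _).trans (Finset.sum_le_sum fun b _ => ?_)
      rw [norm_smul, Real.norm_eq_abs, mul_comm L, mul_assoc]
      exact mul_le_mul (hW a b)
        ((hU b _ _).trans (mul_le_mul_of_nonneg_left (ih b) hL)) (norm_nonneg _) (hω b)
    have b2 : ‖∑ b, W a b • (U' b (Y b) - U b)‖ ≤ ∑ b, ω b * ‖U' b (Y b) - U b‖ := by
      refine (norm_sum_le _ _).trans (Finset.sum_le_sum fun b _ => ?_)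
      rw [norm_smul, Real.norm_eq_abs]
      exact mul_le_mul_of_nonneg_right (hW a b) (norm_nonneg _)
    rw [pow_succ']
    nlinarith [mul_le_mul_of_nonneg_right hq2 hE0]

end Vale.Agent.P347.Zero
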