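import Vale.Agent.P347.Zero.TrajBase
import Vale.Agent.P347.Zero.FlowLaw

/-!
Time derivatives along the flow: the `n`-th derivative of the velocity along a trajectory is the
field bounded in square mean, jointly continuous, and the drift is a martingale along the channel.
-/

noncomputable section

open MeasureTheory Filter Topology Set
open scoped RealInnerProductSpace ContDiff NNReal

namespace Vale.Agent.P347.Zero

variable {d : ℕ} {h : ℝ}

theorem drN_succ {I : Type} : ∀ (n : ℕ) (F : Fam I), drF (drN n F) = drN (n + 1) F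
  | 0, _ => rfl
  | n + 1, F => drN_succ n (drF F)

/-- A field along a trajectory changes by its derivative along the flow. -/
theorem hasDerivAt_traj {P : Pot d h} {f : ℝ × Space d → ℝ} (hf : RSm f) {Y : ℝ → Space d}
    {t : ℝ} (ht : t ∈ Ioo (-1 : ℝ) 1) (hY : HasDerivAt Y (-driftV P (chan (t, Y t))) t) :
    HasDerivAt (fun s => f (s, Y s)) (drS P f (t, Y t)) t := by
  have hl : HasDerivAt (fun s => (s, Y s)) ((1 : ℝ), -driftV P (chan (t, Y t))) t :=
    (hasDerivAt_id t).prodMk hY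
  have hd : DifferentiableAt ℝ f (t, Y t) := hf.diff ht
  refine (hd.hasFDerivAt.comp_hasDerivAt t hl).congr_deriv ?_
  show wD ((1 : ℝ), -driftV P (chan (t, Y t))) f (t, Y t) = _
  rw [wD_expand]
  simp only [drS, uR, PiLp.neg_apply, driftV_apply, neg_mul, Finset.sum_neg_distrib, one_mul]
  rfl

/-- The `k`-th derivative of the velocity along the trajectory from `ξ`. -/
def uFl (P : Pot d h) (R : ℝ) (k : ℕ) (i : Fin d) (t : ℝ) (ξ : Space d) : ℝ :=
  drN k (cmpF Uf) d h P (t, flow P R ξ t) fun _ => i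

variable {P : Pot d h} {R : ℝ}

theorem uFl_zero (i : Fin d) (t : ℝ) (ξ : Space d) :
    uFl P R 0 i t ξ = uR P i (t, flow P R ξ t) := rfl

theorem mem_dom (hR : R ∈ Ioo (0 : ℝ) 1) {t : ℝ} (ht : t ∈ Ioo (-R) R) : t ∈ Ioo (-1 : ℝ) 1 :=
  ⟨by linarith [ht.1, hR.2], by linarith [ht.2, hR.2]⟩

theorem uFl_hasDerivAt (hh : h ≤ 1) (hR : R ∈ Ioo (0 : ℝ) 1) (k : ℕ) (i : Fin d) (ξ : Space d)
    {t : ℝ} (ht : t ∈ Ioo (-R) R) :
    HasDerivAt (fun s => uFl P R k i s ξ) (uFl P R (k + 1) i t ξ) t := by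
  have h1 := hasDerivAt_traj ((drift_flow_bound fl_Kf k).1 d h P fun _ => i) (mem_dom hR ht)
    (flow_hasDerivAt (P := P) hh hR ξ ht)
  simp only [uFl, ← drN_succ k]
  exact h1

theorem flow_cont (hh : h ≤ 1) (hR : R ∈ Ioo (0 : ℝ) 1) :
    ContinuousOn (fun p : ℝ × Space d => flow P R p.2 p.1) (Ico 0 R ×ˢ univ) :=
  continuousOn_prod_of_continuousOn_lipschitzOnWith' _ 3
    (fun _ ht => (flow_lip hh hR ht).lipschitzOnWith)
    fun ξ _ => (flow_continuousOn hh hR ξ).mono fun t ht =>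
      ⟨by linarith [ht.1, hR.1], ht.2.le⟩

theorem uFl_cont (hh : h ≤ 1) (hR : R ∈ Ioo (0 : ℝ) 1) (k : ℕ) (i : Fin d) :
    ContinuousOn (fun p : ℝ × Space d => uFl P R k i p.1 p.2) (Ico 0 R ×ˢ univ) :=
  (((drift_flow_bound fl_Kf k).1 d h P fun _ => i) 0).continuousOn.comp
    (f := fun p : ℝ × Space d => (p.1, flow P R p.2 p.1))
    (continuousOn_fst.prodMk (flow_cont hh hR))
    fun _ hp => mem_dom hR ⟨by linarith [hp.1.1, hR.1], hp.1.2⟩

theorem hsT_unit (T : Ten d Unit) : hsT T = ∑ i, T (fun _ => i) ^ 2 := by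
  rw [hsT, ← (Equiv.funUnique Unit (Fin d)).symm.sum_comp]
  rfl

theorem flow_mp (hh : h ≤ 1) (hR : R ∈ Ioo (0 : ℝ) 1) {t : ℝ} (ht : t ∈ Ico 0 R)
    (htm : t ∈ Ioo (-1 : ℝ) 1) :
    MeasurePreserving (fun ξ => flow P R ξ t) (gam d) (mu (potR P t htm)) :=
  ⟨(flow_lip hh hR ht).continuous.measurable, flow_law hh hR ht htm⟩

/-- The square mean of a derivative along the flow. -/
theorem uFl_sq (k : ℕ) : ∃ C : ℝ, 0 ≤ C ∧ ∀ (d : ℕ) (h : ℝ) (P : Pot d h) (R : ℝ), h ≤ 1 →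
    R ∈ Ioo (0 : ℝ) 1 → ∀ t ∈ Ico (0 : ℝ) R,
      Integrable (fun ξ => ∑ i, uFl P R k i t ξ ^ 2) (gam d) ∧
      ∫ ξ, ∑ i, uFl P R k i t ξ ^ 2 ∂gam d ≤ C * siz P * ((1 - t ^ 2)⁻¹) ^ (2 * k) := by
  obtain ⟨C, hC, hb⟩ := drift_flow_sq k
  obtain ⟨hs, D, hD, hg⟩ := drift_flow_bound fl_Kf k
  refine ⟨C, hC, fun d h P R hh hR t ht => ?_⟩
  have htm : t ∈ Ioo (-1 : ℝ) 1 := mem_dom hR ⟨by linarith [ht.1, hR.1], ht.2⟩
  have hi := int_hsT hs P htm (hg d h P hh t htm).1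
  simp only [hsT_unit] at hi
  have hmp := flow_mp (P := P) hh hR ht htm
  have hb' := hb d h P hh t htm
  simp only [hsT_unit] at hb'
  refine ⟨(hmp.integrable_comp hi.aestronglyMeasurable).2 hi, ?_⟩
  rw [← hmp.map_eq, integral_map hmp.measurable.aemeasurable (hmp.map_eq ▸ hi.aestronglyMeasurable)]
    at hb'
  exact hb'

theorem neg_coord_deriv {Y : ℝ → Space d} {v : Space d} {s : ℝ} (hY : HasDerivAt Y v s) (i : Fin d) :
    HasDerivAt (fun s => -Y s i) (-v i) s :=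
  ((EuclideanSpace.proj (𝕜 := ℝ) i).hasFDerivAt.comp_hasDerivAt s hY).fun_neg

theorem continuousOn_slice {α : Type} [TopologicalSpace α] {G : ℝ → α → ℝ} {A T : Set ℝ}
    (hG : ContinuousOn (fun p : ℝ × α => G p.1 p.2) (A ×ˢ univ)) (x : α) (hT : T ⊆ A) :
    ContinuousOn (fun s => G s x) T :=
  hG.comp (f := fun s : ℝ => (s, x)) (continuousOn_id.prodMk continuousOn_const)
    fun _ hs => ⟨hT hs, mem_univ _⟩

/-- The flow is the integral of the velocity. -/
theorem flow_integral (hh : h ≤ 1) (hR : R ∈ Ioo (0 : ℝ) 1) (ξ : Space d) (i : Fin d) {t : ℝ}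
    (ht : t ∈ Ico 0 R) :
    flow P R ξ t i = ξ i - ∫ s in (0 : ℝ)..t, uFl P R 0 i s ξ := by
  have hsub : uIcc 0 t ⊆ Ioo (-R) R := by
    rw [uIcc_of_le ht.1]
    exact Icc_subset_Ioo (by linarith [hR.1]) ht.2
  have h1 : ∀ s ∈ uIcc 0 t, HasDerivAt (fun s => -flow P R ξ s i) (uFl P R 0 i s ξ) s := fun s hs => by
    have h3 := neg_coord_deriv (flow_hasDerivAt (P := P) hh hR ξ (hsub hs)) i
    refine h3.congr_deriv ?_
    simp [uFl_zero, uR, driftV_apply]
  have h2 : ContinuousOn (fun s => uFl P R 0 i s ξ) (uIcc 0 t) :=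
    continuousOn_slice (G := uFl P R 0 i) (uFl_cont hh hR 0 i) ξ
      (by rw [uIcc_of_le ht.1]; exact Icc_subset_Ico_right ht.2)
  rw [intervalIntegral.integral_eq_sub_of_hasDerivAt h1 h2.intervalIntegrable,
    (flow_spec hh hR ξ).1]
  ring

/-- Along the channel the drift has the mean of the gradient under the target. -/
theorem drift_mart (P : Pot d h) {r : ℝ} (hr : r ∈ Ioo (-1 : ℝ) 1) (c : Fin d) :
    ∫ y, uR P c (r, y) ∂mu (potR P r hr) = ∫ x, P.g x c ∂mu P := by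
  have := mu_prob P
  set s := Real.sqrt (1 - r ^ 2) with hs
  have hs0 : 0 < s := Real.sqrt_pos.2 (var_pos hr)
  have hs2 : s ^ 2 = 1 - r ^ 2 := Real.sq_sqrt (var_pos hr).le
  have hrs : r ^ 2 + s ^ 2 = 1 := by linarith
  have hp := posteriorId d h P r s hs0.ne' (fun _ x => P.g x c)
    ((measurable_gcoord P c).comp measurable_snd)
    ⟨‖P.g 0‖ + h, 1, fun u x => by
      rw [pow_one]
      refine (P245.abs_coord_le (P.g x) c).trans ((P.norm_g_le x).trans ?_)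
      nlinarith [norm_nonneg (P.g 0), P.h_nonneg, norm_nonneg u, norm_nonneg x]⟩
  rw [hrs, div_one, div_one, hs2] at hp
  simp only [integral_const, probReal_univ, one_smul] at hp
  rw [hp]
  exact (channel_law P hr ((rsm_uR P c).meas hr) (grow_uR P hr c)).symm

/-- The velocity along the flow has constant mean. -/
theorem flow_mart (hh : h ≤ 1) (hR : R ∈ Ioo (0 : ℝ) 1) {t : ℝ} (ht : t ∈ Ico 0 R) (c : Fin d) :
    ∫ ξ, uR P c (t, flow P R ξ t) ∂gam d = ∫ x, P.g x c ∂mu P := by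
  have htm : t ∈ Ioo (-1 : ℝ) 1 := mem_dom hR ⟨by linarith [ht.1, hR.1], ht.2⟩
  have hmp := flow_mp (P := P) hh hR ht htm
  rw [← drift_mart P htm c, ← hmp.map_eq, integral_map hmp.measurable.aemeasurable
    ((rsm_uR P c).meas htm).aestronglyMeasurable]

end Vale.Agent.P347.Zero
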