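import Vale.Agent.P347.Zero.PinsC
import Vale.Agent.P347.Zero.Ident

/-!
The correlation of a scalar function along the Gaussian averages `Pt`, without Hermite expansions:
semigroup law, symmetry, Gram identity, the recursion `φ_k(r) = φ_k(0) + ∫_0^r φ_(k+1)` of the
correlations of the derivatives, and the Taylor bound that follows from their positivity.
-/

noncomputable section

open MeasureTheory ProbabilityTheory Filter Topology Set
open scoped RealInnerProductSpace

namespace Vale.Agent.P347.Zero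

namespace GateAux

open SteinAux

variable {n : ℕ}

/-- Continuous, of polynomial growth. -/
def CG (f : Space n → ℝ) : Prop := Continuous f ∧ Grow f

theorem CG.bound {f : Space n → ℝ} (hf : CG f) :
    ∃ (C : ℝ) (k : ℕ), 0 ≤ C ∧ ∀ t ∈ Icc (0 : ℝ) 1, ∀ x z : Space n,
      |f (t • x + Real.sqrt (1 - t ^ 2) • z)| ≤ C * (1 + ‖x‖) ^ k * (1 + ‖z‖) ^ k := by
  obtain ⟨C, k, hC⟩ := hf.2
  refine ⟨|C|, k, abs_nonneg C, fun t ht x z => (hC _).trans ?_⟩
  rw [mul_assoc, ← mul_pow]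
  refine mul_le_mul (le_abs_self C) (pow_le_pow_left₀ (by positivity) ?_ k) (by positivity)
    (abs_nonneg C)
  have h1 : ‖t • x + Real.sqrt (1 - t ^ 2) • z‖ ≤ ‖x‖ + ‖z‖ := by
    refine (norm_add_le _ _).trans (add_le_add ?_ ?_)
    · rw [norm_smul, Real.norm_eq_abs, abs_of_nonneg ht.1]
      exact mul_le_of_le_one_left (norm_nonneg _) ht.2
    · rw [norm_smul, Real.norm_eq_abs, abs_of_nonneg (Real.sqrt_nonneg _)]
      exact mul_le_of_le_one_left (norm_nonneg _) (Real.sqrt_le_one.2 (by nlinarith [ht.1]))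
  nlinarith [mul_nonneg (norm_nonneg x) (norm_nonneg z)]

theorem pt_int {f : Space n → ℝ} (hf : CG f) (t : ℝ) (x : Space n) :
    Integrable (fun z => f (t • x + Real.sqrt (1 - t ^ 2) • z)) (gam n) :=
  gam_int (hf.1.comp (by fun_prop)) (grow_comp hf.2 _ _)

theorem pt_bound {f : Space n → ℝ} (hf : CG f) :
    ∃ (C : ℝ) (k : ℕ), 0 ≤ C ∧ ∀ t ∈ Icc (0 : ℝ) 1, ∀ x, |Pt t f x| ≤ C * (1 + ‖x‖) ^ k := by
  obtain ⟨C, k, hC0, hC⟩ := hf.bound
  refine ⟨C * ∫ z, (1 + ‖z‖) ^ k ∂gam n, k, by positivity, fun t ht x => ?_⟩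
  refine (norm_integral_le_of_norm_le ((int_poly k).const_mul (C * (1 + ‖x‖) ^ k))
    (ae_of_all _ fun z => (Real.norm_eq_abs _).trans_le (hC t ht x z))).trans_eq ?_
  rw [integral_const_mul]
  ring

theorem pt_contOn {f : Space n → ℝ} (hf : CG f) :
    ContinuousOn (fun p : ℝ × Space n => Pt p.1 f p.2) (Icc (0 : ℝ) 1 ×ˢ univ) := by
  obtain ⟨C, k, hC0, hC⟩ := hf.bound
  intro p hp
  unfold Pt
  refine continuousWithinAt_of_dominated (bound := fun z => C * (2 + ‖p.2‖) ^ k * (1 + ‖z‖) ^ k)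
    (Eventually.of_forall fun q => (pt_int hf q.1 q.2).aestronglyMeasurable) ?_
    ((int_poly k).const_mul _) (ae_of_all _ fun z => (hf.1.comp (by fun_prop :
      Continuous fun q : ℝ × Space n => q.1 • q.2 + Real.sqrt (1 - q.1 ^ 2) • z)).continuousWithinAt)
  filter_upwards [self_mem_nhdsWithin, mem_nhdsWithin_of_mem_nhds (Metric.ball_mem_nhds p one_pos)]
    with q hq hq'
  refine ae_of_all _ fun z => (hC q.1 hq.1 q.2 z).trans ?_
  rw [Metric.mem_ball, Prod.dist_eq, max_lt_iff, dist_eq_norm, dist_eq_norm] at hq'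
  have h1 := norm_le_norm_add_norm_sub' q.2 p.2
  gcongr C * ?_ * _
  exact pow_le_pow_left₀ (by positivity) (by linarith [hq'.2]) k

theorem pt_cg {f : Space n → ℝ} (hf : CG f) {t : ℝ} (ht : t ∈ Icc (0 : ℝ) 1) :
    CG (Pt t f) := by
  obtain ⟨C, k, -, hC⟩ := pt_bound hf
  exact ⟨(pt_contOn hf).comp_continuous (by fun_prop : Continuous fun x : Space n => (t, x))
    fun x => ⟨ht, mem_univ _⟩, C, k, fun x => hC t ht x⟩

theorem unit_sq {t : ℝ} (ht : t ∈ Icc (0 : ℝ) 1) : t ^ 2 + Real.sqrt (1 - t ^ 2) ^ 2 = 1 := by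
  rw [Real.sq_sqrt (by nlinarith [ht.1, ht.2])]; ring

/-- A pair of independent vectors projected on a unit direction. -/
theorem marg {φ : Space n → ℝ} (hφ : CG φ) {p r : ℝ} (hr : 0 ≤ r) (hpr : p ^ 2 + r ^ 2 = 1) :
    Integrable (fun q : Space n × Space n => φ (p • q.1 + r • q.2)) ((gam n).prod (gam n)) ∧
      ∫ x, ∫ z, φ (p • x + r • z) ∂gam n ∂gam n = ∫ x, φ x ∂gam n := by
  have hT := rot_preserves (d := n) hr hpr (Or.inl rfl : (1 : ℝ) = 1 ∨ (1 : ℝ) = -1)
  set T := fun q : Space n × Space n => (p • q.1 + r • q.2, (1 : ℝ) • (-r • q.1 + p • q.2))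
  have hm : AEStronglyMeasurable (fun q : Space n × Space n => φ q.1) ((gam n).prod (gam n)) :=
    (hφ.1.comp continuous_fst).aestronglyMeasurable
  have h1 : Integrable (fun q : Space n × Space n => φ (p • q.1 + r • q.2))
      ((gam n).prod (gam n)) := (hT.integrable_comp hm).2 ((gam_int hφ.1 hφ.2).comp_fst (gam n))
  refine ⟨h1, ?_⟩
  have h2 := integral_map (μ := (gam n).prod (gam n)) hT.measurable.aemeasurable
    (f := fun q : Space n × Space n => φ q.1) (hφ.1.comp continuous_fst).aestronglyMeasurable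
  rw [hT.map_eq, integral_fun_fst, probReal_univ, one_smul] at h2
  rw [← integral_prod _ h1]
  exact h2.symm

theorem mean_pt {f : Space n → ℝ} (hf : CG f) {t : ℝ} (ht : t ∈ Icc (0 : ℝ) 1) :
    ∫ x, Pt t f x ∂gam n = ∫ x, f x ∂gam n :=
  (marg hf (Real.sqrt_nonneg _) (unit_sq ht)).2

theorem pt_one (f : Space n → ℝ) : Pt 1 f = f := by
  funext x
  simp [Pt]

theorem pt_zero (f : Space n → ℝ) : Pt 0 f = fun _ => ∫ z, f z ∂gam n := by
  funext x
  simp [Pt]

/-- The semigroup law. -/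
theorem pt_pt {f : Space n → ℝ} (hf : CG f) {r s : ℝ} (hr : r ∈ Icc (0 : ℝ) 1)
    (hs : s ∈ Icc (0 : ℝ) 1) (x : Space n) : Pt r (Pt s f) x = Pt (r * s) f x := by
  set a := s * Real.sqrt (1 - r ^ 2) with ha
  set b := Real.sqrt (1 - s ^ 2) with hb
  have ha0 : 0 ≤ a := mul_nonneg hs.1 (Real.sqrt_nonneg _)
  have hb0 : 0 ≤ b := Real.sqrt_nonneg _
  have hr1 : r ^ 2 ≤ 1 := pow_le_one₀ hr.1 hr.2
  have hs1 : s ^ 2 ≤ 1 := pow_le_one₀ hs.1 hs.2
  have hab : a ^ 2 + b ^ 2 = 1 - (r * s) ^ 2 := by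
    rw [ha, hb, mul_pow, Real.sq_sqrt (by linarith), Real.sq_sqrt (by linarith)]; ring
  set c := Real.sqrt (1 - (r * s) ^ 2) with hc
  have e1 : Pt r (Pt s f) x = ∫ w, ∫ z, f ((r * s) • x + (a • w + b • z)) ∂gam n ∂gam n := by
    unfold Pt
    refine integral_congr_ae (ae_of_all _ fun w => ?_)
    refine integral_congr_ae (ae_of_all _ fun z => ?_)
    simp only [ha, hb, smul_add, smul_smul, mul_comm r s, add_assoc]
  rw [e1]
  rcases (Real.sqrt_nonneg (1 - (r * s) ^ 2)).eq_or_lt with h0 | hpos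
  · rw [← hc] at h0
    have hz : 1 - (r * s) ^ 2 ≤ 0 := Real.sqrt_eq_zero'.1 h0.symm
    have ha' : a = 0 := pow_eq_zero_iff two_ne_zero |>.1 (by nlinarith [sq_nonneg a, sq_nonneg b])
    have hb' : b = 0 := pow_eq_zero_iff two_ne_zero |>.1 (by nlinarith [sq_nonneg a, sq_nonneg b])
    simp [Pt, ← hc, ← h0, ha', hb']
  · have hcs : c ^ 2 = a ^ 2 + b ^ 2 := by
      rw [hab, hc, Real.sq_sqrt]; nlinarith [sq_nonneg a, sq_nonneg b]
    have := (marg (φ := fun u => f ((r * s) • x + c • u)) (p := a / c) (r := b / c)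
      ⟨hf.1.comp (by fun_prop), grow_comp hf.2 _ _⟩ (div_nonneg hb0 hpos.le)
      (by rw [div_pow, div_pow, ← add_div, ← hcs, div_self (pow_ne_zero 2 hpos.ne')])).2
    refine Eq.trans ?_ this
    have hc0 : c ≠ 0 := hpos.ne'
    simp only [smul_add, smul_smul, mul_div_cancel₀ _ hc0]

theorem pair_int {f g : Space n → ℝ} (hf : CG f) (hg : CG g) :
    Integrable (fun x => f x * g x) (gam n) := gam_int (hf.1.mul hg.1) (grow_mul hf.2 hg.2)

/-- Symmetry. -/
theorem pt_symm {f g : Space n → ℝ} (hf : CG f) (hg : CG g) {r : ℝ} (hr : r ∈ Icc (0 : ℝ) 1) :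
    ∫ x, Pt r f x * g x ∂gam n = ∫ x, f x * Pt r g x ∂gam n := by
  obtain ⟨C, k, hC0, hC⟩ := hf.bound
  obtain ⟨D, l, hD⟩ := hg.2
  set r' := Real.sqrt (1 - r ^ 2) with hr'
  have hT := rot_preserves (d := n) (Real.sqrt_nonneg _) (unit_sq hr)
    (Or.inr rfl : (-1 : ℝ) = 1 ∨ (-1 : ℝ) = -1)
  rw [← hr'] at hT
  set T := fun q : Space n × Space n => (r • q.1 + r' • q.2, (-1 : ℝ) • (-r' • q.1 + r • q.2))
    with hTdef
  set Φ : Space n × Space n → ℝ := fun q => f (r • q.1 + r' • q.2) * g q.1 with hΦ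
  have hΦc : Continuous Φ := (hf.1.comp (by fun_prop)).mul (hg.1.comp continuous_fst)
  have hΦi : Integrable Φ ((gam n).prod (gam n)) := by
    refine Integrable.mono' ((Integrable.mul_prod (int_poly (k + l)) (int_poly k)).const_mul (C * |D|))
      hΦc.aestronglyMeasurable (ae_of_all _ fun q => ?_)
    rw [Real.norm_eq_abs, abs_mul]
    refine (mul_le_mul (hC r hr q.1 q.2) ((hD q.1).trans (mul_le_mul_of_nonneg_right (le_abs_self D)
      (by positivity))) (abs_nonneg _) (by positivity)).trans_eq ?_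
    ring
  have e1 : ∫ x, Pt r f x * g x ∂gam n = ∫ x, ∫ z, Φ (x, z) ∂gam n ∂gam n := by
    refine integral_congr_ae (ae_of_all _ fun x => ?_)
    simp only [hΦ, Pt, hr', integral_mul_const]
  have hpt : ∀ q, Φ (T q) = f q.1 * g (r • q.1 + r' • q.2) := fun q => by
    have hrr : r * r + r' * r' = 1 := by have := unit_sq hr; rw [← hr'] at this; linarith
    simp only [hΦ, hTdef]
    congr 2
    calc r • (r • q.1 + r' • q.2) + r' • ((-1 : ℝ) • (-r' • q.1 + r • q.2))
        = (r * r + r' * r') • q.1 := by module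
      _ = q.1 := by rw [hrr, one_smul]
  have h2 := integral_map (μ := (gam n).prod (gam n)) hT.measurable.aemeasurable
    (f := Φ) hΦc.aestronglyMeasurable
  rw [hT.map_eq] at h2
  rw [e1, ← integral_prod _ hΦi, h2,
    integral_prod (fun q => Φ (T q)) ((hT.integrable_comp hΦc.aestronglyMeasurable).2 hΦi)]
  refine integral_congr_ae (ae_of_all _ fun x => ?_)
  simp only [hpt, Pt, hr', integral_const_mul]

/-- The correlation along the semigroup. -/
def corr (f : Space n → ℝ) (s : ℝ) : ℝ := ∫ x, f x * Pt s f x ∂gam n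

theorem gram {f : Space n → ℝ} (hf : CG f) {r s : ℝ} (hr : r ∈ Icc (0 : ℝ) 1)
    (hs : s ∈ Icc (0 : ℝ) 1) : ∫ x, Pt r f x * Pt s f x ∂gam n = corr f (r * s) := by
  rw [pt_symm hf (pt_cg hf hs) hr]
  exact integral_congr_ae (ae_of_all _ fun x => by simp only [pt_pt hf hr hs])

theorem continuous_corr {f : Space n → ℝ} (hf : CG f) : ContinuousOn (corr f) (Icc 0 1) := by
  obtain ⟨C, k, hC0, hC⟩ := pt_bound hf
  obtain ⟨D, l, hD⟩ := hf.2
  unfold corr
  refine continuousOn_of_dominated (bound := fun x => |D| * C * (1 + ‖x‖) ^ (l + k))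
    (fun t ht => (hf.1.mul (pt_cg hf ht).1).aestronglyMeasurable)
    (fun t ht => ae_of_all _ fun x => ?_) ((int_poly _).const_mul _)
    (ae_of_all _ fun x => continuousOn_const.mul ((pt_contOn hf).comp
      (f := fun t : ℝ => (t, x)) (by fun_prop) fun t ht => ⟨ht, mem_univ _⟩))
  rw [Real.norm_eq_abs, abs_mul]
  refine (mul_le_mul ((hD x).trans (mul_le_mul_of_nonneg_right (le_abs_self D) (by positivity)))
    (hC t ht x) (abs_nonneg _) (by positivity)).trans_eq ?_
  ring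

theorem corr_nonneg {f : Space n → ℝ} (hf : CG f) {r : ℝ} (hr : r ∈ Icc (0 : ℝ) 1) :
    0 ≤ corr f r := by
  have h : Real.sqrt r ∈ Icc (0 : ℝ) 1 := ⟨Real.sqrt_nonneg _, Real.sqrt_le_one.2 hr.2⟩
  rw [← Real.mul_self_sqrt hr.1, ← gram hf h h]
  exact integral_nonneg fun x => mul_self_nonneg _

theorem corr_one (f : Space n → ℝ) : corr f 1 = ∫ x, f x ^ 2 ∂gam n := by
  simp only [corr, pt_one, sq]

theorem corr_zero (f : Space n → ℝ) : corr f 0 = (∫ x, f x ∂gam n) ^ 2 := by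
  simp only [corr, pt_zero, integral_mul_const, sq]

/-- The averages commute with the derivative, up to the correlation. -/
theorem pt_deriv {f : Space n → ℝ} (hf : Nice f) {r : ℝ} (hr : r ∈ Icc (0 : ℝ) 1) :
    Nice (Pt r f) ∧ ∀ x v, fderiv ℝ (Pt r f) x v = r * Pt r (fun y => fderiv ℝ f y v) x := by
  rcases hr.2.eq_or_lt with rfl | hr1
  · simp only [pt_one, one_mul]
    exact ⟨hf, fun _ _ => trivial⟩
  set s := Real.sqrt (1 - r ^ 2) with hs
  have h0 : 0 < 1 - r ^ 2 := by nlinarith [hr.1]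
  have hs0 : s ≠ 0 := (Real.sqrt_pos.2 h0).ne'
  have hs1 : |s| ≤ 1 := by
    rw [abs_of_nonneg (Real.sqrt_nonneg _)]
    exact Real.sqrt_le_one.2 (by nlinarith)
  have hsm : Nice (sm s f) := nice_sm hf.cont hf.grow hs0 hs1
  have e : Pt r f = fun x => sm s f (r • x) := rfl
  have hd : ∀ x, HasFDerivAt (fun x => sm s f (r • x)) (r • fderiv ℝ (sm s f) (r • x)) x := by
    intro x
    refine ((hsm.diff _).hasFDerivAt.comp x ((hasFDerivAt_id x).const_smul r)).congr_fderiv ?_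
    ext v
    simp
  constructor
  · rw [e]
    refine Nice.of_bound (hsm.1.comp (contDiff_id.const_smul r))
      (G := fun x => |r| * ‖fderiv ℝ (sm s f) (r • x)‖)
      (grow_mul (grow_const |r|) (by simpa using grow_comp (grow_norm hsm.2) 0 r)) fun x => ?_
    rw [(hd x).fderiv, norm_smul, Real.norm_eq_abs]
  · intro x v
    rw [e, (hd x).fderiv, smul_apply, smul_eq_mul, fderiv_sm_eq hf hs0]
    rfl

theorem cg_of_nice {f : Space n → ℝ} (hf : Nice f) : CG f := ⟨hf.cont, hf.grow⟩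

/-- The correlation grows at the rate of the correlations of the gradient. -/
theorem corr_step {g : Space n → ℝ} (hg : Nice g) {r : ℝ} (hr : r ∈ Icc (0 : ℝ) 1) :
    corr g r = corr g 0 + ∑ j, ∫ s in (0 : ℝ)..r, corr (fun y => fderiv ℝ g y (ev j)) s := by
  have := unit_prob
  have := tg_prob (d := n)
  obtain ⟨hP, hPd⟩ := pt_deriv hg hr
  have hc : ∀ j, CG (fun y => fderiv ℝ g y (ev j)) := fun j =>
    ⟨hg.cont_deriv _, hg.grow_deriv _⟩
  have h := cov_nice hg hP
  rw [mean_pt (cg_of_nice hg) hr] at h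
  rw [corr_zero, sq, corr]
  suffices hs : ∫ x, ∑ j, Gt g x j * fderiv ℝ (Pt r g) x (ev j) ∂gam n
      = ∑ j, ∫ s in (0 : ℝ)..r, corr (fun y => fderiv ℝ g y (ev j)) s by linarith
  have hG : ∀ j, CG (fun x => Gt g x j) := fun j => mixAvg_reg (hc j).1 (hc j).2
  simp only [hPd]
  have hi : ∀ j, Integrable
      (fun x => Gt g x j * (r * Pt r (fun y => fderiv ℝ g y (ev j)) x)) (gam n) := fun j =>
    gam_int ((hG j).1.mul (continuous_const.mul (pt_cg (hc j) hr).1))
      (grow_mul (hG j).2 (grow_mul (grow_const r) (pt_cg (hc j) hr).2))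
  rw [integral_finsetSum _ fun j _ => hi j]
  refine Finset.sum_congr rfl fun j _ => ?_
  set u := fun y => fderiv ℝ g y (ev j) with hu
  obtain ⟨C, k, hC0, hC⟩ := (hc j).bound
  obtain ⟨D, l, hD0, hD⟩ := pt_bound (hc j)
  have e1 : ∀ x, Gt g x j = ∫ t in Ioo (0 : ℝ) 1, Pt t u x := fun x => by
    show (∫ p, u (mix x p) ∂tg n) = _
    rw [integral_prod _ (mix_int (hc j).1 (hc j).2 x)]
    rfl
  have hmeas : AEStronglyMeasurable (fun q : ℝ × Space n => Pt q.1 u q.2 * Pt r u q.2)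
      ((volume.restrict (Ioo (0 : ℝ) 1)).prod (gam n)) := by
    have h1 : ContinuousOn (fun q : ℝ × Space n => Pt q.1 u q.2 * Pt r u q.2)
        (Icc (0 : ℝ) 1 ×ˢ univ) :=
      (pt_contOn (hc j)).mul (((pt_cg (hc j) hr).1.comp continuous_snd).continuousOn)
    have h2 := (h1.mono (prod_mono Ioo_subset_Icc_self (subset_refl _))).aestronglyMeasurable
      (μ := volume.prod (gam n)) (measurableSet_Ioo.prod MeasurableSet.univ)
    rwa [← Measure.prod_restrict, Measure.restrict_univ] at h2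
  have hint : Integrable (fun q : ℝ × Space n => Pt q.1 u q.2 * Pt r u q.2)
      ((volume.restrict (Ioo (0 : ℝ) 1)).prod (gam n)) := by
    refine Integrable.mono' (Integrable.comp_snd ((int_poly (k := k + k)).const_mul
      ((C * ∫ z, (1 + ‖z‖) ^ k ∂gam n) * (C * ∫ z, (1 + ‖z‖) ^ k ∂gam n))) _) hmeas ?_
    filter_upwards [(Measure.quasiMeasurePreserving_fst (μ := volume.restrict (Ioo (0 : ℝ) 1))
      (ν := gam n)).ae (ae_restrict_mem measurableSet_Ioo)] with q hq
    have hb : ∀ t ∈ Icc (0 : ℝ) 1, ∀ x, |Pt t u x| ≤ (C * ∫ z, (1 + ‖z‖) ^ k ∂gam n) * (1 + ‖x‖) ^ k := by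
      intro t ht x
      refine (norm_integral_le_of_norm_le ((int_poly k).const_mul (C * (1 + ‖x‖) ^ k))
        (ae_of_all _ fun z => (Real.norm_eq_abs _).trans_le (hC t ht x z))).trans_eq ?_
      rw [integral_const_mul]
      ring
    rw [Real.norm_eq_abs, abs_mul]
    refine (mul_le_mul (hb _ (Ioo_subset_Icc_self hq) _) (hb r hr _) (abs_nonneg _)
      (by positivity)).trans_eq ?_
    ring
  have e2 : ∫ x, Gt g x j * (r * Pt r u x) ∂gam n = r * ∫ t in Ioo (0 : ℝ) 1, corr u (t * r) := by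
    simp only [e1, mul_left_comm _ r, ← integral_mul_const, integral_const_mul]
    congr 1
    rw [← integral_integral_swap hint]
    refine setIntegral_congr_fun measurableSet_Ioo fun t ht => ?_
    exact gram (hc j) (Ioo_subset_Icc_self ht) hr
  rw [e2, ← integral_Ioc_eq_integral_Ioo, ← intervalIntegral.integral_of_le zero_le_one,
    intervalIntegral.mul_integral_comp_mul_right, zero_mul, one_mul]

end GateAux

end Vale.Agent.P347.Zero
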