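import Vale.Agent.P347.Zero.GateCorr

/-!
The correlations of the derivatives of a smooth scalar function: recursion, positivity, the bound
by the correlation at one, and the Taylor bound at zero.
-/

noncomputable section

open MeasureTheory ProbabilityTheory Filter Topology Set
open scoped RealInnerProductSpace

namespace Vale.Agent.P347.Zero

namespace GateAux

variable {n : ℕ}

/-- The entry of the derivative of order `k` at a multi-index. -/
def ent (k : ℕ) (idx : Fin k → Fin n) (f : Space n → ℝ) (x : Space n) : ℝ :=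
  iteratedFDeriv ℝ k f x fun j => ev (idx j)

/-- The correlation of the derivatives of order `k`. -/
def phi (k : ℕ) (f : Space n → ℝ) (r : ℝ) : ℝ := ∑ idx : Fin k → Fin n, corr (ent k idx f) r

variable {f : Space n → ℝ}

theorem norm_ev_eq (i : Fin n) : ‖(ev i : Space n)‖ = 1 := by simp [ev]

theorem ent_zero (idx : Fin 0 → Fin n) : ent 0 idx f = f := funext fun x => by simp [ent]

theorem ent_fderiv (hf : Smooth f) (k : ℕ) (idx : Fin k → Fin n) (x v : Space n) :
    fderiv ℝ (ent k idx f) x v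
      = iteratedFDeriv ℝ (k + 1) f x (Fin.cons v fun j => ev (idx j)) := by
  unfold ent
  rw [fderiv_continuousMultilinear_apply_const_apply
    (((hf (k + 1)).1.differentiable_iteratedFDeriv (by exact_mod_cast Nat.lt_succ_self k)) x),
    iteratedFDeriv_succ_apply_left, Fin.cons_zero, Fin.tail_cons]

theorem ent_succ (hf : Smooth f) (k : ℕ) (i : Fin n) (idx : Fin k → Fin n) :
    (fun x => fderiv ℝ (ent k idx f) x (ev i)) = ent (k + 1) (Fin.cons i idx) f := by
  funext x
  rw [ent_fderiv hf, ent]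
  congr 1
  funext j
  refine Fin.cases ?_ (fun l => ?_) j <;> simp

theorem nice_ent (hf : Smooth f) (k : ℕ) (idx : Fin k → Fin n) : Nice (ent k idx f) := by
  have h1 : ContDiff ℝ (1 : ℕ) (iteratedFDeriv ℝ k f) :=
    (hf (1 + k)).1.iteratedFDeriv_right (by norm_cast)
  have h2 : ContDiff ℝ 1 (ent k idx f) := by
    exact_mod_cast (ContinuousMultilinearMap.apply ℝ (fun _ : Fin k => Space n) ℝ
      fun l => ev (idx l)).contDiff.comp h1
  refine Nice.of_bound h2 (grow_norm (hf (k + 1)).2) fun x => ?_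
  refine ContinuousLinearMap.opNorm_le_bound _ (norm_nonneg _) fun v => ?_
  rw [ent_fderiv hf]
  refine (ContinuousMultilinearMap.le_opNorm _ _).trans_eq ?_
  simp [Fin.prod_univ_succ, norm_ev_eq]

theorem cg_ent (hf : Smooth f) (k : ℕ) (idx : Fin k → Fin n) : CG (ent k idx f) :=
  cg_of_nice (nice_ent hf k idx)

theorem cg_smooth (hf : Smooth f) : CG f := by
  simpa [ent_zero] using cg_ent hf 0 Fin.elim0

theorem phi_cont (hf : Smooth f) (k : ℕ) : ContinuousOn (phi k f) (Icc 0 1) :=
  continuousOn_finsetSum _ fun idx _ => continuous_corr (cg_ent hf k idx)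

theorem phi_nonneg (hf : Smooth f) (k : ℕ) {r : ℝ} (hr : r ∈ Icc (0 : ℝ) 1) : 0 ≤ phi k f r :=
  Finset.sum_nonneg fun idx _ => corr_nonneg (cg_ent hf k idx) hr

theorem phi_zero_order (f : Space n → ℝ) (r : ℝ) : phi 0 f r = corr f r := by
  simp [phi, ent_zero]

/-- The recursion. -/
theorem phi_step (hf : Smooth f) (k : ℕ) {r : ℝ} (hr : r ∈ Icc (0 : ℝ) 1) :
    phi k f r = phi k f 0 + ∫ s in (0 : ℝ)..r, phi (k + 1) f s := by
  have hi : ∀ idx : Fin (k + 1) → Fin n,
      IntervalIntegrable (corr (ent (k + 1) idx f)) volume 0 r := fun idx =>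
    ((continuous_corr (cg_ent hf _ idx)).mono (Icc_subset_Icc le_rfl hr.2)).intervalIntegrable_of_Icc
      hr.1
  simp only [phi]
  rw [intervalIntegral.integral_finsetSum fun idx _ => hi idx,
    ← (Fin.consEquiv fun _ => Fin n).sum_comp
      (fun idx => ∫ s in (0 : ℝ)..r, corr (ent (k + 1) idx f) s), Fintype.sum_prod_type,
    Finset.sum_comm, ← Finset.sum_add_distrib]
  refine Finset.sum_congr rfl fun idx _ => ?_
  rw [corr_step (nice_ent hf k idx) hr]
  simp only [ent_succ hf]
  rfl

theorem phi_mono (hf : Smooth f) (k : ℕ) {r r' : ℝ} (hr : r ∈ Icc (0 : ℝ) 1)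
    (hr' : r' ∈ Icc (0 : ℝ) 1) (h : r ≤ r') : phi k f r ≤ phi k f r' := by
  rw [phi_step hf k hr, phi_step hf k hr', add_le_add_iff_left]
  refine intervalIntegral.integral_mono_interval le_rfl hr.1 h ?_
    (((phi_cont hf _).mono (Icc_subset_Icc le_rfl hr'.2)).intervalIntegrable_of_Icc hr'.1)
  filter_upwards [ae_restrict_mem measurableSet_Ioc] with s hs
  exact phi_nonneg hf _ ⟨hs.1.le, hs.2.trans hr'.2⟩

theorem phi_gain (hf : Smooth f) (k : ℕ) {r δ : ℝ} (hr : 0 ≤ r) (hδ : 0 ≤ δ) (h : r + δ ≤ 1) :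
    δ * phi (k + 1) f r ≤ phi k f (r + δ) := by
  have h1 : r ∈ Icc (0 : ℝ) 1 := ⟨hr, by linarith⟩
  have h2 : r + δ ∈ Icc (0 : ℝ) 1 := ⟨by linarith, h⟩
  have i1 : IntervalIntegrable (phi (k + 1) f) volume 0 r :=
    ((phi_cont hf _).mono (Icc_subset_Icc le_rfl h1.2)).intervalIntegrable_of_Icc hr
  have i2 : IntervalIntegrable (phi (k + 1) f) volume r (r + δ) :=
    ((phi_cont hf _).mono (Icc_subset_Icc hr h)).intervalIntegrable_of_Icc (by linarith)
  have h3 := intervalIntegral.integral_mono_on (μ := volume) (show r ≤ r + δ by linarith)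
    (intervalIntegrable_const (c := phi (k + 1) f r)) i2 fun s hs =>
      phi_mono hf (k + 1) h1 ⟨hr.trans hs.1, hs.2.trans h⟩ hs.1
  rw [intervalIntegral.integral_const, add_sub_cancel_left, smul_eq_mul] at h3
  have h4 := phi_nonneg hf k h1
  rw [phi_step hf k h1] at h4
  rw [phi_step hf k h2, ← intervalIntegral.integral_add_adjacent_intervals i1 i2]
  linarith

theorem phi_pow (hf : Smooth f) : ∀ (j k : ℕ) {r δ : ℝ}, 0 ≤ r → 0 ≤ δ → r + j * δ ≤ 1 →
    δ ^ j * phi (k + j) f r ≤ phi k f (r + j * δ) := by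
  intro j
  induction j with
  | zero => intro k r δ _ _ _; simp
  | succ j ih =>
    intro k r δ hr hδ h
    push_cast at h ⊢
    have hj : 0 ≤ (j : ℝ) * δ := by positivity
    refine le_trans ?_ ((mul_le_mul_of_nonneg_left (ih (k + 1) hr hδ (by nlinarith)) hδ).trans
      ((phi_gain hf k (r := r + j * δ) (by linarith) hδ (by nlinarith)).trans_eq
        (by congr 1; ring)))
    rw [pow_succ, show k + (j + 1) = k + 1 + j by omega]
    linarith

/-- Below one half, every order is bounded by the second moment. -/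
theorem phi_le (hf : Smooth f) (K : ℕ) {r : ℝ} (hr : 0 ≤ r) (hr' : r ≤ 1 / 2) :
    phi K f r ≤ (2 * (K : ℝ) + 2) ^ K * ∫ x, f x ^ 2 ∂gam n := by
  set δ : ℝ := 1 / (2 * (K : ℝ) + 2) with hδ
  have hδ0 : 0 < δ := by positivity
  have h1 : (K : ℝ) * δ ≤ 1 / 2 := by
    rw [hδ, mul_one_div, div_le_iff₀ (by positivity)]
    linarith
  have hj : 0 ≤ (K : ℝ) * δ := by positivity
  have h2 := (phi_pow hf K 0 hr hδ0.le (by linarith)).trans
    (phi_mono hf 0 ⟨by linarith, by linarith⟩ (right_mem_Icc.2 zero_le_one) (by linarith))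
  rw [zero_add, phi_zero_order, corr_one] at h2
  have e : (2 * (K : ℝ) + 2) ^ K * δ ^ K = 1 := by
    rw [← mul_pow, hδ, mul_one_div_cancel (by positivity), one_pow]
  calc phi K f r = (2 * (K : ℝ) + 2) ^ K * (δ ^ K * phi K f r) := by rw [← mul_assoc, e, one_mul]
    _ ≤ _ := mul_le_mul_of_nonneg_left h2 (by positivity)

/-- Taylor at zero with the remainder controlled by the second moment. -/
theorem phi_taylor (hf : Smooth f) {K : ℕ} {M ρ : ℝ} (hρ : ρ ≤ 1)
    (hM : ∀ u ∈ Icc (0 : ℝ) ρ, phi K f u ≤ M) : ∀ j k, k + j = K → ∀ u ∈ Icc (0 : ℝ) ρ,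
      |phi k f u - ∑ i ∈ Finset.range j, phi (k + i) f 0 * u ^ i / i.factorial| ≤ M * u ^ j := by
  intro j
  induction j with
  | zero =>
    intro k hk u hu
    rw [add_zero] at hk
    subst hk
    simpa [abs_of_nonneg (phi_nonneg hf k ⟨hu.1, hu.2.trans hρ⟩)] using hM u hu
  | succ j ih =>
    intro k hk u hu
    have hu1 : u ∈ Icc (0 : ℝ) 1 := ⟨hu.1, hu.2.trans hρ⟩
    have hM0 : 0 ≤ M := (phi_nonneg hf K hu1).trans (hM u hu)
    set P : ℝ → ℝ := fun s => ∑ i ∈ Finset.range j, phi (k + 1 + i) f 0 * s ^ i / i.factorial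
    have hP : ∫ s in (0 : ℝ)..u, P s
        = ∑ i ∈ Finset.range j, phi (k + (i + 1)) f 0 * u ^ (i + 1) / (i + 1).factorial := by
      simp only [P]
      rw [intervalIntegral.integral_finsetSum fun i _ =>
        (by fun_prop : Continuous fun s : ℝ => phi (k + 1 + i) f 0 * s ^ i / i.factorial).intervalIntegrable _ _]
      refine Finset.sum_congr rfl fun i _ => ?_
      rw [intervalIntegral.integral_div, intervalIntegral.integral_const_mul, integral_pow,
        zero_pow (Nat.succ_ne_zero i), sub_zero, Nat.factorial_succ,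
        show k + 1 + i = k + (i + 1) by omega]
      push_cast
      field_simp
    rw [phi_step hf k hu1, Finset.sum_range_succ', ← hP]
    simp only [pow_zero, Nat.factorial_zero, Nat.cast_one, mul_one, div_one, add_zero]
    have i1 : IntervalIntegrable (phi (k + 1) f) volume 0 u :=
      ((phi_cont hf _).mono (Icc_subset_Icc le_rfl hu1.2)).intervalIntegrable_of_Icc hu.1
    have i2 : IntervalIntegrable P volume 0 u :=
      (by simp only [P]; fun_prop : Continuous P).intervalIntegrable _ _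
    rw [show phi k f 0 + (∫ s in (0 : ℝ)..u, phi (k + 1) f s) - ((∫ s in (0 : ℝ)..u, P s) + phi k f 0)
      = ∫ s in (0 : ℝ)..u, (phi (k + 1) f s - P s) by
        rw [intervalIntegral.integral_sub i1 i2]; ring]
    refine (Real.norm_eq_abs _).symm.trans_le ?_
    refine (intervalIntegral.norm_integral_le_of_norm_le_const (C := M * u ^ j) fun s hs => ?_).trans_eq ?_
    · rw [uIoc_of_le hu.1] at hs
      rw [Real.norm_eq_abs]
      exact (ih (k + 1) (by omega) s ⟨hs.1.le, hs.2.trans hu.2⟩).trans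
        (mul_le_mul_of_nonneg_left (pow_le_pow_left₀ hs.1.le hs.2 j) hM0)
    · rw [sub_zero, abs_of_nonneg hu.1, pow_succ, mul_assoc]

end GateAux

end Vale.Agent.P347.Zero
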