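import Vale.Agent.P347.Zero.GridDefs
import Vale.Agent.P347.Zero.FlowQuad

/-!
A grid in every dimension: the order of the collocation rule grows slowly with the dimension, so
that fewer than every power of the dimension of nodes reach any fixed power of accuracy.
-/

noncomputable section

open MeasureTheory Filter Topology Set
open scoped RealInnerProductSpace

namespace Vale.Agent.P347.Zero

/-- The correlation at the end of the grid. -/
def gridEnd (δv : ℝ) (d : ℕ) : ℝ := if 2 ≤ d then Real.sqrt (1 - (d : ℝ) ^ (-δv)) else 0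

theorem gridEnd_spec {δv : ℝ} (hδ : 0 < δv) (d : ℕ) :
    gridEnd δv d ∈ Ico (0 : ℝ) 1 ∧ (2 ≤ d → 1 - gridEnd δv d ^ 2 = (d : ℝ) ^ (-δv)) := by
  unfold gridEnd
  split_ifs with hd
  · have hd1 : (1 : ℝ) < d := by exact_mod_cast (by omega : 1 < d)
    have h1 : (d : ℝ) ^ (-δv) < 1 := Real.rpow_lt_one_of_one_lt_of_neg hd1 (by linarith)
    have h2 : 0 < (d : ℝ) ^ (-δv) := Real.rpow_pos_of_pos (by linarith) _
    refine ⟨⟨Real.sqrt_nonneg _, ?_⟩, fun _ => by rw [Real.sq_sqrt (by linarith)]; ring⟩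
    rw [Real.sqrt_lt' one_pos]
    linarith
  · exact ⟨⟨le_rfl, one_pos⟩, fun h => absurd h hd⟩

open Classical in
/-- The order of the rule used in dimension `d`, for the constants `C`. -/
def ordN (C : ℕ → ℝ) (d : ℕ) : ℕ :=
  Nat.findGreatest (fun n => C n ≤ (d : ℝ) ^ ((1 : ℝ) / (n + 1))) d

theorem ordN_ev (C : ℕ → ℝ) (n₀ : ℕ) : ∀ᶠ d : ℕ in atTop,
    n₀ ≤ ordN C d ∧ C (ordN C d) ≤ (d : ℝ) ^ ((1 : ℝ) / (ordN C d + 1)) := by
  have h : Tendsto (fun d : ℕ => (d : ℝ) ^ ((1 : ℝ) / (n₀ + 1))) atTop atTop :=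
    (tendsto_rpow_atTop (by positivity)).comp tendsto_natCast_atTop_atTop
  classical
  filter_upwards [h.eventually_ge_atTop (C n₀), eventually_ge_atTop n₀] with d hd hd'
  exact ⟨Nat.le_findGreatest hd' hd,
    Nat.findGreatest_spec (P := fun n => C n ≤ (d : ℝ) ^ ((1 : ℝ) / (n + 1))) hd' hd⟩

/-- The width of the pieces in dimension `d`. -/
def gridWidth (K : ℝ) (C : ℕ → ℝ) (d : ℕ) : ℝ :=
  if 2 ≤ d then min (1 / 2) ((d : ℝ) ^ (-(K / (ordN C d + 1)))) else 1 / 2

/-- Grids of any accuracy, with weights below every power of the dimension. -/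
theorem grid_make {δv : ℝ} (hδ : 0 < δv) {K : ℝ} (hK : 0 ≤ K) :
    ∃ (G : Grid δv) (ω : ℕ → ℕ → ℝ),
      (∀ η : ℝ, 0 < η → ∀ᶠ d : ℕ in atTop,
        ∑ b ∈ Finset.range (G.m d), ω d b ≤ (d : ℝ) ^ η) ∧
      (∀ d a b, |G.W d a b| ≤ ω d b) ∧
      (∀ d b, G.node d b ≤ G.node d (G.last d)) ∧ (∀ d, G.node d (G.last d) < 1) ∧
      ∀ᶠ d : ℕ in atTop, ∀ (h : ℝ) (P : Pot d h) (R : ℝ), h ≤ 1 → R ∈ Ioo (0 : ℝ) 1 →
        G.node d (G.last d) < R → ∃ M : Space d → ℝ, (∀ ξ, 0 ≤ M ξ) ∧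
          Integrable (fun ξ => M ξ ^ 2) (gam d) ∧
          ∫ ξ, M ξ ^ 2 ∂gam d ≤ (d : ℝ) ^ (1 - 2 * K) * siz P ∧
          ∀ ξ a, (a < G.m d ∨ a = G.last d) →
            ‖flow P R ξ (G.node d a) - ξ + ∑ b ∈ Finset.range (G.m d),
              G.W d a b • velY P R (G.node d b) ξ‖ ≤ M ξ := by
  choose C hC0 hC using flow_colloc
  set re := gridEnd δv
  have hre : ∀ d, re d ∈ Ico (0 : ℝ) 1 := fun d => (gridEnd_spec hδ d).1
  set n := ordN C
  set η := gridWidth K C
  have hη : ∀ d, η d ∈ Ioc (0 : ℝ) (1 / 2) := fun d => by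
    simp only [η, gridWidth]
    split_ifs with hd
    · exact ⟨lt_min (by norm_num) (Real.rpow_pos_of_pos (by
        exact_mod_cast (by omega : 0 < d)) _), min_le_left _ _⟩
    · exact ⟨by norm_num, le_rfl⟩
  choose N s W we ω hN hs hW hwe hω herr using fun d => hC (n d) (η d) (hη d) (re d) (hre d)
  set node : ℕ → ℕ → ℝ := fun d b => if h : b < N d then s d ⟨b, h⟩ else re d with hnode
  set WW : ℕ → ℕ → ℕ → ℝ := fun d a b => if hb : b < N d then
    (if ha : a < N d then W d ⟨a, ha⟩ ⟨b, hb⟩ else if a = N d then we d ⟨b, hb⟩ else 0) else 0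
    with hWW
  set ω' : ℕ → ℕ → ℝ := fun d b => if h : b < N d then ω d ⟨b, h⟩ else 0 with hω'
  have nodeF : ∀ d (b : Fin (N d)), node d b = s d b := fun d b => by
    simp only [hnode]; rw [dif_pos b.2]
  have nodeN : ∀ d, node d (N d) = re d := fun d => dif_neg (lt_irrefl _)
  have node_le : ∀ d b, node d b ∈ Icc 0 (re d) := fun d b => by
    simp only [hnode]
    split_ifs
    · exact hs d _
    · exact ⟨(hre d).1, le_rfl⟩
  have hWle : ∀ d a b, |WW d a b| ≤ ω' d b := fun d a b => by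
    simp only [hWW, hω']
    split_ifs with hb ha
    · exact hW d _ _
    · exact hwe d _
    · rw [abs_zero]; exact (abs_nonneg _).trans (hwe d ⟨b, hb⟩)
    · rw [abs_zero]
  have hsum : ∀ d, ∑ b ∈ Finset.range (N d), ω' d b ≤ C (n d) := fun d => by
    rw [← Fin.sum_univ_eq_sum_range (fun b => ω' d b)]
    refine le_of_eq_of_le (Finset.sum_congr rfl fun b _ => ?_) (hω d)
    simp only [hω']; rw [dif_pos b.2]
  have hwt : ∀ e : ℝ, 0 < e → ∀ᶠ d : ℕ in atTop,
      ∑ b ∈ Finset.range (N d), ω' d b ≤ (d : ℝ) ^ e := fun e he => by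
    filter_upwards [ordN_ev C ⌈1 / e⌉₊, eventually_ge_atTop 1] with d hd hd1
    refine (hsum d).trans (hd.2.trans (Real.rpow_le_rpow_of_exponent_le (by exact_mod_cast hd1) ?_))
    rw [div_le_iff₀ (by positivity), ← div_le_iff₀' he]
    exact (Nat.le_ceil _).trans ((Nat.cast_le.2 hd.1).trans (le_add_of_nonneg_right zero_le_one))
  have hcount : ∀ e : ℝ, 0 < e → ∀ᶠ d : ℕ in atTop, (N d : ℝ) ≤ (d : ℝ) ^ e := by
    intro e he
    have hbig : ∀ᶠ d : ℕ in atTop, 2 * (1 + δv / (e / 3)) ≤ (d : ℝ) ^ (e / 3) :=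
      ((tendsto_rpow_atTop (by positivity)).comp tendsto_natCast_atTop_atTop).eventually_ge_atTop _
    filter_upwards [hbig, ordN_ev C ⌈(K + 1) / (e / 3)⌉₊, eventually_ge_atTop 2] with d hb hd h2
    have hd1 : (1 : ℝ) ≤ d := by exact_mod_cast (by omega : 1 ≤ d)
    have hd0 : (0 : ℝ) < d := by linarith
    set a : ℝ := (n d : ℝ) + 1
    have ha : 0 < a := by positivity
    have hKa : (1 + K) / a ≤ e / 3 := by
      rw [div_le_iff₀ ha, ← div_le_iff₀' (by positivity), add_comm]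
      exact (Nat.le_ceil _).trans ((Nat.cast_le.2 hd.1).trans (le_add_of_nonneg_right zero_le_one))
    have hlog : 1 + Real.log (1 / (1 - re d ^ 2)) ≤ (1 + δv / (e / 3)) * (d : ℝ) ^ (e / 3) := by
      rw [(gridEnd_spec hδ d).2 h2, one_div, Real.log_inv, Real.log_rpow hd0, neg_mul, neg_neg]
      have h1 : δv * Real.log d ≤ δv * ((d : ℝ) ^ (e / 3) / (e / 3)) :=
        mul_le_mul_of_nonneg_left (Real.log_le_rpow_div hd0.le (by positivity)) hδ.le
      have h3 : 1 ≤ (d : ℝ) ^ (e / 3) := Real.one_le_rpow hd1 (by positivity)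
      rw [add_mul, one_mul, div_mul_eq_mul_div, ← mul_div_assoc] at *
      linarith
    have hinv : 1 / η d ≤ 2 * (d : ℝ) ^ (K / a) := by
      simp only [η, gridWidth, if_pos h2]
      have h3 : 1 ≤ (d : ℝ) ^ (K / a) := Real.one_le_rpow hd1 (by positivity)
      rw [Real.rpow_neg hd0.le, one_div, inv_le_comm₀ (lt_min (by norm_num) (by positivity))
        (by positivity), mul_inv]
      refine le_min ?_ (mul_le_of_le_one_left (by positivity) (by norm_num))
      exact (mul_le_of_le_one_right (by norm_num) (inv_le_one_of_one_le₀ h3)).trans_eq (by norm_num)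
    have hC1 : C (n d) ≤ (d : ℝ) ^ (1 / a) := hd.2
    have hnn : 0 ≤ 1 + Real.log (1 / (1 - re d ^ 2)) := add_nonneg zero_le_one (Real.log_nonneg (by
      rw [(gridEnd_spec hδ d).2 h2, one_div]
      exact one_le_inv_iff₀.2 ⟨by positivity,
        Real.rpow_le_one_of_one_le_of_nonpos hd1 (by linarith)⟩))
    have hexp : (d : ℝ) ^ ((1 + K) / a) ≤ (d : ℝ) ^ (e / 3) :=
      Real.rpow_le_rpow_of_exponent_le hd1 hKa
    calc (N d : ℝ) ≤ C (n d) * (1 + Real.log (1 / (1 - re d ^ 2))) * (1 / η d) := by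
          rw [mul_one_div]; exact hN d
      _ ≤ (d : ℝ) ^ (1 / a) * ((1 + δv / (e / 3)) * (d : ℝ) ^ (e / 3)) * (2 * (d : ℝ) ^ (K / a)) :=
          mul_le_mul (mul_le_mul hC1 hlog hnn (by positivity)) hinv
            (one_div_nonneg.2 (hη d).1.le) (by positivity)
      _ = (d : ℝ) ^ ((1 + K) / a) * (2 * (1 + δv / (e / 3))) * (d : ℝ) ^ (e / 3) := by
          rw [add_div, Real.rpow_add hd0]; ring
      _ ≤ (d : ℝ) ^ (e / 3) * (d : ℝ) ^ (e / 3) * (d : ℝ) ^ (e / 3) := by gcongr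
      _ = (d : ℝ) ^ e := by rw [← Real.rpow_add hd0, ← Real.rpow_add hd0]; congr 1; ring
  refine ⟨⟨N, node, WW, N, fun d b => ⟨(node_le d b).1, (node_le d b).2.trans (hre d).2.le⟩,
    fun d b h2 => ?_, fun d h2 => by rw [nodeN]; exact (gridEnd_spec hδ d).2 h2,
    fun e he => eventually_atTop.1 (hcount e he),
    fun e he => eventually_atTop.1 ((hwt e he).mono fun d hd a =>
      (Finset.sum_le_sum fun b _ => hWle d a b).trans hd)⟩,
    ω', hwt, hWle, fun d b => by show node d b ≤ node d (N d); rw [nodeN]; exact (node_le d b).2,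
    fun d => by show node d (N d) < 1; rw [nodeN]; exact (hre d).2, ?_⟩
  · rw [← (gridEnd_spec hδ d).2 h2]
    exact sub_le_sub_left (pow_le_pow_left₀ (node_le d b).1 (node_le d b).2 2) 1
  filter_upwards [ordN_ev C 0, eventually_ge_atTop 2] with d hd h2 h P R hh hR hlt
  replace hlt : re d < R := nodeN d ▸ hlt
  obtain ⟨M, hM0, hMi, hMb, hM⟩ := herr d d h P R hh hR hlt
  have hd0 : (0 : ℝ) < d := by exact_mod_cast (by omega : 0 < d)
  have hd1 : (1 : ℝ) ≤ d := by exact_mod_cast (by omega : 1 ≤ d)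
  refine ⟨M, hM0, hMi, hMb.trans (mul_le_mul_of_nonneg_right ?_ (siz_pos P).le), fun ξ a ha => ?_⟩
  · have ha : 0 < (n d : ℝ) + 1 := by positivity
    calc C (n d) * η d ^ (2 * (n d + 1))
        ≤ (d : ℝ) ^ (1 : ℝ) * ((d : ℝ) ^ (-(K / (n d + 1)))) ^ (2 * (n d + 1)) := by
          refine mul_le_mul (hd.2.trans (Real.rpow_le_rpow_of_exponent_le hd1 ?_))
            (pow_le_pow_left₀ (hη d).1.le ?_ _) (pow_nonneg (hη d).1.le _) (by positivity)
          · rw [div_le_one ha]; exact le_add_of_nonneg_left (Nat.cast_nonneg _)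
          · simp only [η, gridWidth, if_pos h2]; exact min_le_right _ _
      _ = (d : ℝ) ^ (1 - 2 * K) := by
          rw [← Real.rpow_natCast ((d : ℝ) ^ _), ← Real.rpow_mul hd0.le, ← Real.rpow_add hd0]
          congr 1
          push_cast
          field_simp
          ring
  · obtain ⟨h1, h3⟩ := hM ξ
    show ‖flow P R ξ (node d a) - ξ + ∑ b ∈ Finset.range (N d), WW d a b • velY P R (node d b) ξ‖ ≤ _
    rw [← Fin.sum_univ_eq_sum_range (fun b => WW d a b • velY P R (node d b) ξ)]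
    simp only [nodeF]
    rcases ha with ha | ha
    · have e : ∀ b : Fin (N d), WW d a b = W d ⟨a, ha⟩ b := fun b => by
        simp only [hWW]; rw [dif_pos b.2, dif_pos (show a < N d from ha)]
      simp only [e]
      rw [nodeF d ⟨a, ha⟩]
      exact h1 ⟨a, ha⟩
    · have e : ∀ b : Fin (N d), WW d a b = we d b := fun b => by
        simp only [hWW]
        rw [dif_pos b.2, dif_neg (show ¬ a < N d from not_lt.2 (le_of_eq ha.symm)),
          if_pos (show a = N d from ha)]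
      simp only [e]
      rw [show a = N d from ha, nodeN]
      exact h3

end Vale.Agent.P347.Zero
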