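import Vale.Agent.P347.Zero.Class
import Vale.Agent.P347.Zero.Drift

/-!
The families of problems of the mean oracle and of its nodes, the drift and its derivatives read at
a realisable point, and the statements that turn mean oracles into programs for them.
-/

noncomputable section

open MeasureTheory ProbabilityTheory Set
open scoped RealInnerProductSpace NNReal

namespace Vale.Agent.P347.Zero

/-- What a program knows of a problem: dimension, strength and scale, the strength at the scale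
between `d ^ (-H)` and `d ^ (-γ)`. -/
structure QK (γ H : ℝ) where
  /-- The dimension. -/
  d : ℕ
  /-- The strength of the potential. -/
  h : ℝ
  /-- The scale. -/
  σ : ℝ
  two_le : 2 ≤ d
  σ_pos : 0 < σ
  σ_le : σ ≤ 1
  h_le : h ≤ (d : ℝ) ^ (-γ)
  le_h : (d : ℝ) ^ (-H) ≤ h * σ ^ 2

/-- A potential seen at a scale. -/
structure QI (γ H : ℝ) extends QK γ H where
  /-- The potential. -/
  P : Pot d h

variable {γ H B δv b S : ℝ}

/-- The strength at the scale. -/
def QI.hs (i : QI γ H) : ℝ := i.h * i.σ ^ 2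

/-- The potential at the scale, around a centre. -/
def QI.pot (i : QI γ H) (p : Space i.d) : Pot i.d i.hs := i.P.aff (i.σ • p) i.σ

theorem QI.wt_one_le (i : QI γ H) (B : ℝ) (p : Space i.d) :
    1 ≤ 1 + (i.d : ℝ) ^ (-B) * ‖i.P.g (i.σ • p)‖ :=
  le_add_of_nonneg_right (mul_nonneg (Real.rpow_nonneg (Nat.cast_nonneg _) _) (norm_nonneg _))

theorem QI.og_lip (i : QI γ H) : ∃ L : ℝ≥0, LipschitzWith L i.P.g :=
  ⟨⟨i.h, i.P.h_nonneg⟩, LipschitzWith.of_dist_le_mul fun x y => by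
    rw [dist_eq_norm, dist_eq_norm]; exact i.P.lip x y⟩

/-- The family of the mean oracle: the oracle is the gradient of the unscaled potential. -/
def MQ (γ H B : ℝ) : Sys where
  key := QK γ H
  kdm k := k.d
  ι := QI γ H
  pub i := i.toQK
  og i := i.P.g
  wt i p := 1 + (i.d : ℝ) ^ (-B) * ‖i.P.g (i.σ • p)‖
  one_le_wt i p := i.wt_one_le B p
  og_lip i := i.og_lip

/-- The mean of the gradient, in units of the strength. -/
def meanFld (γ H B : ℝ) : Fld (MQ γ H B) Empty Unit :=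
  fun (i : QI γ H) p _ idx => (∫ x, (i.pot p).g x (idx ()) ∂mu (i.pot p)) / i.hs

/-- Mean oracles to accuracy `d ^ (-κ)` at every margin above `φ`, for all ranges of strengths and
weights. -/
def MeanOK (γ κ φ : ℝ) : Prop :=
  ∀ H B : ℝ, Sam (S := MQ γ H B) κ φ 0 () (meanFld γ H B)

/-- What a program knows of a node: a label, a correlation `r` and the factor `a` of its channel,
with variance between `d ^ (-δv)` and `d ^ (-b)` and channel noise `1 - a ^ 2` between
`d ^ (-S) / 4` and `d ^ (-δv)`. -/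
structure NK (γ H δv b S : ℝ) where
  /-- The dimension, strength and scale. -/
  q : QK γ H
  /-- The label. -/
  lab : ℕ × ℕ
  /-- The correlation. -/
  r : ℝ
  /-- The factor of the channel. -/
  a : ℝ
  r_mem : r ∈ Icc (0 : ℝ) 1
  a_mem : a ∈ Icc (1 / 2 : ℝ) 1
  var_ge : (q.d : ℝ) ^ (-δv) ≤ 1 - (r * a) ^ 2
  var_le : 1 - (r * a) ^ 2 ≤ (q.d : ℝ) ^ (-b)
  noise_ge : (q.d : ℝ) ^ (-S) / 4 ≤ 1 - a ^ 2
  noise_le : 1 - a ^ 2 ≤ (q.d : ℝ) ^ (-δv)

/-- A node with its potential. -/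
structure NI (γ H δv b S : ℝ) where
  /-- The potential. -/
  q : QI γ H
  /-- The label. -/
  lab : ℕ × ℕ
  /-- The correlation. -/
  r : ℝ
  /-- The factor of the channel. -/
  a : ℝ
  r_mem : r ∈ Icc (0 : ℝ) 1
  a_mem : a ∈ Icc (1 / 2 : ℝ) 1
  var_ge : (q.d : ℝ) ^ (-δv) ≤ 1 - (r * a) ^ 2
  var_le : 1 - (r * a) ^ 2 ≤ (q.d : ℝ) ^ (-b)
  noise_ge : (q.d : ℝ) ^ (-S) / 4 ≤ 1 - a ^ 2
  noise_le : 1 - a ^ 2 ≤ (q.d : ℝ) ^ (-δv)

/-- The part of a node that a program knows. -/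
def NI.pub (n : NI γ H δv b S) : NK γ H δv b S :=
  ⟨n.q.toQK, n.lab, n.r, n.a, n.r_mem, n.a_mem, n.var_ge, n.var_le, n.noise_ge, n.noise_le⟩

/-- A family of nodes, indexed by any type. -/
def NQ (B : ℝ) {J : Type} (f : J → NI γ H δv b S) : Sys where
  key := NK γ H δv b S
  kdm n := n.q.d
  ι := J
  pub j := (f j).pub
  og j := (f j).q.P.g
  wt j p := 1 + ((f j).q.d : ℝ) ^ (-B) * ‖(f j).q.P.g ((f j).q.σ • p)‖
  one_le_wt j p := (f j).q.wt_one_le B p
  og_lip j := (f j).q.og_lip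

variable {J : Type} {f : J → NI γ H δv b S}

variable {C K : Type} [Fintype C] [DecidableEq C] [Fintype K] [DecidableEq K]

/-- The vector of a field with one leg. -/
def vecOf {S : Sys} {B : Type} (Y : Fld S B Unit) (i : S.ι) (p : Space (S.dm i))
    (x : B → Space (S.dm i)) : Space (S.dm i) :=
  ∑ c, Y i p x (fun _ => c) • ev c

/-- The `k`-th derivative of the drift of a node, in units of the strength, at the channel of the
point `Y` with noise `e`. -/
def vtx (k : ℕ) (Y : Fld (NQ B f) C Unit) : Fld (NQ B f) (C ⊕ Unit) (Option (Fin k)) :=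
  fun (j : J) p x idx =>
    ((f j).r * (f j).a) ^ k * driftT ((f j).q.pot p) (1 - ((f j).r * (f j).a) ^ 2) k
      (((f j).r * (f j).a) • ((f j).a • vecOf Y j p (fun c => x (.inl c)) +
        Real.sqrt (1 - (f j).a ^ 2) • x (.inr ()))) idx / (f j).q.hs

/-- The drift at the channel of `Y` with noise a combination of the blocks `K` and of the block on
the left, in units of the strength. -/
def valFld (Y : Fld (NQ B f) C Unit) (c₀ : NK γ H δv b S → ℝ) (c : NK γ H δv b S → K → ℝ) :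
    Fld (NQ B f) (Unit ⊕ (C ⊕ K)) Unit :=
  fun (j : J) p x idx =>
    driftT ((f j).q.pot p) (1 - ((f j).r * (f j).a) ^ 2) 0
      (((f j).r * (f j).a) • ((f j).a • vecOf Y j p (fun l => x (.inr (.inl l))) +
        Real.sqrt (1 - (f j).a ^ 2) •
          (c₀ (f j).pub • x (.inl ()) + ∑ l, c (f j).pub l • x (.inr (.inr l)))))
      (fun o => o.elim (idx ()) Fin.elim0) / (f j).q.hs

/-- A point that can be computed up to Gaussian noise `d ^ (-α)`, of polynomial size. -/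
def Pts (κ α : ℝ) (Y : Fld (NQ B f) C Unit) : Prop :=
  Sm Y ∧
    (∀ ε : ℝ, 0 < ε → ∃ R : Run (NQ B f) C Unit,
      R.Cheap ε ∧ R.LipAll ∧ R.LipIn (-α - ε) ∧ R.Law κ α () Y) ∧
    ∃ c : ℝ, (NQ B f).Ev fun (j : J) => ∀ p,
      Integrable (fun x => ‖vecOf Y j p x‖ ^ 2) (gp C (f j).q.d) ∧
        ∫ x, ‖vecOf Y j p x‖ ^ 2 ∂gp C (f j).q.d
          ≤ ((f j).q.d : ℝ) ^ c * (1 + ‖(f j).q.P.g ((f j).q.σ • p)‖) ^ 2

/-- Mean oracles of the children give the drift at a computed point, averaged over the noise that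
hides the error of the point. -/
def ValThm : Prop :=
  ∀ (γ H B δv b S α κ κy φ φc g : ℝ), 0 < γ → 0 ≤ b → b ≤ δv → δv ≤ S → S < 2 * α → 0 < g → g ≤ φ →
    φc ≤ φ + b / 2 → κ ≤ κy + g → MeanOK γ κ φc →
    ∀ (C K : Type) [Fintype C] [DecidableEq C] [Fintype K] [DecidableEq K]
      (J : Type) (f : J → NI γ H δv b S) (Y : Fld (NQ B f) C Unit) (c₀ : NK γ H δv b S → ℝ)
      (c : NK γ H δv b S → K → ℝ),
      Pts κy α Y →
      (∀ j, c₀ (f j).pub ^ 2 + ∑ l, c (f j).pub l ^ 2 = 1) →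
      (NQ B f).Ev (fun (j : J) =>
        16 * ((f j).q.d : ℝ) ^ (-(2 * α)) ≤ c₀ (f j).pub ^ 2 * (1 - (f j).a ^ 2)) →
      SamMix κ φ 0 () (valFld Y c₀ c)

/-- Mean oracles of the children give every derivative of the drift at a computed point, given the
same derivatives at a larger margin. -/
def VertexThm : Prop :=
  ∀ (L : Lad) (r : ℕ) (γ H B δv S α φ Φ : ℝ), 0 < γ → 0 < δv → δv ≤ S → S < 2 * L.w → S < 2 * α →
    L.phi r + 8 * L.w ≤ φ → φ ≤ Φ → Φ + 8 * L.w ≤ 2 * φ - L.phi r →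
    MeanOK γ (L.kap (r + 1)) φ →
    ∀ (C : Type) [Fintype C] [DecidableEq C] (J : Type) (f : J → NI γ H δv 0 S)
      (Y : Fld (NQ B f) C Unit),
      Pts (L.kap r) α Y →
      (∀ k : ℕ, 1 ≤ k → Gd L (r + 1) Φ (-(k : ℝ) * L.w) univ (vtx k Y)) →
      ∀ k : ℕ, 1 ≤ k → ∀ o, Sam (L.kap (r + 1)) φ (-(k : ℝ) * L.w) o (vtx k Y)

end Vale.Agent.P347.Zero
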