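import Vale.Agent.P347.Zero.Prog
import Vale.Agent.P347.ExactGauss

/-!
A program fed with the output of another one: the second reads a centre that is an affine function
of the arguments, of the first output and of a fresh Gaussian, which absorbs the noise of that
output.
-/

noncomputable section

open MeasureTheory ProbabilityTheory Function
open scoped RealInnerProductSpace NNReal

namespace Vale.Agent.P347.Zero

variable {d : ℕ} {B I C K : Type} [Fintype B] [Fintype I] [Fintype C] [Fintype K]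

/-- The deviation moves at most with the program and with the target. -/
theorem Prog.dev_sub_le {P : Prog d B I} {G : Space d → Space d} (hP : P.LipW G)
    {p p' : Space d} {x x' : B → Space d} {A A' : I → Space d} (v v' : Space d) {D : ℝ}
    (hD : ∀ ω, ‖P.F G (p, x, A, ω) - P.F G (p', x', A', ω)‖ ≤ D) :
    P.dev G p x A v ≤ P.dev G p' x' A' v' + D + ‖v - v'‖ := by
  have h1 : Close (gp (Fin P.sd) d) (fun ω => P.F G (p, x, A, ω)) (gp (Fin P.sd) d)
      (fun ω => P.F G (p', x', A', ω)) D := by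
    refine Close.of_coupled (hP.integrable p x A) (hP.integrable p' x' A') ?_
    refine (integral_mono ((hP.integrable p x A).sub (hP.integrable p' x' A')).norm
      (integrable_const D) fun ω => hD ω).trans_eq (by simp)
  refine Prog.dev_le (((h1.trans (Prog.closeAt_dev hP p' x' A' v')).trans
    (Close.gauss_shift v' v 1 1)).mono (le_of_eq ?_))
  rw [sub_self, abs_zero, zero_mul, add_zero, norm_sub_rev]
  ring

/-- The deviation along a Lipschitz target is Lipschitz. -/
theorem Prog.lipschitz_dev {P : Prog d B I} {G : Space d → Space d} (hP : P.LipW G)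
    {v : Space d × (B → Space d) × (I → Space d) → Space d} {Lv : ℝ≥0} (hv : LipschitzWith Lv v) :
    ∃ L : ℝ≥0, LipschitzWith L fun z : Space d × (B → Space d) × (I → Space d) =>
      P.dev G z.1 z.2.1 z.2.2 (v z) := by
  obtain ⟨L, hL⟩ := hP
  refine ⟨L + Lv, LipschitzWith.of_le_add_mul _ fun z z' => ?_⟩
  refine (Prog.dev_sub_le ⟨L, hL⟩ (p' := z'.1) (x' := z'.2.1) (A' := z'.2.2) (v z) (v z')
    (D := L * dist z z') fun ω => ?_).trans ?_
  · refine (hL.norm_sub_le _ _).trans (mul_le_mul_of_nonneg_left ?_ L.2)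
    simp [dist_eq_norm, Prod.norm_def]
  · rw [NNReal.coe_add, add_mul, add_assoc, ← dist_eq_norm]
    exact add_le_add le_rfl (add_le_add le_rfl (hv.dist_le_mul z z'))

/-- The centre read by the second program. -/
def nodeCen (g₀ t₁ t₂ : ℝ) (cl : K → ℝ) (p : Space d) (x : C ⊕ K → Space d) (y ξ : Space d) :
    Space d :=
  g₀ • p + (∑ l, cl l • x (.inr l)) + t₁ • y + t₂ • ξ

/-- The seeds: those of the first program, the fresh vector and those of the second. -/
def nodeSeeds (a b : ℕ) (ω : Fin (a + (1 + b)) → Space d) :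
    (Fin a → Space d) × Space d × (Fin b → Space d) :=
  ((splitSeeds a (1 + b) ω).1, (splitSeeds 1 b (splitSeeds a (1 + b) ω).2).1 0,
    (splitSeeds 1 b (splitSeeds a (1 + b) ω).2).2)

theorem nodeSeeds_mp (a b : ℕ) :
    MeasurePreserving (nodeSeeds (d := d) a b) (gp (Fin (a + (1 + b))) d)
      ((gp (Fin a) d).prod ((gam d).prod (gp (Fin b) d))) :=
  ((MeasurePreserving.id _).prod
    (((measurePreserving_eval (fun _ : Fin 1 => gam d) (0 : Fin 1)).prod
      (MeasurePreserving.id _)).comp (splitSeeds_mp 1 b))).comp (splitSeeds_mp a (1 + b))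

/-- The second program read at the centre made from the output of the first. -/
def Prog.node (Py : Prog d C Unit) (Q : Prog d Empty Unit) (g₀ t₁ t₂ : ℝ) (cl : K → ℝ) :
    Prog d (C ⊕ K) Unit where
  sd := Py.sd + (1 + Q.sd)
  q := Py.q + Q.q
  F := fun G a => Q.F G (nodeCen g₀ t₁ t₂ cl a.1 a.2.1
      (Py.F G (a.1, fun b => a.2.1 (.inl b), a.2.2.1, (nodeSeeds _ _ a.2.2.2).1))
      (nodeSeeds _ _ a.2.2.2).2.1, 0, a.2.2.1, (nodeSeeds _ _ a.2.2.2).2.2)
  comp := by
    have hs := (nodeSeeds_mp (d := d) Py.sd Q.sd).measurable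
    refine (Py.comp.comp (f := fun a : Inp d (C ⊕ K) Unit (Py.sd + (1 + Q.sd)) =>
      (a.1, fun b => a.2.1 (.inl b), a.2.2.1, (nodeSeeds _ _ a.2.2.2).1)) (by fun_prop)).bind
        (Q.comp.comp (f := fun z : Inp d (C ⊕ K) Unit (Py.sd + (1 + Q.sd)) × Space d =>
          (nodeCen g₀ t₁ t₂ cl z.1.1 z.1.2.1 z.2 (nodeSeeds _ _ z.1.2.2.2).2.1, 0, z.1.2.2.1,
            (nodeSeeds _ _ z.1.2.2.2).2.2)) ?_)
    unfold nodeCen
    fun_prop

variable {Py : Prog d C Unit} {Q : Prog d Empty Unit} {G : Space d → Space d}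
  {g₀ t₁ t₂ : ℝ} {cl : K → ℝ}

theorem Prog.node_lip {Ky Kq : ℝ} (hKy : 0 ≤ Ky) (hKq : 0 ≤ Kq) (hy : Py.Lip G Ky)
    (hq : Q.Lip G Kq) :
    (Py.node Q g₀ t₁ t₂ cl).Lip G (Kq * (|g₀| + ∑ l, |cl l| + |t₁| * Ky + 1)) := by
  intro p p' x x' A A' ω
  refine (hq _ _ _ _ _ _ _).trans ?_
  rw [mul_assoc]
  refine mul_le_mul_of_nonneg_left ?_ hKq
  set D := dist3 p p' x x' A A' with hD
  have hD0 : 0 ≤ D := dist3_nonneg _ _ _ _ _ _
  have hp : ‖p - p'‖ ≤ D := by
    have : 0 ≤ ∑ b, ‖x b - x' b‖ + ∑ l, ‖A l - A' l‖ := by positivity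
    simp only [hD, dist3]; linarith
  have hA : ∑ l, ‖A l - A' l‖ ≤ D := by
    have : 0 ≤ ‖p - p'‖ + ∑ b, ‖x b - x' b‖ := by positivity
    simp only [hD, dist3]; linarith
  have hx : ∀ b, ‖x b - x' b‖ ≤ D := fun b => by
    have h1 : ‖x b - x' b‖ ≤ ∑ b, ‖x b - x' b‖ :=
      Finset.single_le_sum (fun c _ => norm_nonneg (x c - x' c)) (Finset.mem_univ b)
    have : 0 ≤ ‖p - p'‖ + ∑ l, ‖A l - A' l‖ := by positivity
    simp only [hD, dist3]; linarith
  set w := (nodeSeeds Py.sd Q.sd ω)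
  set y := Py.F G (p, fun b => x (.inl b), A, w.1)
  set y' := Py.F G (p', fun b => x' (.inl b), A', w.1)
  have hyD : ‖y - y'‖ ≤ Ky * D := by
    refine (hy _ _ _ _ _ _ _).trans (mul_le_mul_of_nonneg_left ?_ hKy)
    simp only [hD, dist3, Fintype.sum_sum_type]
    linarith [Finset.sum_nonneg fun l (_ : l ∈ Finset.univ) => norm_nonneg (x (Sum.inr l) - x' (.inr l))]
  show ‖nodeCen g₀ t₁ t₂ cl p x y w.2.1 - nodeCen g₀ t₁ t₂ cl p' x' y' w.2.1‖ + _ + _ ≤ _
  rw [show nodeCen g₀ t₁ t₂ cl p x y w.2.1 - nodeCen g₀ t₁ t₂ cl p' x' y' w.2.1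
      = g₀ • (p - p') + (∑ l, cl l • (x (.inr l) - x' (.inr l))) + t₁ • (y - y') by
    simp only [nodeCen, smul_sub, Finset.sum_sub_distrib]; abel]
  simp only [Pi.zero_apply, sub_zero, norm_zero, Finset.sum_const_zero, add_zero]
  rw [add_mul, add_mul, add_mul, one_mul, mul_assoc |t₁|, Finset.sum_mul]
  refine add_le_add ((norm_add₃_le ..).trans (add_le_add (add_le_add ?_ ?_) ?_)) hA
  · rw [norm_smul, Real.norm_eq_abs]
    exact mul_le_mul_of_nonneg_left hp (abs_nonneg _)
  · refine (norm_sum_le _ _).trans (Finset.sum_le_sum fun l _ => ?_)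
    rw [norm_smul, Real.norm_eq_abs]
    exact mul_le_mul_of_nonneg_left (hx _) (abs_nonneg _)
  · rw [norm_smul, Real.norm_eq_abs]
    exact mul_le_mul_of_nonneg_left hyD (abs_nonneg _)

theorem Prog.node_lipW (hy : Py.LipW G) (hq : Q.LipW G) : (Py.node Q g₀ t₁ t₂ cl).LipW G := by
  obtain ⟨L, hL⟩ := hy
  obtain ⟨L', hL'⟩ := hq
  have s := LipschitzWith.prod_snd (α := Space d) (β := (C ⊕ K → Space d) × (Unit → Space d) ×
    (Fin (Py.sd + (1 + Q.sd)) → Space d))
  have hx := LipschitzWith.prod_fst.comp s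
  have hA := (LipschitzWith.prod_fst.comp LipschitzWith.prod_snd).comp s
  have hω := (LipschitzWith.prod_snd.comp LipschitzWith.prod_snd).comp s
  have h2 := (lipschitz_reindex (d := d) (Fin.natAdd (m := 1 + Q.sd) Py.sd)).comp hω
  have hY := hL.comp (LipschitzWith.prod_fst.prodMk (((lipschitz_reindex (d := d)
    (Sum.inl (α := C) (β := K))).comp hx).prodMk (hA.prodMk
      ((lipschitz_reindex (d := d) (Fin.castAdd (1 + Q.sd))).comp hω))))
  have hξ := (LipschitzWith.eval (α := fun _ : Fin 1 => Space d) (0 : Fin 1)).comp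
    ((lipschitz_reindex (d := d) (Fin.castAdd (n := 1) Q.sd)).comp h2)
  have hsum := (∑ l, cl l • ContinuousLinearMap.proj (R := ℝ) (Sum.inr l) :
    (C ⊕ K → Space d) →L[ℝ] Space d).lipschitz.comp hx
  have hcen := ((((lipschitzWith_smul g₀).comp LipschitzWith.prod_fst).add hsum).add
    ((lipschitzWith_smul t₁).comp hY)).add ((lipschitzWith_smul t₂).comp hξ)
  have h := hL'.comp (hcen.prodMk ((LipschitzWith.const (0 : Empty → Space d)).prodMk
    (hA.prodMk ((lipschitz_reindex (d := d) (Fin.natAdd (m := Q.sd) 1)).comp h2))))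
  refine ⟨_, cast (congrArg (LipschitzWith _) (funext fun a => ?_)) h⟩
  simp [Prog.node, nodeCen, nodeSeeds, splitSeeds]
  rfl

/-- If the first output is close to a Gaussian around `vy` and the second program is close to
`N (T x, 1)` at the centres `base + s • x`, the output is close to the mixture of these laws. -/
theorem Prog.node_close (hq : Q.LipW G) {Kq : ℝ} (hKq : 0 ≤ Kq) (hql : Q.Lip G Kq) {p : Space d}
    {x : C ⊕ K → Space d} {A : Unit → Space d} {vy : Space d} {ey : ℝ}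
    (hy : Py.CloseAt G p (fun b => x (.inl b)) A vy 1 ey) {s p₁ q₁ : ℝ} (hpq : p₁ ^ 2 + q₁ ^ 2 = 1)
    (h1 : t₁ = s * p₁) (h2 : t₂ = s * q₁) {T : Space d → Space d} (hT : Continuous T)
    {E : Space d → ℝ} (hE : Integrable E (gam d))
    (hQ : ∀ u, Q.CloseAt G (g₀ • p + (∑ l, cl l • x (.inr l)) + t₁ • vy + s • u) 0 A (T u) 1
      (E u)) :
    Close (gp (Fin (Py.node Q g₀ t₁ t₂ cl).sd) d)
      (fun ω => (Py.node Q g₀ t₁ t₂ cl).F G (p, x, A, ω)) ((gam d).prod (gam d))
      (fun z => T z.1 + (1 : ℝ) • z.2) (Kq * |t₁| * ey + ∫ u, E u ∂gam d) := by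
  obtain ⟨L, hL⟩ := hq
  set base := g₀ • p + (∑ l, cl l • x (.inr l)) + t₁ • vy with hbase
  set Kf : Space d → Space d × (Fin Q.sd → Space d) → Space d := fun y r =>
    Q.F G (nodeCen g₀ t₁ t₂ cl p x y r.1, 0, A, r.2) with hKf
  have hKfc : Continuous (uncurry Kf) := by
    refine hL.continuous.comp ?_
    unfold nodeCen
    fun_prop
  have hlin : ∀ (t : ℝ) (c y : Space d) ω,
      ‖Q.F G (c + t • y, 0, A, ω)‖ ≤ ‖Q.F G (c, 0, A, ω)‖ + Kq * |t| * ‖y‖ := fun t c y ω => by
    refine (norm_le_norm_add_norm_sub' _ (Q.F G (c, 0, A, ω))).trans (add_le_add le_rfl ?_)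
    refine (hql _ _ _ _ _ _ _).trans_eq ?_
    simp [dist3, norm_smul, mul_assoc]
  have hK0 : Integrable (Kf 0) ((gam d).prod (gp (Fin Q.sd) d)) := by
    refine (((Prog.LipW.integrable ⟨L, hL⟩ (g₀ • p + ∑ l, cl l • x (.inr l)) 0 A).norm.comp_snd
      (gam d)).add ((integrable_norm_gam.const_mul (Kq * |t₂|)).comp_fst _)).mono'
      (hKfc.comp ((continuous_const (y := (0 : Space d))).prodMk
        continuous_id)).aestronglyMeasurable (ae_of_all _ fun r => ?_)
    show ‖Q.F G (nodeCen g₀ t₁ t₂ cl p x 0 r.1, 0, A, r.2)‖ ≤ _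
    simp only [nodeCen, smul_zero, add_zero]
    exact hlin t₂ _ r.1 r.2
  have step1 := Close.bind hy (R := (gam d).prod (gp (Fin Q.sd) d))
    (L := Real.toNNReal (Kq * |t₁|)) hKfc.measurable (fun r a b => ?_) hK0
  rotate_left
  · refine (hql _ _ _ _ _ _ _).trans_eq ?_
    rw [Real.coe_toNNReal _ (mul_nonneg hKq (abs_nonneg _))]
    simp [dist3, nodeCen, ← smul_sub, norm_smul, mul_assoc]
  rw [Real.coe_toNNReal _ (mul_nonneg hKq (abs_nonneg _))] at step1
  have iK : Integrable (uncurry fun u ω => Q.F G (base + s • u, 0, A, ω))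
      ((gam d).prod (gp (Fin Q.sd) d)) := by
    refine (((Prog.LipW.integrable ⟨L, hL⟩ base 0 A).norm.comp_snd (gam d)).add
      ((integrable_norm_gam.const_mul (Kq * |s|)).comp_fst _)).mono'
      (hL.continuous.comp (by fun_prop)).aestronglyMeasurable (ae_of_all _ fun r => ?_)
    exact hlin s base r.1 r.2
  have step2 := Close.mix (Q := gam d) (K := fun u ω => Q.F G (base + s • u, 0, A, ω))
    (T := fun u z => T u + (1 : ℝ) • z) iK
    (by fun_prop : Continuous fun r : Space d × Space d => T r.1 + (1 : ℝ) • r.2).aestronglyMeasurable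
    (ae_of_all _ hQ) hE
  have hmix : MeasurePreserving (fun r : Space d × Space d => p₁ • r.1 + q₁ • r.2)
      ((gam d).prod (gam d)) (gam d) :=
    ⟨by fun_prop, by rw [gam_combine, hpq, Real.sqrt_one]; simp⟩
  have step3 := step2.comp_left ((hmix.prod (MeasurePreserving.id _)).comp
    ((measurePreserving_prodAssoc (gam d) (gam d) (gp (Fin Q.sd) d)).symm _))
  have step4 : Close ((gam d).prod ((gam d).prod (gp (Fin Q.sd) d)))
      (fun r => Kf (vy + (1 : ℝ) • r.1) r.2) ((gam d).prod (gam d))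
      (fun z => T z.1 + (1 : ℝ) • z.2) (∫ u, E u ∂gam d) := by
    refine cast (congrArg (fun Z => Close _ Z _ _ _) (funext fun r => ?_)) step3
    show Q.F G (base + s • (p₁ • r.1 + q₁ • r.2.1), 0, A, r.2.2) = _
    simp only [hKf, hbase, nodeCen, h1, h2]
    congr 2
    module
  exact (step1.trans step4).comp_left (nodeSeeds_mp Py.sd Q.sd)

end Vale.Agent.P347.Zero
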