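import Vale.Agent.P347.Zero.OuterStep

/-!
The outer chain over an abstract local sampler: the algorithm, its query count and the hybrid bound.
-/

noncomputable section

open MeasureTheory ProbabilityTheory
open scoped RealInnerProductSpace NNReal

namespace Vale.Agent.P347.Zero

variable {d q : ℕ} {V : Space d → ℝ} {ι : Type}

/-- The clipped chain from the origin. -/
def zChain (F : (Space d → Space d) → (ι → Space d) → Space d) (K : ℕ) (η : ℕ → ℝ) (B : ℝ)
    (G : Space d → Space d) : (n : ℕ) → (Fin n → ZSeed ι d) → Space d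
  | 0, _ => 0
  | n + 1, S => clip ((n + 1 : ℕ) * B)
      (rawStep F K (η n) (η (n + 1)) G (zChain F K η B G n fun i => S i.castSucc) (S (Fin.last n)))

/-- The whole sampler. -/
def zSampler (F : (Space d → Space d) → (ι → Space d) → Space d) (K T : ℕ) (η : ℕ → ℝ) (B : ℝ)
    (G : Space d → Space d) (S : (Fin T → ZSeed ι d) × Space d) : Space d :=
  lastStep K (η T) G (zChain F K η B G T S.1) S.2

theorem norm_zChain (F : (Space d → Space d) → (ι → Space d) → Space d) (K : ℕ) (η : ℕ → ℝ) {B : ℝ}
    (hB : 0 ≤ B) (G : Space d → Space d) :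
    ∀ (n : ℕ) (S : Fin n → ZSeed ι d), ‖zChain F K η B G n S‖ ≤ n * B
  | 0, _ => by simp [zChain]
  | n + 1, _ => norm_clip_le (by positivity) _

variable {F : (Space d → Space d) → (ι → Space d) → Space d}

theorem computes_zChain (hF : Computes q F) (K : ℕ) (η : ℕ → ℝ) (B : ℝ) :
    ∀ {n : ℕ} {Ω : Type} [MeasurableSpace Ω] {S : Ω → Fin n → ZSeed ι d}, Measurable S →
      Computes (n * (K + 1 + q)) (fun G w => zChain F K η B G n (S w)) := by
  intro n
  induction n with
  | zero =>
    intro Ω _ S hS
    rw [Nat.zero_mul]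
    exact Computes.of_measurable measurable_const
  | succ n ih =>
    intro Ω _ S hS
    rw [Nat.succ_mul]
    exact ((ih (measurable_pi_lambda _ fun i => (measurable_pi_apply i.castSucc).comp hS)).bind
      ((computes_rawStep hF K (η n) (η (n + 1)) measurable_snd
        (((measurable_pi_apply (Fin.last n)).comp hS).comp measurable_fst)).map
          (f := fun x => clip ((n + 1 : ℕ) * B) x.2)
          ((measurable_clip _).comp measurable_snd))).congr fun G w => rfl

theorem computes_zSampler (hF : Computes q F) (K T : ℕ) (η : ℕ → ℝ) (B : ℝ) {Ω : Type}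
    [MeasurableSpace Ω] {S : Ω → (Fin T → ZSeed ι d) × Space d} (hS : Measurable S) :
    Computes (T * (K + 1 + q) + (K + 1)) (fun G w => zSampler F K T η B G (S w)) :=
  ((computes_zChain hF K η B (measurable_fst.comp hS)).bind
    (computes_lastStep K (η T) measurable_snd
      ((measurable_snd.comp hS).comp measurable_fst))).congr fun G w => rfl

variable [Fintype ι]

/-- The law of all seeds. -/
abbrev allLaw (ι : Type) [Fintype ι] (d T : ℕ) : Measure ((Fin T → ZSeed ι d) × Space d) :=
  (Measure.pi fun _ : Fin T => zLaw ι d).prod (gam d)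

/-- The sampler as an algorithm with its output law. -/
theorem exists_zAlgorithm (hF : Computes q F) (K T : ℕ) (η : ℕ → ℝ) (B : ℝ) :
    ∃ A : Algorithm d (T * (K + 1 + q) + (K + 1)),
      ∀ V : Space d → ℝ, Continuous (fun x => gradient V x) → A.law V
        = (allLaw ι d T).map (zSampler F K T η B fun x => gradient V x) := by
  obtain ⟨r, f, hf⟩ : FromReals (allLaw ι d T) :=
    (fromReals_pi ((fromReals_pi (fromReals_gam d) _).prod (fromReals_gam d)) _).prod
      (fromReals_gam d)
  obtain ⟨A, hA⟩ := (computes_zSampler hF K T η B hf.measurable).algorithm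
  refine ⟨A, fun V hV => ?_⟩
  have hm : Measurable (zSampler F K T η B fun x => gradient V x) :=
    (computes_zSampler (Ω := (Fin T → ZSeed ι d) × Space d) hF K T η B measurable_id).measurable
      hV.measurable
  rw [hA, ← hf.map_eq, Measure.map_map hm hf.measurable]
  rfl

/-- The hybrid bound along the chain. -/
theorem zHybrid (hB : MuBasic) (hD : PostDeriv) (hFc : Computes q F) (hV : InClass V) {K T : ℕ}
    {η : ℕ → ℝ} {B : ℝ} (hB0 : 0 ≤ B) (hη : ∀ i, 0 < η i) {f : Space d → ℝ} (hf : Measurable f)
    (h1 : ∀ x, |f x| ≤ 1) {e₁ eL : ℝ}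
    (hbias : ∀ n < T, ∀ y : Space d, ‖y‖ ≤ n * B →
      |(∫ S, tailVal hV.pot η f (T - (n + 1)) (n + 1)
          (clip ((n + 1 : ℕ) * B) (rawStep F K (η n) (η (n + 1)) (grd V) y S)) ∂zLaw ι d)
        - tailVal hV.pot η f (T - n) n y| ≤ e₁)
    (hlast : ∀ y : Space d, ‖y‖ ≤ T * B →
      |(∫ ξ, f (lastStep K (η T) (grd V) y ξ) ∂gam d) - tailVal hV.pot η f 0 T y| ≤ eL) :
    |(∫ S, f (zSampler F K T η B (grd V) S) ∂allLaw ι d T) - tailVal hV.pot η f T 0 0|
      ≤ T * e₁ + eL := by
  set U := fun i => tailVal hV.pot η f (T - i) i with hU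
  have hUm : ∀ i, Measurable (U i) ∧ ∀ y, |U i y| ≤ 1 := fun i =>
    tailVal_meas hV.pot hB hD hη hf h1 (T - i) i
  have hcm : ∀ n, Measurable fun S : Fin n → ZSeed ι d => zChain F K η B (grd V) n S := fun n =>
    (computes_zChain (Ω := Fin n → ZSeed ι d) hFc K η B measurable_id).measurable
      hV.contDiff_gradient.continuous.measurable
  have hint : ∀ n, Integrable (fun S => U n (zChain F K η B (grd V) n S))
      (Measure.pi fun _ : Fin n => zLaw ι d) := fun n =>
    Integrable.of_bound ((hUm n).1.comp (hcm n)).aestronglyMeasurable 1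
      (ae_of_all _ fun S => (Real.norm_eq_abs _).trans_le ((hUm n).2 _))
  set M := fun n => ∫ S, U n (zChain F K η B (grd V) n S) ∂Measure.pi fun _ : Fin n => zLaw ι d
    with hM
  have hstep : ∀ n < T, |M (n + 1) - M n| ≤ e₁ := by
    intro n hn
    set Φ := fun S : Fin n → ZSeed ι d =>
      ∫ s, U (n + 1) (zChain F K η B (grd V) (n + 1) (Fin.snoc S s)) ∂zLaw ι d with hΦ
    have hΦm : Measurable Φ := by
      have hs : Measurable fun p : (Fin n → ZSeed ι d) × ZSeed ι d =>
          (Fin.snoc p.1 p.2 : Fin (n + 1) → ZSeed ι d) := by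
        refine measurable_pi_lambda _ fun i => ?_
        refine Fin.lastCases ?_ (fun j => ?_) i
        · simp only [Fin.snoc_last]; exact measurable_snd
        · simp only [Fin.snoc_castSucc]; exact (measurable_pi_apply j).comp measurable_fst
      exact (((hUm (n + 1)).1.comp ((hcm (n + 1)).comp hs)).stronglyMeasurable.integral_prod_right'
        (ν := zLaw ι d)).measurable
    have hΦi : Integrable Φ (Measure.pi fun _ : Fin n => zLaw ι d) :=
      Integrable.of_bound hΦm.aestronglyMeasurable 1
        (ae_of_all _ fun S => (Real.norm_eq_abs _).trans_le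
          (abs_integral_le_one fun s => (hUm (n + 1)).2 _))
    simp only [hM]
    rw [integral_snoc _ (hint (n + 1)), ← integral_sub hΦi (hint n)]
    refine abs_integral_le_integral_abs.trans ((integral_mono (hΦi.sub (hint n)).abs
      (integrable_const e₁) fun S => ?_).trans_eq (by simp))
    have := hbias n hn _ (norm_zChain F K η hB0 (grd V) n S)
    simpa [hΦ, hU, zChain, Pi.sub_apply] using this
  have htel : |M T - M 0| ≤ T * e₁ := by
    rw [← Finset.sum_range_sub M T]
    refine (Finset.abs_sum_le_sum_abs _ _).trans ((Finset.sum_le_sum fun i hi =>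
      hstep i (Finset.mem_range.1 hi)).trans_eq ?_)
    rw [Finset.sum_const, Finset.card_range, nsmul_eq_mul]
  have hM0 : M 0 = tailVal hV.pot η f T 0 0 := by simp [hM, hU, zChain]
  have hs : Measurable fun p : (Fin T → ZSeed ι d) × Space d =>
      f (zSampler F K T η B (grd V) p) :=
    hf.comp ((computes_zSampler (Ω := (Fin T → ZSeed ι d) × Space d) hFc K T η B
      measurable_id).measurable hV.contDiff_gradient.continuous.measurable)
  have hΨi : Integrable (fun S => ∫ ξ, f (zSampler F K T η B (grd V) (S, ξ)) ∂gam d)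
      (Measure.pi fun _ : Fin T => zLaw ι d) :=
    Integrable.of_bound (hs.stronglyMeasurable.integral_prod_right' (ν := gam d)).aestronglyMeasurable
      1 (ae_of_all _ fun S => (Real.norm_eq_abs _).trans_le (abs_integral_le_one fun ξ => h1 _))
  have hl : |(∫ S, f (zSampler F K T η B (grd V) S) ∂allLaw ι d T) - M T| ≤ eL := by
    rw [integral_prod _ (Integrable.of_bound hs.aestronglyMeasurable 1
      (ae_of_all _ fun p => (Real.norm_eq_abs _).trans_le (h1 _)))]
    simp only [hM]
    rw [← integral_sub hΨi (hint T)]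
    refine abs_integral_le_integral_abs.trans ((integral_mono (hΨi.sub (hint T)).abs
      (integrable_const eL) fun S => ?_).trans_eq (by simp))
    have := hlast _ (norm_zChain F K η hB0 (grd V) T S)
    simpa [hU, zSampler, Pi.sub_apply] using this
  rw [← hM0]
  linarith [abs_sub_le (∫ S, f (zSampler F K T η B (grd V) S) ∂allLaw ι d T) (M T) (M 0)]

end Vale.Agent.P347.Zero
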