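import Vale.Agent.P347.Main
import Vale.Agent.P347.Zero.Defs

/-!
One step of the outer chain over an abstract local sampler: the oracle shift, the bias against a
bounded test, and the cost of clipping.
-/

noncomputable section

open MeasureTheory ProbabilityTheory
open scoped RealInnerProductSpace NNReal

namespace Vale.Agent.P347.Zero

variable {d q : ℕ} {V : Space d → ℝ}

/-- A transcript against a shifted, scaled gradient is a transcript against the gradient. -/
theorem Trans.shift {Ω Ω' : Type} [MeasurableSpace Ω] [MeasurableSpace Ω'] {q : ℕ}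
    {T : (Space d → Space d) → Ω → Fin q → Space d} (hT : Trans Ω d q T)
    {b c : Ω' → Space d} {σ : ℝ} {f : Ω' → Ω} (hb : Measurable b) (hc : Measurable c)
    (hf : Measurable f) :
    ∃ T', Trans Ω' d q T' ∧ ∃ φ : Ω' × (Fin q → Space d) → Fin q → Space d, Measurable φ ∧
      ∀ G w, φ (w, T' G w) = T (gshift G (b w) (c w) σ) (f w) := by
  induction hT with
  | zero => exact ⟨_, .zero, fun _ => Fin.elim0, measurable_const, fun _ _ => rfl⟩
  | @succ q T _ p hp ih =>
    obtain ⟨T', hT', φ, hφ, e⟩ := ih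
    set p' : Ω' × (Fin q → Space d) → Space d :=
      fun x => c x.1 + σ • p (f x.1, φ x) with hp'
    have hp'm : Measurable p' :=
      (hc.comp measurable_fst).add ((hp.comp ((hf.comp measurable_fst).prodMk hφ)).const_smul σ)
    have hinit : Measurable fun x : Ω' × (Fin (q + 1) → Space d) =>
        ((x.1, Fin.init x.2) : Ω' × (Fin q → Space d)) :=
      measurable_fst.prodMk (measurable_pi_lambda _ fun i =>
        (measurable_pi_apply i.castSucc).comp measurable_snd)
    have hlast : Measurable fun x : Ω' × (Fin (q + 1) → Space d) =>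
        σ • (x.2 (Fin.last q) - p' (x.1, Fin.init x.2) - b x.1) := by
      have h1 : Measurable fun x : Ω' × (Fin (q + 1) → Space d) => p' (x.1, Fin.init x.2) :=
        hp'm.comp hinit
      fun_prop
    refine ⟨_, hT'.succ p' hp'm,
      fun x => Fin.snoc (φ (x.1, Fin.init x.2))
        (σ • (x.2 (Fin.last q) - p' (x.1, Fin.init x.2) - b x.1)),
      measurable_snoc.comp ((hφ.comp hinit).prodMk hlast), fun G w => ?_⟩
    simp [hp', e, gshift]

/-- A computation can be run on a shifted, scaled gradient. -/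
theorem Computes.shift {Ω Ω' β : Type} [MeasurableSpace Ω] [MeasurableSpace Ω'] [MeasurableSpace β]
    {F : (Space d → Space d) → Ω → β} (hF : Computes q F) {b c : Ω' → Space d} {σ : ℝ}
    {f : Ω' → Ω} (hb : Measurable b) (hc : Measurable c) (hf : Measurable f) :
    Computes q (fun G w => F (gshift G (b w) (c w) σ) (f w)) := by
  obtain ⟨T, hT, out, ho, e⟩ := hF
  obtain ⟨T', hT', φ, hφ, e'⟩ := Trans.shift hT (σ := σ) hb hc hf
  exact ⟨T', hT', fun x => out (f x.1, φ x), ho.comp ((hf.comp measurable_fst).prodMk hφ),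
    fun G w => (e _ _).trans (congrArg (fun a => out (f w, a)) (e' G w).symm)⟩

/-- The same potential with a larger Lipschitz bound. -/
def lift {h h' : ℝ} (P : Pot d h) (hh : h ≤ h') : Pot d h' where
  W := P.W
  g := P.g
  h_nonneg := P.h_nonneg.trans hh
  grad := P.grad
  smooth := P.smooth
  lip := fun x y => (P.lip x y).trans (mul_le_mul_of_nonneg_right hh (norm_nonneg _))
  mono := P.mono

variable {ι : Type}

/-- The seed of one step. -/
abbrev ZSeed (ι : Type) (d : ℕ) := (ι → Space d) × Space d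

/-- The law of the seed of one step. -/
abbrev zLaw (ι : Type) [Fintype ι] (d : ℕ) : Measure (ZSeed ι d) := (gp ι d).prod (gam d)

/-- One step over the local sampler `F`: centring, local sampling, fresh noise. -/
def rawStep (F : (Space d → Space d) → (ι → Space d) → Space d) (K : ℕ) (η η' : ℝ)
    (G : Space d → Space d) (y : Space d) (S : ZSeed ι d) : Space d :=
  cen G K η y + Real.sqrt (η / (1 + η)) •
      F (gshift G (proxGrad G (η / (1 + η)) ((1 + η)⁻¹ • y) K) (cen G K η y)
          (Real.sqrt (η / (1 + η)))) S.1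
    + Real.sqrt (η' - η / (1 + η) / 8) • S.2

/-- Points outside the ball of radius `R` go to the origin. -/
def clip (R : ℝ) (x : Space d) : Space d := if ‖x‖ ≤ R then x else 0

theorem measurable_clip (R : ℝ) : Measurable (clip (d := d) R) :=
  measurable_id.ite (measurableSet_le measurable_norm measurable_const) measurable_const

theorem norm_clip_le {R : ℝ} (hR : 0 ≤ R) (x : Space d) : ‖clip R x‖ ≤ R := by
  unfold clip
  split_ifs with h
  · exact h
  · simpa using hR

theorem rawStep_eq (F : (Space d → Space d) → (ι → Space d) → Space d) (hV : InClass V) (K : ℕ)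
    (η η' : ℝ) (y : Space d) (S : ZSeed ι d) :
    rawStep F K η η' (grd V) y S = cen (grd V) K η y
      + Real.sqrt (η / (1 + η)) • F (hV.loc K η y).g S.1
      + Real.sqrt (η' - η / (1 + η) / 8) • S.2 := by
  rw [rawStep, gshift_eq hV]

theorem computes_rawStep {F : (Space d → Space d) → (ι → Space d) → Space d} (hF : Computes q F)
    (K : ℕ) (η η' : ℝ) {Ω : Type} [MeasurableSpace Ω] {y : Ω → Space d} {S : Ω → ZSeed ι d}
    (hy : Measurable y) (hS : Measurable S) :
    Computes (K + 1 + q) (fun G w => rawStep F K η η' G (y w) (S w)) := by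
  have ha : Measurable fun w => (1 + η)⁻¹ • y w := by fun_prop
  have hc : Measurable fun x : Ω × Space d => (1 + η)⁻¹ • y x.1 - (η / (1 + η)) • x.2 := by fun_prop
  have hs : Measurable fun x : Ω × Space d => (S x.1).1 := by fun_prop
  have hf : Measurable fun x : (Ω × Space d) × Space d =>
      ((1 + η)⁻¹ • y x.1.1 - (η / (1 + η)) • x.1.2) + Real.sqrt (η / (1 + η)) • x.2
        + Real.sqrt (η' - η / (1 + η) / 8) • (S x.1.1).2 := by fun_prop
  exact (computes_proxGrad (s := η / (1 + η)) ha K).bind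
    ((Computes.shift hF (σ := Real.sqrt (η / (1 + η))) measurable_snd hc hs).map hf)

variable [Fintype ι]

/-- `F` samples within `e` against Lipschitz tests. -/
def GoodLocal (F : (Space d → Space d) → (ι → Space d) → Space d) (h e : ℝ) : Prop :=
  ∀ P : Pot d h, gsize P ≤ 2 * (h * Real.sqrt d) → ∀ (ψ : Space d → ℝ) (L : ℝ≥0),
    LipschitzWith L ψ →
      Integrable (fun ω => ψ (F P.g ω)) (gp ι d) ∧
        |(∫ ω, ψ (F P.g ω) ∂gp ι d)
            - ∫ x, ∫ z, ψ (x + Real.sqrt (1 / 8) • z) ∂gam d ∂mu P| ≤ e * L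

variable {F : (Space d → Space d) → (ι → Space d) → Space d} {K : ℕ} {h₀ e η η' : ℝ} {y : Space d}

theorem loc_admissible (hV : InClass V) (hη : 0 < η) (hs : η / (1 + η) ≤ h₀)
    (hy : (η / (1 + η)) ^ K * ‖y‖ ≤ Real.sqrt (η / (1 + η)) * Real.sqrt d) :
    ∃ P : Pot d h₀, P.g = (hV.loc K η y).g ∧ mu P = mu (hV.loc K η y) ∧
      gsize P ≤ 2 * (h₀ * Real.sqrt d) ∧ ‖P.g 0‖ ≤ h₀ * Real.sqrt d := by
  obtain ⟨hs0, -, -⟩ := coef_pos hη
  have hh : 1 * Real.sqrt (η / (1 + η)) ^ 2 ≤ h₀ := by rw [loc_coef hη]; exact hs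
  have h1 : ‖(hV.loc K η y).g 0‖ ≤ h₀ * Real.sqrt d := by
    refine (loc_g_zero hV hη K y).trans ((mul_le_mul_of_nonneg_left hy (Real.sqrt_nonneg _)).trans ?_)
    rw [← mul_assoc, Real.mul_self_sqrt hs0.le]
    exact mul_le_mul_of_nonneg_right hs (Real.sqrt_nonneg _)
  refine ⟨lift (hV.loc K η y) hh, rfl, rfl, ?_, h1⟩
  show h₀ * Real.sqrt d + ‖(hV.loc K η y).g 0‖ ≤ _
  linarith

omit [Fintype ι] in
theorem measurable_rawStep (hF : Computes q F) (hV : InClass V) (K : ℕ) (η η' : ℝ) (y : Space d) :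
    Measurable fun S : ZSeed ι d => rawStep F K η η' (grd V) y S :=
  (computes_rawStep (Ω := ZSeed ι d) hF K η η' measurable_const measurable_id).measurable
    hV.contDiff_gradient.continuous.measurable

theorem noise_var_bounds (hη : 0 < η) (hη' : η / 2 ≤ η') :
    η / (1 + η) / 4 ≤ η' - η / (1 + η) / 8 ∧ η' - η / (1 + η) / 8 ≤ η' := by
  obtain ⟨h0, -, h2⟩ := coef_pos hη
  constructor <;> linarith

/-- Bias of a raw step against a bounded test. -/
theorem raw_bias (hD : PostDeriv) (hS : PostShift) (hFc : Computes q F) (hFg : GoodLocal F h₀ e)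
    (hV : InClass V) (hη : 0 < η) (hs : η / (1 + η) ≤ h₀) (hη' : η / 2 ≤ η')
    {U : Space d → ℝ} (hU : Measurable U) (hU1 : ∀ x, |U x| ≤ 1)
    (hy : (η / (1 + η)) ^ K * ‖y‖ ≤ Real.sqrt (η / (1 + η)) * Real.sqrt d) :
    |(∫ S, U (rawStep F K η η' (grd V) y S) ∂zLaw ι d)
        - post hV.pot (η / (1 + η)) (Pf η' U) ((1 + η)⁻¹ • y)| ≤ e * 2 := by
  obtain ⟨hs0, -, -⟩ := coef_pos hη
  obtain ⟨hr1, -⟩ := noise_var_bounds hη hη'
  obtain ⟨P, hPg, hPmu, hPs, -⟩ := loc_admissible hV hη hs hy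
  set s := η / (1 + η) with hsdef
  set σ := Real.sqrt s with hσ
  set r := η' - s / 8 with hr
  set cc := cen (grd V) K η y with hcc
  have hσ0 : 0 < σ := Real.sqrt_pos.2 hs0
  have hr0 : 0 < r := lt_of_lt_of_le (by linarith) hr1
  obtain ⟨hH, hG, -⟩ := pf_bounds hD hU hU1 hr0
  set ψ : Space d → ℝ := fun x => Pf r U (cc + σ • x) with hψ
  have hdiff : Differentiable ℝ (Pf r U) := hH.differentiable (by norm_num)
  have hle : σ / 2 ≤ Real.sqrt r := by
    rw [Real.le_sqrt (by linarith) hr0.le, div_pow, hσ, Real.sq_sqrt hs0.le]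
    linarith
  have hLip : LipschitzWith 2 ψ := by
    refine lipschitzWith_of_nnnorm_fderiv_le (hdiff.comp (by fun_prop)) fun x => ?_
    rw [← NNReal.coe_le_coe, coe_nnnorm, hψ, fderiv_scale hdiff, norm_smul, Real.norm_eq_abs,
      abs_of_pos hσ0]
    refine (mul_le_mul_of_nonneg_left (hG _) hσ0.le).trans ?_
    rw [mul_one_div, div_le_iff₀ (Real.sqrt_pos.2 hr0), NNReal.coe_ofNat]
    linarith
  obtain ⟨-, hb⟩ := hFg P hPs ψ 2 hLip
  rw [hPg, hPmu, NNReal.coe_ofNat] at hb
  have e1 : (∫ S, U (rawStep F K η η' (grd V) y S) ∂zLaw ι d)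
      = ∫ ω, ψ (F (hV.loc K η y).g ω) ∂gp ι d := by
    have hint : Integrable (fun S => U (rawStep F K η η' (grd V) y S)) (zLaw ι d) :=
      Integrable.of_bound (hU.comp (measurable_rawStep hFc hV K η η' y)).aestronglyMeasurable
        1 (ae_of_all _ fun S => (Real.norm_eq_abs _).trans_le (hU1 _))
    rw [integral_prod _ hint]
    refine integral_congr_ae (ae_of_all _ fun ω => ?_)
    simp only [rawStep_eq F hV, hψ, Pf]
    rfl
  have e2 : post hV.pot s (Pf η' U) ((1 + η)⁻¹ • y)
      = ∫ x, ∫ z, ψ (x + Real.sqrt (1 / 8) • z) ∂gam d ∂mu (hV.loc K η y) := by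
    rw [post_loc hS hV hη K y (measurable_Pf hU η') (grow_of_le_one (abs_Pf_le hU1 η')),
      show η' = s / 8 + r by rw [hr]; ring, Pf_add hU hU1 (by linarith) hr0.le]
    refine integral_congr_ae (ae_of_all _ fun x => ?_)
    refine integral_congr_ae (ae_of_all _ fun z => ?_)
    simp only [hψ]
    rw [smul_add, smul_smul, ← add_assoc, hσ, ← Real.sqrt_mul hs0.le, mul_one_div]
  rw [e1, e2]
  exact hb

/-- The mean displacement of a raw step from its centre. -/
theorem raw_moment (hB : MuBasic) (hM : MomentMu) (hd : 1 ≤ d) (hFc : Computes q F)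
    (hFg : GoodLocal F h₀ e) (he : e ≤ 1) (hh : h₀ ≤ 1) (hV : InClass V) (hη : 0 < η)
    (hs : η / (1 + η) ≤ h₀) (hη' : η / 2 ≤ η') (hη'1 : η' ≤ 1)
    (hy : (η / (1 + η)) ^ K * ‖y‖ ≤ Real.sqrt (η / (1 + η)) * Real.sqrt d) :
    Integrable (fun S => ‖rawStep F K η η' (grd V) y S - cen (grd V) K η y‖) (zLaw ι d) ∧
      ∫ S, ‖rawStep F K η η' (grd V) y S - cen (grd V) K η y‖ ∂zLaw ι d ≤ 7 * d := by
  obtain ⟨hs0, hs1, -⟩ := coef_pos hη
  obtain ⟨-, hr2⟩ := noise_var_bounds hη hη'
  obtain ⟨P, hPg, -, hPs, hP0⟩ := loc_admissible hV hη hs hy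
  have := (hB d h₀ P).1
  set g := (hV.loc K η y).g
  obtain ⟨hi, hb⟩ := hFg P hPs (fun x => ‖x‖) 1 lipschitzWith_one_norm
  rw [hPg, NNReal.coe_one, mul_one] at hb
  rw [hPg] at hi
  have hd1 : (1 : ℝ) ≤ d := by exact_mod_cast hd
  have hz : ∫ z, ‖z‖ ∂gam d ≤ 2 * d := gam_norm_le hB hM hd
  have hN := integrable_norm_mu hB P
  have h2 : Integrable (fun x : Space d => ‖x‖ ^ 2) (mu P) :=
    (hB d h₀ P).2 _ (by fun_prop) ⟨1, 2, fun x => by
      rw [one_mul, Real.norm_eq_abs, abs_of_nonneg (sq_nonneg _)]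
      nlinarith [norm_nonneg x]⟩
  have hmu : ∫ x, ‖x‖ ∂mu P ≤ 2 * d := by
    refine (integral_mono hN ((integrable_const (1 / 2 : ℝ)).add (h2.div_const 2))
      fun x => norm_le_sq x).trans ?_
    rw [integral_add' (integrable_const _) (h2.div_const 2), integral_const, probReal_univ,
      one_smul, integral_div]
    have h3 := (hM d h₀ P hh).1
    have h4 : ‖P.g 0‖ ^ 2 ≤ d := by
      have h5 : ‖P.g 0‖ ≤ Real.sqrt d :=
        hP0.trans (mul_le_of_le_one_left (Real.sqrt_nonneg _) hh)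
      calc ‖P.g 0‖ ^ 2 ≤ Real.sqrt d ^ 2 := pow_le_pow_left₀ (norm_nonneg _) h5 2
        _ = d := Real.sq_sqrt (by positivity)
    linarith
  have htarget : ∫ x, ∫ z, ‖x + Real.sqrt (1 / 8) • z‖ ∂gam d ∂mu P ≤ 2 * d + 2 * d := by
    refine (integral_mono_of_nonneg (ae_of_all _ fun x => integral_nonneg fun z => norm_nonneg _)
      (hN.add (integrable_const (∫ z, ‖z‖ ∂gam d))) (ae_of_all _ fun x => ?_)).trans ?_
    · refine (integral_mono_of_nonneg (ae_of_all _ fun z => norm_nonneg _)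
        ((integrable_const ‖x‖).add integrable_norm_gam) (ae_of_all _ fun z => ?_)).trans_eq ?_
      · refine (norm_add_le _ _).trans (add_le_add le_rfl ?_)
        rw [norm_smul, Real.norm_eq_abs, abs_of_nonneg (Real.sqrt_nonneg _)]
        exact mul_le_of_le_one_left (norm_nonneg _) (Real.sqrt_le_one.2 (by norm_num))
      · rw [integral_add' (integrable_const _) integrable_norm_gam, integral_const, probReal_univ,
          one_smul]
        rfl
    · rw [integral_add' hN (integrable_const _), integral_const, probReal_univ, one_smul]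
      linarith
  have hFn : ∫ ω, ‖F g ω‖ ∂gp ι d ≤ 5 * d := by linarith [(abs_le.1 hb).2]
  have m1 : MeasurePreserving (fun S : ZSeed ι d => S.1) (zLaw ι d) (gp ι d) :=
    measurePreserving_fst
  have m2 : MeasurePreserving (fun S : ZSeed ι d => S.2) (zLaw ι d) (gam d) :=
    measurePreserving_snd
  have i1 : Integrable (fun S : ZSeed ι d => ‖F g S.1‖) (zLaw ι d) :=
    m1.integrable_comp_of_integrable hi
  have i2 : Integrable (fun S : ZSeed ι d => ‖S.2‖) (zLaw ι d) :=
    m2.integrable_comp_of_integrable integrable_norm_gam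
  have hpt : ∀ S, ‖rawStep F K η η' (grd V) y S - cen (grd V) K η y‖ ≤ ‖F g S.1‖ + ‖S.2‖ := by
    intro S
    rw [rawStep_eq F hV, add_assoc, add_sub_cancel_left]
    refine (norm_add_le _ _).trans (add_le_add ?_ ?_) <;>
      rw [norm_smul, Real.norm_eq_abs, abs_of_nonneg (Real.sqrt_nonneg _)] <;>
      refine mul_le_of_le_one_left (norm_nonneg _) (Real.sqrt_le_one.2 ?_)
    · exact hs1.le
    · linarith
  refine ⟨(i1.add i2).mono' (((measurable_rawStep hFc hV K η η' y).sub_const _).norm).aestronglyMeasurable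
    (ae_of_all _ fun S => by rw [Real.norm_eq_abs, abs_norm]; exact hpt S), ?_⟩
  refine (integral_mono_of_nonneg (ae_of_all _ fun S => norm_nonneg _) (i1.add i2)
    (ae_of_all _ hpt)).trans ?_
  rw [integral_add' i1 i2, integral_fun_fst (f := fun ω => ‖F g ω‖),
    integral_fun_snd (f := fun z => ‖z‖), probReal_univ, one_smul, probReal_univ, one_smul]
  linarith

/-- Bias of a clipped step. -/
theorem clip_bias (hB : MuBasic) (hM : MomentMu) (hD : PostDeriv) (hS : PostShift) (hd : 1 ≤ d)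
    (hFc : Computes q F) (hFg : GoodLocal F h₀ e) (he : e ≤ 1) (hh : h₀ ≤ 1) (hV : InClass V)
    (hη : 0 < η) (hs : η / (1 + η) ≤ h₀) (hη' : η / 2 ≤ η') (hη'1 : η' ≤ 1)
    {U : Space d → ℝ} (hU : Measurable U) (hU1 : ∀ x, |U x| ≤ 1) {R B : ℝ} (hB0 : 0 < B)
    (hyR : ‖y‖ + B ≤ R)
    (hy : (η / (1 + η)) ^ K * ‖y‖ ≤ Real.sqrt (η / (1 + η)) * Real.sqrt d) :
    |(∫ S, U (clip R (rawStep F K η η' (grd V) y S)) ∂zLaw ι d)
        - post hV.pot (η / (1 + η)) (Pf η' U) ((1 + η)⁻¹ • y)| ≤ e * 2 + 14 * d / B := by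
  have hraw := raw_bias hD hS hFc hFg hV hη hs hη' hU hU1 hy
  obtain ⟨hmi, hm⟩ := raw_moment hB hM hd hFc hFg he hh hV hη hs hη' hη'1 hy
  set X := fun S : ZSeed ι d => rawStep F K η η' (grd V) y S
  set cc := cen (grd V) K η y
  have hXm : Measurable X := measurable_rawStep hFc hV K η η' y
  have i1 : Integrable (fun S => U (clip R (X S))) (zLaw ι d) :=
    Integrable.of_bound (hU.comp ((measurable_clip R).comp hXm)).aestronglyMeasurable 1
      (ae_of_all _ fun S => (Real.norm_eq_abs _).trans_le (hU1 _))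
  have i2 : Integrable (fun S => U (X S)) (zLaw ι d) :=
    Integrable.of_bound (hU.comp hXm).aestronglyMeasurable 1
      (ae_of_all _ fun S => (Real.norm_eq_abs _).trans_le (hU1 _))
  have hpt : ∀ S, |U (clip R (X S)) - U (X S)| ≤ 2 / B * ‖X S - cc‖ := by
    intro S
    by_cases hx : ‖X S‖ ≤ R
    · rw [clip, if_pos hx, sub_self, abs_zero]; positivity
    · refine (abs_sub _ _).trans ((add_le_add (hU1 _) (hU1 _)).trans ?_)
      push Not at hx
      have h1 : B ≤ ‖X S - cc‖ := by
        linarith [norm_sub_norm_le (X S) cc, norm_cen_le hV hη K y]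
      rw [div_mul_eq_mul_div, le_div_iff₀ hB0]
      linarith
  have hdiff : |(∫ S, U (clip R (X S)) ∂zLaw ι d) - ∫ S, U (X S) ∂zLaw ι d| ≤ 14 * d / B := by
    rw [← integral_sub i1 i2]
    refine abs_integral_le_integral_abs.trans ((integral_mono (i1.sub i2).abs (hmi.const_mul _)
      hpt).trans ?_)
    rw [integral_const_mul]
    calc 2 / B * ∫ S, ‖X S - cc‖ ∂zLaw ι d ≤ 2 / B * (7 * d) :=
          mul_le_mul_of_nonneg_left hm (by positivity)
      _ = 14 * d / B := by ring
  calc _ ≤ _ := abs_sub_le _ (∫ S, U (X S) ∂zLaw ι d) _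
    _ ≤ 14 * d / B + e * 2 := add_le_add hdiff hraw
    _ = _ := add_comm _ _

end Vale.Agent.P347.Zero
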