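import Vale.Agent.P347.Zero.ProductLaw

/-!
The error of the program of a contraction averaged over standard blocks and inputs.
-/

noncomputable section

open MeasureTheory ProbabilityTheory Function
open scoped RealInnerProductSpace NNReal

namespace Vale.Agent.P347.Zero

variable {d : ℕ}

theorem continuous_isoP_lin : ∀ (n : ℕ) (b : Bool) {Z : Type} [TopologicalSpace Z]
    {M : Z → Bool → Space d →L[ℝ] Space d} {r : Z → IsoI Unit n → Space d},
    (∀ b, Continuous fun z => M z b) → Continuous r →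
      Continuous fun z => isoP (linIso (M z)) n b (r z)
  | 0, _, _, _, _, _, _, hr => (continuous_apply _).comp hr
  | n + 1, b, Z, _, M, r, hM, hr => by
    have hp : Continuous fun z => isoPrep n (r z) := by
      unfold isoPrep
      fun_prop
    have h1 := continuous_isoP_lin n (!b) hM (hp.snd.fst.fst)
    have h2 : Continuous fun z => linIso (M z) (!b) (isoPrep n (r z)).1 (isoPrep n (r z)).2.1.2 :=
      ((hM _).clm_apply hp.fst).add ((continuous_apply _).comp hp.snd.fst.snd)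
    have h3 : Continuous fun z => (isoPrep n (r z)).2.2 () := (continuous_apply ()).comp hp.snd.snd
    exact (hp.fst.const_smul ((2 + isoA n) / 2)).add
      ((((hM b).clm_apply ((h1.sub h2).const_smul (isoV n)⁻¹)).add h3).const_smul (isoV n))

/-- The argument of the outer factor is nearly standard over the free input. -/
theorem close_arg {n : ℕ} (hd : 1 ≤ d) {M : Bool → Space d →L[ℝ] Space d}
    (hM : ∀ b, ContinuousLinearMap.adjoint (M b) = M (!b)) (hMn : ∀ b, ‖M b‖ ≤ ‖M true‖) {ε : ℝ}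
    (hε : ε ^ 2 = 1) :
    Close ((gam d).prod ((gam d).prod (gp (IsoI Unit n) d)))
      (fun q => (isoV n)⁻¹ • (M true q.1 + (q.2.1 + ε • isoP (linIso M) n true q.2.2)))
      (gam d) (fun z => z) (‖M true‖ ^ (n + 1) * (2 * d)) := by
  set ν := isoV n with hν
  have hν0 : 0 < ν := isoV_pos n
  have hε0 : |ε| = 1 := by
    rw [← sq_abs] at hε
    exact (sq_eq_one_iff.1 hε).resolve_right (by linarith [abs_nonneg ε])
  have hg : Gau ((gam d).prod ((gam d).prod (gp (IsoI Unit n) d)))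
      (fun q => ν⁻¹ • (M true q.1 + (q.2.1 + ε • isoP (linIso M) n true q.2.2))) fun t =>
        1 ^ 2 * ‖t‖ ^ 2 + ‖ContinuousLinearMap.adjoint (ν⁻¹ • isoG M n true) t‖ ^ 2 := by
    refine ((((gau_id (d := d)).clm (M true)).add
      ((gau_id (d := d)).add ((gau_iso hM n true).smul ε))).smul ν⁻¹).congr fun t => ?_
    simp only [hM true, map_smul, norm_smul, mul_pow, Real.norm_eq_abs, hε0,
      abs_inv, abs_of_pos hν0, one_pow, one_mul, _root_.smul_apply]
    have : ν⁻¹ ^ 2 * (1 + isoA n) = 1 := by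
      rw [inv_pow, hν, ← isoV_sq]; exact inv_mul_cancel₀ (pow_ne_zero _ hν0.ne')
    linear_combination ‖t‖ ^ 2 * this
  obtain ⟨Λ, hΛ⟩ := exists_lip_iso₀ (exists_lip_linIso M) n true
  have hi : Integrable (fun q : Space d × Space d × (IsoI Unit n → Space d) =>
      ν⁻¹ • (M true q.1 + (q.2.1 + ε • isoP (linIso M) n true q.2.2)))
      ((gam d).prod ((gam d).prod (gp (IsoI Unit n) d))) := by
    have h1 := (M true).integrable_comp (IsGaussian.integrable_id (μ := gam d))
    have h2 := ((integrable_lip (int_id_gp _ d) hΛ).smul ε).comp_snd (gam d)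
    have h3 := (IsGaussian.integrable_id (μ := gam d)).comp_fst (gp (IsoI Unit n) d)
    exact ((h1.comp_fst _).add ((h3.add h2).comp_snd _)).smul ν⁻¹
  have h := (hg.close_std hd hi 1 _ fun t => rfl).mono (e' := ‖M true‖ ^ (n + 1) * (2 * d))
    (mul_le_mul_of_nonneg_right ?_ (by positivity))
  · simpa only [one_smul] using h
  · rw [norm_smul, norm_inv, Real.norm_eq_abs, abs_of_pos hν0]
    exact (mul_le_of_le_one_left (norm_nonneg _) (inv_le_one_of_one_le₀ (one_le_isoV n))).trans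
      (norm_isoG_le hMn n _)

variable {B A D : Type} [Fintype B] [Fintype A] [DecidableEq A] [Fintype D] [DecidableEq D]
  {P P' : Prog d B (Unit ⊕ D)} {Q Q' : Prog d B (A ⊕ Unit)} {n : ℕ} {a₀ : A} {b₀ : D}
  {G : Space d → Space d} {K L cH cF : ℝ}

omit [Fintype B] [Fintype A] [DecidableEq A] [Fintype D] in
theorem argH_update (p : Space d) (x : B → Space d) (X : A ⊕ D → Space d) (u : Space d)
    [DecidableEq (A ⊕ D)] :
    (argH a₀ (p, x, update X (.inr b₀) u)).2.2 = update (argH a₀ (p, x, X)).2.2 (.inr b₀) u := by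
  funext j
  rcases j with j | j
  · simp [argH, piH, update]
  · by_cases hj : j = b₀ <;> simp [argH, piH, update, hj]

omit [Fintype B] [Fintype A] [DecidableEq A] [Fintype D] [DecidableEq D] in
theorem argF_update (p : Space d) (x : B → Space d) (X : A ⊕ D → Space d) (u : Space d)
    [DecidableEq (A ⊕ D)] :
    (argF a₀ (p, x, update X (.inr b₀) u)).2.2 = (argF a₀ (p, x, X)).2.2 := by
  funext j
  rcases j with j | j <;> simp [argF, piF, update]

omit [Fintype A] [DecidableEq A] [Fintype D] [DecidableEq D] in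
theorem piH_inj : Injective (piH (D := D) a₀) := by
  rintro (⟨⟩ | a) (⟨⟩ | b) h <;> simp_all [piH]

omit [Fintype A] [DecidableEq A] [Fintype D] [DecidableEq D] in
theorem piF_injOn {l : A ⊕ Unit} (hl : l = .inl a₀ ∨ l = .inr ()) :
    ∀ a b, a ≠ l → b ≠ l → piF (D := D) a₀ a = piF a₀ b → a = b := by
  rintro (a | ⟨⟩) (b | ⟨⟩) ha hb h <;> rcases hl with rfl | rfl <;> simp_all [piF]

omit [DecidableEq A] [Fintype A] [Fintype B] [Fintype D] [DecidableEq D] in
theorem continuous_argH (p : Space d) :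
    Continuous fun z : (B → Space d) × (A ⊕ D → Space d) => (argH a₀ (p, z.1, z.2)).2.2 := by
  unfold argH; fun_prop

omit [DecidableEq A] [Fintype A] [Fintype B] [Fintype D] [DecidableEq D] in
theorem continuous_argF (p : Space d) :
    Continuous fun z : (B → Space d) × (A ⊕ D → Space d) => (argF a₀ (p, z.1, z.2)).2.2 := by
  unfold argF; fun_prop

variable {p : Space d} {TH : (B → Space d) → Ten d (Unit ⊕ D)}
  {TF : (B → Space d) → Ten d (A ⊕ Unit)}

variable (Q n a₀ b₀ G cH cF p TH TF) in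
/-- The average deviation as a function of blocks and inputs. -/
def wAvgAt (z : (B → Space d) × (A ⊕ D → Space d)) : ℝ :=
  prodWAvg Q n a₀ b₀ G cH cF (TH z.1) (TF z.1) (p, z.1, z.2)

theorem measurable_wAvgAt (hQ : Q.LipW G) (hTH : Continuous TH) (hTF : Continuous TF) :
    Measurable (wAvgAt Q n a₀ b₀ G cH cF p TH TF) := by
  have hm : Continuous fun z : (B → Space d) × (A ⊕ D → Space d) =>
      meanH a₀ cH (TH z.1) (p, z.1, z.2) :=
    (continuous_apT _ (hTH.comp continuous_fst) (continuous_argH p)).const_smul cH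
  have hM : ∀ b, Continuous fun z : (B → Space d) × (A ⊕ D → Space d) =>
      mapH a₀ b₀ cH (TH z.1) (p, z.1, z.2) b := fun b => by
    cases b <;>
      exact (continuous_tMap (hTH.comp continuous_fst) (continuous_argH p)).const_smul cH
  have hR : Continuous fun y : ((B → Space d) × (A ⊕ D → Space d)) ×
      (Space d × (IsoI Unit n → Space d)) =>
        isoP (linIso (mapH a₀ b₀ cH (TH y.1.1) (p, y.1.1, y.1.2))) n true y.2.2 :=
    continuous_isoP_lin n true (fun b => (hM b).comp continuous_fst) continuous_snd.snd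
  have hd' : ∀ {w : ((B → Space d) × (A ⊕ D → Space d)) × (Space d × (IsoI Unit n → Space d))
      → Space d}, Continuous w → Measurable fun y : ((B → Space d) × (A ⊕ D → Space d)) ×
        (Space d × (IsoI Unit n → Space d)) => devQ Q a₀ G cF (TF y.1.1) (p, y.1.1, y.1.2) (w y) := by
    intro w hw
    have h1 : Continuous fun y : ((B → Space d) × (A ⊕ D → Space d)) ×
        (Space d × (IsoI Unit n → Space d)) =>
          ((y.1.1, update (argF a₀ (p, y.1.1, y.1.2)).2.2 (.inr ()) (w y)) :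
            (B → Space d) × (A ⊕ Unit → Space d)) :=
      continuous_fst.fst.prodMk (((continuous_argF p).comp continuous_fst).update _ hw)
    exact (measurable_devP hQ p (.inl a₀) cF hTF).comp h1.measurable
  have hint := (hd' (((hm.comp continuous_fst).add continuous_snd.fst |>.add hR).const_smul
    (isoV n)⁻¹)).add (hd' (((hm.comp continuous_fst).add continuous_snd.fst |>.sub hR).const_smul
      (isoV n)⁻¹))
  exact (hint.stronglyMeasurable.integral_prod_right'
    (ν := (gam d).prod (gp (IsoI Unit n) d))).measurable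

/-- The average over the free input of the inner factor. -/
theorem wAvg_update (hd : 1 ≤ d) (h : ProdHyp P P' Q Q' G K L) (x : B → Space d)
    (X : A ⊕ D → Space d) :
    Integrable (fun u => wAvgAt Q n a₀ b₀ G cH cF p TH TF (x, update X (.inr b₀) u)) (gam d) ∧
      ∫ u, wAvgAt Q n a₀ b₀ G cH cF p TH TF (x, update X (.inr b₀) u) ∂gam d
        ≤ 2 * (∫ v, devQ Q a₀ G cF (TF x) (p, x, X) v ∂gam d)
          + 4 * d * ((L + ‖mapF a₀ cF (TF x) (p, x, X) true‖)
              * ‖mapH a₀ b₀ cH (TH x) (p, x, X) true‖ ^ (n + 1)) := by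
  set a : PArg d B (A ⊕ D) := (p, x, X)
  set MH := mapH a₀ b₀ cH (TH x) a with hMH
  set E := devQ Q a₀ G cF (TF x) a
  have hM : ∀ u, mapH a₀ b₀ cH (TH x) (p, x, update X (.inr b₀) u) = MH := fun u => by
    funext b
    simp only [hMH, mapH, pairM, argH_update]
    cases b <;> simp only [cond_false, cond_true] <;>
      exact congrArg _ (tMap_congr _ fun j h1 h2 => update_of_ne (by first | exact h2 | exact h1) _ _)
  have hm : ∀ u, meanH a₀ cH (TH x) (p, x, update X (.inr b₀) u) = MH true u := fun u => by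
    rw [hMH, mapH, pairM_apply (by simp), meanH, argH_update]
  have hE : ∀ u w, devQ Q a₀ G cF (TF x) (p, x, update X (.inr b₀) u) w = E w := fun u w => by
    simp only [E, devQ, argF_update, a]
  have he : ∀ u, wAvgAt Q n a₀ b₀ G cH cF p TH TF (x, update X (.inr b₀) u)
      = ∫ q : Space d × (IsoI Unit n → Space d),
        (E ((isoV n)⁻¹ • (MH true u + (q.1 + (1 : ℝ) • isoP (linIso MH) n true q.2)))
          + E ((isoV n)⁻¹ • (MH true u + (q.1 + (-1 : ℝ) • isoP (linIso MH) n true q.2))))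
        ∂(gam d).prod (gp (IsoI Unit n) d) := fun u => by
    simp only [wAvgAt, prodWAvg, hM, hm, hE, one_smul, neg_smul, ← sub_eq_add_neg, add_assoc,
      add_sub_assoc]
  have hL0 : 0 ≤ L + ‖mapF a₀ cF (TF x) a true‖ := add_nonneg h.L_nonneg (norm_nonneg _)
  have hlip := devQ_lip (a₀ := a₀) (cF := cF) (TF := TF x) (a := a) h.QW h.QW' h.L_nonneg h.Qlip
    h.Qlip'
  obtain ⟨i1, b1⟩ := (close_arg (n := n) hd (M := MH) (pairM_adjoint _ _ _ _ _)
    (fun b => (norm_mapH b).le) (ε := 1) (by norm_num)).integral_le hL0 hlip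
  obtain ⟨i2, b2⟩ := (close_arg (n := n) hd (M := MH) (pairM_adjoint _ _ _ _ _)
    (fun b => (norm_mapH b).le) (ε := -1) (by norm_num)).integral_le hL0 hlip
  simp only [he]
  refine ⟨(i1.add i2).integral_prod_left, ?_⟩
  refine (integral_prod _ (i1.add i2)).symm.trans_le ?_
  rw [integral_add' i1 i2]
  refine (add_le_add b1 b2).trans_eq ?_
  ring

/-- The average deviation over all arguments. -/
theorem wAvg_avg (hd : 1 ≤ d) (h : ProdHyp P P' Q Q' G K L) (hTH : Continuous TH)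
    (hTF : Continuous TF)
    {e : (B → Space d) × (A ⊕ D → Space d) → ℝ}
    (he : Integrable e ((gp B d).prod (gp (A ⊕ D) d)))
    (hle : ∀ z : (B → Space d) × (A ⊕ D → Space d),
      2 * (∫ v, devQ Q a₀ G cF (TF z.1) (p, z.1, z.2) v ∂gam d)
        + 4 * d * ((L + ‖mapF a₀ cF (TF z.1) (p, z.1, z.2) true‖)
            * ‖mapH a₀ b₀ cH (TH z.1) (p, z.1, z.2) true‖ ^ (n + 1)) ≤ e z) :
    Integrable (wAvgAt Q n a₀ b₀ G cH cF p TH TF) ((gp B d).prod (gp (A ⊕ D) d)) ∧
      ∫ z, wAvgAt Q n a₀ b₀ G cH cF p TH TF z ∂(gp B d).prod (gp (A ⊕ D) d)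
        ≤ ∫ z, e z ∂(gp B d).prod (gp (A ⊕ D) d) := by
  set W := wAvgAt Q n a₀ b₀ G cH cF p TH TF
  have hW := measurable_wAvgAt (n := n) (a₀ := a₀) (b₀ := b₀) (cH := cH) (cF := cF) (p := p)
    h.QW hTH hTF
  have hmp := ((MeasurePreserving.id (gp B d)).prod (mp_update (d := d) (Sum.inr b₀ : A ⊕ D))).comp
    (measurePreserving_prodAssoc (gp B d) (gp (A ⊕ D) d) (gam d))
  have hu := fun z : (B → Space d) × (A ⊕ D → Space d) =>
    wAvg_update (n := n) (a₀ := a₀) (b₀ := b₀) (cH := cH) (cF := cF) (p := p) (TH := TH) (TF := TF)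
      hd h z.1 z.2
  have hW0 : ∀ z, 0 ≤ W z := fun z => integral_nonneg fun q => add_nonneg
    (Prog.dev_nonneg h.QW _ _ _ _) (Prog.dev_nonneg h.QW _ _ _ _)
  have hi : Integrable (fun r : ((B → Space d) × (A ⊕ D → Space d)) × Space d =>
      W (r.1.1, update r.1.2 (.inr b₀) r.2)) (((gp B d).prod (gp (A ⊕ D) d)).prod (gam d)) := by
    have hm := (hW.comp hmp.measurable).aestronglyMeasurable
      (μ := ((gp B d).prod (gp (A ⊕ D) d)).prod (gam d))
    refine (integrable_prod_iff hm).2 ⟨ae_of_all _ fun z => (hu z).1, ?_⟩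
    refine he.mono' hm.norm.integral_prod_right' (ae_of_all _ fun z => ?_)
    rw [Real.norm_of_nonneg (integral_nonneg fun u => norm_nonneg _)]
    refine le_trans (le_of_eq (integral_congr_ae (ae_of_all _ fun u => ?_)))
      ((hu z).2.trans (hle z))
    exact Real.norm_of_nonneg (hW0 _)
  have hWi : Integrable W ((gp B d).prod (gp (A ⊕ D) d)) :=
    (hmp.integrable_comp hW.aestronglyMeasurable).1 hi
  refine ⟨hWi, ?_⟩
  conv_lhs => rw [← hmp.map_eq]
  rw [integral_map hmp.measurable.aemeasurable (by rw [hmp.map_eq]; exact hWi.1)]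
  refine (integral_prod _ hi).trans_le (integral_mono hi.integral_prod_left he fun z => ?_)
  exact (hu z).2.trans (hle z)

theorem add_mul_pow_le {L k h : ℝ} (hL : L ≤ 1) (hk : 0 ≤ k) (hh : 0 ≤ h) (m : ℕ) :
    (L + k) * h ^ m ≤ h ^ m + (k ^ (m + 1) + h ^ (m + 1)) := by
  rw [add_mul]
  refine add_le_add (mul_le_of_le_one_left (pow_nonneg hh m) hL) ?_
  rcases le_total k h with hkh | hkh
  · refine le_add_of_nonneg_of_le (pow_nonneg hk _) ?_
    rw [pow_succ' h]
    exact mul_le_mul_of_nonneg_right hkh (pow_nonneg hh m)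
  · refine le_add_of_le_of_nonneg ?_ (pow_nonneg hh _)
    rw [pow_succ' k]
    exact mul_le_mul_of_nonneg_left (pow_le_pow_left₀ hh hkh m) hk

theorem max_pow_le {K k : ℝ} (hK : 0 ≤ K) (hk : 0 ≤ k) (m : ℕ) :
    max K k ^ m ≤ K ^ m + k ^ m := by
  rcases le_total K k with hle | hle
  · rw [max_eq_right hle]; linarith [pow_nonneg hK m]
  · rw [max_eq_left hle]; linarith [pow_nonneg hk m]

variable (P P' Q Q' n a₀ b₀ G K L cH cF p TH TF) in
/-- The hypotheses of the average: the laws and the moments of the maps. -/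
structure AvgHyp (DH DH' DF DF' Y : ℝ) : Prop where
  cH_cont : Continuous TH
  cF_cont : Continuous TF
  dH : Integrable (fun z => devP P G p (.inl ()) cH (TH z.1) z.1 z.2)
        ((gp B d).prod (gp (Unit ⊕ D) d)) ∧
      ∫ z, devP P G p (.inl ()) cH (TH z.1) z.1 z.2 ∂(gp B d).prod (gp (Unit ⊕ D) d) ≤ DH
  dH' : Integrable (fun z => devP P' G p (.inr b₀) cH (TH z.1) z.1 z.2)
        ((gp B d).prod (gp (Unit ⊕ D) d)) ∧
      ∫ z, devP P' G p (.inr b₀) cH (TH z.1) z.1 z.2 ∂(gp B d).prod (gp (Unit ⊕ D) d) ≤ DH'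
  dF : Integrable (fun z => devP Q G p (.inl a₀) cF (TF z.1) z.1 z.2)
        ((gp B d).prod (gp (A ⊕ Unit) d)) ∧
      ∫ z, devP Q G p (.inl a₀) cF (TF z.1) z.1 z.2 ∂(gp B d).prod (gp (A ⊕ Unit) d) ≤ DF
  dF' : Integrable (fun z => devP Q' G p (.inr ()) cF (TF z.1) z.1 z.2)
        ((gp B d).prod (gp (A ⊕ Unit) d)) ∧
      ∫ z, devP Q' G p (.inr ()) cF (TF z.1) z.1 z.2 ∂(gp B d).prod (gp (A ⊕ Unit) d) ≤ DF'
  Y_nonneg : 0 ≤ Y
  powK : K ^ (n + 1) ≤ Y
  powL : L ^ (n + 1) ≤ Y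
  momH : ∀ m, n + 1 ≤ m → m ≤ n + 2 →
    Integrable (fun z : (B → Space d) × (Unit ⊕ D → Space d) =>
        (|cH| * ‖tMap (Sum.inl ()) (Sum.inr b₀) (TH z.1) z.2‖) ^ m)
      ((gp B d).prod (gp (Unit ⊕ D) d)) ∧
    ∫ z : (B → Space d) × (Unit ⊕ D → Space d),
        (|cH| * ‖tMap (Sum.inl ()) (Sum.inr b₀) (TH z.1) z.2‖) ^ m
      ∂(gp B d).prod (gp (Unit ⊕ D) d) ≤ Y
  momF : ∀ m, n + 1 ≤ m → m ≤ n + 2 →
    Integrable (fun z : (B → Space d) × (A ⊕ Unit → Space d) =>
        (|cF| * ‖tMap (Sum.inl a₀) (Sum.inr ()) (TF z.1) z.2‖) ^ m)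
      ((gp B d).prod (gp (A ⊕ Unit) d)) ∧
    ∫ z : (B → Space d) × (A ⊕ Unit → Space d),
        (|cF| * ‖tMap (Sum.inl a₀) (Sum.inr ()) (TF z.1) z.2‖) ^ m
      ∂(gp B d).prod (gp (A ⊕ Unit) d) ≤ Y

variable {DH DH' DF DF' Y : ℝ}

theorem avgMapH (hh : AvgHyp P P' Q Q' n a₀ b₀ G K L cH cF p TH TF DH DH' DF DF' Y) {m : ℕ}
    (hm : n + 1 ≤ m) (hm' : m ≤ n + 2) :
    Integrable (fun z : (B → Space d) × (A ⊕ D → Space d) =>
        ‖mapH a₀ b₀ cH (TH z.1) (p, z.1, z.2) true‖ ^ m) ((gp B d).prod (gp (A ⊕ D) d)) ∧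
      ∫ z : (B → Space d) × (A ⊕ D → Space d), ‖mapH a₀ b₀ cH (TH z.1) (p, z.1, z.2) true‖ ^ m
        ∂(gp B d).prod (gp (A ⊕ D) d) ≤ Y := by
  obtain ⟨hi, hb⟩ := hh.momH m hm hm'
  obtain ⟨hi', he⟩ := avg_pull (π := piH (D := D) a₀) (l := Sum.inr b₀)
    (fun a b _ _ e => piH_inj e) hi
  have e1 : (fun z : (B → Space d) × (A ⊕ D → Space d) =>
      ‖mapH a₀ b₀ cH (TH z.1) (p, z.1, z.2) true‖ ^ m) = fun z : (B → Space d) × (A ⊕ D → Space d) =>
        ∫ v, (|cH| * ‖tMap (Sum.inl ()) (Sum.inr b₀) (TH z.1)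
          (update (fun i => z.2 (piH a₀ i)) (.inr b₀) v)‖) ^ m ∂gam d := by
    funext z
    have e : ∀ v, tMap (Sum.inl ()) (Sum.inr b₀) (TH z.1)
        (update (fun i => z.2 (piH a₀ i)) (.inr b₀) v)
          = tMap (Sum.inl ()) (Sum.inr b₀) (TH z.1) (argH a₀ (p, z.1, z.2)).2.2 := fun v =>
      tMap_congr _ fun j _ h2 => update_of_ne h2 _ _
    simp only [e, mapH, norm_pairM, integral_const, probReal_univ, one_smul]
  rw [e1]
  exact ⟨hi', he.trans_le hb⟩

theorem avgMapF (hh : AvgHyp P P' Q Q' n a₀ b₀ G K L cH cF p TH TF DH DH' DF DF' Y) {m : ℕ}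
    (hm : n + 1 ≤ m) (hm' : m ≤ n + 2) :
    Integrable (fun z : (B → Space d) × (A ⊕ D → Space d) =>
        ‖mapF a₀ cF (TF z.1) (p, z.1, z.2) true‖ ^ m) ((gp B d).prod (gp (A ⊕ D) d)) ∧
      ∫ z : (B → Space d) × (A ⊕ D → Space d), ‖mapF a₀ cF (TF z.1) (p, z.1, z.2) true‖ ^ m
        ∂(gp B d).prod (gp (A ⊕ D) d) ≤ Y := by
  obtain ⟨hi, hb⟩ := hh.momF m hm hm'
  obtain ⟨hi', he⟩ := avg_pull (π := piF (D := D) a₀) (l := Sum.inr ())
    (piF_injOn (.inr rfl)) hi
  have e1 : (fun z : (B → Space d) × (A ⊕ D → Space d) =>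
      ‖mapF a₀ cF (TF z.1) (p, z.1, z.2) true‖ ^ m) = fun z : (B → Space d) × (A ⊕ D → Space d) =>
        ∫ v, (|cF| * ‖tMap (Sum.inl a₀) (Sum.inr ()) (TF z.1)
          (update (fun i => z.2 (piF a₀ i)) (.inr ()) v)‖) ^ m ∂gam d := by
    funext z
    have e : ∀ v, tMap (Sum.inl a₀) (Sum.inr ()) (TF z.1)
        (update (fun i => z.2 (piF a₀ i)) (.inr ()) v)
          = tMap (Sum.inl a₀) (Sum.inr ()) (TF z.1) (argF a₀ (p, z.1, z.2)).2.2 := fun v =>
      tMap_congr _ fun j _ h2 => update_of_ne h2 _ _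
    simp only [e, mapF, norm_pairM, integral_const, probReal_univ, one_smul]
  rw [e1]
  exact ⟨hi', he.trans_le hb⟩

theorem avgDevH (h : ProdHyp P P' Q Q' G K L)
    (hh : AvgHyp P P' Q Q' n a₀ b₀ G K L cH cF p TH TF DH DH' DF DF' Y) (b : Bool) :
    Integrable (fun z : (B → Space d) × (A ⊕ D → Space d) =>
        devD (pairP P P' G (.inl ()) (.inr b₀) (argH a₀ (p, z.1, z.2)) b)
          (mapH a₀ b₀ cH (TH z.1) (p, z.1, z.2) b)) ((gp B d).prod (gp (A ⊕ D) d)) ∧
      ∫ z : (B → Space d) × (A ⊕ D → Space d),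
          devD (pairP P P' G (.inl ()) (.inr b₀) (argH a₀ (p, z.1, z.2)) b)
            (mapH a₀ b₀ cH (TH z.1) (p, z.1, z.2) b) ∂(gp B d).prod (gp (A ⊕ D) d)
        ≤ bif b then DH else DH' := by
  have e := fun (z : (B → Space d) × (A ⊕ D → Space d)) v => devW_pair (o := Sum.inl ())
    (l := Sum.inr b₀) h.PW h.PW' (by simp) cH (TH z.1) (argH a₀ (p, z.1, z.2)) b v
  simp only [devD, mapH, e]
  cases b
  · obtain ⟨hi, he⟩ := avg_pull (π := piH (D := D) a₀) (l := Sum.inl ())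
      (fun a b _ _ e => piH_inj e) hh.dH'.1
    exact ⟨hi, he.trans_le hh.dH'.2⟩
  · obtain ⟨hi, he⟩ := avg_pull (π := piH (D := D) a₀) (l := Sum.inr b₀)
      (fun a b _ _ e => piH_inj e) hh.dH.1
    exact ⟨hi, he.trans_le hh.dH.2⟩

theorem avgDevF (h : ProdHyp P P' Q Q' G K L)
    (hh : AvgHyp P P' Q Q' n a₀ b₀ G K L cH cF p TH TF DH DH' DF DF' Y) (b : Bool) :
    Integrable (fun z : (B → Space d) × (A ⊕ D → Space d) =>
        devD (pairP Q Q' G (.inl a₀) (.inr ()) (argF a₀ (p, z.1, z.2)) b)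
          (mapF a₀ cF (TF z.1) (p, z.1, z.2) b)) ((gp B d).prod (gp (A ⊕ D) d)) ∧
      ∫ z : (B → Space d) × (A ⊕ D → Space d),
          devD (pairP Q Q' G (.inl a₀) (.inr ()) (argF a₀ (p, z.1, z.2)) b)
            (mapF a₀ cF (TF z.1) (p, z.1, z.2) b) ∂(gp B d).prod (gp (A ⊕ D) d)
        ≤ bif b then DF else DF' := by
  have e := fun (z : (B → Space d) × (A ⊕ D → Space d)) v => devW_pair (o := Sum.inl a₀)
    (l := Sum.inr ()) h.QW h.QW' (by simp) cF (TF z.1) (argF a₀ (p, z.1, z.2)) b v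
  simp only [devD, mapF, e]
  cases b
  · obtain ⟨hi, he⟩ := avg_pull (π := piF (D := D) a₀) (l := Sum.inl a₀)
      (piF_injOn (.inl rfl)) hh.dF'.1
    exact ⟨hi, he.trans_le hh.dF'.2⟩
  · obtain ⟨hi, he⟩ := avg_pull (π := piF (D := D) a₀) (l := Sum.inr ())
      (piF_injOn (.inr rfl)) hh.dF.1
    exact ⟨hi, he.trans_le hh.dF.2⟩

/-- The constant of the average. -/
def prodE (n : ℕ) : ℝ := 2 + 4 * isoE n + 7 * isoV n

variable (P P' Q Q' n a₀ b₀ G K L cH cF p TH TF) in
/-- The error as a function of blocks and inputs. -/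
def errAt (z : (B → Space d) × (A ⊕ D → Space d)) : ℝ :=
  prodErr P P' Q Q' n a₀ b₀ G K L cH cF (TH z.1) (TF z.1) (p, z.1, z.2)

/-- The averaged error. -/
theorem prodErr_avg (hd : 1 ≤ d) (h : ProdHyp P P' Q Q' G K L)
    (hh : AvgHyp P P' Q Q' n a₀ b₀ G K L cH cF p TH TF DH DH' DF DF' Y) :
    Integrable (errAt P P' Q Q' n a₀ b₀ G K L cH cF p TH TF) ((gp B d).prod (gp (A ⊕ D) d)) ∧
      ∫ z, errAt P P' Q Q' n a₀ b₀ G K L cH cF p TH TF z ∂(gp B d).prod (gp (A ⊕ D) d)
        ≤ prodE n * (DF + L * (DH + DH' + DF') + d * Y) := by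
  set μ := (gp B d).prod (gp (A ⊕ D) d)
  set kH := fun z : (B → Space d) × (A ⊕ D → Space d) =>
    ‖mapH a₀ b₀ cH (TH z.1) (p, z.1, z.2) true‖ with hkH
  set kF := fun z : (B → Space d) × (A ⊕ D → Space d) =>
    ‖mapF a₀ cF (TF z.1) (p, z.1, z.2) true‖ with hkF
  obtain ⟨iH1, bH1⟩ := avgMapH (m := n + 1) hh le_rfl (Nat.le_succ _)
  obtain ⟨iH2, bH2⟩ := avgMapH (m := n + 2) hh (Nat.le_succ _) le_rfl
  obtain ⟨iF1, bF1⟩ := avgMapF (m := n + 1) hh le_rfl (Nat.le_succ _)
  obtain ⟨iF2, bF2⟩ := avgMapF (m := n + 2) hh (Nat.le_succ _) le_rfl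
  obtain ⟨jH, cH'⟩ := avgDevH h hh true
  obtain ⟨jH', cH''⟩ := avgDevH h hh false
  obtain ⟨jF, cF'⟩ := avgDevF h hh true
  obtain ⟨jF', cF''⟩ := avgDevF h hh false
  simp only [cond_true, cond_false] at cH' cH'' cF' cF''
  have hmV : MeasurePreserving (fun z : (B → Space d) × (A ⊕ D → Space d) =>
      (z.1, fun j => z.2 (piH (D := D) a₀ j))) μ ((gp B d).prod (gp (Unit ⊕ D) d)) :=
    (MeasurePreserving.id (gp B d)).prod (mp_inj piH_inj)
  have iV := hmV.integrable_comp_of_integrable hh.dH.1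
  have bV : ∫ z : (B → Space d) × (A ⊕ D → Space d),
      devP P G p (.inl ()) cH (TH z.1) z.1 (fun j => z.2 (piH a₀ j)) ∂μ ≤ DH := by
    refine le_trans (le_of_eq ?_) hh.dH.2
    conv_rhs => rw [← hmV.map_eq]
    rw [integral_map hmV.measurable.aemeasurable (by rw [hmV.map_eq]; exact hh.dH.1.1)]
  obtain ⟨iQ, eQ⟩ := avg_pull (π := piF (D := D) a₀) (l := Sum.inr ()) (piF_injOn (.inr rfl)) hh.dF.1
  set eW := fun z : (B → Space d) × (A ⊕ D → Space d) =>
    2 * (∫ v, devQ Q a₀ G cF (TF z.1) (p, z.1, z.2) v ∂gam d)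
      + 4 * d * (kH z ^ (n + 1) + (kF z ^ (n + 2) + kH z ^ (n + 2))) with heW
  have iQ' : Integrable (fun z : (B → Space d) × (A ⊕ D → Space d) =>
      2 * ∫ v, devQ Q a₀ G cF (TF z.1) (p, z.1, z.2) v ∂gam d) μ := iQ.const_mul 2
  have iK : Integrable (fun z => 4 * (d : ℝ) * (kH z ^ (n + 1) + (kF z ^ (n + 2) + kH z ^ (n + 2))))
      μ := (iH1.add (iF2.add iH2)).const_mul _
  have ieW : Integrable eW μ := iQ'.add iK
  obtain ⟨iW, bW⟩ := wAvg_avg (n := n) (a₀ := a₀) (b₀ := b₀) (cH := cH) (cF := cF) (p := p) hd h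
    hh.cH_cont hh.cF_cont ieW fun z => by
      simp only [heW]
      exact add_le_add le_rfl (mul_le_mul_of_nonneg_left
        (add_mul_pow_le h.L_le (norm_nonneg _) (norm_nonneg _) (n + 1)) (by positivity))
  have beW : ∫ z, eW z ∂μ ≤ 2 * DF + 12 * (d * Y) := by
    simp only [heW]
    rw [integral_add iQ' iK, integral_const_mul, integral_const_mul]
    refine add_le_add (mul_le_mul_of_nonneg_left (eQ.trans_le hh.dF.2) two_pos.le) ?_
    rw [show (12 : ℝ) * (d * Y) = 4 * d * (Y + (Y + Y)) by ring]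
    refine mul_le_mul_of_nonneg_left ?_ (by positivity)
    rw [integral_add iH1 (iF2.fun_add iH2), integral_add iF2 iH2]
    exact add_le_add bH1 (add_le_add bF2 bH2)
  -- the pointwise split of the error
  set T := fun z : (B → Space d) × (A ⊕ D → Space d) =>
    L * devP P G p (.inl ()) cH (TH z.1) z.1 (fun j => z.2 (piH a₀ j))
      + L * isoE n * (2 * devD (pairP P P' G (.inl ()) (.inr b₀) (argH a₀ (p, z.1, z.2)) true)
          (mapH a₀ b₀ cH (TH z.1) (p, z.1, z.2) true)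
        + devD (pairP P P' G (.inl ()) (.inr b₀) (argH a₀ (p, z.1, z.2)) false)
          (mapH a₀ b₀ cH (TH z.1) (p, z.1, z.2) false))
      + isoV n / 2 * wAvgAt Q n a₀ b₀ G cH cF p TH TF z
      + isoE n * (2 * devD (pairP Q Q' G (.inl a₀) (.inr ()) (argF a₀ (p, z.1, z.2)) true)
          (mapF a₀ cF (TF z.1) (p, z.1, z.2) true)
        + L * devD (pairP Q Q' G (.inl a₀) (.inr ()) (argF a₀ (p, z.1, z.2)) false)
          (mapF a₀ cF (TF z.1) (p, z.1, z.2) false))
      + (isoE n * d * (K ^ (n + 1) + kH z ^ (n + 1)) + isoE n * d * (L ^ (n + 1) + kF z ^ (n + 1))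
        + kF z ^ (n + 1) * (2 * d)) with hT
  have hE := isoE_nonneg n
  have hν := isoV_pos n
  have hle : ∀ z, errAt P P' Q Q' n a₀ b₀ G K L cH cF p TH TF z ≤ T z := fun z => by
    simp only [errAt, prodErr, isoErr, hT, hkH, hkF, wAvgAt, argH, Bool.not_true]
    set u1 := devD (pairP P P' G (.inl ()) (.inr b₀) _ true) _ with hu1
    set u2 := devD (pairP P P' G (.inl ()) (.inr b₀) _ false) _ with hu2
    set u3 := devD (pairP Q Q' G (.inl a₀) (.inr ()) _ true) _ with hu3
    set u4 := devD (pairP Q Q' G (.inl a₀) (.inr ()) _ false) _ with hu4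
    set kh := ‖mapH a₀ b₀ cH (TH z.1) (p, z.1, z.2) true‖
    set kf := ‖mapF a₀ cF (TF z.1) (p, z.1, z.2) true‖
    have hu10 : 0 ≤ u1 := devD_nonneg _ _
    have hu20 : 0 ≤ u2 := devD_nonneg _ _
    have hu30 : 0 ≤ u3 := devD_nonneg _ _
    have hu40 : 0 ≤ u4 := devD_nonneg _ _
    have a1 : u1 + K * (u1 + u2) ≤ 2 * u1 + u2 := by
      linarith [mul_le_of_le_one_left (add_nonneg hu10 hu20) h.K_le]
    have a2 : u3 + L * (u3 + u4) ≤ 2 * u3 + L * u4 := by
      linarith [mul_le_of_le_one_left hu30 h.L_le]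
    have m1 := mul_le_mul_of_nonneg_left a1 (mul_nonneg h.L_nonneg hE)
    have m2 := mul_le_mul_of_nonneg_left a2 hE
    have d0 : (0 : ℝ) ≤ d := Nat.cast_nonneg d
    have p1 := max_pow_le h.K_nonneg (show 0 ≤ kh from norm_nonneg _) (n + 1)
    have p2 := max_pow_le h.L_nonneg (show 0 ≤ kf from norm_nonneg _) (n + 1)
    have m3 : L * (isoE n * (d * max K kh ^ (n + 1))) ≤ isoE n * d * (K ^ (n + 1) + kh ^ (n + 1)) := by
      rw [← mul_assoc (isoE n)]
      refine (mul_le_of_le_one_left (mul_nonneg (mul_nonneg hE d0) (pow_nonneg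
        (h.K_nonneg.trans (le_max_left _ _)) _)) h.L_le).trans ?_
      exact mul_le_mul_of_nonneg_left p1 (mul_nonneg hE d0)
    have m4 := mul_le_mul_of_nonneg_left p2 (mul_nonneg hE d0)
    linarith
  have iT1 : Integrable (fun z : (B → Space d) × (A ⊕ D → Space d) =>
      L * devP P G p (.inl ()) cH (TH z.1) z.1 (fun j => z.2 (piH a₀ j))) μ := iV.const_mul L
  have iF1' : Integrable (fun z => kF z ^ (n + 1)) μ := iF1
  have iT2 := (((jH.const_mul 2).fun_add jH').const_mul (L * isoE n))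
  have iT3 := iW.const_mul (isoV n / 2)
  have iT4 := (((jF.const_mul 2).fun_add (jF'.const_mul L)).const_mul (isoE n))
  have iC5 : Integrable (fun z => isoE n * (d : ℝ) * (K ^ (n + 1) + kH z ^ (n + 1))) μ :=
    ((integrable_const _).fun_add iH1).const_mul _
  have iC6 : Integrable (fun z => isoE n * (d : ℝ) * (L ^ (n + 1) + kF z ^ (n + 1))) μ :=
    ((integrable_const _).fun_add iF1).const_mul _
  have iT5 := (iC5.fun_add iC6).fun_add (iF1'.mul_const (2 * (d : ℝ)))
  have iT : Integrable T μ := (((iT1.fun_add iT2).fun_add iT3).fun_add iT4).fun_add iT5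
  have hprog := fun z : (B → Space d) × (A ⊕ D → Space d) =>
    Prog.dev_nonneg h.PW p z.1 (fun j => z.2 (piH a₀ j))
      (cH • apT (Sum.inl ()) (TH z.1) fun j => z.2 (piH a₀ j))
  have hmeas : AEStronglyMeasurable (errAt P P' Q Q' n a₀ b₀ G K L cH cF p TH TF) μ := by
    have hk : Continuous kH :=
      ((continuous_tMap (hh.cH_cont.comp continuous_fst) (continuous_argH p)).const_smul cH).norm
    have hk' : Continuous kF :=
      ((continuous_tMap (hh.cF_cont.comp continuous_fst) (continuous_argF p)).const_smul cF).norm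
    have c1 : AEStronglyMeasurable (fun z => (d : ℝ) * max K (kH z) ^ (n + 1)) μ :=
      (((continuous_const.max hk).pow _).const_mul _).aestronglyMeasurable
    have c2 : AEStronglyMeasurable (fun z => (d : ℝ) * max L (kF z) ^ (n + 1)) μ :=
      (((continuous_const.max hk').pow _).const_mul _).aestronglyMeasurable
    exact (((((iV.1.add (((jH.1.add ((jH.1.add jH'.1).const_mul K)).add c1).const_mul
      (isoE n))).const_mul L).add (iW.1.const_mul (isoV n / 2))).add
      (((jF.1.add ((jF.1.add jF'.1).const_mul L)).add c2).const_mul (isoE n))).add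
        (iF1.1.mul_const _))
  have he0 : ∀ z, 0 ≤ errAt P P' Q Q' n a₀ b₀ G K L cH cF p TH TF z := fun z => by
    simp only [errAt, prodErr, isoErr, Bool.not_true]
    have := h.L_nonneg
    have := h.K_nonneg
    have hW0 : 0 ≤ prodWAvg Q n a₀ b₀ G cH cF (TH z.1) (TF z.1) (p, z.1, z.2) :=
      integral_nonneg fun q => add_nonneg (Prog.dev_nonneg h.QW _ _ _ _) (Prog.dev_nonneg h.QW _ _ _ _)
    have := hprog z
    have h1 : 0 ≤ devP P G p (Sum.inl ()) cH (TH z.1) z.1 (argH a₀ (p, z.1, z.2)).2.2 := hprog z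
    have := fun b => devD_nonneg (pairP P P' G (.inl ()) (.inr b₀) (argH a₀ (p, z.1, z.2)) b)
      (mapH a₀ b₀ cH (TH z.1) (p, z.1, z.2) b)
    have := fun b => devD_nonneg (pairP Q Q' G (.inl a₀) (.inr ()) (argF a₀ (p, z.1, z.2)) b)
      (mapF a₀ cF (TF z.1) (p, z.1, z.2) b)
    have hu : ∀ {u v : ℝ}, 0 ≤ u → 0 ≤ v → 0 ≤ u + v := fun a b => add_nonneg a b
    have hd0 : (0 : ℝ) ≤ d := Nat.cast_nonneg d
    exact hu (hu (hu (mul_nonneg h.L_nonneg (hu h1 (mul_nonneg hE (hu (hu (devD_nonneg _ _)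
      (mul_nonneg h.K_nonneg (hu (devD_nonneg _ _) (devD_nonneg _ _))))
      (mul_nonneg hd0 (pow_nonneg (h.K_nonneg.trans (le_max_left _ _)) _))))))
      (mul_nonneg (half_pos hν).le hW0)) (mul_nonneg hE (hu (hu (devD_nonneg _ _)
      (mul_nonneg h.L_nonneg (hu (devD_nonneg _ _) (devD_nonneg _ _))))
      (mul_nonneg hd0 (pow_nonneg (h.L_nonneg.trans (le_max_left _ _)) _)))))
      (mul_nonneg (pow_nonneg (norm_nonneg _) _) (mul_nonneg two_pos.le hd0))
  have ie : Integrable (errAt P P' Q Q' n a₀ b₀ G K L cH cF p TH TF) μ :=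
    iT.mono' hmeas (ae_of_all _ fun z => by
      rw [Real.norm_of_nonneg (he0 z)]; exact hle z)
  refine ⟨ie, (integral_mono ie iT hle).trans ?_⟩
  simp only [hT]
  rw [integral_add (((iT1.fun_add iT2).fun_add iT3).fun_add iT4) iT5,
    integral_add ((iT1.fun_add iT2).fun_add iT3) iT4, integral_add (iT1.fun_add iT2) iT3,
    integral_add iT1 iT2, integral_add (iC5.fun_add iC6) (iF1'.mul_const _),
    integral_add iC5 iC6, integral_const_mul, integral_const_mul, integral_const_mul,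
    integral_const_mul, integral_const_mul, integral_const_mul, integral_mul_const,
    integral_add (jH.const_mul 2) jH', integral_add (jF.const_mul 2) (jF'.const_mul L),
    integral_add (integrable_const _) iH1, integral_add (integrable_const _) iF1]
  simp only [integral_const_mul, integral_const, probReal_univ, one_smul]
  have hd0 : (0 : ℝ) ≤ d := Nat.cast_nonneg d
  have hDH : 0 ≤ DH := (integral_nonneg fun z => hprog z).trans bV
  have hDH' : 0 ≤ DH' := le_trans (integral_nonneg fun z => devD_nonneg _ _) cH''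
  have hDF : 0 ≤ DF := le_trans (integral_nonneg fun z => devD_nonneg _ _) cF'
  have hDF' : 0 ≤ DF' := le_trans (integral_nonneg fun z => devD_nonneg _ _) cF''
  have hL := h.L_nonneg
  refine (add_le_add (add_le_add (add_le_add (add_le_add (mul_le_mul_of_nonneg_left bV hL)
    (mul_le_mul_of_nonneg_left (add_le_add (mul_le_mul_of_nonneg_left cH' two_pos.le) cH'')
      (mul_nonneg hL hE)))
    (mul_le_mul_of_nonneg_left (bW.trans beW) (by linarith)))
    (mul_le_mul_of_nonneg_left (add_le_add (mul_le_mul_of_nonneg_left cF' two_pos.le)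
      (mul_le_mul_of_nonneg_left cF'' hL)) hE))
    (add_le_add (add_le_add
      (mul_le_mul_of_nonneg_left (add_le_add hh.powK bH1) (mul_nonneg hE hd0))
      (mul_le_mul_of_nonneg_left (add_le_add hh.powL bF1) (mul_nonneg hE hd0)))
      (mul_le_mul_of_nonneg_right bF1 (by positivity)))).trans ?_
  have hY := mul_nonneg hd0 hh.Y_nonneg
  simp only [prodE]
  linarith [mul_nonneg hE hDF, mul_nonneg hν.le hDF, mul_nonneg (mul_nonneg hE hL) hDH,
    mul_nonneg (mul_nonneg hE hL) hDH', mul_nonneg (mul_nonneg hE hL) hDF',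
    mul_nonneg (mul_nonneg hν.le hL) hDH, mul_nonneg (mul_nonneg hν.le hL) hDH',
    mul_nonneg (mul_nonneg hν.le hL) hDF', mul_nonneg hν.le hY, mul_nonneg hE hY,
    mul_nonneg hL hDH, mul_nonneg hL hDH', mul_nonneg hL hDF']

end Vale.Agent.P347.Zero
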