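import Vale.Agent.P347.Zero.Close

/-!
Tools of the product rule: the deviation against Lipschitz tests as a function, Gaussian laws given
by their quadratic forms, and maps of index sets preserving the standard laws.
-/

noncomputable section

open MeasureTheory ProbabilityTheory Function Set
open scoped RealInnerProductSpace NNReal

namespace Vale.Agent.P347.Zero

variable {d : ℕ} {α β γ : Type} [MeasurableSpace α] [MeasurableSpace β] [MeasurableSpace γ]

/-! ### The deviation -/

/-- Tests: 1-Lipschitz and zero at the origin. -/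
abbrev LTest (d : ℕ) := {ψ : Space d → ℝ // LipschitzWith 1 ψ ∧ ψ 0 = 0}

/-- The deviation of two laws against 1-Lipschitz tests. -/
def devW (P : Measure α) (X : α → Space d) (Q : Measure β) (Y : β → Space d) : ℝ :=
  ⨆ ψ : LTest d, |(∫ a, ψ.1 (X a) ∂P) - ∫ b, ψ.1 (Y b) ∂Q|

variable {P : Measure α} [IsProbabilityMeasure P] {Q : Measure β} [IsProbabilityMeasure Q]
  {X : α → Space d} {Y : β → Space d}

omit [IsProbabilityMeasure P] [IsProbabilityMeasure Q] in
theorem devW_nonneg : 0 ≤ devW P X Q Y := Real.iSup_nonneg fun _ => abs_nonneg _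

theorem abs_test_integral_le (hX : Integrable X P) (ψ : LTest d) :
    |∫ a, ψ.1 (X a) ∂P| ≤ ∫ a, ‖X a‖ ∂P := by
  refine abs_integral_le_integral_abs.trans (integral_mono (integrable_test ψ.2.1 hX).abs hX.norm
    fun a => ?_)
  simpa [ψ.2.2] using test_one ψ.2.1 (X a) 0

theorem bddAbove_dev (hX : Integrable X P) (hY : Integrable Y Q) :
    BddAbove (Set.range fun ψ : LTest d => |(∫ a, ψ.1 (X a) ∂P) - ∫ b, ψ.1 (Y b) ∂Q|) := by
  refine ⟨(∫ a, ‖X a‖ ∂P) + ∫ b, ‖Y b‖ ∂Q, ?_⟩
  rintro _ ⟨ψ, rfl⟩
  exact (abs_sub _ _).trans (add_le_add (abs_test_integral_le hX ψ) (abs_test_integral_le hY ψ))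

omit [IsProbabilityMeasure P] [IsProbabilityMeasure Q] in
theorem devW_le {e : ℝ} (h : Close P X Q Y e) : devW P X Q Y ≤ e :=
  Real.iSup_le (fun ψ => h.le ψ.1 ψ.2.1) h.nonneg

theorem close_devW (hX : Integrable X P) (hY : Integrable Y Q) :
    Close P X Q Y (devW P X Q Y) := by
  refine ⟨hX, hY, fun ψ hψ => ?_⟩
  have h0 : LipschitzWith 1 fun x => ψ x - ψ 0 := lip_of_le fun a b => by
    simpa using test_one hψ a b
  have h := le_ciSup (bddAbove_dev hX hY) (⟨fun x => ψ x - ψ 0, h0, sub_self _⟩ : LTest d)
  simp only [integral_sub (integrable_test hψ hX) (integrable_const _),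
    integral_sub (integrable_test hψ hY) (integrable_const _), integral_const, probReal_univ,
    one_smul, sub_sub_sub_cancel_right] at h
  exact h

/-- Coupled perturbations of both sides. -/
theorem devW_perturb {X' : α → Space d} {Y' : β → Space d} (hX : Integrable X P)
    (hY : Integrable Y Q) (hX' : Integrable X' P) (hY' : Integrable Y' Q) :
    devW P X' Q Y' ≤ devW P X Q Y + ((∫ a, ‖X' a - X a‖ ∂P) + ∫ b, ‖Y b - Y' b‖ ∂Q) :=
  devW_le (((Close.of_coupled hX' hX le_rfl).trans ((close_devW hX hY).trans
    (Close.of_coupled hY hY' le_rfl))).mono (le_of_eq (by ring)))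

omit [IsProbabilityMeasure P] [IsProbabilityMeasure Q] in
theorem Close.of_eq {α' : Type} [MeasurableSpace α'] {P' : Measure α'} [IsProbabilityMeasure P']
    {X' : α' → Space d} (hX : Integrable X P) (hm : Measurable X) (hm' : Measurable X')
    (h : P.map X = P'.map X') : Close P X P' X' 0 := by
  have hid : Integrable (fun x : Space d => x) (P'.map X') := by
    rw [← h]
    exact (integrable_map_measure measurable_id.aestronglyMeasurable hm.aemeasurable).2 hX
  refine ⟨hX, (integrable_map_measure measurable_id.aestronglyMeasurable hm'.aemeasurable).1 hid,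
    fun ψ hψ => ?_⟩
  rw [← integral_map hm.aemeasurable hψ.continuous.aestronglyMeasurable,
    ← integral_map hm'.aemeasurable hψ.continuous.aestronglyMeasurable, h, sub_self, abs_zero]

/-- A Lipschitz function under close laws. -/
theorem Close.integral_le {e : ℝ} (h : Close P X Q Y e) {f : Space d → ℝ} {L : ℝ} (hL : 0 ≤ L)
    (hf : ∀ a b, |f a - f b| ≤ L * ‖a - b‖) :
    Integrable (fun a => f (X a)) P ∧ ∫ a, f (X a) ∂P ≤ (∫ b, f (Y b) ∂Q) + L * e := by
  lift L to ℝ≥0 using hL
  have hl : LipschitzWith L f := lip_of_le fun a b => by rw [Real.norm_eq_abs]; exact hf a b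
  exact ⟨integrable_test hl h.intX, by linarith [(abs_le.1 (h.scaled hl)).2]⟩

/-! ### Gaussian laws -/

/-- A centred Gaussian vector with quadratic form `q`. -/
def Gau (μ : Measure α) (X : α → Space d) (q : Space d → ℝ) : Prop :=
  Measurable X ∧ ∀ t : Space d,
    ∫ a, Complex.exp ((⟪t, X a⟫ : ℝ) * Complex.I) ∂μ = Complex.exp ((-(q t) / 2 : ℝ) : ℂ)

theorem gau_id : Gau (gam d) (fun z => z) (fun t => ‖t‖ ^ 2) := by
  refine ⟨measurable_id, fun t => ?_⟩
  have h := charFun_stdGaussian (E := Space d) t
  rw [charFun_apply] at h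
  simp only [real_inner_comm _ t]
  rw [h]
  congr 1
  push_cast
  ring

omit [IsProbabilityMeasure P] in
theorem Gau.congr {q q' : Space d → ℝ} (h : Gau P X q) (e : ∀ t, q t = q' t) : Gau P X q' :=
  ⟨h.1, fun t => by rw [h.2 t, e t]⟩

omit [IsProbabilityMeasure P] in
theorem Gau.clm {q : Space d → ℝ} (h : Gau P X q) (M : Space d →L[ℝ] Space d) :
    Gau P (fun a => M (X a)) fun t => q (ContinuousLinearMap.adjoint M t) :=
  ⟨M.continuous.measurable.comp h.1, fun t => by
    simp only [← ContinuousLinearMap.adjoint_inner_left]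
    exact h.2 _⟩

omit [IsProbabilityMeasure P] in
theorem Gau.smul {q : Space d → ℝ} (h : Gau P X q) (c : ℝ) :
    Gau P (fun a => c • X a) fun t => q (c • t) :=
  ⟨h.1.const_smul c, fun t => by
    simp only [real_inner_smul_right, ← real_inner_smul_left]
    exact h.2 _⟩

/-- Independent sums. -/
theorem Gau.add {q q' : Space d → ℝ} (h : Gau P X q) (h' : Gau Q Y q') :
    Gau (P.prod Q) (fun p => X p.1 + Y p.2) fun t => q t + q' t := by
  refine ⟨(h.1.comp measurable_fst).add (h'.1.comp measurable_snd), fun t => ?_⟩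
  simp only [inner_add_right, Complex.ofReal_add, add_mul, Complex.exp_add]
  rw [integral_prod_mul (fun a => Complex.exp ((⟪t, X a⟫ : ℝ) * Complex.I))
    (fun b => Complex.exp ((⟪t, Y b⟫ : ℝ) * Complex.I)), h.2 t, h'.2 t, ← Complex.exp_add]
  congr 1
  push_cast
  ring

omit [IsProbabilityMeasure P] in
theorem Gau.comp {q : Space d → ℝ} (h : Gau P X q) {P' : Measure γ} {f : γ → α}
    (hf : MeasurePreserving f P' P) : Gau P' (fun a => X (f a)) q := by
  refine ⟨h.1.comp hf.measurable, fun t => ?_⟩
  rw [← h.2 t, ← hf.map_eq, integral_map hf.measurable.aemeasurable]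
  exact (by
    have := h.1
    fun_prop : Measurable fun a => Complex.exp ((⟪t, X a⟫ : ℝ) * Complex.I)).aestronglyMeasurable

theorem Gau.map_eq {q : Space d → ℝ} (h : Gau P X q) (h' : Gau Q Y q) : P.map X = Q.map Y := by
  have := Measure.isProbabilityMeasure_map (μ := P) h.1.aemeasurable
  have := Measure.isProbabilityMeasure_map (μ := Q) h'.1.aemeasurable
  refine Measure.ext_of_charFun (funext fun t => ?_)
  rw [charFun_apply, charFun_apply, integral_map h.1.aemeasurable (by fun_prop),
    integral_map h'.1.aemeasurable (by fun_prop)]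
  simp only [real_inner_comm t]
  rw [h.2 t, h'.2 t]

/-- A Gaussian vector with covariance nearly a multiple of the identity. -/
theorem Gau.close_std (hd : 1 ≤ d) {q : Space d → ℝ} (h : Gau P X q) (hi : Integrable X P) (σ : ℝ)
    (G : Space d →L[ℝ] Space d)
    (hq : ∀ t, q t = σ ^ 2 * ‖t‖ ^ 2 + ‖ContinuousLinearMap.adjoint G t‖ ^ 2) :
    Close P X (gam d) (fun z => σ • z) (‖G‖ * (2 * d)) := by
  have h2 : Gau ((gam d).prod (gam d)) (fun p => σ • p.1 + G p.2) q :=
    ((gau_id.smul σ).add (gau_id.clm G)).congr fun t => by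
      rw [hq t, norm_smul, mul_pow, Real.norm_eq_abs, sq_abs]
  have hid : Integrable (fun z : Space d => z) (gam d) := IsGaussian.integrable_id
  have hσ : Integrable (fun z : Space d => σ • z) (gam d) := hid.smul σ
  have i1 : Integrable (fun p : Space d × Space d => σ • p.1) ((gam d).prod (gam d)) :=
    (hid.smul σ).comp_fst _
  have i2 : Integrable (fun p : Space d × Space d => G p.2) ((gam d).prod (gam d)) :=
    (G.integrable_comp hid).comp_snd _
  have i3 : Integrable (fun p : Space d × Space d => σ • p.1 + G p.2) ((gam d).prod (gam d)) :=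
    i1.add i2
  have c1 := (Close.of_eq hi h.1 h2.1 (h.map_eq h2)).trans
    (Close.of_coupled (e := ‖G‖ * (2 * d)) i3 i1 ?_)
  · have hfst : MeasurePreserving (Prod.fst : Space d × Space d → Space d)
        ((gam d).prod (gam d)) (gam d) := measurePreserving_fst
    have c2 := ((Close.refl hσ).comp_left hfst)
    simpa using c1.trans c2
  · simp only [add_sub_cancel_left]
    refine (integral_mono i2.norm ((integrable_norm_gam.comp_snd (gam d)).const_mul ‖G‖)
      fun p => G.le_opNorm p.2).trans ?_
    rw [integral_const_mul, integral_fun_snd (f := fun z : Space d => ‖z‖), probReal_univ, one_smul]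
    exact mul_le_mul_of_nonneg_left (gam_norm_le muBasic momentMu hd) (norm_nonneg G)

/-! ### Index sets -/

theorem mp_inj {ι κ : Type} [Fintype ι] [Fintype κ] {σ : κ → ι} (hσ : Injective σ) :
    MeasurePreserving (fun (A : ι → Space d) k => A (σ k)) (gp ι d) (gp κ d) := by
  classical
  let e : κ ≃ {i // ∃ k, σ k = i} := Equiv.ofBijective (fun k => ⟨σ k, k, rfl⟩)
    ⟨fun a b h => hσ (congrArg Subtype.val h), fun i => i.2.elim fun k hk => ⟨k, Subtype.ext hk⟩⟩
  have h0 := measurePreserving_piEquivPiSubtypeProd (α := fun _ : ι => Space d) (fun _ => gam d)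
    (fun i => ∃ k, σ k = i)
  have h1 : MeasurePreserving (fun (A : ι → Space d) (i : {i // ∃ k, σ k = i}) => A i) (gp ι d)
      (gp {i // ∃ k, σ k = i} d) := measurePreserving_fst.comp h0
  have h2 := measurePreserving_piCongrLeft (α := fun _ : κ => Space d) (fun _ => gam d) e.symm
  refine cast (congrArg (fun f => MeasurePreserving f _ _) (funext fun A => funext fun k => ?_))
    (h2.comp h1)
  have hk := Equiv.piCongrLeft_apply_apply (fun _ : κ => Space d) e.symm
    (fun i : {i // ∃ k, σ k = i} => A i) (e k)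
  rw [e.symm_apply_apply] at hk
  rw [show ((e k).1 : ι) = σ k from rfl] at hk
  simpa only [Function.comp_apply, MeasurableEquiv.coe_piCongrLeft] using hk

theorem mp_option {ι : Type} [Fintype ι] :
    MeasurePreserving (fun p : (ι → Space d) × Space d => fun o : Option ι => o.elim p.2 p.1)
      ((gp ι d).prod (gam d)) (gp (Option ι) d) := by
  refine ⟨measurable_pi_lambda _ fun o => by cases o <;> simp only [Option.elim] <;> fun_prop, ?_⟩
  have h := Measure.pi_map_piOptionEquivProd (β := fun _ : Option ι => Space d) fun _ => gam d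
  refine (congrArg (fun f => Measure.map f _) (funext fun p => funext fun o => ?_)).trans h
  cases o <;> rfl

theorem mp_update {ι : Type} [Fintype ι] [DecidableEq ι] (l : ι) :
    MeasurePreserving (fun p : (ι → Space d) × Space d => update p.1 l p.2)
      ((gp ι d).prod (gam d)) (gp ι d) := by
  have hinj : Injective fun j : ι => if j = l then none else some j := by
    intro a b h
    by_cases ha : a = l <;> by_cases hb : b = l <;> simp_all
  refine cast (congrArg (fun f => MeasurePreserving f _ _) (funext fun p => funext fun j => ?_))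
    ((mp_inj hinj).comp (mp_option (d := d) (ι := ι)))
  by_cases hj : j = l <;> simp [hj, update]

theorem mp_sum (ι₁ ι₂ : Type) [Fintype ι₁] [Fintype ι₂] :
    MeasurePreserving (fun A : ι₁ ⊕ ι₂ → Space d => (fun i => A (.inl i), fun j => A (.inr j)))
      (gp (ι₁ ⊕ ι₂) d) ((gp ι₁ d).prod (gp ι₂ d)) :=
  measurePreserving_sumPiEquivProdPi (X := fun _ : ι₁ ⊕ ι₂ => Space d) fun _ => gam d

end Vale.Agent.P347.Zero
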