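import Vale.Agent.P347.Zero.ProductBase
import Vale.Agent.P347.Oracle

/-!
The isotropising recursion: from programs of a linear map and of its adjoint, a program whose law is
nearly Gaussian with a multiple of the identity less the square of the map as covariance.
-/

noncomputable section

open MeasureTheory ProbabilityTheory Function
open scoped RealInnerProductSpace NNReal

namespace Vale.Agent.P347.Zero

variable {d : ℕ} {κ : Type}

/-- The seeds of the recursion. -/
def IsoI (κ : Type) : ℕ → Type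
  | 0 => Unit
  | n + 1 => (Unit ⊕ κ ⊕ κ) ⊕ IsoI κ n

/-- The seeds are finitely many. -/
@[instance_reducible] def isoFin (κ : Type) [Fintype κ] : ∀ n, Fintype (IsoI κ n)
  | 0 => inferInstanceAs (Fintype Unit)
  | n + 1 =>
    let _ := isoFin κ n
    inferInstanceAs (Fintype ((Unit ⊕ κ ⊕ κ) ⊕ IsoI κ n))

instance (κ : Type) [Fintype κ] (n : ℕ) : Fintype (IsoI κ n) := isoFin κ n

/-- The variances of the recursion. -/
def isoA : ℕ → ℝ
  | 0 => 1
  | n + 1 => ((2 + isoA n) / 2) ^ 2 + (1 + isoA n)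

theorem one_le_isoA : ∀ n, 1 ≤ isoA n
  | 0 => le_rfl
  | n + 1 => by
    have := one_le_isoA n
    rw [isoA]
    nlinarith [sq_nonneg ((2 + isoA n) / 2)]

/-- The scale of a step. -/
def isoV (n : ℕ) : ℝ := Real.sqrt (1 + isoA n)

theorem one_le_isoV (n : ℕ) : 1 ≤ isoV n :=
  Real.one_le_sqrt.2 (by linarith [one_le_isoA n])

theorem isoV_pos (n : ℕ) : 0 < isoV n := lt_of_lt_of_le one_pos (one_le_isoV n)

theorem isoV_sq (n : ℕ) : isoV n ^ 2 = 1 + isoA n :=
  Real.sq_sqrt (by linarith [one_le_isoA n])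

/-- Programs of a map and of its adjoint. -/
abbrev IsoPrg (d : ℕ) (κ : Type) := Bool → Space d → (κ → Space d) → Space d

/-- The seeds of one step: its own, the two programs' and the rest. -/
def isoPrep (n : ℕ) (ω : IsoI κ (n + 1) → Space d) :
    Space d × ((IsoI κ n → Space d) × (κ → Space d)) × (κ → Space d) :=
  (ω (.inl (.inl ())), (fun i => ω (.inr i), fun k => ω (.inl (.inr (.inl k)))),
    fun k => ω (.inl (.inr (.inr k))))

/-- The recursion. -/
def isoP (P : IsoPrg d κ) : (n : ℕ) → Bool → (IsoI κ n → Space d) → Space d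
  | 0, _, ω => ω ()
  | n + 1, b, ω =>
      ((2 + isoA n) / 2) • (isoPrep n ω).1 + isoV n • P b ((isoV n)⁻¹ •
        (isoP P n (!b) (isoPrep n ω).2.1.1 - P (!b) (isoPrep n ω).1 (isoPrep n ω).2.1.2))
        (isoPrep n ω).2.2

/-! ### Queries and regularity -/

/-- The queries of the recursion. -/
def isoQ (q : ℕ) : ℕ → ℕ
  | 0 => 0
  | n + 1 => isoQ q n + q + q

theorem isoQ_eq (q : ℕ) : ∀ n, isoQ q n = 2 * n * q
  | 0 => by simp [isoQ]
  | n + 1 => by rw [isoQ, isoQ_eq q n]; ring

theorem computes_isoP [Fintype κ] {Γ : Type} [MeasurableSpace Γ] {q : ℕ}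
    {P : (Space d → Space d) → Γ → IsoPrg d κ}
    (hP : ∀ b, Computes q (fun G (z : Γ × Space d × (κ → Space d)) => P G z.1 b z.2.1 z.2.2)) :
    ∀ (n : ℕ) (b : Bool),
      Computes (isoQ q n) (fun G (z : Γ × (IsoI κ n → Space d)) => isoP (P G z.1) n b z.2)
  | 0, b => Computes.of_measurable (f := fun z : Γ × (IsoI κ 0 → Space d) => z.2 ()) (by fun_prop)
  | n + 1, b => by
    have hpr : Measurable (isoPrep (d := d) (κ := κ) n) := by unfold isoPrep; fun_prop
    have h1 := (computes_isoP hP n (!b)).comp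
      (f := fun z : (Γ × (IsoI κ (n + 1) → Space d)) => (z.1, (isoPrep n z.2).2.1.1)) (by fun_prop)
    have h2 := (hP (!b)).comp
      (f := fun x : (Γ × (IsoI κ (n + 1) → Space d)) × Space d => (x.1.1, (isoPrep n x.1.2).1, (isoPrep n x.1.2).2.1.2))
      (by fun_prop)
    have h3 := (hP b).comp (f := fun x : ((Γ × (IsoI κ (n + 1) → Space d)) × Space d) × Space d =>
      (x.1.1.1, (isoV n)⁻¹ • (x.1.2 - x.2), (isoPrep n x.1.1.2).2.2)) (by fun_prop)
    have h4 := (h1.bind ((h2.map (f := fun x : ((Γ × (IsoI κ (n + 1) → Space d)) × Space d) × Space d => (x.1.2, x.2))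
      (by fun_prop)))).bind (((hP b).comp (f := fun x : (Γ × (IsoI κ (n + 1) → Space d)) × (Space d × Space d) =>
      (x.1.1, (isoV n)⁻¹ • (x.2.1 - x.2.2), (isoPrep n x.1.2).2.2)) (by fun_prop)).map
        (f := fun x : ((Γ × (IsoI κ (n + 1) → Space d)) × (Space d × Space d)) × Space d =>
          ((2 + isoA n) / 2) • (isoPrep n x.1.1.2).1 + isoV n • x.2) (by fun_prop))
    exact h4.congr fun G z => rfl

theorem lip_pi {α ι : Type} [PseudoEMetricSpace α] [Fintype ι] {E : ι → Type}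
    [∀ i, PseudoEMetricSpace (E i)] {f : α → ∀ i, E i} {K : ℝ≥0}
    (h : ∀ i, LipschitzWith K fun a => f a i) : LipschitzWith K f :=
  fun a a' => edist_pi_le_iff.2 fun i => h i a a'

theorem exists_lip_isoP [Fintype κ] {Γ : Type} [PseudoMetricSpace Γ] {P : Γ → IsoPrg d κ}
    (hP : ∀ b, ∃ L : ℝ≥0, LipschitzWith L
      fun z : Γ × Space d × (κ → Space d) => P z.1 b z.2.1 z.2.2) :
    ∀ (n : ℕ) (b : Bool), ∃ L : ℝ≥0, LipschitzWith L
      fun z : Γ × (IsoI κ n → Space d) => isoP (P z.1) n b z.2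
  | 0, b => ⟨1 * 1, (LipschitzWith.eval ()).comp LipschitzWith.prod_snd⟩
  | n + 1, b => by
    obtain ⟨L1, h1⟩ := exists_lip_isoP hP n (!b)
    obtain ⟨L2, h2⟩ := hP (!b)
    obtain ⟨L3, h3⟩ := hP b
    have hev : ∀ i : IsoI κ (n + 1), LipschitzWith 1 fun z : (Γ × (IsoI κ (n + 1) → Space d)) => z.2 i := fun i =>
      ((LipschitzWith.eval i).comp LipschitzWith.prod_snd).weaken (by norm_num)
    have hr : LipschitzWith 1 fun z : (Γ × (IsoI κ (n + 1) → Space d)) => (isoPrep n z.2).2.1.1 :=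
      lip_pi fun i => hev _
    have hs1 : LipschitzWith 1 fun z : (Γ × (IsoI κ (n + 1) → Space d)) => (isoPrep n z.2).2.1.2 :=
      lip_pi fun i => hev _
    have hs2 : LipschitzWith 1 fun z : (Γ × (IsoI κ (n + 1) → Space d)) => (isoPrep n z.2).2.2 :=
      lip_pi fun i => hev _
    have hz : LipschitzWith 1 fun z : (Γ × (IsoI κ (n + 1) → Space d)) => (isoPrep n z.2).1 := hev _
    have e1 := h1.comp (LipschitzWith.prod_fst.prodMk hr)
    have e2 := h2.comp (LipschitzWith.prod_fst.prodMk (hz.prodMk hs1))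
    have e3 := (lipschitzWith_smul (β := Space d) ((isoV n)⁻¹)).comp (e1.sub e2)
    have e4 := (lipschitzWith_smul (β := Space d) (isoV n)).comp
      (h3.comp (LipschitzWith.prod_fst.prodMk (e3.prodMk hs2)))
    exact ⟨_, ((lipschitzWith_smul (β := Space d) ((2 + isoA n) / 2)).comp hz).add e4⟩

/-- The amplification of a change of parameters. -/
def isoC : ℕ → ℝ
  | 0 => 0
  | n + 1 => isoV n * (2 + isoC n)

theorem isoC_nonneg : ∀ n, 0 ≤ isoC n
  | 0 => le_rfl
  | n + 1 => mul_nonneg (isoV_pos n).le (by linarith [isoC_nonneg n])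

theorem isoP_sens {P P' : IsoPrg d κ} {L δ : ℝ} (hL : 0 ≤ L) (hL1 : L ≤ 1) (hδ : 0 ≤ δ)
    (h : ∀ b v v' ω, ‖P b v ω - P' b v' ω‖ ≤ L * (δ + ‖v - v'‖)) :
    ∀ n b ω, ‖isoP P n b ω - isoP P' n b ω‖ ≤ isoC n * (L * δ)
  | 0, b, ω => by simp [isoP, isoC]
  | n + 1, b, ω => by
    have hν := isoV_pos n
    simp only [isoP]
    rw [add_sub_add_left_eq_sub, ← smul_sub, norm_smul, Real.norm_eq_abs, abs_of_pos hν, isoC,
      mul_assoc]
    refine mul_le_mul_of_nonneg_left ((h _ _ _ _).trans ?_) hν.le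
    rw [← smul_sub, norm_smul, norm_inv, Real.norm_eq_abs, abs_of_pos hν]
    have h1 := isoP_sens hL hL1 hδ h n (!b) (isoPrep n ω).2.1.1
    have h2 := h (!b) (isoPrep n ω).1 (isoPrep n ω).1 (isoPrep n ω).2.1.2
    rw [sub_self, norm_zero, add_zero] at h2
    have h3 : ∀ x : ℝ, 0 ≤ x → (isoV n)⁻¹ * x ≤ x := fun x hx =>
      mul_le_of_le_one_left hx (inv_le_one_of_one_le₀ (one_le_isoV n))
    refine (mul_le_mul_of_nonneg_left (add_le_add le_rfl ((h3 _ (norm_nonneg _)).trans ?_)) hL).trans_eq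
      (show L * (δ + (isoC n * δ + δ)) = (2 + isoC n) * (L * δ) by ring)
    rw [sub_sub_sub_comm]
    exact (norm_sub_le _ _).trans (add_le_add
      (h1.trans (mul_le_mul_of_nonneg_left (mul_le_of_le_one_left hδ hL1) (isoC_nonneg n)))
      (h2.trans (mul_le_of_le_one_left hδ hL1)))

/-! ### The exact recursion -/

/-- The exact programs of a pair of maps. -/
def linIso (M : Bool → Space d →L[ℝ] Space d) : IsoPrg d Unit := fun b v ω => M b v + ω ()

/-- The factor of what is left over. -/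
def isoG (M : Bool → Space d →L[ℝ] Space d) : ℕ → Bool → Space d →L[ℝ] Space d
  | 0, b => M b
  | n + 1, b => M b ∘L isoG M n (!b)

theorem norm_isoG_le {M : Bool → Space d →L[ℝ] Space d} {Λ : ℝ} (hM : ∀ b, ‖M b‖ ≤ Λ) :
    ∀ n b, ‖isoG M n b‖ ≤ Λ ^ (n + 1)
  | 0, b => by simpa [isoG] using hM b
  | n + 1, b => by
    rw [pow_succ' Λ (n + 1), isoG]
    exact (ContinuousLinearMap.opNorm_comp_le _ _).trans
      (mul_le_mul (hM b) (norm_isoG_le hM n _) (norm_nonneg _) ((norm_nonneg _).trans (hM b)))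

theorem integrable_lip {E : Type} [NormedAddCommGroup E] [MeasurableSpace E]
    [SecondCountableTopology E] [BorelSpace E] {μ : Measure E} [IsFiniteMeasure μ]
    (hid : Integrable (fun x => x) μ) {f : E → Space d} {L : ℝ≥0} (hf : LipschitzWith L f) :
    Integrable f μ :=
  ((integrable_const ‖f 0‖).add (hid.norm.const_mul (L : ℝ))).mono' hf.continuous.aestronglyMeasurable
    (ae_of_all _ fun x => by
      simp only [Pi.add_apply]
      linarith [norm_le_norm_add_norm_sub' (f x) (f 0), hf.norm_sub_le x 0,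
        congrArg (fun r => (L : ℝ) * ‖r‖) (sub_zero x)])

theorem int_id_gp (ι : Type) [Fintype ι] (d : ℕ) :
    Integrable (fun x : ι → Space d => x) (gp ι d) :=
  Integrable.of_eval fun i => (measurePreserving_eval (fun _ : ι => gam d) i).integrable_comp_of_integrable
    IsGaussian.integrable_id

variable [Fintype κ]

theorem mp_isoPrep (n : ℕ) :
    MeasurePreserving (isoPrep (d := d) (κ := κ) n) (gp (IsoI κ (n + 1)) d)
      ((gam d).prod (((gp (IsoI κ n) d).prod (gp κ d)).prod (gp κ d))) := by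
  have h1 : MeasurePreserving (fun A : (Unit ⊕ κ ⊕ κ) ⊕ IsoI κ n → Space d =>
      (fun i => A (.inl i), fun j => A (.inr j))) (gp (IsoI κ (n + 1)) d)
      ((gp (Unit ⊕ κ ⊕ κ) d).prod (gp (IsoI κ n) d)) := mp_sum _ _
  have h2 := ((measurePreserving_eval (fun _ : Unit => gam d) ()).prod (mp_sum (d := d) κ κ)).comp
    (mp_sum (d := d) Unit (κ ⊕ κ))
  have h3 := (h2.prod (MeasurePreserving.id (gp (IsoI κ n) d))).comp h1
  have h4 := (measurePreserving_prodAssoc (gam d) ((gp κ d).prod (gp κ d)) (gp (IsoI κ n) d)).comp h3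
  have h5 : MeasurePreserving (fun x : ((κ → Space d) × (κ → Space d)) × (IsoI κ n → Space d) =>
      ((x.2, x.1.1), x.1.2)) (((gp κ d).prod (gp κ d)).prod (gp (IsoI κ n) d))
      (((gp (IsoI κ n) d).prod (gp κ d)).prod (gp κ d)) :=
    ((MeasurePreserving.symm _ (measurePreserving_prodAssoc (gp (IsoI κ n) d) (gp κ d) (gp κ d))).comp
      Measure.measurePreserving_swap)
  exact ((MeasurePreserving.id (gam d)).prod h5).comp h4

theorem gau_iso {M : Bool → Space d →L[ℝ] Space d}
    (hM : ∀ b, ContinuousLinearMap.adjoint (M b) = M (!b)) :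
    ∀ n b, Gau (gp (IsoI Unit n) d) (isoP (linIso M) n b) fun t =>
      isoA n * ‖t‖ ^ 2 - ‖M (!b) t‖ ^ 2 + ‖ContinuousLinearMap.adjoint (isoG M n b) t‖ ^ 2
  | 0, b => ((gau_id.comp (measurePreserving_eval (fun _ : Unit => gam d) ())).congr fun t => by
      simp [isoA, isoG, hM b])
  | n + 1, b => by
    have ih := gau_iso hM n (!b)
    set A := ((2 + isoA n) / 2) • ContinuousLinearMap.id ℝ (Space d) - M b ∘L M (!b) with hA
    have hneg := (gau_id (d := d)).comp (measurePreserving_eval (fun _ : Unit => gam d) ())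
    have h1 := ((ih.add (hneg.smul (-1))).clm (M b)).add (hneg.smul (isoV n))
    have h2 := ((gau_id.clm A).add h1).comp (mp_isoPrep (κ := Unit) n)
    refine cast (congrArg (fun X => Gau _ X _) ?_) (h2.congr fun t => ?_)
    · funext ω
      simp only [isoP, linIso, hA, map_add, map_sub, map_smul, _root_.sub_apply,
        _root_.smul_apply, ContinuousLinearMap.id_apply,
        ContinuousLinearMap.comp_apply, smul_add, smul_sub, smul_smul,
        mul_inv_cancel₀ (isoV_pos n).ne', one_smul, neg_smul, map_neg]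
      abel
    · simp only [isoG, ContinuousLinearMap.adjoint_comp, hM b, Bool.not_not,
        ContinuousLinearMap.comp_apply, norm_smul, mul_pow, Real.norm_eq_abs, sq_abs]
      have e : ContinuousLinearMap.adjoint A t = ((2 + isoA n) / 2) • t - M b (M (!b) t) := by
        refine ext_inner_right ℝ fun v => ?_
        rw [ContinuousLinearMap.adjoint_inner_left]
        simp only [hA, _root_.sub_apply, _root_.smul_apply,
          ContinuousLinearMap.id_apply, ContinuousLinearMap.comp_apply, inner_sub_left,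
          inner_sub_right, real_inner_smul_left, real_inner_smul_right]
        congr 1
        have hM' : ContinuousLinearMap.adjoint (M (!b)) = M b := by simpa using hM (!b)
        rw [← ContinuousLinearMap.adjoint_inner_left, hM b, ← ContinuousLinearMap.adjoint_inner_left,
          hM']
      have hi : ⟪t, M b (M (!b) t)⟫ = ‖M (!b) t‖ ^ 2 := by
        rw [← ContinuousLinearMap.adjoint_inner_left, hM b, real_inner_self_eq_norm_sq]
      rw [e, norm_sub_sq_real, norm_smul, real_inner_smul_left, hi, mul_pow, Real.norm_eq_abs,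
        sq_abs, isoV_sq, isoA]
      ring

theorem lip_sec {E F G : Type} [PseudoEMetricSpace E] [PseudoEMetricSpace F]
    [PseudoEMetricSpace G] {f : E → F → G} {L : ℝ≥0}
    (h : LipschitzWith L fun z : E × F => f z.1 z.2) (u : E) : LipschitzWith L (f u) :=
  fun a b => (h (u, a) (u, b)).trans (le_of_eq (by simp [Prod.edist_eq]))

/-- A section of a Lipschitz program is integrable. -/
theorem int_sec {P : Space d → (κ → Space d) → Space d}
    (hP : ∃ Λ : ℝ≥0, LipschitzWith Λ fun z : Space d × (κ → Space d) => P z.1 z.2) (v : Space d) :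
    Integrable (P v) (gp κ d) := by
  obtain ⟨Λ, h⟩ := hP
  exact integrable_lip (int_id_gp κ d) (lip_sec h v)

theorem devW_lip {P : Space d → (κ → Space d) → Space d} {M : Space d →L[ℝ] Space d} {L : ℝ}
    {Λ : ℝ≥0} (hP : LipschitzWith Λ fun z : Space d × (κ → Space d) => P z.1 z.2)
    (hL : ∀ v v' ω, ‖P v ω - P v' ω‖ ≤ L * ‖v - v'‖) (v v' : Space d) :
    |devW (gp κ d) (P v) (gam d) (fun z => M v + z) - devW (gp κ d) (P v') (gam d) fun z => M v' + z|
      ≤ (L + ‖M‖) * ‖v - v'‖ := by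
  have hi : ∀ u, Integrable (P u) (gp κ d) := fun u =>
    int_sec ⟨Λ, hP⟩ u
  have hj : ∀ u, Integrable (fun z => M u + z) (gam d) := fun u =>
    (integrable_const _).add IsGaussian.integrable_id
  have key : ∀ u u', devW (gp κ d) (P u') (gam d) (fun z => M u' + z)
      ≤ devW (gp κ d) (P u) (gam d) (fun z => M u + z) + (L + ‖M‖) * ‖u - u'‖ := fun u u' => by
    refine (devW_perturb (hi u) (hj u) (hi u') (hj u')).trans (add_le_add le_rfl ?_)
    rw [add_mul]
    refine add_le_add ((integral_mono_of_nonneg (ae_of_all _ fun _ => norm_nonneg _)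
      (integrable_const (L * ‖u - u'‖)) (ae_of_all _ fun ω => ?_)).trans_eq (by simp)) ?_
    · rw [norm_sub_rev u u']; exact hL u' u ω
    · simp only [add_sub_add_right_eq_sub, integral_const, probReal_univ, one_smul, ← map_sub]
      exact M.le_opNorm _
  rw [abs_le]
  constructor
  · linarith [key v v']
  · have := key v' v
    rw [norm_sub_rev v' v] at this
    linarith

/-- The standard deviation of a program of a linear map. -/
def devD (P : Space d → (κ → Space d) → Space d) (M : Space d →L[ℝ] Space d) : ℝ :=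
  ∫ v, devW (gp κ d) (P v) (gam d) (fun z => M v + z) ∂gam d

theorem devD_nonneg (P : Space d → (κ → Space d) → Space d) (M : Space d →L[ℝ] Space d) :
    0 ≤ devD P M := integral_nonneg fun _ => devW_nonneg

/-- The constant of the recursion. -/
def isoE : ℕ → ℝ
  | 0 => 0
  | n + 1 => 1 + 2 * isoE n + 5 * isoV n

theorem isoE_nonneg : ∀ n, 0 ≤ isoE n
  | 0 => le_rfl
  | n + 1 => by rw [isoE]; linarith [isoE_nonneg n, isoV_pos n]

/-- The error of the recursion. -/
def isoErr (P : IsoPrg d κ) (M : Bool → Space d →L[ℝ] Space d) (L : Bool → ℝ) (Λ : ℝ) (n : ℕ)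
    (b : Bool) : ℝ :=
  isoE n * (devD (P b) (M b) + L b * (devD (P b) (M b) + devD (P (!b)) (M (!b)))
    + d * Λ ^ (n + 1))

theorem arith_step {E0 ν L L' Db Dn d Λ s w EU : ℝ} {k : ℕ} (hE : 0 ≤ E0) (hν : 0 ≤ ν) (hL : 0 ≤ L)
    (hL1 : L' ≤ 1) (hLΛ : L ≤ Λ) (hsΛ : s ≤ 2 * Λ) (hd : 0 ≤ d) (hDb : 0 ≤ Db)
    (hDn : 0 ≤ Dn) (hw : w = Λ ^ k * (2 * d)) (hEU : EU ≤ Db + s * w) :
    L * (E0 * (Dn + L' * (Dn + Db) + d * Λ ^ k) + Dn) + ν * EU
      ≤ (1 + 2 * E0 + 5 * ν) * (Db + L * (Db + Dn) + d * Λ ^ (k + 1)) := by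
  subst hw
  have hΛ : 0 ≤ Λ := hL.trans hLΛ
  have hp : 0 ≤ d * Λ ^ k := by positivity
  have e : d * Λ ^ (k + 1) = Λ * (d * Λ ^ k) := by ring
  have a1 : L * (d * Λ ^ k) ≤ Λ * (d * Λ ^ k) := mul_le_mul_of_nonneg_right hLΛ hp
  have a2 : s * (Λ ^ k * (2 * d)) ≤ 4 * (Λ * (d * Λ ^ k)) := by
    refine (mul_le_mul_of_nonneg_right hsΛ (by positivity)).trans_eq ?_
    ring
  have a3 : L' * (Dn + Db) ≤ Dn + Db := mul_le_of_le_one_left (add_nonneg hDn hDb) hL1
  have a4 := mul_le_mul_of_nonneg_left a3 hL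
  have a5 : 0 ≤ L * (Db + Dn) := mul_nonneg hL (add_nonneg hDb hDn)
  have a6 : 0 ≤ Λ * (d * Λ ^ k) := mul_nonneg hΛ hp
  have a7 := mul_le_mul_of_nonneg_left (hEU.trans (add_le_add le_rfl a2)) hν
  have a8 := mul_le_mul_of_nonneg_left
    (show L * (Dn + L' * (Dn + Db) + d * Λ ^ k) ≤ 2 * (L * (Db + Dn)) + Λ * (d * Λ ^ k) by
      nlinarith [mul_nonneg hL hDb]) hE
  rw [e]
  linarith [mul_nonneg hE hDb, mul_nonneg hE a6, mul_nonneg hν a5, mul_nonneg hν hDb,
    mul_nonneg hν a6, mul_nonneg hL hDb]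

variable {P : IsoPrg d κ} {M : Bool → Space d →L[ℝ] Space d} {L : Bool → ℝ} {Λ : ℝ}

/-- The centred argument of a step. -/
def isoArg {κ : Type} (P : IsoPrg d κ) (n : ℕ) (b : Bool)
    (a : Space d × (IsoI κ n → Space d) × (κ → Space d)) : Space d :=
  (isoV n)⁻¹ • (isoP P n (!b) a.2.1 - P (!b) a.1 a.2.2)

/-- The laws of one step. -/
abbrev stepLaw (κ : Type) [Fintype κ] (d n : ℕ) :
    Measure (Space d × (IsoI κ n → Space d) × (κ → Space d)) :=
  (gam d).prod ((gp (IsoI κ n) d).prod (gp κ d))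

theorem exists_lip_linIso (M : Bool → Space d →L[ℝ] Space d) (b : Bool) :
    ∃ Λ' : ℝ≥0, LipschitzWith Λ' fun z : Space d × (Unit → Space d) => linIso M b z.1 z.2 :=
  ⟨_, ((M b).lipschitz.comp LipschitzWith.prod_fst).add
    ((LipschitzWith.eval ()).comp LipschitzWith.prod_snd)⟩

theorem exists_lip_iso₀
    (hP : ∀ b, ∃ Λ' : ℝ≥0, LipschitzWith Λ' fun z : Space d × (κ → Space d) => P b z.1 z.2)
    (n : ℕ) (b : Bool) : ∃ Λ' : ℝ≥0, LipschitzWith Λ' (isoP P n b) := by
  obtain ⟨Λ', h⟩ := exists_lip_isoP (Γ := PUnit) (P := fun _ => P) (fun b' => by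
    obtain ⟨Λ', h⟩ := hP b'
    exact ⟨_, h.comp LipschitzWith.prod_snd⟩) n b
  exact ⟨Λ', lip_sec (f := fun (_ : PUnit) ω => isoP P n b ω) h PUnit.unit⟩

theorem continuous_isoArg
    (hP : ∀ b, ∃ Λ' : ℝ≥0, LipschitzWith Λ' fun z : Space d × (κ → Space d) => P b z.1 z.2)
    (n : ℕ) (b : Bool) : Continuous (isoArg P n b) := by
  obtain ⟨Λ₁, h₁⟩ := exists_lip_iso₀ hP n (!b)
  obtain ⟨Λ₂, h₂⟩ := hP (!b)
  exact ((h₁.continuous.comp (continuous_fst.comp continuous_snd)).sub
    (h₂.continuous.comp (continuous_fst.prodMk (continuous_snd.comp continuous_snd)))).const_smul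
      ((isoV n)⁻¹ : ℝ)

/-- One step as a function of its seeds. -/
def isoStep {κ κ' : Type} (P : IsoPrg d κ) (R : IsoPrg d κ') (n : ℕ) (b : Bool)
    (p : Space d × ((IsoI κ' n → Space d) × (κ' → Space d)) × (κ → Space d)) : Space d :=
  ((2 + isoA n) / 2) • p.1 + isoV n • P b (isoArg R n b (p.1, p.2.1)) p.2.2

theorem continuous_isoStep {κ' : Type} [Fintype κ'] {R : IsoPrg d κ'}
    (hP : ∀ b, ∃ Λ' : ℝ≥0, LipschitzWith Λ' fun z : Space d × (κ → Space d) => P b z.1 z.2)
    (hR : ∀ b, ∃ Λ' : ℝ≥0, LipschitzWith Λ' fun z : Space d × (κ' → Space d) => R b z.1 z.2)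
    (n : ℕ) (b : Bool) : Continuous (isoStep P R n b) := by
  obtain ⟨Λ₁, h₁⟩ := hP b
  exact (continuous_fst.const_smul ((2 + isoA n) / 2 : ℝ)).add ((h₁.continuous.comp
    (((continuous_isoArg hR n b).comp (continuous_fst.prodMk (continuous_fst.comp continuous_snd))).prodMk
      (continuous_snd.comp continuous_snd))).const_smul (isoV n))

theorem iso_step_inner
    (hP : ∀ b, ∃ Λ' : ℝ≥0, LipschitzWith Λ' fun z : Space d × (κ → Space d) => P b z.1 z.2)
    (hL0 : ∀ b, 0 ≤ L b) (hL : ∀ b v v' ω, ‖P b v ω - P b v' ω‖ ≤ L b * ‖v - v'‖) {n : ℕ}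
    {b : Bool} {e : ℝ}
    (ih : Close (gp (IsoI κ n) d) (isoP P n (!b)) (gp (IsoI Unit n) d) (isoP (linIso M) n (!b)) e)
    (hEi : Integrable (fun ζ => devW (gp κ d) (P (!b) ζ) (gam d) fun z => M (!b) ζ + z) (gam d)) :
    Close (gp (IsoI κ (n + 1)) d) (isoP P (n + 1) b)
      ((gam d).prod (((gp (IsoI Unit n) d).prod (gp Unit d)).prod (gp κ d)))
      (isoStep P (linIso M) n b) (L b * (e + devD (P (!b)) (M (!b)))) := by
  set ν := isoV n
  set c := (2 + isoA n) / 2
  have hν0 : 0 < ν := isoV_pos n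
  set E := fun ζ => devW (gp κ d) (P (!b) ζ) (gam d) fun z => M (!b) ζ + z with hE
  obtain ⟨Λb, hPb⟩ := hP b
  have hi := fun b' v => int_sec (hP b') v
  have c2 : ∀ ζ, Close (((gp (IsoI κ n) d).prod (gp κ d)).prod (gp κ d))
      (fun p => isoStep P P n b (ζ, p))
      (((gp (IsoI Unit n) d).prod (gp Unit d)).prod (gp κ d))
      (fun p => isoStep P (linIso M) n b (ζ, p)) (L b * (e + E ζ)) := fun ζ => by
    have hdev : Close (gp κ d) (P (!b) ζ) (gp Unit d) (linIso M (!b) ζ) (E ζ) :=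
      (close_devW (hi _ ζ) ((integrable_const (M (!b) ζ)).add IsGaussian.integrable_id)).comp_right
        (measurePreserving_eval (fun _ : Unit => gam d) ())
    have hn := hdev.lmap (L := 1) (φ := fun a => -a) fun a a' => by
      rw [NNReal.coe_one, one_mul, neg_sub_neg, norm_sub_rev]
    have c1 := ih.add hn
    rw [NNReal.coe_one, one_mul] at c1
    have hi0 : Integrable (fun s => c • ζ + ν • P b 0 s) (gp κ d) :=
      (integrable_const (c • ζ)).add ((hi b 0).smul ν)
    have h := c1.bind (R := gp κ d) (L := (L b).toNNReal)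
      (K := fun a s => c • ζ + ν • P b (ν⁻¹ • a) s)
      (continuous_const.add ((hPb.continuous.comp
        ((continuous_fst.const_smul ν⁻¹).prodMk continuous_snd)).const_smul ν)).measurable
      (fun s a a' => by
        rw [add_sub_add_left_eq_sub, ← smul_sub, norm_smul, Real.norm_eq_abs, abs_of_pos hν0]
        refine (mul_le_mul_of_nonneg_left (hL b _ _ s) hν0.le).trans_eq ?_
        rw [← smul_sub, norm_smul, norm_inv, Real.norm_eq_abs, abs_of_pos hν0, Real.coe_toNNReal _ (hL0 b)]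
        field_simp)
      (by simpa only [smul_zero] using hi0)
    rw [Real.coe_toNNReal _ (hL0 b)] at h
    simp only [← sub_eq_add_neg] at h
    exact h
  obtain ⟨Λa, hΛa⟩ := exists_lip_iso₀ hP (n + 1) b
  have hacti : Integrable (isoStep P P n b)
      ((gam d).prod (((gp (IsoI κ n) d).prod (gp κ d)).prod (gp κ d))) :=
    ((mp_isoPrep n).integrable_comp (continuous_isoStep hP hP n b).aestronglyMeasurable).1
      (integrable_lip (int_id_gp (IsoI κ (n + 1)) d) hΛa)
  have c3 := Close.mix (Q := gam d) (K := fun ζ p => isoStep P P n b (ζ, p))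
    (T := fun ζ p => isoStep P (linIso M) n b (ζ, p)) hacti
    (continuous_isoStep hP (exists_lip_linIso M) n b).aestronglyMeasurable
    (ae_of_all _ c2) (((integrable_const e).add hEi).const_mul _)
  refine (c3.comp_left (mp_isoPrep n)).mono ?_
  rw [integral_const_mul, integral_add (integrable_const _) hEi, integral_const, probReal_univ,
    one_smul]
  rfl

theorem iso_step_arg (hd : 1 ≤ d) (hM : ∀ b, ContinuousLinearMap.adjoint (M b) = M (!b))
    (hMΛ : ∀ b, ‖M b‖ ≤ Λ) (n : ℕ) (b : Bool) :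
    Close (stepLaw Unit d n) (isoArg (linIso M) n b) (gam d) (fun z => z)
      (Λ ^ (n + 1) * (2 * d)) := by
  set ν := isoV n with hν
  have hν0 : 0 < ν := isoV_pos n
  have hU := (gau_id (d := d)).comp (measurePreserving_eval (fun _ : Unit => gam d) ())
  have hg : Gau (stepLaw Unit d n) (isoArg (linIso M) n b) fun t =>
      1 ^ 2 * ‖t‖ ^ 2 + ‖ContinuousLinearMap.adjoint (ν⁻¹ • isoG M n (!b)) t‖ ^ 2 := by
    have h := (((gau_id (d := d)).clm (-M (!b))).add ((gau_iso hM n (!b)).add (hU.smul (-1)))).smul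
      ν⁻¹
    refine cast (congrArg (fun Z => Gau _ Z _) ?_) (h.congr fun t => ?_)
    · funext a
      simp only [isoArg, linIso, neg_apply, smul_add, smul_sub, neg_smul,
        one_smul, smul_neg, hν]
      abel
    · have hM' : ContinuousLinearMap.adjoint (M (!b)) = M b := by simpa using hM (!b)
      simp only [map_neg, neg_apply, norm_neg, hM', map_smul, norm_smul,
        _root_.smul_apply, mul_pow, Real.norm_eq_abs, sq_abs, Bool.not_not, one_pow,
        abs_inv, abs_of_pos hν0]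
      have : ν⁻¹ ^ 2 * (1 + isoA n) = 1 := by
        rw [inv_pow, hν, ← isoV_sq]; exact inv_mul_cancel₀ (pow_ne_zero _ hν0.ne')
      linear_combination ‖t‖ ^ 2 * this
  obtain ⟨Λi, hΛi⟩ := exists_lip_iso₀ (exists_lip_linIso M) n (!b)
  have hi : Integrable (isoArg (linIso M) n b) (stepLaw Unit d n) := by
    have h1 := ((integrable_lip (int_id_gp (IsoI Unit n) d) hΛi).comp_fst (gp Unit d)).comp_snd (gam d)
    have h2 := ((M (!b)).integrable_comp (IsGaussian.integrable_id (μ := gam d))).comp_fst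
      ((gp (IsoI Unit n) d).prod (gp Unit d))
    have h3 := (((measurePreserving_eval (fun _ : Unit => gam d) ()).integrable_comp_of_integrable
      IsGaussian.integrable_id).comp_snd (gp (IsoI Unit n) d)).comp_snd (gam d)
    exact (h1.sub (h2.add h3)).smul ν⁻¹
  have hG : ‖ν⁻¹ • isoG M n (!b)‖ ≤ Λ ^ (n + 1) := by
    rw [norm_smul, norm_inv, Real.norm_eq_abs, abs_of_pos hν0]
    exact (mul_le_of_le_one_left (norm_nonneg _) (inv_le_one_of_one_le₀ (one_le_isoV n))).trans
      (norm_isoG_le hMΛ n _)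
  have h := (hg.close_std hd hi 1 _ fun t => rfl).mono (mul_le_mul_of_nonneg_right hG (by positivity))
  simpa only [one_smul] using h

theorem iso_step_outer
    (hP : ∀ b, ∃ Λ' : ℝ≥0, LipschitzWith Λ' fun z : Space d × (κ → Space d) => P b z.1 z.2)
    {n : ℕ} {b : Bool} {α : Type} [MeasurableSpace α] {A : Measure α} [IsProbabilityMeasure A]
    {X : α → Space d} {e : ℝ}
    (h : Close A X ((gam d).prod (((gp (IsoI Unit n) d).prod (gp Unit d)).prod (gp κ d)))
      (isoStep P (linIso M) n b) e)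
    (hE : Integrable (fun a => devW (gp κ d) (P b (isoArg (linIso M) n b a)) (gam d)
      fun z => M b (isoArg (linIso M) n b a) + z) (stepLaw Unit d n)) :
    Close A X (gp (IsoI Unit (n + 1)) d) (isoP (linIso M) (n + 1) b)
      (e + isoV n * ∫ a, devW (gp κ d) (P b (isoArg (linIso M) n b a)) (gam d)
        (fun z => M b (isoArg (linIso M) n b a) + z) ∂stepLaw Unit d n) := by
  have hν0 : 0 < isoV n := isoV_pos n
  have hasc := measurePreserving_prodAssoc (gam d) ((gp (IsoI Unit n) d).prod (gp Unit d)) (gp κ d)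
  have c4 := Close.mix (Q := stepLaw Unit d n) (R := gp κ d) (S := gp Unit d)
    (K := fun a s => isoStep P (linIso M) n b (a.1, a.2, s))
    (T := fun a s => isoStep (linIso M) (linIso M) n b (a.1, a.2, s))
    (hasc.integrable_comp_of_integrable h.intY)
    ((continuous_isoStep (exists_lip_linIso M) (exists_lip_linIso M) n b).comp
      ((continuous_fst.comp continuous_fst).prodMk
        ((continuous_snd.comp continuous_fst).prodMk continuous_snd))).aestronglyMeasurable
    (ae_of_all _ fun a => ((close_devW (X := P b (isoArg (linIso M) n b a))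
      (Y := fun z => M b (isoArg (linIso M) n b a) + z) (int_sec (hP b) _)
      ((integrable_const _).add IsGaussian.integrable_id)).comp_right
        (measurePreserving_eval (fun _ : Unit => gam d) ())).affine
          (((2 + isoA n) / 2) • a.1) (isoV n)) (hE.const_mul |isoV n|)
  rw [integral_const_mul, abs_of_pos hν0] at c4
  have c5 := (c4.comp_left (MeasurePreserving.symm _ hasc)).comp_right ((MeasurePreserving.symm _
    (measurePreserving_prodAssoc (gam d) ((gp (IsoI Unit n) d).prod (gp Unit d)) (gp Unit d))).comp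
      (mp_isoPrep (κ := Unit) n))
  exact h.trans c5

/-- The recursion is within `isoErr` of the exact one. -/
theorem iso_close (hd : 1 ≤ d) (hM : ∀ b, ContinuousLinearMap.adjoint (M b) = M (!b))
    (hP : ∀ b, ∃ Λ' : ℝ≥0, LipschitzWith Λ' fun z : Space d × (κ → Space d) => P b z.1 z.2)
    (hL0 : ∀ b, 0 ≤ L b) (hL1 : ∀ b, L b ≤ 1) (hLΛ : ∀ b, L b ≤ Λ) (hMΛ : ∀ b, ‖M b‖ ≤ Λ)
    (hL : ∀ b v v' ω, ‖P b v ω - P b v' ω‖ ≤ L b * ‖v - v'‖) :
    ∀ n b, Close (gp (IsoI κ n) d) (isoP P n b) (gp (IsoI Unit n) d) (isoP (linIso M) n b)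
      (isoErr P M L Λ n b)
  | 0, b => by
    have h := (Close.refl (IsGaussian.integrable_id (μ := gam d))).comp_left
      (measurePreserving_eval (fun _ : Unit => gam d) ())
    exact ((h.comp_right (measurePreserving_eval (fun _ : Unit => gam d) ()))).mono (by
      rw [isoErr, isoE, zero_mul])
  | n + 1, b => by
    have ih := iso_close hd hM hP hL0 hL1 hLΛ hMΛ hL n (!b)
    have hlip : ∀ b' v v', |devW (gp κ d) (P b' v) (gam d) (fun z => M b' v + z)
        - devW (gp κ d) (P b' v') (gam d) fun z => M b' v' + z|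
          ≤ (L b' + ‖M b'‖) * ‖v - v'‖ := fun b' => by
      obtain ⟨Λ', h⟩ := hP b'
      exact devW_lip h (hL b')
    have hs : ∀ b', 0 ≤ L b' + ‖M b'‖ := fun b' => add_nonneg (hL0 b') (norm_nonneg _)
    have hEi : Integrable (fun v => devW (gp κ d) (P (!b) v) (gam d) fun z => M (!b) v + z) (gam d) :=
      ((Close.refl (IsGaussian.integrable_id (μ := gam d))).integral_le (hs _) (hlip _)).1
    obtain ⟨hEu, hEu'⟩ := (iso_step_arg hd hM hMΛ n b).integral_le (hs b) (hlip b)
    refine (iso_step_outer hP (iso_step_inner hP hL0 hL ih hEi) hEu).mono ?_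
    simp only [isoErr, Bool.not_not, isoE]
    exact arith_step (isoE_nonneg n) (isoV_pos n).le (hL0 b) (hL1 _) (hLΛ b)
      (by linarith [hLΛ b, hMΛ b]) (Nat.cast_nonneg d) (devD_nonneg _ _) (devD_nonneg _ _) rfl hEu'

end Vale.Agent.P347.Zero
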