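import Vale.Agent.P347.Zero.ProductProg

/-!
The law of the program of a contraction at given arguments.
-/

noncomputable section

open MeasureTheory ProbabilityTheory Function
open scoped RealInnerProductSpace NNReal

namespace Vale.Agent.P347.Zero

variable {d : ℕ} {B A D : Type} [Fintype B] [Fintype A] [DecidableEq A] [Fintype D] [DecidableEq D]
  (P P' : Prog d B (Unit ⊕ D)) (Q Q' : Prog d B (A ⊕ Unit)) (n : ℕ) (a₀ : A) (b₀ : D)
  (G : Space d → Space d) (K L cH cF : ℝ) (TH : Ten d (Unit ⊕ D)) (TF : Ten d (A ⊕ Unit))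
  (a : PArg d B (A ⊕ D))

/-- The inner map at the free legs. -/
abbrev mapH : Bool → Space d →L[ℝ] Space d :=
  pairM cH (.inl ()) (.inr b₀) TH (argH a₀ a).2.2

/-- The outer map at the free legs. -/
abbrev mapF : Bool → Space d →L[ℝ] Space d :=
  pairM cF (.inl a₀) (.inr ()) TF (argF a₀ a).2.2

/-- The mean of the inner factor. -/
def meanH : Space d := cH • apT (.inl ()) TH (argH a₀ a).2.2

/-- The deviation of the outer factor at an input. -/
def devQ (w : Space d) : ℝ :=
  devP Q G a.1 (.inl a₀) cF TF a.2.1 (update (argF a₀ a).2.2 (.inr ()) w)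

/-- The average deviation of the outer factor at both signs. -/
def prodWAvg : ℝ :=
  ∫ q : Space d × (IsoI Unit n → Space d),
    (devQ Q a₀ G cF TF a ((isoV n)⁻¹ • (meanH a₀ cH TH a + q.1
        + isoP (linIso (mapH a₀ b₀ cH TH a)) n true q.2))
      + devQ Q a₀ G cF TF a ((isoV n)⁻¹ • (meanH a₀ cH TH a + q.1
        - isoP (linIso (mapH a₀ b₀ cH TH a)) n true q.2)))
    ∂(gam d).prod (gp (IsoI Unit n) d)

/-- The error at given arguments. -/
def prodErr : ℝ :=
  L * (devP P G a.1 (.inl ()) cH TH a.2.1 (argH a₀ a).2.2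
      + isoErr (pairP P P' G (.inl ()) (.inr b₀) (argH a₀ a)) (mapH a₀ b₀ cH TH a) (fun _ => K)
          (max K ‖mapH a₀ b₀ cH TH a true‖) n true)
    + isoV n / 2 * prodWAvg Q n a₀ b₀ G cH cF TH TF a
    + isoErr (pairP Q Q' G (.inl a₀) (.inr ()) (argF a₀ a)) (mapF a₀ cF TF a) (fun _ => L)
        (max L ‖mapF a₀ cF TF a true‖) n true
    + ‖mapF a₀ cF TF a true‖ ^ (n + 1) * (2 * d)

/-- The deviation of the noise of the program. -/
def prodTau (n : ℕ) : ℝ := Real.sqrt (isoV n ^ 2 / 2 + isoA n)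

variable {P P' Q Q' n a₀ b₀ G K L cH cF TH TF a}

theorem int_id_prod {E F : Type} [NormedAddCommGroup E] [MeasurableSpace E] [NormedAddCommGroup F]
    [MeasurableSpace F] {μ : Measure E} [IsProbabilityMeasure μ] {ν : Measure F}
    [IsProbabilityMeasure ν] (hμ : Integrable (fun x => x) μ) (hν : Integrable (fun x => x) ν) :
    Integrable (fun q : E × F => q) (μ.prod ν) :=
  (hμ.comp_fst ν).prodMk (hν.comp_snd μ)

omit [DecidableEq A] [DecidableEq D] in
variable (P P' Q Q' n) in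
/-- The seeds of the parts, split. -/
theorem mp_prodSd :
    MeasurePreserving (fun ω : prodSd P P' Q Q' n → Space d =>
      ((((fun j => ω (.inl (.inl (.inl j)))),
        ((fun j => ω (.inl (.inl (.inr (.inl j))))),
          ((fun j => ω (.inl (.inl (.inr (.inr (.inl j)))))),
            fun j => ω (.inl (.inl (.inr (.inr (.inr j)))))))),
        fun j => ω (.inl (.inr j))), fun j => ω (.inr j)))
      (gp (prodSd P P' Q Q' n) d)
      ((((gp (Fin P.sd) d).prod ((gp (IsoI (pairSd P P') n) d).prod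
        ((gp (Fin Q.sd) d).prod (gp (Fin Q.sd) d)))).prod (gp (IsoI (pairSd Q Q') n) d)).prod
          (gp Unit d)) := by
  have h1 := ((MeasurePreserving.id (gp (IsoI (pairSd P P') n) d)).prod
    (mp_sum (d := d) (Fin Q.sd) (Fin Q.sd))).comp
      (mp_sum (d := d) (IsoI (pairSd P P') n) (Fin Q.sd ⊕ Fin Q.sd))
  have h2 := ((MeasurePreserving.id (gp (Fin P.sd) d)).prod h1).comp
    (mp_sum (d := d) (Fin P.sd) (IsoI (pairSd P P') n ⊕ (Fin Q.sd ⊕ Fin Q.sd)))
  have h3 := (h2.prod (MeasurePreserving.id (gp (IsoI (pairSd Q Q') n) d))).comp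
    (mp_sum (d := d) (Fin P.sd ⊕ (IsoI (pairSd P P') n ⊕ (Fin Q.sd ⊕ Fin Q.sd)))
      (IsoI (pairSd Q Q') n))
  exact (h3.prod (MeasurePreserving.id (gp Unit d))).comp (mp_sum (d := d) _ Unit)

theorem prodTau_sq : prodTau n ^ 2 = isoV n ^ 2 / 2 + isoA n :=
  Real.sq_sqrt (by nlinarith [one_le_isoA n])

omit [Fintype B] [Fintype A] [DecidableEq A] in
theorem norm_mapH (b : Bool) : ‖mapH a₀ b₀ cH TH a b‖ = ‖mapH a₀ b₀ cH TH a true‖ := by
  simp only [mapH, norm_pairM]

omit [Fintype B] [Fintype D] [DecidableEq D] in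
theorem norm_mapF (b : Bool) : ‖mapF a₀ cF TF a b‖ = ‖mapF a₀ cF TF a true‖ := by
  simp only [mapF, norm_pairM]

omit [Fintype D] [DecidableEq D] in
theorem devQ_lip (hQW : Q.LipW G) (hQ'W : Q'.LipW G) (hL : 0 ≤ L) (hQ : Q.Lip G L)
    (hQ' : Q'.Lip G L) (w w' : Space d) :
    |devQ Q a₀ G cF TF a w - devQ Q a₀ G cF TF a w'|
      ≤ (L + ‖mapF a₀ cF TF a true‖) * ‖w - w'‖ := by
  have h := fun v => devW_pair (o := Sum.inl a₀) (l := Sum.inr ()) hQW hQ'W (by simp) cF TF
    (argF a₀ a) true v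
  simp only [cond_true] at h
  obtain ⟨Λ, hΛ⟩ := exists_lip_pairP_at hQW hQ'W (.inl a₀) (.inr ()) (argF a₀ a) true
  have h2 := devW_lip (M := mapF a₀ cF TF a true) (L := L) hΛ
    (pairP_lip_at hL hQ hQ' (.inl a₀) (.inr ()) (argF a₀ a) true) w w'
  rw [h w, h w'] at h2
  exact h2

omit [Fintype D] [DecidableEq D] in
theorem devQ_lipW (hQW : Q.LipW G) (hQ'W : Q'.LipW G) (hL : 0 ≤ L) (hQ : Q.Lip G L)
    (hQ' : Q'.Lip G L) :
    LipschitzWith (L + ‖mapF a₀ cF TF a true‖).toNNReal (devQ Q a₀ G cF TF a) :=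
  lip_of_le fun w w' => by
    rw [Real.norm_eq_abs, Real.coe_toNNReal _ (add_nonneg hL (norm_nonneg _))]
    exact devQ_lip hQW hQ'W hL hQ hQ' w w'

omit [Fintype D] [DecidableEq D] in
theorem prodW_lip (hL : 0 ≤ L) (hQ : Q.Lip G L) (w w' : Space d) (ω : Fin Q.sd → Space d) :
    ‖prodW Q n a₀ G a w ω - prodW Q n a₀ G a w' ω‖ ≤ L / 2 * ‖w - w'‖ := by
  have hν := isoV_pos n
  rw [prodW, prodW, ← smul_sub, norm_smul, Real.norm_eq_abs, abs_of_pos (by linarith)]
  refine (mul_le_mul_of_nonneg_left ((hQ _ _ _ _ _ _ _).trans (mul_le_mul_of_nonneg_left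
    (show _ ≤ ‖(isoV n)⁻¹ • w - (isoV n)⁻¹ • w'‖ from ?_) hL)) (by linarith)).trans_eq ?_
  · simp only [dist3, sub_self, norm_zero, Finset.sum_const_zero, zero_add]
    refine (sum_update_le _ _ _ _ _).trans_eq ?_
    simp
  · rw [← smul_sub, norm_smul, norm_inv, Real.norm_eq_abs, abs_of_pos hν]
    field_simp

omit [Fintype D] [DecidableEq D] in
theorem exists_lip_prodU (hQW : Q.LipW G) : ∃ Λ : ℝ≥0, LipschitzWith Λ
    fun q : Space d × Space d × ((Fin Q.sd → Space d) × (Fin Q.sd → Space d)) =>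
      prodU Q n a₀ G a q.1 q.2.1 q.2.2 := by
  obtain ⟨Λ, h⟩ := hQW
  have hw : ∀ (σ : Space d × Space d × ((Fin Q.sd → Space d) × (Fin Q.sd → Space d)) → Space d)
      (τ : Space d × Space d × ((Fin Q.sd → Space d) × (Fin Q.sd → Space d)) → Fin Q.sd → Space d)
      {K₁ K₂ : ℝ≥0}, LipschitzWith K₁ σ → LipschitzWith K₂ τ →
        ∃ K : ℝ≥0, LipschitzWith K fun q => prodW Q n a₀ G a (σ q) (τ q) := fun σ τ _ _ hσ hτ =>
    ⟨_, (lipschitzWith_smul (β := Space d) (isoV n / 2)).comp (h.comp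
      ((LipschitzWith.const a.1).prodMk ((LipschitzWith.const a.2.1).prodMk
        (((lip_update (Sum.inr ())).comp ((LipschitzWith.const (argF a₀ a).2.2).prodMk
          ((lipschitzWith_smul (β := Space d) (isoV n)⁻¹).comp hσ))).prodMk hτ))))⟩
  obtain ⟨K₁, h₁⟩ := hw (fun q => q.1 + q.2.1) (fun q => q.2.2.1)
    (LipschitzWith.prod_fst.add (LipschitzWith.prod_fst.comp LipschitzWith.prod_snd))
    (LipschitzWith.prod_fst.comp (LipschitzWith.prod_snd.comp LipschitzWith.prod_snd))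
  obtain ⟨K₂, h₂⟩ := hw (fun q => q.1 - q.2.1) (fun q => q.2.2.2)
    (LipschitzWith.prod_fst.sub (LipschitzWith.prod_fst.comp LipschitzWith.prod_snd))
    (LipschitzWith.prod_snd.comp (LipschitzWith.prod_snd.comp LipschitzWith.prod_snd))
  exact ⟨_, h₁.add h₂⟩

/-- The exact vector. -/
def prodY (n : ℕ) (m : Space d) (MH MF : Bool → Space d →L[ℝ] Space d)
    (q : ((Space d × (IsoI Unit n → Space d)) × (Space d × Space d)) × (IsoI Unit n → Space d)) :
    Space d :=
  (isoV n / 2) • (MF true ((isoV n)⁻¹ • (m + q.1.1.1 + isoP (linIso MH) n true q.1.1.2)) + q.1.2.1)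
    + (isoV n / 2) • (MF true ((isoV n)⁻¹ • (m + q.1.1.1 - isoP (linIso MH) n true q.1.1.2)) + q.1.2.2)
    + isoP (linIso MF) n true q.2

theorem prod_exact (hd : 1 ≤ d) {m : Space d} {MH MF : Bool → Space d →L[ℝ] Space d}
    (hF : ∀ b, ContinuousLinearMap.adjoint (MF b) = MF (!b)) (hFn : ∀ b, ‖MF b‖ ≤ ‖MF true‖)
    (hi : Integrable (prodY n m MH MF)
      ((((gam d).prod (gp (IsoI Unit n) d)).prod ((gam d).prod (gam d))).prod (gp (IsoI Unit n) d))) :
    Close ((((gam d).prod (gp (IsoI Unit n) d)).prod ((gam d).prod (gam d))).prod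
        (gp (IsoI Unit n) d)) (prodY n m MH MF) (gam d) (fun z => MF true m + prodTau n • z)
      (‖MF true‖ ^ (n + 1) * (2 * d)) := by
  set c := isoV n / 2 with hc
  have hfst : MeasurePreserving (Prod.fst : Space d × (IsoI Unit n → Space d) → Space d)
      ((gam d).prod (gp (IsoI Unit n) d)) (gam d) := measurePreserving_fst
  set ξ := fun q : ((Space d × (IsoI Unit n → Space d)) × (Space d × Space d))
      × (IsoI Unit n → Space d) =>
    MF true q.1.1.1 + (c • q.1.2.1 + c • q.1.2.2) + isoP (linIso MF) n true q.2 with hξ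
  have hY : prodY n m MH MF = fun q => MF true m + ξ q := by
    funext q
    have hh : c * (isoV n)⁻¹ = 2⁻¹ := by
      rw [hc]; field_simp [(isoV_pos n).ne']
    simp only [prodY, ξ, ← hc, smul_add, map_add, map_sub, map_smul, smul_sub, smul_smul, hh]
    module
  have hg : Gau ((((gam d).prod (gp (IsoI Unit n) d)).prod ((gam d).prod (gam d))).prod
      (gp (IsoI Unit n) d)) ξ fun t =>
        prodTau n ^ 2 * ‖t‖ ^ 2 + ‖ContinuousLinearMap.adjoint (isoG MF n true) t‖ ^ 2 := by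
    refine (((((gau_id (d := d)).clm (MF true)).comp hfst).add
      ((gau_id.smul c).add (gau_id.smul c))).add (gau_iso hF n true)).congr fun t => ?_
    rw [hF true, norm_smul, mul_pow, Real.norm_eq_abs, sq_abs, prodTau_sq, hc]
    ring
  rw [hY] at hi ⊢
  have hiξ : Integrable ξ ((((gam d).prod (gp (IsoI Unit n) d)).prod ((gam d).prod (gam d))).prod
      (gp (IsoI Unit n) d)) := by
    have h := hi.sub (integrable_const (MF true m))
    refine h.congr (ae_of_all _ fun q => ?_)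
    simp
  have h := ((hg.close_std hd hiξ _ _ fun t => rfl).mono
    (mul_le_mul_of_nonneg_right (norm_isoG_le hFn n true) (by positivity))).affine (MF true m) 1
  simpa only [one_smul, abs_one, one_mul] using h

variable (P P' Q Q' n G) in
/-- The hypotheses on the four programs. -/
structure ProdHyp (K L : ℝ) : Prop where
  PW : P.LipW G
  PW' : P'.LipW G
  QW : Q.LipW G
  QW' : Q'.LipW G
  K_nonneg : 0 ≤ K
  K_le : K ≤ 1
  L_nonneg : 0 ≤ L
  L_le : L ≤ 1
  Plip : P.Lip G K
  Plip' : P'.Lip G K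
  Qlip : Q.Lip G L
  Qlip' : Q'.Lip G L

omit [DecidableEq A] in
theorem close_prodR (hd : 1 ≤ d) (h : ProdHyp P P' Q Q' G K L) :
    Close (gp (IsoI (pairSd P P') n) d) (prodR P P' n a₀ b₀ G a) (gp (IsoI Unit n) d)
      (isoP (linIso (mapH a₀ b₀ cH TH a)) n true)
      (isoErr (pairP P P' G (.inl ()) (.inr b₀) (argH a₀ a)) (mapH a₀ b₀ cH TH a) (fun _ => K)
        (max K ‖mapH a₀ b₀ cH TH a true‖) n true) :=
  iso_close hd (pairM_adjoint _ _ _ _ _) (exists_lip_pairP_at h.PW h.PW' _ _ _)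
    (fun _ => h.K_nonneg) (fun _ => h.K_le) (fun _ => le_max_left _ _)
    (fun b => (norm_mapH b).trans_le (le_max_right _ _))
    (pairP_lip_at h.K_nonneg h.Plip h.Plip' _ _ _) n true

omit [DecidableEq D] in
theorem close_prodI (hd : 1 ≤ d) (h : ProdHyp P P' Q Q' G K L) :
    Close (gp (IsoI (pairSd Q Q') n) d) (prodI Q Q' n a₀ G a) (gp (IsoI Unit n) d)
      (isoP (linIso (mapF a₀ cF TF a)) n true)
      (isoErr (pairP Q Q' G (.inl a₀) (.inr ()) (argF a₀ a)) (mapF a₀ cF TF a) (fun _ => L)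
        (max L ‖mapF a₀ cF TF a true‖) n true) :=
  iso_close hd (pairM_adjoint _ _ _ _ _) (exists_lip_pairP_at h.QW h.QW' _ _ _)
    (fun _ => h.L_nonneg) (fun _ => h.L_le) (fun _ => le_max_left _ _)
    (fun b => (norm_mapF b).trans_le (le_max_right _ _))
    (pairP_lip_at h.L_nonneg h.Qlip h.Qlip' _ _ _) n true

/-- A Lipschitz combination of two close laws. -/
theorem close_two {α α' β β' γ : Type} [TopologicalSpace α] [MeasurableSpace α] [BorelSpace α]
    [TopologicalSpace α'] [MeasurableSpace α'] [BorelSpace α']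
    [TopologicalSpace β] [MeasurableSpace β] [BorelSpace β] [SecondCountableTopology β]
    [TopologicalSpace β'] [MeasurableSpace β'] [BorelSpace β'] [SecondCountableTopology β']
    [TopologicalSpace γ] [MeasurableSpace γ] [BorelSpace γ] [SecondCountableTopology γ]
    {μ : Measure α} [IsProbabilityMeasure μ] {μ' : Measure α'} [IsProbabilityMeasure μ']
    {ν : Measure β} [IsProbabilityMeasure ν] {ν' : Measure β'} [IsProbabilityMeasure ν']
    {ρ : Measure γ} [IsProbabilityMeasure ρ] {U : Space d → Space d → γ → Space d} {M : ℝ}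
    (hM : 0 ≤ M) (hU : Continuous fun q : Space d × Space d × γ => U q.1 q.2.1 q.2.2)
    (hl : ∀ v v' r r' ω, ‖U v r ω - U v' r' ω‖ ≤ M * (‖v - v'‖ + ‖r - r'‖))
    (hU0 : Integrable (U 0 0) ρ) {V : α → Space d} {V' : α' → Space d} {R : β → Space d}
    {R' : β' → Space d} {e e' : ℝ} (hV : Close μ V μ' V' e) (hR : Close ν R ν' R' e')
    (hRc : Continuous R) (hRc' : Continuous R') (hVc' : Continuous V') :
    Close (μ.prod (ν.prod ρ)) (fun q => U (V q.1) (R q.2.1) q.2.2) ((μ'.prod ν').prod ρ)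
      (fun q => U (V' q.1.1) (R' q.1.2) q.2) (M * (e + e')) := by
  have hKm : Measurable (uncurry fun (v : Space d) (p : β × γ) => U v (R p.1) p.2) :=
    (hU.comp (continuous_fst.prodMk ((hRc.comp (continuous_fst.comp continuous_snd)).prodMk
      (continuous_snd.comp continuous_snd)))).measurable
  have hK0 : Integrable (fun p : β × γ => U 0 (R p.1) p.2) (ν.prod ρ) := by
    refine ((hU0.norm.comp_snd ν).add ((hR.intX.norm.const_mul M).comp_fst ρ)).mono'
      (hU.comp (continuous_const.prodMk ((hRc.comp continuous_fst).prodMk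
        continuous_snd))).aestronglyMeasurable (ae_of_all _ fun p => ?_)
    have h1 := hl 0 0 (R p.1) 0 p.2
    rw [sub_self, norm_zero, zero_add, sub_zero] at h1
    simp only [Pi.add_apply]
    linarith [norm_le_norm_add_norm_sub' (U 0 (R p.1) p.2) (U 0 0 p.2)]
  have c1 := hV.bind (R := ν.prod ρ) (L := M.toNNReal) (K := fun (v : Space d) (p : β × γ) => U v (R p.1) p.2) hKm
    (fun p v v' => by
      rw [Real.coe_toNNReal _ hM]
      exact (hl _ _ _ _ _).trans_eq (by simp)) hK0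
  rw [Real.coe_toNNReal _ hM] at c1
  have hs : ∀ z, Close (ν.prod ρ) (fun p => U (V' z) (R p.1) p.2) (ν'.prod ρ)
      (fun p => U (V' z) (R' p.1) p.2) (M * e') := fun z => by
    have h1 := hR.bind (R := ρ) (L := M.toNNReal) (K := fun r ω => U (V' z) r ω)
      (hU.comp (continuous_const.prodMk continuous_id)).measurable
      (fun ω r r' => by
        rw [Real.coe_toNNReal _ hM]
        exact (hl _ _ _ _ _).trans_eq (by simp)) ?_
    · rwa [Real.coe_toNNReal _ hM] at h1
    · refine (hU0.norm.add (integrable_const (M * ‖V' z‖))).mono'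
        (hU.comp (continuous_const.prodMk (continuous_const.prodMk continuous_id))).aestronglyMeasurable
        (ae_of_all _ fun ω => ?_)
      have h1 := hl (V' z) 0 0 0 ω
      rw [sub_zero, sub_self, norm_zero, add_zero] at h1
      simp only [Pi.add_apply]
      linarith [norm_le_norm_add_norm_sub' (U (V' z) 0 ω) (U 0 0 ω)]
  have c2 := Close.mix (Q := μ') (S := ν'.prod ρ) (K := fun (z : α') (p : β × γ) => U (V' z) (R p.1) p.2)
    (T := fun (z : α') (p : β' × γ) => U (V' z) (R' p.1) p.2) (E := fun _ => M * e') c1.intY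
    (hU.measurable.comp ((hVc'.measurable.comp measurable_fst).prodMk
      ((hRc'.measurable.comp measurable_snd.fst).prodMk measurable_snd.snd))).aestronglyMeasurable
    (ae_of_all _ hs) (integrable_const _)
  rw [integral_const, probReal_univ, one_smul] at c2
  exact ((c1.trans c2).comp_right (measurePreserving_prodAssoc μ' ν' ρ)).mono (mul_add M _ _).symm.le

omit [Fintype D] [DecidableEq D] in
theorem prodU_lip (hL : 0 ≤ L) (hQ : Q.Lip G L) (v v' r r' : Space d)
    (ω : (Fin Q.sd → Space d) × (Fin Q.sd → Space d)) :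
    ‖prodU Q n a₀ G a v r ω - prodU Q n a₀ G a v' r' ω‖ ≤ L * (‖v - v'‖ + ‖r - r'‖) := by
  simp only [prodU]
  rw [add_sub_add_comm]
  refine (norm_add_le _ _).trans ((add_le_add (prodW_lip hL hQ _ _ _)
    (prodW_lip hL hQ _ _ _)).trans ?_)
  rw [← mul_add, div_mul_eq_mul_div, div_le_iff₀ two_pos, mul_assoc]
  refine mul_le_mul_of_nonneg_left ?_ hL
  have h1 := norm_add_le (v - v') (r - r')
  have h2 := norm_sub_le (v - v') (r - r')
  rw [← add_sub_add_comm] at h1
  rw [← sub_sub_sub_comm] at h2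
  linarith

/-- The inner factor and its partner made exact. -/
theorem close_prodU_in (hd : 1 ≤ d) (h : ProdHyp P P' Q Q' G K L) :
    Close ((gp (Fin P.sd) d).prod ((gp (IsoI (pairSd P P') n) d).prod
        ((gp (Fin Q.sd) d).prod (gp (Fin Q.sd) d))))
      (fun q => prodU Q n a₀ G a (prodV P a₀ G a q.1) (prodR P P' n a₀ b₀ G a q.2.1) q.2.2)
      (((gam d).prod (gp (IsoI Unit n) d)).prod ((gp (Fin Q.sd) d).prod (gp (Fin Q.sd) d)))
      (fun q => prodU Q n a₀ G a (meanH a₀ cH TH a + q.1.1)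
        (isoP (linIso (mapH a₀ b₀ cH TH a)) n true q.1.2) q.2)
      (L * (devP P G a.1 (.inl ()) cH TH a.2.1 (argH a₀ a).2.2
        + isoErr (pairP P P' G (.inl ()) (.inr b₀) (argH a₀ a)) (mapH a₀ b₀ cH TH a) (fun _ => K)
            (max K ‖mapH a₀ b₀ cH TH a true‖) n true)) := by
  have hR := close_prodR (n := n) (a₀ := a₀) (b₀ := b₀) (cH := cH) (TH := TH) (a := a) hd h
  obtain ⟨ΛU, hU⟩ := exists_lip_prodU (n := n) (a₀ := a₀) (a := a) h.QW
  obtain ⟨ΛR, hΛR⟩ := exists_lip_iso₀ (exists_lip_pairP_at h.PW h.PW' (.inl ()) (.inr b₀)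
    (argH a₀ a)) n true
  obtain ⟨ΛE, hΛE⟩ := exists_lip_iso₀ (exists_lip_linIso (mapH a₀ b₀ cH TH a)) n true
  have hV : Close (gp (Fin P.sd) d) (prodV P a₀ G a) (gam d) (fun z => meanH a₀ cH TH a + z)
      (devP P G a.1 (.inl ()) cH TH a.2.1 (argH a₀ a).2.2) := by
    have h1 := Prog.closeAt_dev h.PW a.1 a.2.1 (argH a₀ a).2.2 (meanH a₀ cH TH a)
    simp only [Prog.CloseAt, one_smul] at h1
    exact h1
  have hU0 : Integrable (fun ω => prodU Q n a₀ G a 0 0 ω)
      ((gp (Fin Q.sd) d).prod (gp (Fin Q.sd) d)) :=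
    integrable_lip (f := fun ω => prodU Q n a₀ G a 0 0 ω)
      (int_id_prod (int_id_gp _ d) (int_id_gp _ d))
      (lip_sec (f := fun r ω => prodU Q n a₀ G a 0 r ω)
        (lip_sec (f := fun v (q : Space d × ((Fin Q.sd → Space d) × (Fin Q.sd → Space d))) =>
          prodU Q n a₀ G a v q.1 q.2) hU 0) 0)
  exact close_two (U := fun v r ω => prodU Q n a₀ G a v r ω)
    (R := prodR P P' n a₀ b₀ G a) (R' := isoP (linIso (mapH a₀ b₀ cH TH a)) n true)
    (V := prodV P a₀ G a) (V' := fun z => meanH a₀ cH TH a + z)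
    h.L_nonneg hU.continuous (prodU_lip h.L_nonneg h.Qlip) hU0 hV hR hΛR.continuous hΛE.continuous
    (by fun_prop)

/-- Both signs of the outer factor made exact. -/
theorem close_prodU_out (h : ProdHyp P P' Q Q' G K L)
    (hi : Integrable (fun q : (Space d × (IsoI Unit n → Space d))
        × ((Fin Q.sd → Space d) × (Fin Q.sd → Space d)) =>
      prodU Q n a₀ G a (meanH a₀ cH TH a + q.1.1)
        (isoP (linIso (mapH a₀ b₀ cH TH a)) n true q.1.2) q.2)
      (((gam d).prod (gp (IsoI Unit n) d)).prod ((gp (Fin Q.sd) d).prod (gp (Fin Q.sd) d)))) :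
    Close (((gam d).prod (gp (IsoI Unit n) d)).prod ((gp (Fin Q.sd) d).prod (gp (Fin Q.sd) d)))
      (fun q => prodU Q n a₀ G a (meanH a₀ cH TH a + q.1.1)
        (isoP (linIso (mapH a₀ b₀ cH TH a)) n true q.1.2) q.2)
      (((gam d).prod (gp (IsoI Unit n) d)).prod ((gam d).prod (gam d)))
      (fun q => (isoV n / 2) • (mapF a₀ cF TF a true ((isoV n)⁻¹ • (meanH a₀ cH TH a + q.1.1
            + isoP (linIso (mapH a₀ b₀ cH TH a)) n true q.1.2)) + q.2.1)
        + (isoV n / 2) • (mapF a₀ cF TF a true ((isoV n)⁻¹ • (meanH a₀ cH TH a + q.1.1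
            - isoP (linIso (mapH a₀ b₀ cH TH a)) n true q.1.2)) + q.2.2))
      (isoV n / 2 * prodWAvg Q n a₀ b₀ G cH cF TH TF a) := by
  set m := meanH a₀ cH TH a
  set R := isoP (linIso (mapH a₀ b₀ cH TH a)) n true
  obtain ⟨ΛE, hΛE⟩ := exists_lip_iso₀ (exists_lip_linIso (mapH a₀ b₀ cH TH a)) n true
  have hν := isoV_pos n
  have hside : ∀ w : Space d, Close (gp (Fin Q.sd) d) (prodW Q n a₀ G a w) (gam d)
      (fun u => (isoV n / 2) • (mapF a₀ cF TF a true ((isoV n)⁻¹ • w) + u))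
      (isoV n / 2 * devQ Q a₀ G cF TF a ((isoV n)⁻¹ • w)) := fun w => by
    have h1 := (Prog.closeAt_dev h.QW a.1 a.2.1
      (update (argF a₀ a).2.2 (.inr ()) ((isoV n)⁻¹ • w))
      (cF • apT (.inl a₀) TF (update (argF a₀ a).2.2 (.inr ()) ((isoV n)⁻¹ • w)))).affine 0
        (isoV n / 2)
    simp only [zero_add, one_smul, abs_of_pos (half_pos hν)] at h1
    rw [pairM_apply (by simp)]
    exact h1
  have hidE : Integrable (fun q : Space d × (IsoI Unit n → Space d) => q)
      ((gam d).prod (gp (IsoI Unit n) d)) :=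
    int_id_prod IsGaussian.integrable_id (int_id_gp _ d)
  have hEl := devQ_lipW (a₀ := a₀) (cF := cF) (TF := TF) (a := a) h.QW h.QW' h.L_nonneg h.Qlip
    h.Qlip'
  have hw₁ := integrable_test hEl (integrable_lip hidE
    ((lipschitzWith_smul (β := Space d) (isoV n)⁻¹).comp (((LipschitzWith.const m).add
      LipschitzWith.prod_fst).add (hΛE.comp LipschitzWith.prod_snd))))
  have hw₂ := integrable_test hEl (integrable_lip hidE
    ((lipschitzWith_smul (β := Space d) (isoV n)⁻¹).comp (((LipschitzWith.const m).add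
      LipschitzWith.prod_fst).sub (hΛE.comp LipschitzWith.prod_snd))))
  have hc : Continuous fun q : (Space d × (IsoI Unit n → Space d)) × (Space d × Space d) =>
      (isoV n / 2) • (mapF a₀ cF TF a true ((isoV n)⁻¹ • (m + q.1.1 + R q.1.2)) + q.2.1)
        + (isoV n / 2) • (mapF a₀ cF TF a true ((isoV n)⁻¹ • (m + q.1.1 - R q.1.2)) + q.2.2) := by
    have := hΛE.continuous
    fun_prop
  have c := Close.mix (Q := (gam d).prod (gp (IsoI Unit n) d)) (S := (gam d).prod (gam d))
    (K := fun q ω => prodU Q n a₀ G a (m + q.1) (R q.2) ω)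
    (T := fun q u => (isoV n / 2) • (mapF a₀ cF TF a true ((isoV n)⁻¹ • (m + q.1 + R q.2)) + u.1)
        + (isoV n / 2) • (mapF a₀ cF TF a true ((isoV n)⁻¹ • (m + q.1 - R q.2)) + u.2))
    hi hc.aestronglyMeasurable
    (ae_of_all _ fun q => (hside (m + q.1 + R q.2)).add (hside (m + q.1 - R q.2)))
    ((hw₁.const_mul (isoV n / 2)).add (hw₂.const_mul (isoV n / 2)))
  refine c.mono (le_of_eq ?_)
  rw [prodWAvg, ← integral_const_mul]
  simp only [mul_add]
  rfl

/-- A multiple with fresh noise. -/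
theorem close_top {α : Type} [MeasurableSpace α] {μ : Measure α} [IsProbabilityMeasure μ]
    {X : α → Space d} {m : Space d} {τ e s top : ℝ}
    (h : Close μ X (gam d) (fun z => m + τ • z) e) (hs : 0 ≤ s) (hs1 : s ≤ 1)
    (hst : (s * τ) ^ 2 + top ^ 2 = 1) :
    Close (μ.prod (gp Unit d)) (fun q => s • X q.1 + top • q.2 ()) (gam d)
      (fun z => s • m + (1 : ℝ) • z) e := by
  have hn : Close (gp Unit d) (fun ω => (0 : Space d) + top • ω ()) (gam d)
      (fun z => (0 : Space d) + top • z) 0 :=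
    (Close.refl (integrable_gau (0 : Space d) top)).comp_left
      (measurePreserving_eval (fun _ : Unit => gam d) ())
  have c4 := (h.affine 0 s).add hn
  simp only [zero_add, smul_add, smul_smul] at c4
  have c5 := c4.trans (cast (congrArg (fun Z => Close _ Z _ _ _)
    (funext fun q => (add_assoc _ _ _).symm)) (Close.gauss_add (s • m) (s * τ) top))
  rw [hst, Real.sqrt_one] at c5
  refine c5.mono ?_
  rw [abs_of_nonneg hs, add_zero, add_zero]
  exact mul_le_of_le_one_left h.nonneg hs1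

/-- The parts of the program before the scale. -/
theorem close_prodSum (hd : 1 ≤ d) (h : ProdHyp P P' Q Q' G K L) :
    Close (((gp (Fin P.sd) d).prod ((gp (IsoI (pairSd P P') n) d).prod
        ((gp (Fin Q.sd) d).prod (gp (Fin Q.sd) d)))).prod (gp (IsoI (pairSd Q Q') n) d))
      (fun q => prodU Q n a₀ G a (prodV P a₀ G a q.1.1) (prodR P P' n a₀ b₀ G a q.1.2.1) q.1.2.2
        + prodI Q Q' n a₀ G a q.2)
      (gam d) (fun z => mapF a₀ cF TF a true (meanH a₀ cH TH a) + prodTau n • z)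
      (prodErr P P' Q Q' n a₀ b₀ G K L cH cF TH TF a) := by
  have c1 := close_prodU_in (n := n) (a₀ := a₀) (b₀ := b₀) (cH := cH) (TH := TH) (a := a) hd h
  have c2 := (c1.trans (close_prodU_out (cF := cF) (TF := TF) h c1.intY)).add
    (close_prodI (n := n) (a₀ := a₀) (cF := cF) (TF := TF) (a := a) hd h)
  exact c2.trans (prod_exact (n := n) (m := meanH a₀ cH TH a)
    (MH := mapH a₀ b₀ cH TH a) (MF := mapF a₀ cF TF a) hd (pairM_adjoint _ _ _ _ _)
    (fun b => (norm_mapF b).le) c2.intY)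

omit [DecidableEq A] [DecidableEq D] in
/-- The seeds of the program, split. -/
theorem mp_prodPerm :
    MeasurePreserving
      (fun (ω : Fin (Fintype.card (prodSd P P' Q Q' n)) → Space d) (k : prodSd P P' Q Q' n) =>
        ω (Fintype.equivFin _ k))
      (gp (Fin (Fintype.card (prodSd P P' Q Q' n))) d) (gp (prodSd P P' Q Q' n) d) :=
  mp_inj (Fintype.equivFin _).injective

theorem close_prodOut (hd : 1 ≤ d) (h : ProdHyp P P' Q Q' G K L) {s top : ℝ} (hs : 0 ≤ s)
    (hs1 : s ≤ 1) (hst : (s * prodTau n) ^ 2 + top ^ 2 = 1) :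
    Close (gp (prodSd P P' Q Q' n) d) (prodOut P P' Q Q' n a₀ b₀ s top G a) (gam d)
      (fun z => s • mapF a₀ cF TF a true (meanH a₀ cH TH a) + (1 : ℝ) • z)
      (prodErr P P' Q Q' n a₀ b₀ G K L cH cF TH TF a) := by
  have c := (close_top (close_prodSum (n := n) (a₀ := a₀) (b₀ := b₀) (cH := cH) (cF := cF)
    (TH := TH) (TF := TF) (a := a) hd h) hs hs1 hst).comp_left (mp_prodSd P P' Q Q' n)
  unfold prodOut
  exact c

/-- The law of the program. -/
theorem prodProg_close (hd : 1 ≤ d) (h : ProdHyp P P' Q Q' G K L) {s top : ℝ} (hs : 0 ≤ s)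
    (hs1 : s ≤ 1) (hst : (s * prodTau n) ^ 2 + top ^ 2 = 1) :
    (prodProg P P' Q Q' n a₀ b₀ s top).CloseAt G a.1 a.2.1 a.2.2
      (s • mapF a₀ cF TF a true (meanH a₀ cH TH a)) 1
      (prodErr P P' Q Q' n a₀ b₀ G K L cH cF TH TF a) := by
  have c := (close_prodOut (n := n) (a₀ := a₀) (b₀ := b₀) (cH := cH) (cF := cF) (TH := TH)
    (TF := TF) (a := a) hd h hs hs1 hst).comp_left mp_prodPerm
  unfold Prog.CloseAt prodProg
  exact c

end Vale.Agent.P347.Zero
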