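import Vale.Agent.P347.Zero.ProductBase
import Vale.Agent.P347.Zero.SamBd
import Vale.Agent.P347.Zero.Apply
import Vale.Agent.P347.Zero.Contract

/-!
The linear map between two legs of a tensor whose other legs carry standard Gaussian vectors: its
adjoint, and its moments of every order.
-/

noncomputable section

open MeasureTheory ProbabilityTheory Function
open scoped RealInnerProductSpace NNReal

namespace Vale.Agent.P347.Zero

variable {d : ℕ} {I J : Type} [Fintype I] [DecidableEq I] [Fintype J] [DecidableEq J]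

/-- The map from the leg `l` to the leg `o`, with the other legs applied to the inputs. -/
def tMap (o l : I) (T : Ten d I) (A : I → Space d) : Space d →L[ℝ] Space d :=
  ∑ idx : I → Fin d, (T idx * ∏ j ∈ (Finset.univ.erase o).erase l, A j (idx j)) •
    (EuclideanSpace.proj (idx l)).smulRight (ev (idx o))

theorem tMap_apply {o l : I} (h : o ≠ l) (T : Ten d I) (A : I → Space d) (v : Space d) :
    tMap o l T A v = apT o T (update A l v) := by
  simp only [tMap, apT, _root_.sum_apply, _root_.smul_apply,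
    ContinuousLinearMap.smulRight_apply, smul_smul]
  refine Finset.sum_congr rfl fun idx _ => congrArg (fun c : ℝ => c • ev (idx o)) ?_
  have hl : l ∈ Finset.univ.erase o := by simp [h.symm]
  rw [← Finset.mul_prod_erase _ _ hl, update_self, PiLp.proj_apply]
  rw [show ∏ j ∈ (Finset.univ.erase o).erase l, update A l v j (idx j)
      = ∏ j ∈ (Finset.univ.erase o).erase l, A j (idx j) from
    Finset.prod_congr rfl fun j hj => by rw [update_of_ne (Finset.ne_of_mem_erase hj)]]
  ring

theorem tMap_congr {o l : I} (T : Ten d I) {A A' : I → Space d}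
    (h : ∀ j, j ≠ o → j ≠ l → A j = A' j) : tMap o l T A = tMap o l T A' := by
  refine Finset.sum_congr rfl fun idx _ => congrArg₂ (fun (c : ℝ) (M : Space d →L[ℝ] Space d) =>
    c • M) ?_ rfl
  refine congrArg _ (Finset.prod_congr rfl fun j hj => ?_)
  simp only [Finset.mem_erase, Finset.mem_univ, and_true] at hj
  rw [h j hj.2 hj.1]

theorem tMap_adjoint (o l : I) (T : Ten d I) (A : I → Space d) :
    ContinuousLinearMap.adjoint (tMap o l T A) = tMap l o T A := by
  refine ((ContinuousLinearMap.eq_adjoint_iff _ _).2 fun v w => ?_).symm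
  simp only [tMap, _root_.sum_apply, _root_.smul_apply, ContinuousLinearMap.smulRight_apply,
    sum_inner, inner_sum, real_inner_smul_left, real_inner_smul_right, PiLp.proj_apply]
  refine Finset.sum_congr rfl fun idx _ => ?_
  rw [Finset.erase_right_comm (a := l) (b := o), coord_inner,
    real_inner_comm (ev (idx o)) v, coord_inner]
  ring

theorem continuous_tMap {o l : I} {Z : Type} [TopologicalSpace Z] {T : Z → Ten d I}
    {A : Z → I → Space d} (hT : Continuous T) (hA : Continuous A) :
    Continuous fun z => tMap o l (T z) (A z) := by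
  unfold tMap
  fun_prop

/-- A split with two legs. -/
theorem norm_tMap_two {o l : I} (hol : o ≠ l) (hu : ∀ j, j = o ∨ j = l) {C : ℝ} {T : Ten d I}
    (hT : SplitB C T) (A : I → Space d) : ‖tMap o l T A‖ ≤ C := by
  let e : Unit ⊕ Unit ≃ I := Equiv.ofBijective (Sum.elim (fun _ => o) fun _ => l)
    ⟨fun a b h => by rcases a with a | a <;> rcases b with b | b <;> simp_all [eq_comm],
      fun j => (hu j).elim (fun h => ⟨.inl (), h.symm⟩) fun h => ⟨.inr (), h.symm⟩⟩
  have hb := hT Unit Unit e
  refine ContinuousLinearMap.opNorm_le_bound _ hb.1 fun v => ?_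
  set w := tMap o l T A v with hw
  rcases eq_or_lt_of_le (norm_nonneg w) with h0 | h0
  · rw [← h0]; exact mul_nonneg hb.1 (norm_nonneg v)
  refine le_of_mul_le_mul_right ?_ h0
  have key := hb.2 (fun p => w (p ())) fun q => v (q ())
  have hn : ∀ u : Space d, Real.sqrt (∑ p : Unit → Fin d, u (p ()) ^ 2) = ‖u‖ := fun u => by
    rw [EuclideanSpace.norm_eq]
    simp only [Real.norm_eq_abs, sq_abs]
    exact congrArg Real.sqrt ((Equiv.funUnique Unit (Fin d)).sum_comp fun c => u c ^ 2)
  rw [hn, hn] at key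
  refine le_trans (le_of_eq ?_) (((le_abs_self _).trans key).trans_eq (by ring))
  have hp : (Finset.univ.erase o).erase l = (∅ : Finset I) := by
    ext j; rcases hu j with rfl | rfl <;> simp
  rw [← sq, ← real_inner_self_eq_norm_sq]
  conv_lhs => arg 2; rw [hw]
  simp only [tMap, hp, Finset.prod_empty, mul_one, _root_.sum_apply, _root_.smul_apply,
    ContinuousLinearMap.smulRight_apply, sum_inner, real_inner_smul_left, PiLp.proj_apply, coord_inner]
  rw [← Equiv.sum_comp ((Equiv.sumArrowEquivProdArrow Unit Unit (Fin d)).symm.trans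
    (Equiv.arrowCongr e (Equiv.refl _))), Fintype.sum_prod_type]
  refine Finset.sum_congr rfl fun p _ => Finset.sum_congr rfl fun q _ => ?_
  have ho : e.symm o = .inl () := e.injective (by rw [e.apply_symm_apply]; rfl)
  have hl' : e.symm l = .inr () := e.injective (by rw [e.apply_symm_apply]; rfl)
  have hg : ((Equiv.sumArrowEquivProdArrow Unit Unit (Fin d)).symm.trans
      (Equiv.arrowCongr e (Equiv.refl _))) (p, q) = glue e p q := rfl
  rw [hg]
  simp only [glue, Function.comp_apply, ho, hl', Sum.elim_inl, Sum.elim_inr]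
  ring

/-- One leg taken out. -/
theorem tMap_peel {o l j : I} (hol : o ≠ l) (ho : o ≠ j) (hl : l ≠ j) (T : Ten d I)
    (A : I → Space d) :
    tMap o l T A = tMap (⟨o, ho⟩ : {i // i ≠ j}) ⟨l, hl⟩
      (ctrV (reT (Equiv.optionSubtypeNe j).symm T) (A j)) fun i => A i.1 := by
  refine ContinuousLinearMap.ext fun v => ?_
  rw [tMap_apply hol, tMap_apply (by simpa [Subtype.ext_iff] using hol), ← apT_ctrV]
  set e := (Equiv.optionSubtypeNe j).symm
  rw [show (some (⟨o, ho⟩ : {i // i ≠ j})) = e o from (Equiv.optionSubtypeNe_symm_of_ne ho).symm,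
    apT_reT]
  congr 1
  funext i
  by_cases hi : i = j
  · subst hi
    simp [e, update_of_ne (Ne.symm hl)]
  · simp only [e, Equiv.optionSubtypeNe_symm_of_ne hi, Option.elim_some]
    by_cases hil : i = l
    · subst hil; simp
    · rw [update_of_ne hil, update_of_ne (by simpa [Subtype.ext_iff] using hil)]

theorem splitN_reT_le (e : I ≃ J) (T : Ten d I) :
    splitN (reT e T) ≤ 2 ^ Fintype.card J * splitN T :=
  splitN_le (splitN_nonneg T) ((splitB_splitN T).relabel e)

omit [Fintype I] [DecidableEq I] [Fintype J] [DecidableEq J] in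
theorem continuous_reT (e : I ≃ J) : Continuous (reT e : Ten d I → Ten d J) :=
  continuous_pi fun _ => continuous_apply _

/-- The seeds of all legs are those of one and those of the others. -/
theorem mp_peel (j : I) {Ω : Type} [MeasurableSpace Ω] (P : Measure Ω) [IsProbabilityMeasure P] :
    MeasurePreserving (fun r : Ω × (I → Space d) => ((r.1, r.2 j), fun i : {i // i ≠ j} => r.2 i.1))
      (P.prod (gp I d)) ((P.prod (gam d)).prod (gp {i // i ≠ j} d)) := by
  have h2 := (mp_sum (d := d) Unit {i // i ≠ j}).comp (mp_inj (d := d)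
    (σ := Sum.elim (fun _ : Unit => j) Subtype.val) ?_)
  · have h3 := ((measurePreserving_eval (fun _ : Unit => gam d) ()).prod
      (MeasurePreserving.id (gp {i // i ≠ j} d))).comp h2
    exact (MeasurePreserving.symm _ (measurePreserving_prodAssoc P (gam d)
      (gp {i // i ≠ j} d))).comp ((MeasurePreserving.id P).prod h3)
  · rintro (⟨⟩ | ⟨a, ha⟩) (⟨⟩ | ⟨b, hb⟩) h
    exacts [rfl, absurd h.symm hb, absurd h ha, congrArg Sum.inr (Subtype.ext h)]

/-- The moments with `k` legs applied to standard inputs. -/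
theorem tMap_moment {p : ℕ} (hp : 0 < p) : ∀ k : ℕ, ∃ C : ℝ, 0 ≤ C ∧
    ∀ {d : ℕ}, 1 ≤ d → ∀ {I : Type} [Fintype I] [DecidableEq I], Fintype.card I = k + 2 →
      ∀ (o l : I), o ≠ l → ∀ {Ω : Type} [MeasurableSpace Ω] (P : Measure Ω) [IsProbabilityMeasure P]
        (T : Ω → Ten d I), Measurable T → Integrable (fun ω => splitN (T ω) ^ (2 * p)) P →
        Integrable (fun r : Ω × (I → Space d) => ‖tMap o l (T r.1) r.2‖ ^ (2 * p))
          (P.prod (gp I d)) ∧
        ∫ r, ‖tMap o l (T r.1) r.2‖ ^ (2 * p) ∂P.prod (gp I d)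
          ≤ C * (d : ℝ) ^ (k * (k + 2)) * ∫ ω, splitN (T ω) ^ (2 * p) ∂P
  | 0 => by
    refine ⟨1, zero_le_one, fun {d} _ {I} _ _ hc o l hol {Ω} _ P _ T hT hi => ?_⟩
    have hu : ∀ j, j = o ∨ j = l := fun j => by
      by_contra hj
      push Not at hj
      have : ({j, o, l} : Finset I).card = 3 := by
        rw [Finset.card_insert_of_notMem (by simp [hj.1, hj.2]), Finset.card_pair hol]
      have := Finset.card_le_univ ({j, o, l} : Finset I)
      omega
    have hle : ∀ r : Ω × (I → Space d), ‖tMap o l (T r.1) r.2‖ ^ (2 * p)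
        ≤ splitN (T r.1) ^ (2 * p) := fun r =>
      pow_le_pow_left₀ (norm_nonneg _) (norm_tMap_two hol hu (splitB_splitN _) _) _
    have hint : Integrable (fun r : Ω × (I → Space d) => ‖tMap o l (T r.1) r.2‖ ^ (2 * p))
        (P.prod (gp I d)) := by
      refine (hi.comp_fst _).mono' ?_ (ae_of_all _ fun r => ?_)
      · exact (((continuous_tMap continuous_fst continuous_snd).norm.pow _).measurable.comp
          ((hT.comp measurable_fst).prodMk measurable_snd)).aestronglyMeasurable
      · rw [Real.norm_of_nonneg (by positivity)]; exact hle r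
    refine ⟨hint, (integral_mono hint (hi.comp_fst _) hle).trans_eq ?_⟩
    rw [integral_fun_fst (f := fun ω => splitN (T ω) ^ (2 * p)), probReal_univ, one_smul]
    simp
  | k + 1 => by
    obtain ⟨C, hC, ih⟩ := tMap_moment hp k
    refine ⟨C * ((2 ^ (k + 2) * Real.sqrt (2 * p)) * 2 ^ (k + 3)) ^ (2 * p), by positivity,
      fun {d} hd {I} _ _ hc o l hol {Ω} _ P _ T hT hi => ?_⟩
    obtain ⟨j, hjo, hjl⟩ : ∃ j, j ≠ o ∧ j ≠ l := by
      by_contra h
      push Not at h
      have hsub : (Finset.univ : Finset I) ⊆ {o, l} := fun j _ => by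
        by_cases hj : j = o
        · simp [hj]
        · simp [h j hj]
      have := Finset.card_le_card hsub
      rw [Finset.card_univ, hc, Finset.card_pair hol] at this
      omega
    set e := (Equiv.optionSubtypeNe j).symm with he
    have hc' : Fintype.card {i // i ≠ j} = k + 2 := by
      have := Fintype.card_congr e
      rw [Fintype.card_option, hc] at this
      omega
    set T₁ : Ω → Ten d (Option {i // i ≠ j}) := fun ω => reT e (T ω)
    have hT₁ : Measurable T₁ := (continuous_reT e).measurable.comp hT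
    have hle1 : ∀ ω, splitN (T₁ ω) ^ (2 * p) ≤ (2 ^ (k + 3)) ^ (2 * p) * splitN (T ω) ^ (2 * p) :=
      fun ω => by
      rw [← mul_pow]
      refine pow_le_pow_left₀ (splitN_nonneg _) ((splitN_reT_le e (T ω)).trans_eq ?_) _
      rw [Fintype.card_option, hc']
    have hi₁ : Integrable (fun ω => splitN (T₁ ω) ^ (2 * p)) P :=
      (hi.const_mul ((2 ^ (k + 3)) ^ (2 * p))).mono'
        ((continuous_splitN.measurable.comp hT₁).pow_const _).aestronglyMeasurable
        (ae_of_all _ fun ω => by
          rw [Real.norm_of_nonneg (pow_nonneg (splitN_nonneg _) _)]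
          exact hle1 ω)
    obtain ⟨hi₂, hb₂⟩ := moment_splitN_ctrV_random hT₁ hp hi₁
    obtain ⟨hi₃, hb₃⟩ := ih hd hc' ⟨o, hjo.symm⟩ ⟨l, hjl.symm⟩ (by simpa [Subtype.ext_iff] using hol)
      (P.prod (gam d)) (fun r => ctrV (T₁ r.1) r.2)
      (continuous_ctrV.measurable.comp ((hT₁.comp measurable_fst).prodMk measurable_snd)) hi₂
    have hmp := mp_peel (d := d) j P
    have heq : (fun r : Ω × (I → Space d) => ‖tMap o l (T r.1) r.2‖ ^ (2 * p))
        = fun r => (fun q : (Ω × Space d) × ({i // i ≠ j} → Space d) =>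
          ‖tMap (⟨o, hjo.symm⟩ : {i // i ≠ j}) ⟨l, hjl.symm⟩ (ctrV (T₁ q.1.1) q.1.2) q.2‖ ^ (2 * p))
            ((r.1, r.2 j), fun i => r.2 i.1) := funext fun r => by
      rw [tMap_peel hol hjo.symm hjl.symm]
    rw [heq]
    refine ⟨hmp.integrable_comp_of_integrable hi₃, le_trans (le_of_eq ?_) (hb₃.trans ?_)⟩
    · conv_rhs => rw [← hmp.map_eq]
      rw [integral_map hmp.measurable.aemeasurable (by rw [hmp.map_eq]; exact hi₃.1)]
    · refine (mul_le_mul_of_nonneg_left (hb₂.trans (mul_le_mul_of_nonneg_left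
        ((integral_mono hi₁ (hi.const_mul _) hle1).trans_eq (integral_const_mul _ _))
        (by positivity))) (by positivity)).trans ?_
      rw [hc']
      have hpw : (d : ℝ) ^ (k * (k + 2)) * (d : ℝ) ^ (k + 2) ≤ (d : ℝ) ^ ((k + 1) * (k + 1 + 2)) := by
        rw [← pow_add]
        exact pow_le_pow_right₀ (by exact_mod_cast hd) (by nlinarith)
      have hI : 0 ≤ ∫ ω, splitN (T ω) ^ (2 * p) ∂P :=
        integral_nonneg fun ω => pow_nonneg (splitN_nonneg _) _
      refine le_trans (le_of_eq ?_) (mul_le_mul_of_nonneg_right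
        (mul_le_mul_of_nonneg_left hpw (by positivity)) hI)
      simp only [mul_pow]
      ring

variable {S : Sys} {B : Type} [Fintype B] [DecidableEq B] {θ : ℝ} {T : Fld S B I}

/-- The moments of the map between two legs of a bounded field. -/
theorem Bd.tMap (h : Bd θ T) (hT : Sm T) {o l : I} (hol : o ≠ l) {η : ℝ} (hη : 0 < η) (m : ℕ) :
    S.Ev fun i => ∀ p,
      Integrable (fun z : (B → Space (S.dm i)) × (I → Space (S.dm i)) =>
          ‖Zero.tMap o l (T i p z.1) z.2‖ ^ m) ((gp B (S.dm i)).prod (gp I (S.dm i))) ∧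
        ∫ z, ‖Zero.tMap o l (T i p z.1) z.2‖ ^ m ∂(gp B (S.dm i)).prod (gp I (S.dm i))
          ≤ (S.dd i ^ (η - θ)) ^ m := by
  obtain ⟨k, hk⟩ : ∃ k, Fintype.card I = k + 2 := by
    refine ⟨Fintype.card I - 2, ?_⟩
    have := Finset.card_le_univ ({o, l} : Finset I)
    rw [Finset.card_pair hol] at this
    omega
  obtain ⟨p₀, hp₀⟩ := exists_nat_gt ((k * (k + 2) : ℕ) / (η / 4) : ℝ)
  set q := max (max p₀ m) 1 with hq
  have hq0 : 0 < q := lt_of_lt_of_le one_pos (le_max_right _ _)
  obtain ⟨C, hC, hmom⟩ := tMap_moment hq0 k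
  refine (((h (η / 4) (by linarith) (2 * q)).and (S.ev_one_le)).and
    ((S.ev_le_rpow ((C + 1) * 2 ^ (k + 2)) (η := η / 4) (by linarith)).and
      (S.ev_le_rpow 2 (η := η / 4) (by linarith)))).mono fun i ⟨⟨hi, hd⟩, hd2, hd3⟩ p => ?_
  obtain ⟨f, hf, hs, hint, hb⟩ := hi p
  have hd0 : 0 < S.dd i := by linarith
  have hdn : 1 ≤ S.dm i := by exact_mod_cast hd
  set N := k * (k + 2) with hN
  have hle : ∀ x, splitN (T i p x) ^ (2 * q) ≤ (2 ^ (k + 2)) ^ (2 * q) * f x ^ (2 * q) := fun x => by
    rw [← mul_pow]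
    exact pow_le_pow_left₀ (splitN_nonneg _)
      ((splitN_le (hs x).1 (hs x).2).trans_eq (by rw [hk])) _
  have hTc : Continuous fun x => T i p x := hT.cont i p
  have hi1 : Integrable (fun x => splitN (T i p x) ^ (2 * q)) (gp B (S.dm i)) :=
    (hint.const_mul _).mono' ((continuous_splitN.comp hTc).pow _).aestronglyMeasurable
      (ae_of_all _ fun x => by
        rw [Real.norm_of_nonneg (pow_nonneg (splitN_nonneg _) _)]; exact hle x)
  obtain ⟨hi2, hb2⟩ := hmom hdn hk o l hol (gp B (S.dm i)) (fun x => T i p x) hTc.measurable hi1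
  set μ := (gp B (S.dm i)).prod (gp I (S.dm i))
  set F := fun z : (B → Space (S.dm i)) × (I → Space (S.dm i)) => ‖Zero.tMap o l (T i p z.1) z.2‖
  set Y := S.dd i ^ (3 * (η / 4) - θ) with hY
  have hY0 : 0 < Y := Real.rpow_pos_of_pos hd0 _
  have hmain : ∫ z, F z ^ (2 * q) ∂μ ≤ Y ^ (2 * q) := by
    refine hb2.trans ((mul_le_mul_of_nonneg_left ((integral_mono hi1 (hint.const_mul _) hle).trans
      ((integral_const_mul _ _).trans_le (mul_le_mul_of_nonneg_left hb (by positivity))))
      (by positivity)).trans ?_)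
    have h1 : C ≤ (C + 1) ^ (2 * q) :=
      le_trans (by linarith) (le_self_pow₀ (by linarith) (by omega))
    have h2 : (S.dm i : ℝ) ^ N ≤ (S.dd i ^ (η / 4)) ^ (2 * q) := by
      rw [← Real.rpow_natCast (S.dd i ^ (η / 4)), ← Real.rpow_mul hd0.le,
        ← Real.rpow_natCast (S.dm i : ℝ) N]
      refine Real.rpow_le_rpow_of_exponent_le hd ?_
      have h3 : (p₀ : ℝ) ≤ q := by exact_mod_cast le_max_of_le_left (le_max_left _ _)
      rw [div_lt_iff₀ (by linarith)] at hp₀
      push_cast
      nlinarith [Nat.cast_nonneg (α := ℝ) N]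
    calc C * (S.dm i : ℝ) ^ N * ((2 ^ (k + 2)) ^ (2 * q) * (S.dd i ^ (η / 4 - θ)) ^ (2 * q))
        ≤ (C + 1) ^ (2 * q) * (S.dd i ^ (η / 4)) ^ (2 * q)
          * ((2 ^ (k + 2)) ^ (2 * q) * (S.dd i ^ (η / 4 - θ)) ^ (2 * q)) := by gcongr
      _ = (((C + 1) * 2 ^ (k + 2)) * (S.dd i ^ (η / 4) * S.dd i ^ (η / 4 - θ))) ^ (2 * q) := by
          simp only [mul_pow]; ring
      _ ≤ (S.dd i ^ (η / 4) * (S.dd i ^ (η / 4) * S.dd i ^ (η / 4 - θ))) ^ (2 * q) := by gcongr
      _ = Y ^ (2 * q) := by
          rw [hY, ← Real.rpow_add hd0, ← Real.rpow_add hd0]; ring_nf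
  have hpt : ∀ z, F z ^ m ≤ Y ^ m * (1 + (F z / Y) ^ (2 * q)) := fun z => by
    have h0 : 0 ≤ F z / Y := div_nonneg (norm_nonneg _) hY0.le
    calc F z ^ m = Y ^ m * (F z / Y) ^ m := by rw [div_pow]; field_simp
      _ ≤ Y ^ m * (1 + (F z / Y) ^ (2 * q)) := by
          refine mul_le_mul_of_nonneg_left ?_ (by positivity)
          rcases le_total (F z / Y) 1 with h1 | h1
          · linarith [pow_le_one₀ (n := m) h0 h1, pow_nonneg h0 (2 * q)]
          · have : m ≤ 2 * q := by omega
            linarith [pow_le_pow_right₀ h1 this]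
  have hgi : Integrable (fun z => Y ^ m * (1 + (F z / Y) ^ (2 * q))) μ := by
    simp only [div_pow]
    exact ((integrable_const 1).add (hi2.div_const _)).const_mul _
  have hFc : Continuous F := (continuous_tMap (hTc.comp continuous_fst) continuous_snd).norm
  have hFi : Integrable (fun z => F z ^ m) μ := hgi.mono' (hFc.pow m).aestronglyMeasurable
    (ae_of_all _ fun z => by rw [Real.norm_of_nonneg (by positivity)]; exact hpt z)
  refine ⟨hFi, ?_⟩
  rcases Nat.eq_zero_or_pos m with rfl | hm
  · simp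
  refine (integral_mono hFi hgi hpt).trans ?_
  simp only [div_pow]
  rw [integral_const_mul, integral_add (integrable_const _) (hi2.div_const _), integral_const,
    integral_div, probReal_univ, one_smul]
  have h1 : (∫ z, F z ^ (2 * q) ∂μ) / Y ^ (2 * q) ≤ 1 := (div_le_one (by positivity)).2 hmain
  refine (mul_le_mul_of_nonneg_left (add_le_add le_rfl h1) (by positivity)).trans ?_
  rw [show S.dd i ^ (η - θ) = Y * S.dd i ^ (η / 4) by
    rw [hY, ← Real.rpow_add hd0]; ring_nf, mul_pow]
  refine mul_le_mul_of_nonneg_left ?_ (by positivity)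
  refine le_trans ?_ (le_self_pow₀ (Real.one_le_rpow hd (by linarith)) (by omega : m ≠ 0))
  linarith

omit [DecidableEq J] in
/-- Inputs read from others, one leg refilled, keep the standard law. -/
theorem mp_pull {π : I → J} {l : I} (h : ∀ a b, a ≠ l → b ≠ l → π a = π b → a = b) :
    MeasurePreserving (fun q : (J → Space d) × Space d => update (fun i => q.1 (π i)) l q.2)
      ((gp J d).prod (gam d)) (gp I d) := by
  have hinj : Injective fun i => if i = l then none else some (π i) := by
    intro a b hab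
    by_cases ha : a = l <;> by_cases hb : b = l <;> simp_all
    exact h a b ha hb hab
  refine cast (congrArg (fun f => MeasurePreserving f _ _) (funext fun q => funext fun i => ?_))
    ((mp_inj hinj).comp (mp_option (d := d) (ι := J)))
  by_cases hi : i = l <;> simp [hi, update]

end Vale.Agent.P347.Zero
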