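import Vale.Agent.P347.Zero.ProductIso
import Vale.Agent.P347.Zero.ProductTen

/-!
Two programs read at two legs of one tensor as programs of a map and of its adjoint.
-/

noncomputable section

open MeasureTheory ProbabilityTheory Function
open scoped RealInnerProductSpace NNReal

namespace Vale.Agent.P347.Zero

theorem computes_pad {d : ℕ} {Ω β : Type} [MeasurableSpace Ω] [MeasurableSpace β] {q : ℕ}
    {F : (Space d → Space d) → Ω → β} (hF : Computes q F) (m : ℕ) : Computes (q + m) F :=
  (hF.bind ((Computes.queries (p := fun (_ : Fin m) (_ : Ω × β) => (0 : Space d))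
    fun _ => measurable_const).map (f := fun x => x.1.2) (by fun_prop))).congr fun _ _ => rfl

variable {d : ℕ} {B I J : Type} [Fintype B] [Fintype I] [DecidableEq I] [Fintype J]

/-- The seeds of a pair. -/
abbrev pairSd (P Q : Prog d B I) : Type := Fin P.sd ⊕ Fin Q.sd

/-- The arguments that a pair does not refill. -/
abbrev PArg (d : ℕ) (B I : Type) := Space d × (B → Space d) × (I → Space d)

/-- Two programs as those of a map, from `l` to `o`, and of its adjoint. -/
def pairP (P Q : Prog d B I) (G : Space d → Space d) (o l : I) (a : PArg d B I) :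
    IsoPrg d (pairSd P Q) := fun b v ω =>
  bif b then P.F G (a.1, a.2.1, update a.2.2 l v, fun j => ω (.inl j))
  else Q.F G (a.1, a.2.1, update a.2.2 o v, fun j => ω (.inr j))

/-- The map of a pair and its adjoint. -/
def pairM (c : ℝ) (o l : I) (T : Ten d I) (A : I → Space d) : Bool → Space d →L[ℝ] Space d :=
  fun b => c • (bif b then tMap o l T A else tMap l o T A)

/-- The deviation of a program from the tensor at scale `c`. -/
def devP (P : Prog d B I) (G : Space d → Space d) (p : Space d) (o : I) (c : ℝ) (T : Ten d I)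
    (x : B → Space d) (A : I → Space d) : ℝ :=
  P.dev G p x A (c • apT o T A)

theorem computes_pairP (P Q : Prog d B I) (o l : I) (b : Bool) :
    Computes (P.q + Q.q) (fun G (z : PArg d B I × Space d × (pairSd P Q → Space d)) =>
      pairP P Q G o l z.1 b z.2.1 z.2.2) := by
  have hu := fun l' : I => (measurable_update' (X := fun _ : I => Space d) (a := l')).comp
    (f := fun z : PArg d B I × Space d × (pairSd P Q → Space d) => (z.1.2.2, z.2.1)) (by fun_prop)
  cases b
  · rw [Nat.add_comm]
    exact computes_pad ((Q.comp.comp (f := fun z : PArg d B I × Space d × (pairSd P Q → Space d) =>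
      (z.1.1, z.1.2.1, update z.1.2.2 o z.2.1, fun j => z.2.2 (.inr j)))
      (measurable_fst.fst.prodMk (measurable_fst.snd.fst.prodMk ((hu o).prodMk (by fun_prop))))).congr
        fun G z => rfl) P.q
  · exact computes_pad ((P.comp.comp (f := fun z : PArg d B I × Space d × (pairSd P Q → Space d) =>
      (z.1.1, z.1.2.1, update z.1.2.2 l z.2.1, fun j => z.2.2 (.inl j)))
      (measurable_fst.fst.prodMk (measurable_fst.snd.fst.prodMk ((hu l).prodMk (by fun_prop))))).congr
        fun G z => rfl) Q.q

theorem lip_update (l : I) : LipschitzWith 1 fun q : (I → Space d) × Space d => update q.1 l q.2 :=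
  lip_pi fun j => by
    by_cases hj : j = l
    · subst hj
      simp only [update_self]
      exact LipschitzWith.prod_snd
    · simp only [update_of_ne hj]
      exact ((LipschitzWith.eval (α := fun _ : I => Space d) j).comp LipschitzWith.prod_fst).weaken
        (by norm_num)

variable {P Q : Prog d B I} {G : Space d → Space d}

theorem exists_lip_pairP (hP : P.LipW G) (hQ : Q.LipW G) (o l : I) (b : Bool) :
    ∃ L : ℝ≥0, LipschitzWith L fun z : PArg d B I × Space d × (pairSd P Q → Space d) =>
      pairP P Q G o l z.1 b z.2.1 z.2.2 := by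
  have ha := LipschitzWith.prod_fst (α := PArg d B I) (β := Space d × (pairSd P Q → Space d))
  have hs := LipschitzWith.prod_snd (α := PArg d B I) (β := Space d × (pairSd P Q → Space d))
  have hu := fun l' : I => (lip_update (d := d) l').comp
    (((LipschitzWith.prod_snd.comp LipschitzWith.prod_snd).comp ha).prodMk
      (LipschitzWith.prod_fst.comp hs))
  cases b
  · obtain ⟨L, h⟩ := hQ
    exact ⟨_, h.comp ((LipschitzWith.prod_fst.comp ha).prodMk
      (((LipschitzWith.prod_fst.comp LipschitzWith.prod_snd).comp ha).prodMk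
        ((hu o).prodMk ((lipschitz_reindex Sum.inr).comp (LipschitzWith.prod_snd.comp hs)))))⟩
  · obtain ⟨L, h⟩ := hP
    exact ⟨_, h.comp ((LipschitzWith.prod_fst.comp ha).prodMk
      (((LipschitzWith.prod_fst.comp LipschitzWith.prod_snd).comp ha).prodMk
        ((hu l).prodMk ((lipschitz_reindex Sum.inl).comp (LipschitzWith.prod_snd.comp hs)))))⟩

theorem exists_lip_pairP_at (hP : P.LipW G) (hQ : Q.LipW G) (o l : I) (a : PArg d B I) (b : Bool) :
    ∃ L : ℝ≥0, LipschitzWith L fun z : Space d × (pairSd P Q → Space d) =>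
      pairP P Q G o l a b z.1 z.2 := by
  obtain ⟨L, h⟩ := exists_lip_pairP hP hQ o l b
  exact ⟨L, lip_sec (f := fun (a : PArg d B I) (z : Space d × (pairSd P Q → Space d)) =>
    pairP P Q G o l a b z.1 z.2) h a⟩

theorem sum_update_le (l : I) (A A' : I → Space d) (v v' : Space d) :
    ∑ j, ‖update A l v j - update A' l v' j‖ ≤ ∑ j, ‖A j - A' j‖ + ‖v - v'‖ := by
  rw [← Finset.add_sum_erase _ _ (Finset.mem_univ l), update_self, update_self, add_comm]
  refine add_le_add (le_trans (le_of_eq (Finset.sum_congr rfl fun j hj => ?_))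
    (Finset.sum_le_univ_sum_of_nonneg fun j => norm_nonneg _)) le_rfl
  rw [update_of_ne (Finset.ne_of_mem_erase hj), update_of_ne (Finset.ne_of_mem_erase hj)]

theorem pairP_lip {K : ℝ} (hK : 0 ≤ K) (hP : P.Lip G K) (hQ : Q.Lip G K) (o l : I)
    (a a' : PArg d B I) (b : Bool) (v v' : Space d) (ω : pairSd P Q → Space d) :
    ‖pairP P Q G o l a b v ω - pairP P Q G o l a' b v' ω‖
      ≤ K * (dist3 a.1 a'.1 a.2.1 a'.2.1 a.2.2 a'.2.2 + ‖v - v'‖) := by
  cases b <;> simp only [pairP, cond_false, cond_true]
  · refine (hQ _ _ _ _ _ _ _).trans (mul_le_mul_of_nonneg_left ?_ hK)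
    simp only [dist3]
    linarith [sum_update_le o a.2.2 a'.2.2 v v']
  · refine (hP _ _ _ _ _ _ _).trans (mul_le_mul_of_nonneg_left ?_ hK)
    simp only [dist3]
    linarith [sum_update_le l a.2.2 a'.2.2 v v']

theorem pairP_lip_at {K : ℝ} (hK : 0 ≤ K) (hP : P.Lip G K) (hQ : Q.Lip G K) (o l : I)
    (a : PArg d B I) (b : Bool) (v v' : Space d) (ω : pairSd P Q → Space d) :
    ‖pairP P Q G o l a b v ω - pairP P Q G o l a b v' ω‖ ≤ K * ‖v - v'‖ :=
  (pairP_lip hK hP hQ o l a a b v v' ω).trans_eq (by simp [dist3])

theorem pairM_adjoint (c : ℝ) (o l : I) (T : Ten d I) (A : I → Space d) (b : Bool) :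
    ContinuousLinearMap.adjoint (pairM c o l T A b) = pairM c o l T A (!b) := by
  cases b <;> simp [pairM, tMap_adjoint]

theorem norm_pairM (c : ℝ) (o l : I) (T : Ten d I) (A : I → Space d) (b : Bool) :
    ‖pairM c o l T A b‖ = |c| * ‖tMap o l T A‖ := by
  rw [pairM, norm_smul, Real.norm_eq_abs]
  cases b
  · rw [cond_false, ← tMap_adjoint o l T A, LinearIsometryEquiv.norm_map]
  · rfl

theorem pairM_apply {o l : I} (h : o ≠ l) (c : ℝ) (T : Ten d I) (A : I → Space d) (v : Space d) :
    pairM c o l T A true v = c • apT o T (update A l v) := by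
  simp [pairM, tMap_apply h]

theorem pairM_apply_false {o l : I} (h : o ≠ l) (c : ℝ) (T : Ten d I) (A : I → Space d)
    (v : Space d) : pairM c o l T A false v = c • apT l T (update A o v) := by
  simp [pairM, tMap_apply h.symm]

/-- Seeds that are not read leave the deviation unchanged. -/
theorem devW_comp {α α' β : Type} [MeasurableSpace α] [MeasurableSpace α'] [MeasurableSpace β]
    {μ : Measure α} {μ' : Measure α'} {ν : Measure β} {f : α' → α} (hf : MeasurePreserving f μ' μ)
    {X : α → Space d} (hX : AEStronglyMeasurable X μ) (Y : β → Space d) :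
    devW μ' (fun a => X (f a)) ν Y = devW μ X ν Y := by
  refine iSup_congr fun ψ => ?_
  congr 2
  rw [← hf.map_eq, integral_map hf.measurable.aemeasurable
    (by rw [hf.map_eq]; exact ψ.2.1.continuous.comp_aestronglyMeasurable hX)]

theorem devW_pair (hP : P.LipW G) (hQ : Q.LipW G) {o l : I} (h : o ≠ l) (c : ℝ) (T : Ten d I)
    (a : PArg d B I) (b : Bool) (v : Space d) :
    devW (gp (pairSd P Q) d) (pairP P Q G o l a b v) (gam d)
        (fun z => pairM c o l T a.2.2 b v + z)
      = bif b then devP P G a.1 o c T a.2.1 (update a.2.2 l v)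
        else devP Q G a.1 l c T a.2.1 (update a.2.2 o v) := by
  cases b
  · rw [cond_false, pairM_apply_false h]
    exact devW_comp (f := fun (ω : pairSd P Q → Space d) j => ω (.inr j))
      ((mp_inj (d := d) Sum.inr_injective)) (hQ.integrable _ _ _).1 _
  · rw [cond_true, pairM_apply h]
    exact devW_comp (f := fun (ω : pairSd P Q → Space d) j => ω (.inl j))
      ((mp_inj (d := d) Sum.inl_injective)) (hP.integrable _ _ _).1 _

/-- Two legs refilled from standard inputs: the averages agree. -/
theorem avg_pull {π : I → J} {l : I} (h : ∀ a b, a ≠ l → b ≠ l → π a = π b → a = b)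
    {f : (B → Space d) × (I → Space d) → ℝ} (hf : Integrable f ((gp B d).prod (gp I d))) :
    Integrable (fun z : (B → Space d) × (J → Space d) =>
        ∫ v, f (z.1, update (fun i => z.2 (π i)) l v) ∂gam d) ((gp B d).prod (gp J d)) ∧
      ∫ z : (B → Space d) × (J → Space d),
          ∫ v, f (z.1, update (fun i => z.2 (π i)) l v) ∂gam d ∂(gp B d).prod (gp J d)
        = ∫ w, f w ∂(gp B d).prod (gp I d) := by
  have hmp := ((MeasurePreserving.id (gp B d)).prod (mp_pull (d := d) h)).comp
    (measurePreserving_prodAssoc (gp B d) (gp J d) (gam d))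
  have hi : Integrable (fun q : ((B → Space d) × (J → Space d)) × Space d =>
      f (q.1.1, update (fun i => q.1.2 (π i)) l q.2)) (((gp B d).prod (gp J d)).prod (gam d)) :=
    hmp.integrable_comp_of_integrable hf
  refine ⟨hi.integral_prod_left, ?_⟩
  rw [← integral_prod _ hi]
  conv_rhs => rw [← hmp.map_eq]
  rw [integral_map hmp.measurable.aemeasurable (by rw [hmp.map_eq]; exact hf.1)]
  rfl

theorem measurable_devP (hP : P.LipW G) (p : Space d) (o : I) (c : ℝ)
    {T : (B → Space d) → Ten d I} (hT : Continuous T) :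
    Measurable fun z : (B → Space d) × (I → Space d) => devP P G p o c (T z.1) z.1 z.2 :=
  Prog.measurable_dev hP p (v := fun z => c • apT o (T z.1) z.2)
    ((continuous_apT o (hT.comp continuous_fst) continuous_snd).const_smul c)

/-- The deviation is integrable below any bound of the law. -/
theorem devP_avg (hP : P.LipW G) {p : Space d} {o : I} {c : ℝ} {T : (B → Space d) → Ten d I}
    (hT : Continuous T) {e : (B → Space d) × (I → Space d) → ℝ}
    (he : Integrable e ((gp B d).prod (gp I d)))
    (h : ∀ x A, P.CloseAt G p x A (c • apT o (T x) A) 1 (e (x, A))) :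
    Integrable (fun z => devP P G p o c (T z.1) z.1 z.2) ((gp B d).prod (gp I d)) ∧
      ∫ z, devP P G p o c (T z.1) z.1 z.2 ∂(gp B d).prod (gp I d)
        ≤ ∫ z, e z ∂(gp B d).prod (gp I d) := by
  have hi : Integrable (fun z => devP P G p o c (T z.1) z.1 z.2) ((gp B d).prod (gp I d)) :=
    he.mono' (measurable_devP hP p o c hT).aestronglyMeasurable (ae_of_all _ fun z => by
      rw [Real.norm_eq_abs, devP, abs_of_nonneg (Prog.dev_nonneg hP _ _ _ _)]
      exact Prog.dev_le (h z.1 z.2))
  exact ⟨hi, integral_mono hi he fun z => Prog.dev_le (h z.1 z.2)⟩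

end Vale.Agent.P347.Zero
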