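import Vale.Agent.P347.Zero.ProductPair

/-!
The program of a contraction: the inner factor with its isotropising partner, the outer factor on
both signs, the outer isotropiser and fresh noise.
-/

noncomputable section

open MeasureTheory ProbabilityTheory Function
open scoped RealInnerProductSpace NNReal

namespace Vale.Agent.P347.Zero

variable {d : ℕ} {B A D : Type} [Fintype B] [Fintype A] [DecidableEq A] [Fintype D] [DecidableEq D]

/-- The inputs of the inner factor: a dummy at the contracted leg. -/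
def piH (a₀ : A) : Unit ⊕ D → A ⊕ D := Sum.elim (fun _ => .inl a₀) .inr

/-- The inputs of the outer factor: a dummy at the contracted leg. -/
def piF (a₀ : A) : A ⊕ Unit → A ⊕ D := Sum.elim .inl fun _ => .inl a₀

/-- The arguments of the inner factor. -/
def argH (a₀ : A) (a : PArg d B (A ⊕ D)) : PArg d B (Unit ⊕ D) :=
  (a.1, a.2.1, fun j => a.2.2 (piH a₀ j))

/-- The arguments of the outer factor. -/
def argF (a₀ : A) (a : PArg d B (A ⊕ D)) : PArg d B (A ⊕ Unit) :=
  (a.1, a.2.1, fun j => a.2.2 (piF a₀ j))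

variable (P P' : Prog d B (Unit ⊕ D)) (Q Q' : Prog d B (A ⊕ Unit)) (n : ℕ) (a₀ : A) (b₀ : D)

/-- The seeds. -/
abbrev prodSd : Type :=
  ((Fin P.sd ⊕ (IsoI (pairSd P P') n ⊕ (Fin Q.sd ⊕ Fin Q.sd))) ⊕ IsoI (pairSd Q Q') n) ⊕ Unit

/-- The outer factor at one sign. -/
def prodW (G : Space d → Space d) (a : PArg d B (A ⊕ D)) (w : Space d) (ω : Fin Q.sd → Space d) :
    Space d :=
  (isoV n / 2) • Q.F G (a.1, a.2.1, update (argF a₀ a).2.2 (.inr ()) ((isoV n)⁻¹ • w), ω)

/-- Both signs. -/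
def prodU (G : Space d → Space d) (a : PArg d B (A ⊕ D)) (v r : Space d)
    (ω : (Fin Q.sd → Space d) × (Fin Q.sd → Space d)) : Space d :=
  prodW Q n a₀ G a (v + r) ω.1 + prodW Q n a₀ G a (v - r) ω.2

/-- The partner of the inner factor. -/
def prodR (G : Space d → Space d) (a : PArg d B (A ⊕ D))
    (ω : IsoI (pairSd P P') n → Space d) : Space d :=
  isoP (pairP P P' G (.inl ()) (.inr b₀) (argH a₀ a)) n true ω

/-- The outer isotropiser. -/
def prodI (G : Space d → Space d) (a : PArg d B (A ⊕ D))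
    (ω : IsoI (pairSd Q Q') n → Space d) : Space d :=
  isoP (pairP Q Q' G (.inl a₀) (.inr ()) (argF a₀ a)) n true ω

/-- The inner factor. -/
def prodV (G : Space d → Space d) (a : PArg d B (A ⊕ D)) (ω : Fin P.sd → Space d) : Space d :=
  P.F G (a.1, a.2.1, (argH a₀ a).2.2, ω)

/-- The program at scale `s`, with noise of scale `top`. -/
def prodOut (s top : ℝ) (G : Space d → Space d) (a : PArg d B (A ⊕ D))
    (ω : prodSd P P' Q Q' n → Space d) : Space d :=
  s • (prodU Q n a₀ G a (prodV P a₀ G a fun j => ω (.inl (.inl (.inl j))))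
      (prodR P P' n a₀ b₀ G a fun j => ω (.inl (.inl (.inr (.inl j)))))
      (fun j => ω (.inl (.inl (.inr (.inr (.inl j))))), fun j => ω (.inl (.inl (.inr (.inr (.inr j))))))
    + prodI Q Q' n a₀ G a fun j => ω (.inl (.inr j))) + top • ω (.inr ())

/-- The number of queries. -/
def prodQ : ℕ :=
  P.q + isoQ (P.q + P'.q) n + (Q.q + Q.q) + isoQ (Q.q + Q'.q) n

omit [Fintype B] [Fintype A] [DecidableEq A] [Fintype D] [DecidableEq D] in
theorem measurable_argH : Measurable (argH (d := d) (B := B) (D := D) a₀) := by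
  unfold argH; fun_prop

omit [Fintype B] [Fintype A] [DecidableEq A] [Fintype D] [DecidableEq D] in
theorem measurable_argF : Measurable (argF (d := d) (B := B) (D := D) a₀) := by
  unfold argF; fun_prop

omit [Fintype D] [DecidableEq D] in
theorem computes_prodW :
    Computes Q.q fun G (z : (PArg d B (A ⊕ D)) × Space d × (Fin Q.sd → Space d)) =>
      prodW Q n a₀ G z.1 z.2.1 z.2.2 := by
  have hm : Measurable fun z : (PArg d B (A ⊕ D)) × Space d × (Fin Q.sd → Space d) =>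
      (z.1.1, z.1.2.1, update (argF a₀ z.1).2.2 (.inr ()) ((isoV n)⁻¹ • z.2.1), z.2.2) :=
    measurable_fst.fst.prodMk (measurable_fst.snd.fst.prodMk
      (((measurable_update' (X := fun _ : A ⊕ Unit => Space d) (a := Sum.inr ())).comp
        ((((measurable_argF a₀).comp measurable_fst).snd.snd).prodMk
          (measurable_snd.fst.const_smul ((isoV n)⁻¹)))).prodMk measurable_snd.snd))
  exact ((Q.comp.comp hm).map (f := fun x => (isoV n / 2) • x.2) (by fun_prop)).congr fun G z => rfl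

theorem computes_prodOut (s top : ℝ) :
    Computes (prodQ P P' Q Q' n) fun G (z : PArg d B (A ⊕ D) × (prodSd P P' Q Q' n → Space d)) =>
      prodOut P P' Q Q' n a₀ b₀ s top G z.1 z.2 := by
  have hH := measurable_argH (d := d) (B := B) (D := D) a₀
  have hF := measurable_argF (d := d) (B := B) (D := D) a₀
  have hV := P.comp.comp (f := fun z : PArg d B (A ⊕ D) × (prodSd P P' Q Q' n → Space d) =>
      (z.1.1, z.1.2.1, (argH a₀ z.1).2.2, fun j => z.2 (.inl (.inl (.inl j)))))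
    (measurable_fst.fst.prodMk (measurable_fst.snd.fst.prodMk
      ((hH.comp measurable_fst).snd.snd.prodMk (by fun_prop))))
  have hR := (computes_isoP (fun b => computes_pairP P P' (.inl ()) (.inr b₀) b) n true).comp
    (f := fun z : PArg d B (A ⊕ D) × (prodSd P P' Q Q' n → Space d) =>
      (argH a₀ z.1, fun j => z.2 (.inl (.inl (.inr (.inl j))))))
    ((hH.comp measurable_fst).prodMk (by fun_prop))
  have hI := (computes_isoP (fun b => computes_pairP Q Q' (.inl a₀) (.inr ()) b) n true).comp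
    (f := fun z : PArg d B (A ⊕ D) × (prodSd P P' Q Q' n → Space d) =>
      (argF a₀ z.1, fun j => z.2 (.inl (.inr j))))
    ((hF.comp measurable_fst).prodMk (by fun_prop))
  have hVR := hV.bind ((hR.comp (f := fun x : (PArg d B (A ⊕ D) ×
    (prodSd P P' Q Q' n → Space d)) × Space d => x.1) measurable_fst).map
      (f := fun x => (x.1.2, x.2)) (by fun_prop))
  have hW₁ := (computes_prodW Q n a₀).comp (f := fun x : (PArg d B (A ⊕ D) ×
    (prodSd P P' Q Q' n → Space d)) × (Space d × Space d) =>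
      (x.1.1, x.2.1 + x.2.2, fun j => x.1.2 (.inl (.inl (.inr (.inr (.inl j)))))))
    (by fun_prop)
  have hW₂ := (computes_prodW Q n a₀).comp (f := fun x : (PArg d B (A ⊕ D) ×
    (prodSd P P' Q Q' n → Space d)) × (Space d × Space d) =>
      (x.1.1, x.2.1 - x.2.2, fun j => x.1.2 (.inl (.inl (.inr (.inr (.inr j)))))))
    (by fun_prop)
  have hU := hVR.bind (hW₁.bind ((hW₂.comp (f := fun x : ((PArg d B (A ⊕ D) ×
    (prodSd P P' Q Q' n → Space d)) × (Space d × Space d)) × Space d => x.1) measurable_fst).map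
      (f := fun x => x.1.2 + x.2) (by fun_prop)))
  have hall := hU.bind ((hI.comp (f := fun x : (PArg d B (A ⊕ D) ×
    (prodSd P P' Q Q' n → Space d)) × Space d => x.1) measurable_fst).map
      (f := fun x => s • (x.1.2 + x.2) + top • x.1.1.2 (.inr ())) (by fun_prop))
  exact hall.congr fun G z => rfl

/-- The program. -/
def prodProg (s top : ℝ) : Prog d B (A ⊕ D) where
  sd := Fintype.card (prodSd P P' Q Q' n)
  q := prodQ P P' Q Q' n
  F G z := prodOut P P' Q Q' n a₀ b₀ s top G (z.1, z.2.1, z.2.2.1)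
    fun k => z.2.2.2 (Fintype.equivFin _ k)
  comp := ((computes_prodOut P P' Q Q' n a₀ b₀ s top).comp
    (f := fun z : Inp d B (A ⊕ D) (Fintype.card (prodSd P P' Q Q' n)) =>
      ((z.1, z.2.1, z.2.2.1), fun k => z.2.2.2 (Fintype.equivFin _ k)))
    (by fun_prop)).congr fun G z => rfl

variable {P P' Q Q' n a₀ b₀} {G : Space d → Space d}

/-! ### Regularity -/

omit [DecidableEq A] [DecidableEq D] in
theorem lip_args : LipschitzWith 1 (argH (d := d) (B := B) (D := D) a₀) ∧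
    LipschitzWith 1 (argF (d := d) (B := B) (D := D) a₀) := by
  have h2 : LipschitzWith 1 fun a : PArg d B (A ⊕ D) => a.2.1 :=
    (LipschitzWith.prod_fst.comp LipschitzWith.prod_snd).weaken (by norm_num)
  have h3 : LipschitzWith 1 fun a : PArg d B (A ⊕ D) => a.2.2 :=
    (LipschitzWith.prod_snd.comp LipschitzWith.prod_snd).weaken (by norm_num)
  exact ⟨(LipschitzWith.prod_fst.prodMk
      (h2.prodMk ((lipschitz_reindex (piH a₀)).comp h3))).weaken (by norm_num),
    (LipschitzWith.prod_fst.prodMk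
      (h2.prodMk ((lipschitz_reindex (piF a₀)).comp h3))).weaken (by norm_num)⟩

theorem prodProg_lipW (hP : P.LipW G) (hP' : P'.LipW G) (hQ : Q.LipW G) (hQ' : Q'.LipW G)
    (s top : ℝ) : (prodProg P P' Q Q' n a₀ b₀ s top).LipW G := by
  obtain ⟨hH, hF⟩ := lip_args (d := d) (B := B) (D := D) (a₀ := a₀)
  obtain ⟨LP, hLP⟩ := hP
  obtain ⟨LQ, hLQ⟩ := hQ
  obtain ⟨LR, hLR⟩ := exists_lip_isoP (P := pairP P P' G (.inl ()) (.inr b₀))
    (fun b => exists_lip_pairP ⟨LP, hLP⟩ hP' (.inl ()) (.inr b₀) b) n true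
  obtain ⟨LI, hLI⟩ := exists_lip_isoP (P := pairP Q Q' G (.inl a₀) (.inr ()))
    (fun b => exists_lip_pairP ⟨LQ, hLQ⟩ hQ' (.inl a₀) (.inr ()) b) n true
  set N := Fintype.card (prodSd P P' Q Q' n)
  have ha : LipschitzWith 1 fun z : Inp d B (A ⊕ D) N =>
      ((z.1, z.2.1, z.2.2.1) : PArg d B (A ⊕ D)) :=
    (LipschitzWith.prod_fst.prodMk ((LipschitzWith.prod_fst.comp LipschitzWith.prod_snd).prodMk
      (LipschitzWith.prod_fst.comp (LipschitzWith.prod_snd.comp LipschitzWith.prod_snd)))).weaken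
        (by norm_num)
  have hω : LipschitzWith 1 fun z : Inp d B (A ⊕ D) N => z.2.2.2 :=
    (LipschitzWith.prod_snd.comp (LipschitzWith.prod_snd.comp LipschitzWith.prod_snd)).weaken
      (by norm_num)
  have hsel : ∀ {α : Type} [Fintype α] (σ : α → prodSd P P' Q Q' n),
      LipschitzWith 1 fun z : Inp d B (A ⊕ D) N =>
        fun j => z.2.2.2 (Fintype.equivFin _ (σ j)) := fun σ =>
    ((lipschitz_reindex fun j => Fintype.equivFin _ (σ j)).comp hω).weaken (by norm_num)
  have hv := hLP.comp ((LipschitzWith.prod_fst.comp (hH.comp ha)).prodMk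
    ((LipschitzWith.prod_fst.comp (LipschitzWith.prod_snd.comp (hH.comp ha))).prodMk
      ((LipschitzWith.prod_snd.comp (LipschitzWith.prod_snd.comp (hH.comp ha))).prodMk
        (hsel fun j => .inl (.inl (.inl j))))))
  have hr := hLR.comp ((hH.comp ha).prodMk (hsel fun j => .inl (.inl (.inr (.inl j)))))
  have hi := hLI.comp ((hF.comp ha).prodMk (hsel fun j => .inl (.inr j)))
  have hw : ∀ {K : ℝ≥0} {f : Inp d B (A ⊕ D) N → Space d} (_ : LipschitzWith K f)
      (σ : Fin Q.sd → prodSd P P' Q Q' n), ∃ K' : ℝ≥0, LipschitzWith K' fun z =>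
        prodW Q n a₀ G (z.1, z.2.1, z.2.2.1) (f z) fun j => z.2.2.2 (Fintype.equivFin _ (σ j)) :=
    fun hf σ => ⟨_, (lipschitzWith_smul (β := Space d) (isoV n / 2)).comp (hLQ.comp
      ((LipschitzWith.prod_fst.comp (hF.comp ha)).prodMk
        ((LipschitzWith.prod_fst.comp (LipschitzWith.prod_snd.comp (hF.comp ha))).prodMk
          (((lip_update (Sum.inr ())).comp
            ((LipschitzWith.prod_snd.comp (LipschitzWith.prod_snd.comp (hF.comp ha))).prodMk
              ((lipschitzWith_smul (β := Space d) (isoV n)⁻¹).comp hf))).prodMk (hsel σ)))))⟩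
  obtain ⟨K₁, h₁⟩ := hw (hv.add hr) fun j => .inl (.inl (.inr (.inr (.inl j))))
  obtain ⟨K₂, h₂⟩ := hw (hv.sub hr) fun j => .inl (.inl (.inr (.inr (.inr j))))
  exact ⟨_, ((lipschitzWith_smul (β := Space d) s).comp ((h₁.add h₂).add hi)).add
    ((lipschitzWith_smul (β := Space d) top).comp
      ((LipschitzWith.eval (α := fun _ : Fin N => Space d) (Fintype.equivFin _ (Sum.inr ()))).comp
        hω))⟩

omit [DecidableEq A] [DecidableEq D] in
theorem dist3_args (a a' : PArg d B (A ⊕ D)) :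
    dist3 (argH a₀ a).1 (argH a₀ a').1 (argH a₀ a).2.1 (argH a₀ a').2.1 (argH a₀ a).2.2
        (argH a₀ a').2.2 ≤ 2 * dist3 a.1 a'.1 a.2.1 a'.2.1 a.2.2 a'.2.2 ∧
      dist3 (argF a₀ a).1 (argF a₀ a').1 (argF a₀ a).2.1 (argF a₀ a').2.1 (argF a₀ a).2.2
        (argF a₀ a').2.2 ≤ 2 * dist3 a.1 a'.1 a.2.1 a'.2.1 a.2.2 a'.2.2 := by
  have h1 : ‖a.2.2 (.inl a₀) - a'.2.2 (.inl a₀)‖ ≤ ∑ j, ‖a.2.2 j - a'.2.2 j‖ :=
    Finset.single_le_sum (f := fun j => ‖a.2.2 j - a'.2.2 j‖) (fun j _ => norm_nonneg _)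
      (Finset.mem_univ _)
  have h0 : 0 ≤ ‖a.1 - a'.1‖ + ∑ b, ‖a.2.1 b - a'.2.1 b‖ := by positivity
  have hA : 0 ≤ ∑ j : A, ‖a.2.2 (.inl j) - a'.2.2 (.inl j)‖ :=
    Finset.sum_nonneg fun j _ => norm_nonneg _
  have hD : 0 ≤ ∑ j : D, ‖a.2.2 (.inr j) - a'.2.2 (.inr j)‖ :=
    Finset.sum_nonneg fun j _ => norm_nonneg _
  simp only [Fintype.sum_sum_type] at h1
  constructor <;>
    simp only [dist3, argH, argF, piH, piF, Fintype.sum_sum_type, Sum.elim_inl, Sum.elim_inr,
      Finset.univ_unique, Finset.sum_singleton] <;>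
    linarith

/-- The amplification of the program. -/
def prodC (n : ℕ) : ℝ := 4 * isoV n + 4 + 4 * isoC n

theorem prodC_nonneg (n : ℕ) : 0 ≤ prodC n := by
  have := isoC_nonneg n
  have := isoV_pos n
  unfold prodC; linarith

theorem prodProg_lip {K L : ℝ} (hK0 : 0 ≤ K) (hK : K ≤ 1) (hL0 : 0 ≤ L) (hL : L ≤ 1)
    (hP : P.Lip G K) (hP' : P'.Lip G K) (hQ : Q.Lip G L) (hQ' : Q'.Lip G L) {s : ℝ} (hs : 0 ≤ s)
    (top : ℝ) : (prodProg P P' Q Q' n a₀ b₀ s top).Lip G (s * L * prodC n) := by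
  intro p p' x x' X X' ω
  set a : PArg d B (A ⊕ D) := (p, x, X)
  set a' : PArg d B (A ⊕ D) := (p', x', X')
  set δ := dist3 p p' x x' X X' with hδ
  obtain ⟨hdH, hdF⟩ : _ ∧ _ := dist3_args (a₀ := a₀) a a'
  have hδ0 : 0 ≤ δ := dist3_nonneg _ _ _ _ _ _
  have hν := isoV_pos n
  have hC := isoC_nonneg n
  set e : prodSd P P' Q Q' n → Space d := fun k => ω (Fintype.equivFin _ k)
  -- the inner factor and its partner
  have hV : ∀ ω', ‖prodV P a₀ G a ω' - prodV P a₀ G a' ω'‖ ≤ 2 * δ := fun ω' =>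
    ((hP _ _ _ _ _ _ _).trans (mul_le_of_le_one_left (dist3_nonneg _ _ _ _ _ _) hK)).trans hdH
  have hR : ∀ ω', ‖prodR P P' n a₀ b₀ G a ω' - prodR P P' n a₀ b₀ G a' ω'‖ ≤ isoC n * (2 * δ) :=
    fun ω' => (isoP_sens hK0 hK (by linarith : 0 ≤ 2 * δ) (fun b v v' ω'' =>
      (pairP_lip hK0 hP hP' (.inl ()) (.inr b₀) (argH a₀ a) (argH a₀ a') b v v' ω'').trans
        (mul_le_mul_of_nonneg_left (add_le_add hdH le_rfl) hK0)) n true ω').trans
      (mul_le_mul_of_nonneg_left (mul_le_of_le_one_left (by linarith) hK) hC)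
  have hI : ∀ ω', ‖prodI Q Q' n a₀ G a ω' - prodI Q Q' n a₀ G a' ω'‖ ≤ isoC n * (L * (2 * δ)) :=
    fun ω' => isoP_sens hL0 hL (by linarith : 0 ≤ 2 * δ) (fun b v v' ω'' =>
      (pairP_lip hL0 hQ hQ' (.inl a₀) (.inr ()) (argF a₀ a) (argF a₀ a') b v v' ω'').trans
        (mul_le_mul_of_nonneg_left (add_le_add hdF le_rfl) hL0)) n true ω'
  have hW : ∀ w w' ω', ‖prodW Q n a₀ G a w ω' - prodW Q n a₀ G a' w' ω'‖
      ≤ L * (isoV n * δ + ‖w - w'‖ / 2) := fun w w' ω' => by
    rw [prodW, prodW, ← smul_sub, norm_smul, Real.norm_eq_abs, abs_of_pos (by linarith)]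
    refine (mul_le_mul_of_nonneg_left ((hQ _ _ _ _ _ _ _).trans (mul_le_mul_of_nonneg_left
      (show _ ≤ 2 * δ + ‖(isoV n)⁻¹ • w - (isoV n)⁻¹ • w'‖ from ?_) hL0)) (by linarith)).trans_eq ?_
    · have := sum_update_le (d := d) (Sum.inr ()) (argF a₀ a).2.2 (argF a₀ a').2.2
        ((isoV n)⁻¹ • w) ((isoV n)⁻¹ • w')
      simp only [dist3, argF, δ, a, a'] at hdF this ⊢
      linarith
    · rw [← smul_sub, norm_smul, norm_inv, Real.norm_eq_abs, abs_of_pos hν]
      field_simp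
  show ‖prodOut P P' Q Q' n a₀ b₀ s top G a e - prodOut P P' Q Q' n a₀ b₀ s top G a' e‖ ≤ _
  simp only [prodOut, prodU]
  rw [add_sub_add_right_eq_sub, ← smul_sub, norm_smul, Real.norm_eq_abs, abs_of_nonneg hs,
    mul_assoc s, mul_assoc s, add_sub_add_comm, add_sub_add_comm]
  refine mul_le_mul_of_nonneg_left ((norm_add_le _ _).trans
    ((add_le_add ((norm_add_le _ _).trans (add_le_add (hW _ _ _) (hW _ _ _))) (hI _)).trans ?_)) hs
  generalize hv1 : prodV P a₀ G a _ = v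
  generalize hv2 : prodV P a₀ G a' _ = v'
  generalize hr1 : prodR P P' n a₀ b₀ G a _ = r
  generalize hr2 : prodR P P' n a₀ b₀ G a' _ = r'
  have hvv : ‖v - v'‖ ≤ 2 * δ := by rw [← hv1, ← hv2]; exact hV _
  have hrr : ‖r - r'‖ ≤ isoC n * (2 * δ) := by rw [← hr1, ← hr2]; exact hR _
  have h1 : ‖v + r - (v' + r')‖ ≤ ‖v - v'‖ + ‖r - r'‖ := by
    rw [add_sub_add_comm]; exact norm_add_le _ _
  have h2 : ‖v - r - (v' - r')‖ ≤ ‖v - v'‖ + ‖r - r'‖ := by
    rw [sub_sub_sub_comm]; exact norm_sub_le _ _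
  rw [show L * prodC n * δ = L * (prodC n * δ) by ring, ← mul_add, mul_comm (isoC n),
    mul_assoc L (2 * δ), ← mul_add]
  refine mul_le_mul_of_nonneg_left ?_ hL0
  simp only [prodC]
  nlinarith [mul_nonneg hC hδ0]

end Vale.Agent.P347.Zero
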