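import Vale.Agent.P347.Zero.Class
import Vale.Agent.P347.Zero.Close

/-!
Programs at one index: noise, sums, multiples and changes of arguments; the law condition of a
family as closeness; the canonical deviation, a lower semicontinuous function of the arguments.
-/

noncomputable section

open MeasureTheory ProbabilityTheory
open scoped RealInnerProductSpace NNReal

namespace Vale.Agent.P347.Zero

variable {d : ℕ} {B B' I I' : Type} [Fintype B] [Fintype B'] [Fintype I] [Fintype I']

/-! ### Eventually, and powers of the dimension -/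

theorem Sys.Ev.mono {S : Sys} {P Q : S.ι → Prop} (h : S.Ev P) (hPQ : ∀ i, P i → Q i) : S.Ev Q :=
  let ⟨d₀, hd⟩ := h
  ⟨d₀, fun i hi => hPQ i (hd i hi)⟩

theorem Sys.Ev.and {S : Sys} {P Q : S.ι → Prop} (hP : S.Ev P) (hQ : S.Ev Q) :
    S.Ev fun i => P i ∧ Q i :=
  let ⟨a, ha⟩ := hP
  let ⟨b, hb⟩ := hQ
  ⟨max a b, fun i hi => ⟨ha i (le_trans (le_max_left _ _) hi), hb i (le_trans (le_max_right _ _) hi)⟩⟩

theorem Sys.ev_one_le (S : Sys) : S.Ev fun i => 1 ≤ S.dd i :=
  ⟨1, fun i hi => by simpa [Sys.dd] using hi⟩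

theorem Sys.ev_le_rpow (S : Sys) (c : ℝ) {η : ℝ} (hη : 0 < η) : S.Ev fun i => c ≤ S.dd i ^ η := by
  obtain ⟨d₀, hd⟩ := Filter.eventually_atTop.1
    (tendsto_natCast_atTop_atTop.eventually ((tendsto_rpow_atTop hη).eventually_ge_atTop c))
  exact ⟨d₀, fun i hi => hd _ hi⟩

theorem Sys.ev_true (S : Sys) {P : S.ι → Prop} (h : ∀ i, P i) : S.Ev P := ⟨0, fun i _ => h i⟩

theorem Sys.wt_nonneg (S : Sys) (i : S.ι) (p : Space (S.dm i)) : 0 ≤ S.wt i p :=
  zero_le_one.trans (S.one_le_wt i p)

theorem Sys.og_meas (S : Sys) (i : S.ι) : Measurable (S.og i) :=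
  let ⟨_, h⟩ := S.og_lip i
  h.continuous.measurable

/-! ### Programs at one index -/

/-- A program at one index. -/
structure Prog (d : ℕ) (B I : Type) [Fintype B] [Fintype I] where
  /-- The number of seeds. -/
  sd : ℕ
  /-- The number of queries. -/
  q : ℕ
  /-- The program. -/
  F : (Space d → Space d) → Inp d B I sd → Space d
  comp : Computes q F

/-- The distance of two centres, families of blocks and inputs. -/
def dist3 (p p' : Space d) (x x' : B → Space d) (A A' : I → Space d) : ℝ :=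
  ‖p - p'‖ + ∑ b, ‖x b - x' b‖ + ∑ l, ‖A l - A' l‖

theorem dist3_nonneg (p p' : Space d) (x x' : B → Space d) (A A' : I → Space d) :
    0 ≤ dist3 p p' x x' A A' := by unfold dist3; positivity

/-- Lipschitz in centre, blocks and inputs. -/
def Prog.Lip (P : Prog d B I) (G : Space d → Space d) (K : ℝ) : Prop :=
  ∀ p p' x x' A A' ω, ‖P.F G (p, x, A, ω) - P.F G (p', x', A', ω)‖ ≤ K * dist3 p p' x x' A A'

/-- Lipschitz in all arguments. -/
def Prog.LipW (P : Prog d B I) (G : Space d → Space d) : Prop :=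
  ∃ L : ℝ≥0, LipschitzWith L (P.F G)

/-- The law at given arguments is `e`-close to `N (v, s²)`. -/
def Prog.CloseAt (P : Prog d B I) (G : Space d → Space d) (p : Space d) (x : B → Space d)
    (A : I → Space d) (v : Space d) (s e : ℝ) : Prop :=
  Close (gp (Fin P.sd) d) (fun ω => P.F G (p, x, A, ω)) (gam d) (fun z => v + s • z) e

theorem Prog.Lip.mono {P : Prog d B I} {G : Space d → Space d} {K K' : ℝ} (h : P.Lip G K)
    (hK : K ≤ K') : P.Lip G K' := fun p p' x x' A A' ω =>
  (h p p' x x' A A' ω).trans (mul_le_mul_of_nonneg_right hK (dist3_nonneg _ _ _ _ _ _))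

theorem Prog.LipW.integrable {P : Prog d B I} {G : Space d → Space d} (h : P.LipW G) (p : Space d)
    (x : B → Space d) (A : I → Space d) :
    Integrable (fun ω => P.F G (p, x, A, ω)) (gp (Fin P.sd) d) := by
  obtain ⟨L, hL⟩ := h
  refine ((integrable_const ‖P.F G (p, x, A, 0)‖).add ((integrable_finsetSum Finset.univ fun j _ =>
    (measurePreserving_eval (fun _ : Fin P.sd => gam d) j).integrable_comp_of_integrable
      integrable_norm_gam).const_mul L)).mono'
    (hL.continuous.comp (by fun_prop)).aestronglyMeasurable (ae_of_all _ fun ω => ?_)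
  refine (norm_le_norm_add_norm_sub' _ (P.F G (p, x, A, 0))).trans (add_le_add le_rfl ?_)
  refine (hL.norm_sub_le _ _).trans (mul_le_mul_of_nonneg_left ?_ L.2)
  have h0 : (p, x, A, ω) - (p, x, A, (0 : Fin P.sd → Space d)) = (0, 0, 0, ω) := by simp
  rw [h0]
  simp only [Prod.norm_def, norm_zero]
  have h1 : 0 ≤ ∑ k, ‖ω k‖ := Finset.sum_nonneg fun k _ => norm_nonneg _
  refine max_le h1 (max_le h1 (max_le h1 ?_))
  exact (pi_norm_le_iff_of_nonneg h1).2 fun j =>
    Finset.single_le_sum (fun k _ => norm_nonneg (ω k)) (Finset.mem_univ j)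

/-- Noise of scale `c`. -/
def Prog.noise (d : ℕ) (B I : Type) [Fintype B] [Fintype I] (c : ℝ) : Prog d B I where
  sd := 1
  q := 0
  F := fun _ a => c • a.2.2.2 0
  comp := Computes.of_measurable (by fun_prop)

theorem Prog.noise_lip (c : ℝ) (G : Space d → Space d) : (Prog.noise d B I c).Lip G 0 :=
  fun _ _ _ _ _ _ _ => by simp [Prog.noise]

theorem Prog.noise_lipW (c : ℝ) (G : Space d → Space d) : (Prog.noise d B I c).LipW G :=
  ⟨_, (lipschitzWith_smul c).comp ((LipschitzWith.eval (α := fun _ : Fin 1 => Space d) (0 : Fin 1)).comp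
    (LipschitzWith.prod_snd.comp (LipschitzWith.prod_snd.comp LipschitzWith.prod_snd)))⟩

theorem Prog.noise_close (c : ℝ) (G : Space d → Space d) (p : Space d) (x : B → Space d)
    (A : I → Space d) : (Prog.noise d B I c).CloseAt G p x A 0 c 0 :=
  have h := (Close.refl (integrable_gau (0 : Space d) c)).comp_left
    (measurePreserving_eval (fun _ : Fin 1 => gam d) (0 : Fin 1))
  cast (congrArg (fun X => Close _ X _ _ _) (funext fun ω => zero_add _)) h

/-- The seeds of a sum. -/
def splitSeeds (a b : ℕ) (ω : Fin (a + b) → Space d) : (Fin a → Space d) × (Fin b → Space d) :=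
  (fun j => ω (Fin.castAdd b j), fun j => ω (Fin.natAdd a j))

theorem splitSeeds_mp (a b : ℕ) :
    MeasurePreserving (splitSeeds (d := d) a b) (gp (Fin (a + b)) d)
      ((gp (Fin a) d).prod (gp (Fin b) d)) := by
  have h1 := measurePreserving_piCongrLeft (α := fun _ : Fin a ⊕ Fin b => Space d)
    (fun _ => gam d) (finSumFinEquiv (m := a) (n := b)).symm
  have h2 := measurePreserving_sumPiEquivProdPi (X := fun _ : Fin a ⊕ Fin b => Space d)
    (fun _ => gam d)
  have e : splitSeeds (d := d) a b = (MeasurableEquiv.sumPiEquivProdPi fun _ : Fin a ⊕ Fin b =>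
      Space d) ∘ MeasurableEquiv.piCongrLeft (fun _ : Fin a ⊕ Fin b => Space d)
        (finSumFinEquiv (m := a) (n := b)).symm := by
    funext ω
    refine Prod.ext (funext fun j => ?_) (funext fun j => ?_) <;>
      simp [splitSeeds, MeasurableEquiv.sumPiEquivProdPi, MeasurableEquiv.piCongrLeft,
        Equiv.sumPiEquivProdPi, Equiv.piCongrLeft_apply_eq_cast]
  rw [e]
  exact h2.comp h1

theorem measurable_splitSeeds (a b : ℕ) : Measurable (splitSeeds (d := d) a b) :=
  (splitSeeds_mp a b).measurable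

theorem lipschitz_reindex {α β : Type} [Fintype α] [Fintype β] (σ : α → β) :
    LipschitzWith 1 fun (ω : β → Space d) (j : α) => ω (σ j) :=
  LipschitzWith.of_dist_le_mul fun ω ω' => by
    rw [NNReal.coe_one, one_mul]
    exact (dist_pi_le_iff dist_nonneg).2 fun j => dist_le_pi_dist ω ω' (σ j)

/-- The sum of two programs over independent seeds. -/
def Prog.add (P Q : Prog d B I) : Prog d B I where
  sd := P.sd + Q.sd
  q := P.q + Q.q
  F := fun G a => P.F G (a.1, a.2.1, a.2.2.1, (splitSeeds _ _ a.2.2.2).1) +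
    Q.F G (a.1, a.2.1, a.2.2.1, (splitSeeds _ _ a.2.2.2).2)
  comp := by
    have hs := measurable_splitSeeds (d := d) P.sd Q.sd
    exact ((P.comp.comp (f := fun a : Inp d B I (P.sd + Q.sd) =>
        (a.1, a.2.1, a.2.2.1, (splitSeeds _ _ a.2.2.2).1)) (by fun_prop)).and
      (Q.comp.comp (f := fun a : Inp d B I (P.sd + Q.sd) =>
        (a.1, a.2.1, a.2.2.1, (splitSeeds _ _ a.2.2.2).2)) (by fun_prop))).map
      (f := fun x => x.2.1 + x.2.2) (by fun_prop)

theorem Prog.add_lip {P Q : Prog d B I} {G : Space d → Space d} {K K' : ℝ} (hP : P.Lip G K)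
    (hQ : Q.Lip G K') : (P.add Q).Lip G (K + K') := fun p p' x x' A A' ω => by
  rw [add_mul]
  show ‖_ + _ - (_ + _)‖ ≤ _
  rw [add_sub_add_comm]
  exact (norm_add_le _ _).trans (add_le_add (hP _ _ _ _ _ _ _) (hQ _ _ _ _ _ _ _))

theorem Prog.add_lipW {P Q : Prog d B I} {G : Space d → Space d} (hP : P.LipW G)
    (hQ : Q.LipW G) : (P.add Q).LipW G := by
  obtain ⟨L, hL⟩ := hP
  obtain ⟨L', hL'⟩ := hQ
  have s := LipschitzWith.prod_snd (α := Space d) (β := (B → Space d) × (I → Space d) ×
    (Fin (P.sd + Q.sd) → Space d))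
  have h3 := (LipschitzWith.prod_snd.comp LipschitzWith.prod_snd).comp s
  exact ⟨_, (hL.comp (LipschitzWith.prod_fst.prodMk ((LipschitzWith.prod_fst.comp s).prodMk
      (((LipschitzWith.prod_fst.comp LipschitzWith.prod_snd).comp s).prodMk
        ((lipschitz_reindex (Fin.castAdd Q.sd)).comp h3))))).add
    (hL'.comp (LipschitzWith.prod_fst.prodMk ((LipschitzWith.prod_fst.comp s).prodMk
      (((LipschitzWith.prod_fst.comp LipschitzWith.prod_snd).comp s).prodMk
        ((lipschitz_reindex (Fin.natAdd P.sd)).comp h3)))))⟩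

theorem Prog.add_close {P Q : Prog d B I} {G : Space d → Space d} {p : Space d}
    {x : B → Space d} {A : I → Space d} {v v' : Space d} {s s' e e' : ℝ}
    (hP : P.CloseAt G p x A v s e) (hQ : Q.CloseAt G p x A v' s' e') :
    (P.add Q).CloseAt G p x A (v + v') (Real.sqrt (s ^ 2 + s' ^ 2)) (e + e') := by
  refine (((Close.add hP hQ).comp_left (splitSeeds_mp P.sd Q.sd)).trans
    (cast (congrArg (fun Z => Close _ Z _ _ _) (funext fun z => ?_))
      (Close.gauss_add (v + v') s s'))).mono (add_zero _).le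
  exact add_add_add_comm _ _ _ _

/-- A multiple of a program. -/
def Prog.smul (c : ℝ) (P : Prog d B I) : Prog d B I where
  sd := P.sd
  q := P.q
  F := fun G a => c • P.F G a
  comp := P.comp.map (f := fun x => c • x.2) (by fun_prop)

theorem Prog.smul_lip {P : Prog d B I} {G : Space d → Space d} {K : ℝ} (hP : P.Lip G K) (c : ℝ) :
    (P.smul c).Lip G (|c| * K) := fun p p' x x' A A' ω => by
  show ‖c • _ - c • _‖ ≤ _
  rw [← smul_sub, norm_smul, Real.norm_eq_abs, mul_assoc]
  exact mul_le_mul_of_nonneg_left (hP _ _ _ _ _ _ _) (abs_nonneg c)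

theorem Prog.smul_lipW {P : Prog d B I} {G : Space d → Space d} (hP : P.LipW G) (c : ℝ) :
    (P.smul c).LipW G :=
  let ⟨_, hL⟩ := hP
  ⟨_, (lipschitzWith_smul c).comp hL⟩

theorem Prog.smul_close {P : Prog d B I} {G : Space d → Space d} {p : Space d} {x : B → Space d}
    {A : I → Space d} {v : Space d} {s e : ℝ} (hP : P.CloseAt G p x A v s e) (c : ℝ) :
    (P.smul c).CloseAt G p x A (c • v) (c * s) (|c| * e) := by
  have h := Close.affine hP 0 c
  simp only [zero_add, smul_add, smul_smul] at h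
  exact h

/-- The sum of the first `n` programs. -/
def Prog.sum (P : ℕ → Prog d B I) : ℕ → Prog d B I
  | 0 => Prog.noise d B I 0
  | n + 1 => (Prog.sum P n).add (P n)

theorem Prog.sum_q (P : ℕ → Prog d B I) : ∀ n, (Prog.sum P n).q = ∑ l ∈ Finset.range n, (P l).q
  | 0 => rfl
  | n + 1 => by
    rw [Finset.sum_range_succ, ← Prog.sum_q P n]
    rfl

theorem Prog.sum_lip {P : ℕ → Prog d B I} {G : Space d → Space d} {K : ℕ → ℝ} :
    ∀ n, (∀ l < n, (P l).Lip G (K l)) → (Prog.sum P n).Lip G (∑ l ∈ Finset.range n, K l)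
  | 0, _ => by
    rw [Finset.range_zero, Finset.sum_empty]
    exact Prog.noise_lip 0 G
  | n + 1, h => by
    rw [Finset.sum_range_succ]
    exact Prog.add_lip (Prog.sum_lip n fun l hl => h l (hl.trans n.lt_succ_self))
      (h n n.lt_succ_self)

theorem Prog.sum_lipW {P : ℕ → Prog d B I} {G : Space d → Space d} :
    ∀ n, (∀ l < n, (P l).LipW G) → (Prog.sum P n).LipW G
  | 0, _ => Prog.noise_lipW 0 G
  | n + 1, h => Prog.add_lipW (Prog.sum_lipW n fun l hl => h l (hl.trans n.lt_succ_self))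
      (h n n.lt_succ_self)

theorem Prog.sum_close {P : ℕ → Prog d B I} {G : Space d → Space d} {p : Space d}
    {x : B → Space d} {A : I → Space d} {v : ℕ → Space d} {s e : ℕ → ℝ} :
    ∀ n, (∀ l < n, (P l).CloseAt G p x A (v l) (s l) (e l)) →
      (Prog.sum P n).CloseAt G p x A (∑ l ∈ Finset.range n, v l)
        (Real.sqrt (∑ l ∈ Finset.range n, s l ^ 2)) (∑ l ∈ Finset.range n, e l)
  | 0, _ => by
    simp only [Finset.range_zero, Finset.sum_empty, Real.sqrt_zero]
    exact Prog.noise_close 0 G p x A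
  | n + 1, h => by
    have h2 := Prog.add_close (Prog.sum_close n fun l hl => h l (hl.trans n.lt_succ_self))
      (h n n.lt_succ_self)
    rw [Real.sq_sqrt (Finset.sum_nonneg fun l _ => sq_nonneg (s l))] at h2
    simp only [Finset.sum_range_succ]
    exact h2

/-- A continuous linear change of blocks and inputs. -/
def Prog.comap (P : Prog d B I)
    (φ : ((B' → Space d) × (I' → Space d)) →L[ℝ] ((B → Space d) × (I → Space d))) :
    Prog d B' I' where
  sd := P.sd
  q := P.q
  F := fun G a => P.F G (a.1, (φ (a.2.1, a.2.2.1)).1, (φ (a.2.1, a.2.2.1)).2, a.2.2.2)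
  comp := P.comp.comp (f := fun a : Inp d B' I' P.sd =>
    (a.1, (φ (a.2.1, a.2.2.1)).1, (φ (a.2.1, a.2.2.1)).2, a.2.2.2))
    (Continuous.measurable (by fun_prop))

theorem Prog.comap_lipW {P : Prog d B I} {G : Space d → Space d} (hP : P.LipW G)
    (φ : ((B' → Space d) × (I' → Space d)) →L[ℝ] ((B → Space d) × (I → Space d))) :
    (P.comap φ).LipW G := by
  obtain ⟨L, hL⟩ := hP
  have s := LipschitzWith.prod_snd (α := Space d) (β := (B' → Space d) × (I' → Space d) ×
    (Fin P.sd → Space d))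
  have h2 := φ.lipschitz.comp ((LipschitzWith.prod_fst.comp s).prodMk
    ((LipschitzWith.prod_fst.comp LipschitzWith.prod_snd).comp s))
  exact ⟨_, hL.comp (LipschitzWith.prod_fst.prodMk ((LipschitzWith.prod_fst.comp h2).prodMk
    ((LipschitzWith.prod_snd.comp h2).prodMk
      ((LipschitzWith.prod_snd.comp LipschitzWith.prod_snd).comp s))))⟩

theorem Prog.comap_lip {P : Prog d B I} {G : Space d → Space d} {K : ℝ} (hK : 0 ≤ K)
    (hP : P.Lip G K)
    (φ : ((B' → Space d) × (I' → Space d)) →L[ℝ] ((B → Space d) × (I → Space d))) {C : ℝ}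
    (hC : 1 ≤ C) (hφ : ∀ z : (B' → Space d) × (I' → Space d),
      ∑ b, ‖(φ z).1 b‖ + ∑ l, ‖(φ z).2 l‖ ≤ C * (∑ b, ‖z.1 b‖ + ∑ l, ‖z.2 l‖)) :
    (P.comap φ).Lip G (K * C) := fun p p' x x' A A' ω => by
  refine (hP p p' _ _ _ _ ω).trans ?_
  rw [mul_assoc]
  refine mul_le_mul_of_nonneg_left ?_ hK
  have h := hφ ((x, A) - (x', A'))
  simp only [map_sub, Prod.fst_sub, Prod.snd_sub, Pi.sub_apply] at h
  simp only [dist3]
  nlinarith [mul_le_mul_of_nonneg_right hC (norm_nonneg (p - p'))]

theorem Prog.comap_close {P : Prog d B I} {G : Space d → Space d}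
    (φ : ((B' → Space d) × (I' → Space d)) →L[ℝ] ((B → Space d) × (I → Space d))) {p : Space d}
    {x : B' → Space d} {A : I' → Space d} {v : Space d} {s e : ℝ}
    (h : P.CloseAt G p (φ (x, A)).1 (φ (x, A)).2 v s e) : (P.comap φ).CloseAt G p x A v s e := h

/-! ### Families -/

variable {S : Sys}

/-- The program at one key. -/
def Run.atK (R : Run S B I) (k : S.key) : Prog (S.kdm k) B I :=
  ⟨R.ksd k, R.kq k, R.kF k, R.kcomp k⟩

/-- The program run at one problem. -/
def Run.at (R : Run S B I) (i : S.ι) : Prog (S.dm i) B I := R.atK (S.pub i)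

/-- A family from its programs. -/
def Run.of (f : ∀ k, Prog (S.kdm k) B I) : Run S B I :=
  ⟨fun k => (f k).sd, fun k => (f k).q, fun k => (f k).F, fun k => (f k).comp⟩

theorem Run.lipIn_of {R : Run S B I} {g : ℝ}
    (h : ∀ η : ℝ, 0 < η → S.Ev fun i => (R.at i).Lip (S.og i) (S.dd i ^ (η - g))) :
    R.LipIn g := fun η hη => (h η hη).mono fun _ hi p p' x x' A A' ω => hi p p' x x' A A' ω

theorem Run.LipIn.lip {R : Run S B I} {g : ℝ} (h : R.LipIn g) {η : ℝ} (hη : 0 < η) :
    S.Ev fun i => (R.at i).Lip (S.og i) (S.dd i ^ (η - g)) :=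
  (h η hη).mono fun _ hi p p' x x' A A' ω => hi p p' x x' A A' ω

theorem Run.LipAll.lipW {R : Run S B I} (h : R.LipAll) (i : S.ι) : (R.at i).LipW (S.og i) := h i

/-- The law condition as closeness. -/
theorem Run.law_of_close [DecidableEq I] {R : Run S B I} {κ a : ℝ} {o : I} {T : Fld S B I}
    (h : ∀ η : ℝ, 0 < η → S.Ev fun i => ∀ p,
      ∃ e : (B → Space (S.dm i)) × (I → Space (S.dm i)) → ℝ,
        Integrable e ((gp B (S.dm i)).prod (gp I (S.dm i))) ∧
          ∫ z, e z ∂(gp B (S.dm i)).prod (gp I (S.dm i)) ≤ S.dd i ^ (η - κ) * S.wt i p ∧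
          ∀ x A, (R.at i).CloseAt (S.og i) p x A (S.dd i ^ a • apT o (T i p x) A) 1 (e (x, A))) :
    R.Law κ a o T := fun η hη => (h η hη).mono fun i hi p => by
  obtain ⟨e, he, hb, hc⟩ := hi p
  refine ⟨e, he, hb, fun x A ψ L hψ => ((hc x A).scaled hψ).trans_eq' ?_ |>.trans_eq (mul_comm _ _)⟩
  simp only [one_smul]
  rfl

theorem Run.Law.close [DecidableEq I] {R : Run S B I} {κ a : ℝ} {o : I} {T : Fld S B I}
    (h : R.Law κ a o T) (hR : R.LipAll) {η : ℝ} (hη : 0 < η) :
    S.Ev fun i => ∀ p, ∃ e : (B → Space (S.dm i)) × (I → Space (S.dm i)) → ℝ,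
        Integrable e ((gp B (S.dm i)).prod (gp I (S.dm i))) ∧
          ∫ z, e z ∂(gp B (S.dm i)).prod (gp I (S.dm i)) ≤ S.dd i ^ (η - κ) * S.wt i p ∧
          ∀ x A, (R.at i).CloseAt (S.og i) p x A (S.dd i ^ a • apT o (T i p x) A) 1 (e (x, A)) :=
  (h η hη).mono fun i hi p => by
    obtain ⟨e, he, hb, hc⟩ := hi p
    refine ⟨e, he, hb, fun x A => ⟨(hR.lipW i).integrable p x A, integrable_gau _ _,
      fun ψ hψ => (hc x A ψ 1 hψ).trans_eq' ?_ |>.trans_eq (by rw [NNReal.coe_one, mul_one])⟩⟩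
    simp only [one_smul]
    rfl

/-! ### The canonical deviation -/

/-- The tests of the canonical deviation. -/
abbrev Tst (d : ℕ) := {ψ : Space d → ℝ // LipschitzWith 1 ψ ∧ ψ 0 = 0}

instance (d : ℕ) : Nonempty (Tst d) :=
  ⟨⟨fun _ => 0, (LipschitzWith.const 0).weaken zero_le_one, rfl⟩⟩

/-- The deviation of the law at given arguments from `N (v, 1)`. -/
def Prog.dev (P : Prog d B I) (G : Space d → Space d) (p : Space d) (x : B → Space d)
    (A : I → Space d) (v : Space d) : ℝ :=
  ⨆ ψ : Tst d, |(∫ ω, ψ.1 (P.F G (p, x, A, ω)) ∂gp (Fin P.sd) d) - ∫ z, ψ.1 (v + z) ∂gam d|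

theorem Prog.dev_bdd {P : Prog d B I} {G : Space d → Space d} (hP : P.LipW G) (p : Space d)
    (x : B → Space d) (A : I → Space d) (v : Space d) :
    BddAbove (Set.range fun ψ : Tst d =>
      |(∫ ω, ψ.1 (P.F G (p, x, A, ω)) ∂gp (Fin P.sd) d) - ∫ z, ψ.1 (v + z) ∂gam d|) := by
  refine ⟨(∫ ω, ‖P.F G (p, x, A, ω)‖ ∂gp (Fin P.sd) d) + ∫ z, ‖v + z‖ ∂gam d, ?_⟩
  rintro _ ⟨⟨ψ, hψ, hψ0⟩, rfl⟩
  have hle : ∀ y, ‖ψ y‖ ≤ ‖y‖ := fun y => by simpa [hψ0] using test_one hψ y 0
  have hv : Integrable (fun z => v + z) (gam d) := by simpa using integrable_gau v (1 : ℝ)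
  refine (abs_sub _ _).trans (add_le_add ?_ ?_)
  · exact (Real.norm_eq_abs _).symm.trans_le
      (norm_integral_le_of_norm_le (hP.integrable p x A).norm (ae_of_all _ fun _ => hle _))
  · exact (Real.norm_eq_abs _).symm.trans_le
      (norm_integral_le_of_norm_le hv.norm (ae_of_all _ fun _ => hle _))

/-- The law is within the deviation. -/
theorem Prog.closeAt_dev {P : Prog d B I} {G : Space d → Space d} (hP : P.LipW G) (p : Space d)
    (x : B → Space d) (A : I → Space d) (v : Space d) :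
    P.CloseAt G p x A v 1 (P.dev G p x A v) := by
  refine ⟨hP.integrable p x A, integrable_gau _ _, fun ψ hψ => ?_⟩
  have hv : Integrable (fun z => v + z) (gam d) := by simpa using integrable_gau v (1 : ℝ)
  have h := le_ciSup (Prog.dev_bdd hP p x A v) ⟨fun y => ψ y - ψ 0,
    lip_of_le fun a b => by simpa using test_one hψ a b, sub_self _⟩
  refine le_trans (le_of_eq ?_) h
  simp only [one_smul]
  rw [integral_sub (integrable_test hψ (hP.integrable p x A)) (integrable_const _),
    integral_sub (integrable_test hψ hv) (integrable_const _)]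
  simp

/-- The deviation is the least error. -/
theorem Prog.dev_le {P : Prog d B I} {G : Space d → Space d} {p : Space d} {x : B → Space d}
    {A : I → Space d} {v : Space d} {e : ℝ} (h : P.CloseAt G p x A v 1 e) :
    P.dev G p x A v ≤ e :=
  ciSup_le fun ψ => by simpa only [one_smul] using h.le ψ.1 ψ.2.1

theorem Prog.dev_nonneg {P : Prog d B I} {G : Space d → Space d} (hP : P.LipW G) (p : Space d)
    (x : B → Space d) (A : I → Space d) (v : Space d) : 0 ≤ P.dev G p x A v :=
  Close.nonneg (Prog.closeAt_dev hP p x A v)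

/-- The deviation along a continuous target is measurable. -/
theorem Prog.measurable_dev {P : Prog d B I} {G : Space d → Space d} (hP : P.LipW G) (p : Space d)
    {v : (B → Space d) × (I → Space d) → Space d} (hv : Continuous v) :
    Measurable fun z : (B → Space d) × (I → Space d) => P.dev G p z.1 z.2 (v z) := by
  refine (lowerSemicontinuous_ciSup (fun z => Prog.dev_bdd hP p z.1 z.2 (v z)) fun ψ => ?_).measurable
  obtain ⟨L, hL⟩ := hP
  refine Continuous.lowerSemicontinuous (Continuous.abs (Continuous.sub ?_ ?_))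
  · refine (LipschitzWith.of_dist_le_mul (K := L) fun z z' => ?_).continuous
    rw [dist_eq_norm, ← integral_sub
      (integrable_test ψ.2.1 (Prog.LipW.integrable ⟨L, hL⟩ p z.1 z.2))
      (integrable_test ψ.2.1 (Prog.LipW.integrable ⟨L, hL⟩ p z'.1 z'.2))]
    refine (norm_integral_le_of_norm_le_const (C := L * dist z z') (ae_of_all _ fun ω => ?_)).trans
      (by simp)
    rw [Real.norm_eq_abs]
    refine ((test_one ψ.2.1 _ _).trans_eq (dist_eq_norm _ _).symm).trans
      ((hL.dist_le_mul _ _).trans_eq ?_)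
    simp [Prod.dist_eq]
  · refine (LipschitzWith.of_dist_le_mul (K := 1)
      (f := fun w : Space d => ∫ z, ψ.1 (w + z) ∂gam d) fun a b => ?_).continuous.comp hv
    have hi : ∀ w : Space d, Integrable (fun z => ψ.1 (w + z)) (gam d) := fun w =>
      integrable_test ψ.2.1 (by simpa using integrable_gau w (1 : ℝ))
    rw [NNReal.coe_one, one_mul, Real.dist_eq, ← integral_sub (hi a) (hi b), ← Real.norm_eq_abs]
    refine (norm_integral_le_of_norm_le_const (C := dist a b) (ae_of_all _ fun z => ?_)).trans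
      (by simp)
    rw [Real.norm_eq_abs]
    exact (test_one ψ.2.1 _ _).trans_eq (by rw [dist_eq_norm, add_sub_add_right_eq_sub])

theorem Prog.dev_reindex (P : Prog d B I) (G : Space d → Space d) (p : Space d)
    (φ : ((B' → Space d) × (I' → Space d)) →L[ℝ] ((B → Space d) × (I → Space d)))
    (x : B' → Space d) (A : I' → Space d) (v : Space d) :
    (P.comap φ).dev G p x A v = P.dev G p (φ (x, A)).1 (φ (x, A)).2 v := rfl

end Vale.Agent.P347.Zero
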