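import Vale.Agent.P347.Zero.Close
import Vale.Agent.P347.Zero.Defs

/-!
Realisation of a field by a query program, class independent. For an index set `Θ` of oracles `G`,
`Sim q G Q Y M E` says that some program with at most `q` queries, with modulus `M` in its inputs,
has at the input `x` a law within `E θ x` of the law of `Y θ x` under `Q`. `Realised` is the case
of a Gaussian law around a field. Both are closed under the operations of the recursion, whose
query count is bounded at the end of the file.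
-/

noncomputable section

open MeasureTheory ProbabilityTheory Function
open scoped RealInnerProductSpace NNReal

namespace Vale.Agent.P347.Zero

variable {d : ℕ} {Θ X X' β β' : Type} [MeasurableSpace X] [MeasurableSpace X'] [MeasurableSpace β]
  [MeasurableSpace β'] {G : Θ → Space d → Space d} {q q' : ℕ}

/-- A program with at most `q` queries, modulus `M` in the inputs, and law within `E` of that of
`Y`. -/
def Sim (q : ℕ) (G : Θ → Space d → Space d) (Q : Measure β) (Y : Θ → X → β → Space d)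
    (M : X → X → ℝ) (E : Θ → X → ℝ) : Prop :=
  ∃ (ι : Type) (_ : Fintype ι) (F : (Space d → Space d) → X × (ι → Space d) → Space d),
    (∃ q₀ ≤ q, Computes q₀ F) ∧
      (∀ θ ω x x', ‖F (G θ) (x, ω) - F (G θ) (x', ω)‖ ≤ M x x') ∧
        ∀ θ x, Close (gp ι d) (fun ω => F (G θ) (x, ω)) Q (Y θ x) (E θ x)

/-- A program whose law is within `E` of `N(f θ x, σ²)`. -/
abbrev Realised (q : ℕ) (G : Θ → Space d → Space d) (f : Θ → X → Space d) (σ : ℝ) (M : X → X → ℝ)
    (E : Θ → X → ℝ) : Prop :=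
  Sim q G (gam d) (fun θ x z => f θ x + σ • z) M E

variable {Q : Measure β} {Y : Θ → X → β → Space d} {M : X → X → ℝ} {E : Θ → X → ℝ}

theorem Sim.mono (h : Sim q G Q Y M E) (hq : q ≤ q') {M' : X → X → ℝ} (hM : ∀ x x', M x x' ≤ M' x x')
    {E' : Θ → X → ℝ} (hE : ∀ θ x, E θ x ≤ E' θ x) : Sim q' G Q Y M' E' := by
  obtain ⟨ι, _, F, ⟨q₀, hq₀, hF⟩, hl, hc⟩ := h
  exact ⟨ι, inferInstance, F, ⟨q₀, hq₀.trans hq, hF⟩, fun θ ω x x' => (hl θ ω x x').trans (hM x x'),
    fun θ x => (hc θ x).mono (hE θ x)⟩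

/-- A fresh error replaces the target. -/
theorem Sim.target (h : Sim q G Q Y M E) {Q' : Measure β'} {Y' : Θ → X → β' → Space d}
    {E' : Θ → X → ℝ} (h' : ∀ θ x, Close Q (Y θ x) Q' (Y' θ x) (E' θ x)) :
    Sim q G Q' Y' M fun θ x => E θ x + E' θ x := by
  obtain ⟨ι, _, F, hF, hl, hc⟩ := h
  exact ⟨ι, inferInstance, F, hF, hl, fun θ x => (hc θ x).trans (h' θ x)⟩

/-- Substitution of measurable inputs. -/
theorem Sim.comap (h : Sim q G Q Y M E) {φ : X' → X} (hφ : Measurable φ) :
    Sim q G Q (fun θ x => Y θ (φ x)) (fun x x' => M (φ x) (φ x')) fun θ x => E θ (φ x) := by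
  obtain ⟨ι, _, F, ⟨q₀, hq₀, hF⟩, hl, hc⟩ := h
  exact ⟨ι, inferInstance, fun g p => F g (φ p.1, p.2),
    ⟨q₀, hq₀, hF.comp ((hφ.comp measurable_fst).prodMk measurable_snd)⟩,
    fun θ ω x x' => hl θ ω _ _, fun θ x => hc θ (φ x)⟩

/-- A Lipschitz map of the output. -/
theorem Sim.lmap [IsProbabilityMeasure Q] (h : Sim q G Q Y M E) {L : ℝ≥0}
    {φ : Space d → Space d} (hφ : ∀ a b, ‖φ a - φ b‖ ≤ L * ‖a - b‖) :
    Sim q G Q (fun θ x b => φ (Y θ x b)) (fun x x' => L * M x x') fun θ x => L * E θ x := by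
  obtain ⟨ι, _, F, ⟨q₀, hq₀, hF⟩, hl, hc⟩ := h
  exact ⟨ι, inferInstance, fun g p => φ (F g p),
    ⟨q₀, hq₀, hF.map (f := fun p => φ p.2) ((lip_of_le hφ).continuous.measurable.comp measurable_snd)⟩,
    fun θ ω x x' => (hφ _ _).trans (mul_le_mul_of_nonneg_left (hl θ ω x x') L.2),
    fun θ x => (hc θ x).lmap hφ⟩

/-- A program of the inputs and its own seeds, without queries. -/
theorem Sim.pure {ι : Type} [Fintype ι] {F : X × (ι → Space d) → Space d} (hF : Measurable F)
    (hM : ∀ ω x x', ‖F (x, ω) - F (x', ω)‖ ≤ M x x')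
    (hi : ∀ x, Integrable (fun ω => F (x, ω)) (gp ι d)) :
    Sim 0 G (gp ι d) (fun _ x ω => F (x, ω)) M fun _ _ => 0 :=
  ⟨ι, inferInstance, fun _ => F, ⟨0, le_rfl, Computes.of_measurable hF⟩, fun _ => hM,
    fun _ x => Close.refl (hi x)⟩

/-- A computed point plus Gaussian noise. -/
theorem Realised.point {φ : X → Space d} (hφ : Measurable φ) (σ : ℝ) :
    Realised 0 G (fun _ x => φ x) σ (fun x x' => ‖φ x - φ x'‖) fun _ _ => 0 := by
  have h := measurePreserving_eval (fun _ : Unit => gam d) ()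
  refine ⟨Unit, inferInstance, fun _ p => φ p.1 + σ • p.2 (),
    ⟨0, le_rfl, Computes.of_measurable (by fun_prop)⟩, fun θ ω x x' => by simp, fun θ x => ?_⟩
  exact (Close.refl (integrable_gau (φ x) σ)).comp_left h

/-- The seed as a program. -/
theorem Realised.seed : Realised (X := X) 0 G (fun _ _ => 0) 1 (fun _ _ => 0) fun _ _ => 0 := by
  simpa using Realised.point (G := G) (φ := fun _ : X => (0 : Space d)) measurable_const 1

/-- Pure noise, for the order zero. -/
theorem Realised.noise (f : Θ → X → Space d) (σ : ℝ) :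
    Realised 0 G f σ (fun _ _ => 0) fun θ x => ‖f θ x‖ := by
  have h := (Realised.point (G := G) (φ := fun _ : X => (0 : Space d)) measurable_const σ).target
    fun θ x => Close.gauss_shift 0 (f θ x) σ σ
  simpa using h

/-- A change of the field. -/
theorem Realised.shift {f : Θ → X → Space d} {σ : ℝ} (h : Realised q G f σ M E)
    (f' : Θ → X → Space d) : Realised q G f' σ M fun θ x => E θ x + ‖f θ x - f' θ x‖ :=
  (h.target fun θ x => Close.gauss_shift (f θ x) (f' θ x) σ σ).mono le_rfl (fun _ _ => le_rfl)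
    fun θ x => by simp

/-- One query at a computed point plus noise. -/
theorem Sim.query {φ : X → Space d} (hφ : Measurable φ) (s : ℝ) {h : ℝ≥0}
    (hG : ∀ θ a b, ‖G θ a - G θ b‖ ≤ h * ‖a - b‖) :
    Sim 1 G (gam d) (fun θ x z => G θ (φ x + s • z)) (fun x x' => h * ‖φ x - φ x'‖)
      fun _ _ => 0 := by
  refine ⟨Unit, inferInstance, fun g p => g (φ p.1 + s • p.2 ()),
    ⟨1, le_rfl, Computes.query (by fun_prop)⟩,
    fun θ ω x x' => (hG θ _ _).trans_eq (by simp), fun θ x => ?_⟩
  have hi : Integrable (fun z => G θ (φ x + s • z)) (gam d) :=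
    ((integrable_const ‖G θ 0‖).add ((integrable_gau (φ x) s).norm.const_mul h)).mono'
      ((lip_of_le (hG θ)).continuous.comp (by fun_prop)).aestronglyMeasurable
      (ae_of_all _ fun z => norm_le_norm_zero_add (hG θ) _)
  exact (Close.refl hi).comp_left (measurePreserving_eval (fun _ : Unit => gam d) ())

/-- Substitution into a consumer that is Lipschitz in the substituted argument. -/
theorem Sim.subst [IsProbabilityMeasure Q] (h : Sim q G Q Y M E) (hG : ∀ θ, Measurable (G θ))
    {R : Measure β'} [IsProbabilityMeasure R] {T : Θ → X × Space d → β' → Space d}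
    {N : X × Space d → X × Space d → ℝ} {E' : Θ → X × Space d → ℝ} (hK : Sim q' G R T N E')
    {N₀ : X → X → ℝ} {L : ℝ≥0} (hN : ∀ x x' a b, N (x, a) (x', b) ≤ N₀ x x' + L * ‖a - b‖)
    (hN' : ∀ x a b, N (x, a) (x, b) ≤ L * ‖a - b‖)
    (hT : ∀ θ x, Measurable fun p : Space d × β' => T θ (x, p.1) p.2)
    (hE : ∀ θ x, Integrable (fun b => E' θ (x, Y θ x b)) Q) :
    Sim (q + q') G (Q.prod R) (fun θ x p => T θ (x, Y θ x p.1) p.2)
      (fun x x' => N₀ x x' + L * M x x')
      fun θ x => L * E θ x + ∫ b, E' θ (x, Y θ x b) ∂Q := by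
  obtain ⟨ι, _, F, ⟨q₀, hq₀, hF⟩, hl, hc⟩ := h
  obtain ⟨κ, _, K, ⟨q₁, hq₁, hKc⟩, hKl, hKe⟩ := hK
  refine ⟨ι ⊕ κ, inferInstance,
    fun g p => K g ((p.1, F g (p.1, fun i => p.2 (.inl i))), fun j => p.2 (.inr j)),
    ⟨q₀ + q₁, add_le_add hq₀ hq₁, ?_⟩, fun θ ω x x' => ?_, fun θ x => ?_⟩
  · exact (hF.comp (f := fun p : X × (ι ⊕ κ → Space d) => (p.1, fun i => p.2 (.inl i)))
      (by fun_prop)).bind (hKc.comp (f := fun p : (X × (ι ⊕ κ → Space d)) × Space d =>
        ((p.1.1, p.2), fun j => p.1.2 (.inr j))) (by fun_prop))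
  · exact (hKl θ _ _ _).trans ((hN _ _ _ _).trans
      (add_le_add le_rfl (mul_le_mul_of_nonneg_left (hl θ _ _ _) L.2)))
  · have hm : Measurable fun p : Space d × (κ → Space d) => K (G θ) ((x, p.1), p.2) :=
      (hKc.measurable (hG θ)).comp (f := fun p : Space d × (κ → Space d) => ((x, p.1), p.2))
        (by fun_prop)
    have hb := (hc θ x).bind (L := L) (K := fun a ω' => K (G θ) ((x, a), ω')) hm
      (fun ω' a b => (hKl θ ω' _ _).trans (hN' x a b)) (hKe θ (x, 0)).intX
    have hmix := Close.mix (Q := Q) (R := gp κ d) (S := R)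
      (K := fun b ω' => K (G θ) ((x, Y θ x b), ω')) (T := fun b c => T θ (x, Y θ x b) c) hb.intY
      ((hT θ x).comp_aemeasurable ((hc θ x).intY.1.aemeasurable.comp_fst.prodMk
        measurable_snd.aemeasurable)).aestronglyMeasurable
      (ae_of_all _ fun b => hKe θ (x, Y θ x b)) (hE θ x)
    exact (hb.trans hmix).comp_left
      (measurePreserving_sumPiEquivProdPi (fun _ : ι ⊕ κ => gam d))

/-- Substitution of a realised field into a realised consumer, up to one fresh error. -/
theorem Realised.subst {f : Θ → X → Space d} {σ : ℝ} (h : Realised q G f σ M E)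
    (hG : ∀ θ, Measurable (G θ)) {T : Θ → X × Space d → Space d} {τ : ℝ}
    {N : X × Space d → X × Space d → ℝ} {E' : Θ → X × Space d → ℝ}
    (hK : Realised q' G T τ N E') {N₀ : X → X → ℝ} {L : ℝ≥0}
    (hN : ∀ x x' a b, N (x, a) (x', b) ≤ N₀ x x' + L * ‖a - b‖)
    (hN' : ∀ x a b, N (x, a) (x, b) ≤ L * ‖a - b‖)
    (hT : ∀ θ x, Measurable fun y => T θ (x, y))
    (hE : ∀ θ x, Integrable (fun z => E' θ (x, f θ x + σ • z)) (gam d))
    {m : Θ → X → Space d} {s : ℝ} {E'' : Θ → X → ℝ}
    (hfresh : ∀ θ x, Close ((gam d).prod (gam d)) (fun p => T θ (x, f θ x + σ • p.1) + τ • p.2)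
      (gam d) (fun z => m θ x + s • z) (E'' θ x)) :
    Realised (q + q') G m s (fun x x' => N₀ x x' + L * M x x')
      fun θ x => L * E θ x + (∫ z, E' θ (x, f θ x + σ • z) ∂gam d) + E'' θ x :=
  (Sim.subst h hG hK hN hN' (fun θ x => ((hT θ x).comp measurable_fst).add
    (measurable_snd.const_smul τ)) hE).target hfresh

/-- An input becomes a Gaussian seed. -/
theorem Sim.seedify {R : Measure β} [IsProbabilityMeasure R] {T : Θ → X × Space d → β → Space d}
    {N : X × Space d → X × Space d → ℝ} {E' : Θ → X × Space d → ℝ} (hK : Sim q G R T N E')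
    (hG : ∀ θ, Measurable (G θ)) {N₀ : X → X → ℝ} {L : ℝ≥0}
    (hN : ∀ x x' a b, N (x, a) (x', b) ≤ N₀ x x' + L * ‖a - b‖)
    (hN' : ∀ x a b, N (x, a) (x, b) ≤ L * ‖a - b‖)
    (hT : ∀ θ x, Measurable fun p : Space d × β => T θ (x, p.1) p.2)
    (hE : ∀ θ x, Integrable (fun z => E' θ (x, z)) (gam d)) :
    Sim q G ((gam d).prod R) (fun θ x p => T θ (x, p.1) p.2) N₀
      fun θ x => ∫ z, E' θ (x, z) ∂gam d := by
  have h := Sim.subst (Realised.seed (G := G) (X := X)) hG hK hN hN' hT
    (by simpa using hE)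
  simpa using h

/-- Independent sums. -/
theorem Sim.add [IsProbabilityMeasure Q] (h : Sim q G Q Y M E) {R : Measure β'}
    [IsProbabilityMeasure R] {T : Θ → X → β' → Space d} {N : X → X → ℝ} {E' : Θ → X → ℝ}
    (h' : Sim q' G R T N E') :
    Sim (q + q') G (Q.prod R) (fun θ x p => Y θ x p.1 + T θ x p.2) (fun x x' => M x x' + N x x')
      fun θ x => E θ x + E' θ x := by
  obtain ⟨ι, _, F, ⟨q₀, hq₀, hF⟩, hl, hc⟩ := h
  obtain ⟨κ, _, K, ⟨q₁, hq₁, hKc⟩, hKl, hKe⟩ := h'
  refine ⟨ι ⊕ κ, inferInstance,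
    fun g p => F g (p.1, fun i => p.2 (.inl i)) + K g (p.1, fun j => p.2 (.inr j)),
    ⟨q₀ + q₁, add_le_add hq₀ hq₁, ?_⟩, fun θ ω x x' => ?_, fun θ x => ?_⟩
  · exact ((hF.comp (f := fun p : X × (ι ⊕ κ → Space d) => (p.1, fun i => p.2 (.inl i)))
      (by fun_prop)).and (hKc.comp (f := fun p : X × (ι ⊕ κ → Space d) =>
        (p.1, fun j => p.2 (.inr j))) (by fun_prop))).map (f := fun p => p.2.1 + p.2.2)
      (by fun_prop)
  · rw [add_sub_add_comm]
    exact (norm_add_le _ _).trans (add_le_add (hl θ _ _ _) (hKl θ _ _ _))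
  · exact ((hc θ x).add (hKe θ x)).comp_left
      (measurePreserving_sumPiEquivProdPi (fun _ : ι ⊕ κ => gam d))

/-- Sums of realised fields. -/
theorem Realised.add {f f' : Θ → X → Space d} {σ σ' : ℝ} (h : Realised q G f σ M E)
    {N : X → X → ℝ} {E' : Θ → X → ℝ} (h' : Realised q' G f' σ' N E') :
    Realised (q + q') G (fun θ x => f θ x + f' θ x) (Real.sqrt (σ ^ 2 + σ' ^ 2))
      (fun x x' => M x x' + N x x') fun θ x => E θ x + E' θ x := by
  refine ((Sim.add h h').target fun θ x => ?_).mono le_rfl (fun _ _ => le_rfl)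
    fun θ x => (add_zero _).le
  refine cast (congrArg (fun Z => Close _ Z _ _ _) (funext fun p => ?_))
    (Close.gauss_add (f θ x + f' θ x) σ σ')
  exact add_add_add_comm _ _ _ _

/-- A multiple of a realised field. -/
theorem Realised.smul {f : Θ → X → Space d} {σ : ℝ} (h : Realised q G f σ M E) (c : ℝ) :
    Realised q G (fun θ x => c • f θ x) (c * σ) (fun x x' => |c| * M x x')
      fun θ x => |c| * E θ x := by
  have := h.lmap (L := ‖c‖₊) (φ := fun a => c • a) fun a b => by
    rw [← smul_sub, norm_smul, coe_nnnorm]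
  simpa [smul_add, smul_smul] using this

/-- Linear combinations over independent seeds. -/
theorem Realised.comb {n : ℕ} {qs : Fin n → ℕ} {f : Fin n → Θ → X → Space d} {σ : Fin n → ℝ}
    {Ms : Fin n → X → X → ℝ} {Es : Fin n → Θ → X → ℝ}
    (h : ∀ i, Realised (qs i) G (f i) (σ i) (Ms i) (Es i)) (c : Fin n → ℝ) :
    Realised (∑ i, qs i) G (fun θ x => ∑ i, c i • f i θ x) (Real.sqrt (∑ i, (c i * σ i) ^ 2))
      (fun x x' => ∑ i, |c i| * Ms i x x') fun θ x => ∑ i, |c i| * Es i θ x := by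
  induction n with
  | zero =>
    simpa using Realised.point (G := G) (φ := fun _ : X => (0 : Space d)) measurable_const 0
  | succ n ih =>
    have h1 := (ih (fun i => h i.castSucc) fun i => c i.castSucc).add
      ((h (Fin.last n)).smul (c (Fin.last n)))
    simpa [Fin.sum_univ_castSucc, Real.sq_sqrt
      (Finset.sum_nonneg fun i _ => sq_nonneg (c (Fin.castSucc i) * σ (Fin.castSucc i)))] using h1

/-- The mean of independent copies. -/
theorem Realised.average {f : Θ → X → Space d} {σ : ℝ} (h : Realised q G f σ M E) {n : ℕ}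
    (hn : 0 < n) : Realised (n * q) G f (|σ| / Real.sqrt n) M E := by
  have h1 := Realised.comb (fun _ : Fin n => h) fun _ => (n : ℝ)⁻¹
  have hn' : (n : ℝ) ≠ 0 := by positivity
  have e1 : Real.sqrt ((n : ℝ) * ((n : ℝ)⁻¹ * σ) ^ 2) = |σ| / Real.sqrt n := by
    rw [show (n : ℝ) * ((n : ℝ)⁻¹ * σ) ^ 2 = σ ^ 2 / n by field_simp, Real.sqrt_div' _
      (Nat.cast_nonneg n), Real.sqrt_sq_eq_abs]
  simpa [Finset.sum_const, ← Nat.cast_smul_eq_nsmul ℝ, smul_smul, mul_inv_cancel₀ hn',
    mul_inv_cancel_left₀ hn', e1] using h1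

/-- One query at a point plus noise is a realised field: the base of the recursion. -/
theorem Realised.base {φ : X → Space d} (hφ : Measurable φ) (s σ : ℝ) {h : ℝ≥0}
    (hG : ∀ θ a b, ‖G θ a - G θ b‖ ≤ h * ‖a - b‖) :
    Realised 1 G (fun θ x => ∫ z, G θ (φ x + s • z) ∂gam d) σ (fun x x' => h * ‖φ x - φ x'‖)
      fun _ _ => 2 * h * |s| * ∫ z, ‖z‖ ∂gam d := by
  have hpt : Realised (X := X) 0 G (fun _ _ => 0) σ (fun _ _ => 0) fun _ _ => 0 := by
    simpa using Realised.point (G := G) (φ := fun _ : X => (0 : Space d)) measurable_const σ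
  have h1 := (Sim.query hφ s hG).add hpt
  simp only [add_zero, zero_add] at h1
  refine (h1.target (E' := fun _ _ => 2 * h * |s| * ∫ z, ‖z‖ ∂gam d) fun θ x => ?_).mono le_rfl
    (fun _ _ => le_rfl) fun θ x => (zero_add _).le
  set m := ∫ z, G θ (φ x + s • z) ∂gam d with hm
  have hi : Integrable (fun z => G θ (φ x + s • z)) (gam d) :=
    ((integrable_const ‖G θ 0‖).add ((integrable_gau (φ x) s).norm.const_mul h)).mono'
      ((lip_of_le (hG θ)).continuous.comp (by fun_prop)).aestronglyMeasurable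
      (ae_of_all _ fun z => norm_le_norm_zero_add (hG θ) _)
  have hb : ∀ z, ‖G θ (φ x + s • z) - m‖
      ≤ h * |s| * ‖z‖ + h * |s| * ∫ w, ‖w‖ ∂gam d := fun z => by
    have e : G θ (φ x + s • z) - m = ∫ w, (G θ (φ x + s • z) - G θ (φ x + s • w)) ∂gam d := by
      rw [integral_sub (integrable_const _) hi, integral_const, probReal_univ, one_smul]
    rw [e]
    refine (norm_integral_le_of_norm_le ((integrable_const ‖z‖).add integrable_norm_gam
      |>.const_mul (h * |s|)) (ae_of_all _ fun w => ?_)).trans_eq ?_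
    · refine (hG θ _ _).trans ?_
      rw [add_sub_add_left_eq_sub, ← smul_sub, norm_smul, Real.norm_eq_abs, mul_assoc]
      exact mul_le_mul_of_nonneg_left (norm_sub_le z w) (abs_nonneg s) |>
        fun t => mul_le_mul_of_nonneg_left t h.2
    · rw [integral_const_mul]
      simp only [Pi.add_apply]
      rw [integral_add (integrable_const _) integrable_norm_gam, integral_const, probReal_univ,
        one_smul, mul_add]
  have hd : ∫ z, ‖G θ (φ x + s • z) - m‖ ∂gam d ≤ 2 * h * |s| * ∫ z, ‖z‖ ∂gam d := by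
    refine (integral_mono (hi.sub (integrable_const m)).norm
      ((integrable_norm_gam.const_mul _).add (integrable_const _)) hb).trans_eq ?_
    rw [integral_add' (integrable_norm_gam.const_mul _) (integrable_const _), integral_const_mul,
      integral_const, probReal_univ, one_smul]
    ring
  have hg0 : Integrable (fun z : Space d => σ • z) (gam d) :=
    (IsGaussian.integrable_id (μ := gam d)).smul σ
  have h2 := (Close.of_coupled hi (integrable_const m) hd).add (Close.refl hg0)
  have h3 : Close ((gam d).prod (gam d)) (fun p => m + σ • p.2) (gam d) (fun z => m + σ • z) 0 :=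
    (Close.refl (integrable_gau m σ)).comp_left measurePreserving_snd
  exact (h2.trans h3).mono (by simp)

/-- A program close, at one input, to the smoothed tilted law is a local sampler. -/
theorem samplesLocal_of_sim {h e : ℝ} [IsProbabilityMeasure Q]
    {Y : {P : Pot d h // gsize P ≤ 2 * (h * Real.sqrt d)} → X → β → Space d}
    {E : {P : Pot d h // gsize P ≤ 2 * (h * Real.sqrt d)} → X → ℝ}
    (hS : Sim q (fun P => P.1.g) Q Y M E) (x₀ : X) {e' : ℝ}
    (hfin : ∀ P, Close Q (Y P x₀) ((mu P.1).prod (gam d))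
      (fun p => p.1 + Real.sqrt (1 / 8) • p.2) e')
    (he : ∀ P, E P x₀ + e' ≤ e) : ∃ q₀ ≤ q, SamplesLocal d q₀ h e := by
  obtain ⟨ι, _, F, ⟨q₀, hq₀, hF⟩, -, hc⟩ := hS
  refine ⟨q₀, hq₀, ι, inferInstance, fun g ω => F g (x₀, ω),
    hF.comp (measurable_const.prodMk measurable_id), fun P hP ψ L hψ => ?_⟩
  have := mu_prob P
  have h1 := ((hc ⟨P, hP⟩ x₀).trans (hfin ⟨P, hP⟩)).mono (he ⟨P, hP⟩)
  refine ⟨integrable_test hψ h1.intX, ?_⟩
  have h2 := h1.scaled hψ
  rw [integral_prod _ (integrable_test hψ h1.intY)] at h2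
  exact h2.trans_eq (mul_comm _ _)

/-! ### The query count of the recursion -/

/-- A bound for the queries at order `r` and level `m ≤ M`, when a level costs `N` calls of lower
order and `N` of lower level. -/
def recCost (M N q₀ r m : ℕ) : ℕ := (2 * N + q₀ + 1) ^ (r * (M + 1) + m + 1)

theorem recCost_mono {M N q₀ r r' m m' : ℕ} (h : r * (M + 1) + m ≤ r' * (M + 1) + m') :
    recCost M N q₀ r m ≤ recCost M N q₀ r' m' :=
  Nat.pow_le_pow_right (by omega) (by omega)

/-- The recursion on (order, level): nested objects have lower order and any level, endpoint values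
the same order and lower level. -/
theorem rec_bound {C : ℕ → ℕ → ℕ → Prop} {M N q₀ R : ℕ}
    (mono : ∀ r m a b, a ≤ b → C r m a → C r m b) (zero : ∀ m ≤ M, C 0 m q₀)
    (bottom : ∀ r, r ≤ R → C r 0 q₀)
    (step : ∀ r m a b, r < R → m < M → (∀ j ≤ M, C r j a) → C (r + 1) m b →
      C (r + 1) (m + 1) (N * a + N * b)) :
    ∀ r ≤ R, ∀ m ≤ M, C r m (recCost M N q₀ r m) := by
  have hq : ∀ r m, q₀ ≤ recCost M N q₀ r m := fun r m =>
    (show q₀ ≤ 2 * N + q₀ + 1 by omega).trans (Nat.le_self_pow (by omega) _)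
  intro r
  induction r with
  | zero => exact fun _ m hm => mono _ _ _ _ (hq _ _) (zero m hm)
  | succ r ih =>
    intro hr m
    induction m with
    | zero => exact fun _ => mono _ _ _ _ (hq _ _) (bottom _ hr)
    | succ m ihm =>
      intro hm
      have hb := ihm (by omega)
      have ha : ∀ j ≤ M, C r j (recCost M N q₀ (r + 1) m) := fun j hj =>
        mono _ _ _ _ (recCost_mono (by rw [Nat.succ_mul]; omega)) (ih (by omega) j hj)
      refine mono _ _ _ _ ?_ (step r m _ _ (by omega) (by omega) ha hb)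
      have e : recCost M N q₀ (r + 1) (m + 1) = (2 * N + q₀ + 1) * recCost M N q₀ (r + 1) m :=
        pow_succ' _ _
      rw [e, ← two_mul, ← mul_assoc]
      exact Nat.mul_le_mul_right _ (by omega)

end Vale.Agent.P347.Zero
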