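import Vale.Agent.P347.Zero.GridDefs

/-!
The statements of the recursion: point programs along the trajectory, one downward step of the mean
oracle and the sampler built on the point programs.
-/

noncomputable section

open MeasureTheory ProbabilityTheory Set Filter
open scoped RealInnerProductSpace NNReal

namespace Vale.Agent.P347.Zero

/-- Every iterate of every trajectory is computable to accuracy `d ^ (-κ)` up to noise `d ^ (-α)`. -/
def PtsAll (γ δv S α κ : ℝ) : Prop :=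
  ∀ (hδ : 0 < δv) (hS : δv ≤ S) (H B : ℝ) (G : Grid δv) (ν : ℕ) (c : Fin ν → ℝ) (k : ℕ),
    Pts κ α (toNodes G hδ hS (iter (γ := γ) (H := H) (B := B) G hδ hS c k))

/-- Point programs of sufficient accuracy give local samplers. -/
def SamplerThm : Prop :=
  ∀ (γ δv S α κp κ ε : ℝ), 0 < γ → γ ≤ 1 / 4 → 0 < δv → δv < S → S < 2 * α → 0 < κ →
    κ + 4 ≤ κp → 0 < ε → MeanAccThm → PtsAll γ δv S α κp →
    ∀ᶠ d : ℕ in atTop, ∀ h : ℝ, (d : ℝ) ^ (-1 : ℝ) ≤ h → h ≤ (d : ℝ) ^ (-γ) →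
      ∃ q : ℕ, (q : ℝ) ≤ (d : ℝ) ^ ε ∧ SamplesLocal d q h ((d : ℝ) ^ (-κ))

end Vale.Agent.P347.Zero
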