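import Vale.Agent.P347.Zero.RecPins

/-!
The statements of one level of the recursion: point programs, the downward step of the mean oracle
and the two bases.
-/

noncomputable section

open MeasureTheory ProbabilityTheory Set
open scoped RealInnerProductSpace NNReal

namespace Vale.Agent.P347.Zero

/-- Mean oracles and vertices at a level give the point programs of that level. -/
def PtsThm : Prop :=
  ∀ (L : Lad) (r : ℕ) (γ δv S α : ℝ), 0 < γ → 0 < δv → δv < S → S < 2 * L.w → S < 2 * α →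
    α + L.phi r + 2 * L.w ≤ γ → Monotone L.kap → MeanOK γ (L.kap r) (L.phi r) →
    (∀ r' ≤ r, VtxOK L r' γ δv S α (L.phi r')) → PtsAll γ δv S α (L.kap r)

/-- The mean oracle one step down in the margin. -/
def MeanStepThm : Prop :=
  ∀ (L : Lad) (r : ℕ) (γ δv S α φ Φ : ℝ), 0 < γ → γ ≤ 1 → 0 < δv → δv < S → S < 2 * L.w →
    S < 2 * α → L.phi r + 3 * L.w ≤ γ → Monotone L.kap → L.phi r + 8 * L.w ≤ φ → φ ≤ Φ →
    Φ ≤ φ + δv / 4 → Φ + 8 * L.w ≤ 2 * φ - L.phi r →
    MeanOK γ (L.kap (r + 1)) Φ → VtxOK L (r + 1) γ δv S α Φ →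
    (∀ r' ≤ r, VtxOK L r' γ δv S α (L.phi r')) → PtsAll γ δv S α (L.kap r) →
    MeanOK γ (L.kap (r + 1)) φ

/-- Far above the accuracy, and at the coarsest accuracy, the mean oracle is the gradient at the
proximal point plus noise. -/
def MeanBaseThm : Prop :=
  ∀ γ κ φ : ℝ, 0 < γ → γ ≤ 1 → 0 < φ → (κ + 1 ≤ φ ∨ κ ≤ -1) → MeanOK γ κ φ

/-- Far above the accuracy, and at the coarsest accuracy, vertices are pure noise. -/
def VtxBaseThm : Prop :=
  ∀ (L : Lad) (r : ℕ) (γ δv S α φ : ℝ), 0 < γ → 0 < δv → δv < 2 * L.w → δv ≤ S → 0 < φ →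
    (L.kap r + 1 ≤ φ ∨ L.kap r ≤ -1) → Monotone L.kap →
    (∀ r' < r, VtxOK L r' γ δv S α (L.phi r')) → VtxOK L r γ δv S α φ

end Vale.Agent.P347.Zero
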