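import Vale.Agent.P347.Zero.GdClosure
import Vale.Agent.P347.Zero.IterVtx
import Vale.Agent.P347.Zero.TrajL2
import Vale.Agent.P347.Zero.StepPins
import Vale.Agent.P347.LocalTools

/-!
Tools of the recursion: a program shifted by one of its blocks, changes of the blocks that a mixture
keeps, and the averaged drift at a computed point as a member of the class.
-/

noncomputable section

open MeasureTheory ProbabilityTheory Set
open scoped RealInnerProductSpace NNReal

namespace Vale.Agent.P347.Zero

variable {d : ℕ} {B B' C C' I : Type} [Fintype B] [DecidableEq B] [Fintype B'] [DecidableEq B']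
  [Fintype C] [DecidableEq C] [Fintype C'] [DecidableEq C'] [Fintype I] [DecidableEq I]

/-- A field with one leg applied to nothing, entry by entry. -/
theorem apT_unit_apply (T : Ten d Unit) (A : Unit → Space d) (u : Fin d) :
    apT () T A u = T fun _ => u := by
  simp only [apT]
  rw [Fintype.sum_equiv (Equiv.funUnique Unit (Fin d)) _
    (fun c => (T fun _ => c) • ev c) fun idx => ?_]
  · simp [WithLp.ofLp_sum, Finset.sum_apply, Pi.single_apply]
  · rw [show (Finset.univ : Finset Unit).erase () = ∅ from rfl, Finset.prod_empty, mul_one]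
    rfl

/-! ### Programs shifted by a block -/

/-- A program shifted by a multiple of one block. -/
def Prog.shift (P : Prog d B I) (b : B) (c : ℝ) : Prog d B I where
  sd := P.sd
  q := P.q
  F := fun G a => c • a.2.1 b + (1 : ℝ) • P.F G a
  comp := P.comp.map (f := fun x => c • x.1.2.1 b + (1 : ℝ) • x.2) (by fun_prop)

omit [DecidableEq B] [DecidableEq I] in
theorem Prog.shift_lip {P : Prog d B I} {G : Space d → Space d} {K : ℝ} (hP : P.Lip G K) (b : B)
    (c : ℝ) : (P.shift b c).Lip G (|c| + K) := fun p p' x x' A A' ω => by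
  show ‖c • x b + (1 : ℝ) • _ - (c • x' b + (1 : ℝ) • _)‖ ≤ _
  rw [one_smul, one_smul, add_sub_add_comm, add_mul, ← smul_sub]
  refine (norm_add_le _ _).trans (add_le_add ?_ (hP p p' x x' A A' ω))
  rw [norm_smul, Real.norm_eq_abs]
  refine mul_le_mul_of_nonneg_left ?_ (abs_nonneg c)
  unfold dist3
  linarith [Finset.single_le_sum (fun b _ => norm_nonneg (x b - x' b)) (Finset.mem_univ b),
    norm_nonneg (p - p'), Finset.sum_nonneg fun l (_ : l ∈ Finset.univ) => norm_nonneg (A l - A' l)]

omit [DecidableEq B] [DecidableEq I] in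
theorem Prog.shift_lipW {P : Prog d B I} {G : Space d → Space d} (hP : P.LipW G) (b : B) (c : ℝ) :
    (P.shift b c).LipW G :=
  let ⟨_, hL⟩ := hP
  ⟨_, ((lipschitzWith_smul c).comp ((LipschitzWith.eval (α := fun _ : B => Space d) b).comp
    (LipschitzWith.prod_fst.comp LipschitzWith.prod_snd))).add ((lipschitzWith_smul (1 : ℝ)).comp hL)⟩

omit [DecidableEq B] [DecidableEq I] in
theorem Prog.shift_close {P : Prog d B I} {G : Space d → Space d} {p : Space d} {x : B → Space d}
    {A : I → Space d} {v : Space d} {e : ℝ} (hP : P.CloseAt G p x A v 1 e) (b : B) (c : ℝ) :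
    (P.shift b c).CloseAt G p x A (c • x b + v) 1 e := by
  have h := Close.affine hP (c • x b) 1
  simp only [abs_one, one_mul, one_smul, ← add_assoc] at h
  simp only [Prog.CloseAt, Prog.shift, one_smul]
  exact h

/-! ### Blocks of a mixture -/

variable {S : Sys} {κ φ θ : ℝ} {o : I}

omit [DecidableEq B] in
/-- The blocks that a mixture keeps, renamed. -/
theorem SamMix.reB {T : Fld S (B ⊕ C) I} {U : Fld S (B ⊕ C') I} (h : SamMix κ φ θ o T) (e : C ≃ C')
    (heq : ∀ i p x y A, apT o (U i p (Sum.elim x y)) A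
      = apT o (T i p (Sum.elim x fun c => y (e c))) A) : SamMix κ φ θ o U := fun a ha ε hε => by
  obtain ⟨R, hq, hl, hin, hlaw⟩ := h a ha ε hε
  set σ : C ⊕ I ≃ C' ⊕ I := Equiv.sumCongr e (Equiv.refl I) with hσ
  refine ⟨Run.of fun k => (R.atK k).comap (permIO σ), hq,
    fun i => Prog.comap_lipW (hl.lipW i) (permIO σ), Run.lipIn_of fun η hη =>
      ((hin.lip hη).and S.ev_one_le).mono fun i ⟨h1, hd⟩ => ?_,
    fun η hη => (hlaw η hη).mono fun i hi p => ?_⟩
  · have hK : 0 ≤ S.dd i ^ (η - (θ - a - ε)) := Real.rpow_nonneg (by linarith) _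
    exact (Prog.comap_lip hK h1 (permIO σ) le_rfl
      fun z => by rw [permIO_norm, one_mul]).mono (mul_one _).le
  · obtain ⟨e', he, hb, hc⟩ := hi p
    have hmp := permIO_mp (d := S.dm i) σ
    have hperm : ∀ z : (C' → Space (S.dm i)) × (I → Space (S.dm i)),
        permIO σ z = ((fun c => z.1 (e c)), z.2) := fun z => by
      rw [permIO_apply]; rfl
    refine ⟨fun z => e' (permIO σ z), hmp.integrable_comp_of_integrable he, ?_,
      fun y A ψ L hψ => ?_⟩
    · refine (le_of_eq ?_).trans hb
      conv_rhs => rw [← hmp.map_eq]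
      rw [integral_map hmp.measurable.aemeasurable]
      rw [hmp.map_eq]
      exact he.1
    · show |(∫ ω, ψ (R.F i (S.og i) (p, (permIO σ (y, A)).1, (permIO σ (y, A)).2, ω))
          ∂gp (Fin (R.sd i)) (S.dm i)) - _| ≤ e' (permIO σ (y, A)) * L
      rw [hperm]
      simp only [heq]
      exact hc _ A ψ L hψ

/-- A sum over a rectangle read along one index. -/
theorem sum_div_mod (m ν : ℕ) (f : ℕ → ℕ → ℝ) :
    ∑ n ∈ Finset.range (m * ν), f (n / ν) (n % ν)
      = ∑ b ∈ Finset.range m, ∑ l ∈ Finset.range ν, f b l := by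
  induction m with
  | zero => simp
  | succ m ih =>
    rw [Nat.succ_mul, Finset.sum_range_add, ih, Finset.sum_range_succ (fun b => ∑ l ∈ _, f b l)]
    refine congrArg _ (Finset.sum_congr rfl fun l hl => ?_)
    rw [Finset.mem_range] at hl
    rw [Nat.mul_comm m ν, Nat.mul_add_div (by omega), Nat.div_eq_of_lt hl, add_zero,
      Nat.mul_add_mod, Nat.mod_eq_of_lt hl]

/-! ### The drift at a node, averaged over the noise of its channel -/

variable {γ H Bw δv S' : ℝ} {J : Type} {f : J → NI γ H δv 0 S'}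

/-- The drift at the channel of a point, the noise on the left. -/
def drT (Y : Fld (NQ Bw f) Unit Unit) : Fld (NQ Bw f) (Unit ⊕ Unit) Unit :=
  subB (matB (NQ Bw f) fun _ => swapM) (reL oneU (vtx 0 Y))

theorem avDrift_eq (Y : Fld (NQ Bw f) Unit Unit) : avDrift Y = avB (drT Y) := rfl

theorem drT_sm {Y : Fld (NQ Bw f) Unit Unit} (hY : Sm Y) : Sm (drT Y) :=
  ((vtx_sm 0 hY).reL oneU).subB _

theorem swapM_orth (b b' : Unit ⊕ Unit) :
    ∑ c, swapM b c * swapM b' c = if b = b' then 1 else 0 := by
  rcases b with ⟨⟩ | ⟨⟩ <;> rcases b' with ⟨⟩ | ⟨⟩ <;> simp [swapM, Fintype.sum_sum_type]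

/-- The vector of the drift at the channel. -/
theorem drT_vec (Y : Fld (NQ Bw f) Unit Unit) (n : J) (p : Space ((NQ Bw f).dm n))
    (x y : Unit → Space ((NQ Bw f).dm n)) (A : Unit → Space ((NQ Bw f).dm n)) :
    apT () (drT Y n p (Sum.elim x y)) A = (f n).q.hs⁻¹ • driftV ((f n).q.pot p)
      (1 - ((f n).r * (f n).a) ^ 2, ((f n).r * (f n).a) •
        ((f n).a • vecOf Y n p y + Real.sqrt (1 - (f n).a ^ 2) • x ())) := by
  have hT : ∀ c, drT Y n p (Sum.elim x y) (fun _ => c) = driftV ((f n).q.pot p)
      (1 - ((f n).r * (f n).a) ^ 2, ((f n).r * (f n).a) •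
        ((f n).a • vecOf Y n p y + Real.sqrt (1 - (f n).a ^ 2) • x ())) c / (f n).q.hs := fun c => by
    show vtx 0 Y n p (mixB ((NQ Bw f).dm n) swapM (Sum.elim x y)) ((fun _ => c) ∘ oneU) = _
    simp only [vtx, pow_zero, one_mul, Function.comp_def, driftT, mixB_apply, swapM,
      Fintype.sum_sum_type]
    simp
    rfl
  simp only [apT]
  refine (Fintype.sum_equiv (Equiv.funUnique Unit (Fin (f n).q.d)) _
    (fun c => drT Y n p (Sum.elim x y) (fun _ => c) • ev c) fun idx => ?_).trans ?_
  · rw [show (Finset.univ : Finset Unit).erase () = ∅ from rfl, Finset.prod_empty, mul_one]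
    rfl
  · ext u
    simp [WithLp.ofLp_sum, Finset.sum_apply, Pi.single_apply, smul_add]
    exact (hT u).trans (by rw [div_eq_inv_mul, smul_add])

/-- Every derivative in the noise of the drift at a channel is a vertex. -/
theorem gdD_drT {L : Lad} {r : ℕ} {φ : ℝ} {Y : Fld (NQ Bw f) Unit Unit} (hY : Sm Y)
    (hV : ∀ k : ℕ, 1 ≤ k → Gd L r φ (-(k : ℝ) * L.w) univ (vtx k Y)) :
    ∀ (n j : ℕ) {K : Type} [Fintype K] [DecidableEq K] (O : Set K) (e : Option (Fin j) ≃ K)
      (c : NK γ H δv 0 S' → ℝ), 1 ≤ j → (∀ n : J, |c (f n).pub| ≤ 1) →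
      GdD L r φ (range Sum.inl) (fun _ => L.w) n (-(j : ℝ) * L.w) O
        (subB (matB (NQ Bw f) fun _ => swapM)
          (smulF (fun n : J => c (f n).pub) (reL e (vtx j Y)))) := by
  intro n
  induction n with
  | zero =>
    intro j K _ _ O e c hj hc
    refine Gd.subB (Gd.mono ((hV j hj).reL e |>.smul (c := c) fun η hη => ?_) le_rfl le_rfl ?_)
      fun _ => swapM_orth
    · exact ((NQ Bw f).ev_one_le).mono fun i hi =>
        (hc i).trans (Real.one_le_rpow hi hη.le)
    · rw [image_univ_of_surjective e.surjective]; exact subset_univ _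
  | succ n ih =>
    intro j K _ _ O e c hj hc
    refine ⟨by cases n with
      | zero => exact ih j O e c hj hc
      | succ m => exact (ih j O e c hj hc).1, fun b hb => ?_⟩
    obtain ⟨⟨⟩, rfl⟩ := hb
    have hs := (vtx_sm j hY).reL e
    have e1 : dB (.inl ()) (subB (matB (NQ Bw f) fun _ => swapM)
          (smulF (fun n : J => c (f n).pub) (reL e (vtx j Y))))
        = subB (matB (NQ Bw f) fun _ => swapM) (smulF
            (fun n : J => c (f n).pub * Real.sqrt (1 - (f n).pub.a ^ 2))
            (reL ((shiftO j).trans e.optionCongr) (vtx (j + 1) Y))) := by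
      funext i p x idx
      refine (dB_subB (hs.smul fun n : J => c (f n).pub) _ _ i p x idx).trans ?_
      rw [Fintype.sum_sum_type]
      simp only [swapM, Sum.swap_inl, Sum.swap_inr, Finset.univ_unique, Finset.sum_singleton]
      simp only [reduceCtorEq, if_false, if_true, zero_mul, zero_add, one_mul]
      show dB (.inr ()) (smulF (fun n : J => c (f n).pub) (reL e (vtx j Y))) i p _ idx = _
      refine (congrFun (congrFun (congrFun (congrFun
        (dB_smulF hs (fun n : J => c (f n).pub) (.inr ())) i) p)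
        (matB (NQ Bw f) (fun _ => swapM) i x)) idx).trans ?_
      rw [dB_reL, dB_vtx j hY]
      show c (f i).pub * (Real.sqrt (1 - (f i).a ^ 2) * _) = _ * _
      rw [← mul_assoc]
      rfl
    rw [e1]
    have h2 := ih (j + 1) (some '' O) ((shiftO j).trans e.optionCongr)
      (fun k => c k * Real.sqrt (1 - k.a ^ 2)) (by omega) fun i => by
        rw [abs_mul, abs_of_nonneg (Real.sqrt_nonneg _)]
        exact mul_le_one₀ (hc i) (Real.sqrt_nonneg _) (Real.sqrt_le_one.2 (by
          linarith [sq_nonneg (f i).pub.a]))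
    push_cast at h2
    convert h2 using 1
    ring

end Vale.Agent.P347.Zero
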