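import Vale.Agent.P347.Zero.Ident
import Vale.Agent.P347.ExactGauss

/-!
The resolvent of the Ornstein-Uhlenbeck operator on a block of Gaussian coordinates: for a field `G`
the field `F = ∫₀¹ P_t^B G dt` solves `F - L_B F = G`, keeps the gradient bound and every moment,
and is the weak divergence that the deconvolution identity asks for.
-/

noncomputable section

open MeasureTheory ProbabilityTheory Set Filter Topology
open scoped RealInnerProductSpace

namespace Vale.Agent.P347.Zero

set_option maxSynthPendingDepth 3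

variable {n : ℕ}

/-- The projection on the coordinates of the block. -/
def bproj (B : Finset (Fin n)) : Space n →L[ℝ] Space n :=
  ∑ j ∈ B, (innerSL ℝ (ev j)).smulRight (ev j)

/-- Mixing the coordinates of the block with fresh ones at correlation `p.1`. -/
def bmix (B : Finset (Fin n)) (x : Space n) (p : ℝ × Space n) : Space n :=
  x + (p.1 - 1) • bproj B x + Real.sqrt (1 - p.1 ^ 2) • bproj B p.2

/-- The weighted average over the correlation of the block average. -/
def bavg (B : Finset (Fin n)) (k : ℕ) (g : Space n → ℝ) (x : Space n) : ℝ :=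
  ∫ p, p.1 ^ k * g (bmix B x p) ∂SteinAux.tg n

/-- The resolvent of the block. -/
def blockRes (B : Finset (Fin n)) (G : Space n → ℝ) : Space n → ℝ := bavg B 0 G

namespace BlockAux

open SteinAux

theorem bproj_coord (B : Finset (Fin n)) (x : Space n) (k : Fin n) :
    bproj B x k = if k ∈ B then x k else 0 := by
  simp [bproj, coord_inner, ev, Pi.single_apply]

theorem bproj_ev {B : Finset (Fin n)} {j : Fin n} (hj : j ∈ B) : bproj B (ev j) = ev j := by
  ext k
  rw [bproj_coord]
  by_cases hk : k = j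
  · subst hk; simp [hj]
  · simp [ev, hk]

theorem bproj_sum (B : Finset (Fin n)) (x : Space n) : bproj B x = ∑ j ∈ B, x j • ev j := by
  simp [bproj, coord_inner]

theorem norm_bproj_le (B : Finset (Fin n)) (x : Space n) : ‖bproj B x‖ ≤ ‖x‖ := by
  refine (sq_le_sq₀ (norm_nonneg _) (norm_nonneg _)).1 ?_
  simp only [EuclideanSpace.real_norm_sq_eq, bproj_coord]
  refine Finset.sum_le_sum fun k _ => ?_
  split_ifs <;> nlinarith [sq_nonneg (x k)]

/-- The derivative of `bmix` in the point. -/
def bder (B : Finset (Fin n)) (t : ℝ) : Space n →L[ℝ] Space n :=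
  ContinuousLinearMap.id ℝ (Space n) + (t - 1) • bproj B

theorem bder_apply (B : Finset (Fin n)) (t : ℝ) (v : Space n) :
    bder B t v = v + (t - 1) • bproj B v := rfl

theorem norm_bder_le (B : Finset (Fin n)) {t : ℝ} (ht : t ∈ Ioo (0 : ℝ) 1) (v : Space n) :
    ‖bder B t v‖ ≤ ‖v‖ := by
  refine (sq_le_sq₀ (norm_nonneg _) (norm_nonneg _)).1 ?_
  simp only [EuclideanSpace.real_norm_sq_eq, bder_apply, PiLp.add_apply, PiLp.smul_apply,
    bproj_coord, smul_eq_mul]
  refine Finset.sum_le_sum fun k _ => ?_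
  split_ifs
  · rw [show v k + (t - 1) * v k = t * v k by ring, mul_pow]
    exact mul_le_of_le_one_left (sq_nonneg _) (by nlinarith [ht.1, ht.2])
  · simp

theorem continuous_bmix (B : Finset (Fin n)) (x : Space n) : Continuous (bmix B x) := by
  unfold bmix; fun_prop

theorem continuous_bmix_left (B : Finset (Fin n)) (p : ℝ × Space n) :
    Continuous fun x => bmix B x p := by
  unfold bmix; fun_prop

theorem bmix_eq (B : Finset (Fin n)) (x : Space n) (p : ℝ × Space n) :
    bmix B x p = bder B p.1 x + Real.sqrt (1 - p.1 ^ 2) • bproj B p.2 := rfl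

theorem norm_bmix_le (B : Finset (Fin n)) (x : Space n) {p : ℝ × Space n}
    (hp : p.1 ∈ Ioo (0 : ℝ) 1) : 1 + ‖bmix B x p‖ ≤ (1 + ‖x‖) * (1 + ‖p.2‖) := by
  have h1 : ‖bmix B x p‖ ≤ ‖x‖ + ‖p.2‖ := by
    rw [bmix_eq]
    refine (norm_add_le _ _).trans (add_le_add (norm_bder_le B hp x) ?_)
    rw [norm_smul, Real.norm_eq_abs, abs_of_nonneg (Real.sqrt_nonneg _)]
    exact (mul_le_of_le_one_left (norm_nonneg _) (Real.sqrt_le_one.2 (by nlinarith))).trans
      (norm_bproj_le B _)
  nlinarith [mul_nonneg (norm_nonneg x) (norm_nonneg p.2)]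

theorem bmix_grow {β : Type} [NormedAddCommGroup β] (B : Finset (Fin n)) {F : Space n → β}
    (hg : Grow F) : ∃ (C : ℝ) (k : ℕ), 0 ≤ C ∧
      ∀ (x : Space n) (p : ℝ × Space n), p.1 ∈ Ioo (0 : ℝ) 1 →
        ‖F (bmix B x p)‖ ≤ C * (1 + ‖x‖) ^ k * (1 + ‖p.2‖) ^ k := by
  obtain ⟨C, k, hC⟩ := hg
  refine ⟨|C|, k, abs_nonneg C, fun x p hp => (hC _).trans ?_⟩
  rw [mul_assoc, ← mul_pow]
  exact mul_le_mul (le_abs_self C) (pow_le_pow_left₀ (by positivity) (norm_bmix_le B x hp) k)
    (by positivity) (abs_nonneg C)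

theorem pow_le_one' {t : ℝ} (ht : t ∈ Ioo (0 : ℝ) 1) (k : ℕ) : |t ^ k| ≤ 1 := by
  rw [abs_pow]
  exact pow_le_one₀ (abs_nonneg t) (abs_le.2 ⟨by linarith [ht.1], ht.2.le⟩)

theorem bavg_int (B : Finset (Fin n)) (k : ℕ) {g : Space n → ℝ} (hc : Continuous g) (hg : Grow g)
    (x : Space n) : Integrable (fun p : ℝ × Space n => p.1 ^ k * g (bmix B x p)) (tg n) := by
  obtain ⟨C, m, hC0, hC⟩ := bmix_grow B hg
  refine Integrable.mono' ((poly_snd_int m).const_mul (C * (1 + ‖x‖) ^ m))
    (((continuous_fst.pow k).mul (hc.comp (continuous_bmix B x))).aestronglyMeasurable) ?_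
  filter_upwards [tg_mem] with p hp
  rw [norm_mul]
  exact (mul_le_of_le_one_left (norm_nonneg _) (pow_le_one' hp k)).trans (hC x p hp)

/-- The derivative of the integrand. -/
def bint (B : Finset (Fin n)) (k : ℕ) (g : Space n → ℝ) (x : Space n) (p : ℝ × Space n) :
    Space n →L[ℝ] ℝ :=
  p.1 ^ k • (fderiv ℝ g (bmix B x p)).comp (bder B p.1)

theorem continuous_bint (B : Finset (Fin n)) (k : ℕ) {g : Space n → ℝ} (hg : Nice g) (x : Space n) :
    Continuous (bint B k g x) := by
  have h1 : Continuous fun p : ℝ × Space n => fderiv ℝ g (bmix B x p) :=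
    (hg.1.continuous_fderiv one_ne_zero).comp (continuous_bmix B x)
  have h2 : Continuous fun p : ℝ × Space n => bder B p.1 := by unfold bder; fun_prop
  exact (continuous_fst.pow k).smul (h1.clm_comp h2)

theorem norm_bint_le (B : Finset (Fin n)) (k : ℕ) {g : Space n → ℝ} {x : Space n}
    {p : ℝ × Space n} (hp : p.1 ∈ Ioo (0 : ℝ) 1) :
    ‖bint B k g x p‖ ≤ ‖fderiv ℝ g (bmix B x p)‖ := by
  rw [bint, norm_smul, Real.norm_eq_abs]
  refine (mul_le_of_le_one_left (norm_nonneg _) (pow_le_one' hp k)).trans ?_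
  refine ContinuousLinearMap.opNorm_le_bound _ (norm_nonneg _) fun v => ?_
  exact ((fderiv ℝ g _).le_opNorm _).trans
    (mul_le_mul_of_nonneg_left (norm_bder_le B hp v) (norm_nonneg _))

theorem bint_int (B : Finset (Fin n)) (k : ℕ) {g : Space n → ℝ} (hg : Nice g) (x : Space n) :
    Integrable (bint B k g x) (tg n) := by
  obtain ⟨C, m, hC0, hC⟩ := bmix_grow B hg.2
  refine Integrable.mono' ((poly_snd_int m).const_mul (C * (1 + ‖x‖) ^ m))
    (continuous_bint B k hg x).aestronglyMeasurable ?_
  filter_upwards [tg_mem] with p hp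
  exact (norm_bint_le B k hp).trans (hC x p hp)

theorem hasFDerivAt_bavg (B : Finset (Fin n)) (k : ℕ) {g : Space n → ℝ} (hg : Nice g)
    (x₀ : Space n) : HasFDerivAt (bavg B k g) (∫ p, bint B k g x₀ p ∂tg n) x₀ := by
  obtain ⟨C, m, hC0, hC⟩ := bmix_grow B hg.2
  refine hasFDerivAt_integral_of_dominated_of_fderiv_le (𝕜 := ℝ)
    (bound := fun p => C * (2 + ‖x₀‖) ^ m * (1 + ‖p.2‖) ^ m)
    (F := fun x p => p.1 ^ k * g (bmix B x p)) (F' := fun x p => bint B k g x p)
    (Metric.ball_mem_nhds x₀ one_pos)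
    (Eventually.of_forall fun x => (bavg_int B k hg.cont hg.grow x).aestronglyMeasurable)
    (bavg_int B k hg.cont hg.grow x₀) (bint_int B k hg x₀).aestronglyMeasurable ?_
    ((poly_snd_int m).const_mul _) ?_
  · filter_upwards [tg_mem] with p hp x hx
    refine ((norm_bint_le B k hp).trans (hC x p hp)).trans ?_
    rw [mem_ball_iff_norm] at hx
    have h1 := norm_le_norm_add_norm_sub' x x₀
    gcongr C * ?_ * _
    exact pow_le_pow_left₀ (by positivity) (by linarith) m
  · refine ae_of_all _ fun p x _ => ?_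
    have h1 : HasFDerivAt (fun x => bmix B x p) (bder B p.1) x := by
      simp only [bmix_eq]
      exact (bder B p.1).hasFDerivAt.add_const _
    exact ((hg.diff _).hasFDerivAt.comp x h1).const_mul (p.1 ^ k)

theorem fderiv_bavg (B : Finset (Fin n)) (k : ℕ) {g : Space n → ℝ} (hg : Nice g) (x v : Space n) :
    fderiv ℝ (bavg B k g) x v
      = ∫ p, p.1 ^ k * fderiv ℝ g (bmix B x p) (bder B p.1 v) ∂tg n := by
  rw [(hasFDerivAt_bavg B k hg x).fderiv, ContinuousLinearMap.integral_apply (bint_int B k hg x)]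
  rfl

theorem fderiv_bavg_ev {B : Finset (Fin n)} (k : ℕ) {g : Space n → ℝ} (hg : Nice g) {j : Fin n}
    (hj : j ∈ B) (x : Space n) :
    fderiv ℝ (bavg B k g) x (ev j) = bavg B (k + 1) (fun y => fderiv ℝ g y (ev j)) x := by
  rw [fderiv_bavg B k hg]
  refine integral_congr_ae (ae_of_all _ fun p => ?_)
  have e : bder B p.1 (ev j) = p.1 • ev j := by rw [bder_apply, bproj_ev hj]; module
  beta_reduce
  rw [e, map_smul, smul_eq_mul, pow_succ, mul_assoc]

theorem bavg_bound (B : Finset (Fin n)) (k : ℕ) {g : Space n → ℝ} (hg : Nice g) {L : ℝ}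
    (hL : ∀ y, ‖fderiv ℝ g y‖ ≤ L) (x : Space n) : ‖fderiv ℝ (bavg B k g) x‖ ≤ L := by
  have := tg_prob (d := n)
  rw [(hasFDerivAt_bavg B k hg x).fderiv]
  refine (norm_integral_le_of_norm_le_const (C := L) ?_).trans (by simp)
  filter_upwards [tg_mem] with p hp
  exact (norm_bint_le B k hp).trans (hL _)

theorem nice_bavg (B : Finset (Fin n)) (k : ℕ) {g : Space n → ℝ} (hg : Nice g) :
    Nice (bavg B k g) := by
  obtain ⟨C, m, hC0, hC⟩ := bmix_grow B hg.2
  have e : fderiv ℝ (bavg B k g) = fun x => ∫ p, bint B k g x p ∂tg n :=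
    funext fun x => (hasFDerivAt_bavg B k hg x).fderiv
  refine ⟨contDiff_one_iff_fderiv.2 ⟨fun x => (hasFDerivAt_bavg B k hg x).differentiableAt, ?_⟩, ?_⟩
  · rw [e]
    refine continuous_iff_continuousAt.2 fun x₀ => continuousAt_of_dominated
      (bound := fun p => C * (2 + ‖x₀‖) ^ m * (1 + ‖p.2‖) ^ m)
      (Eventually.of_forall fun x => (bint_int B k hg x).aestronglyMeasurable) ?_
      ((poly_snd_int m).const_mul _) (ae_of_all _ fun p => ?_)
    · filter_upwards [Metric.ball_mem_nhds x₀ one_pos] with x hx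
      filter_upwards [tg_mem] with p hp
      refine ((norm_bint_le B k hp).trans (hC x p hp)).trans ?_
      rw [mem_ball_iff_norm] at hx
      have h1 := norm_le_norm_add_norm_sub' x x₀
      gcongr C * ?_ * _
      exact pow_le_pow_left₀ (by positivity) (by linarith) m
    · refine Continuous.continuousAt ?_
      unfold bint
      exact ((hg.1.continuous_fderiv one_ne_zero).comp (continuous_bmix_left B p) |>.clm_comp
        continuous_const).const_smul (p.1 ^ k)
  · refine ⟨C * ∫ p : ℝ × Space n, (1 + ‖p.2‖) ^ m ∂tg n, m, fun x => ?_⟩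
    rw [e]
    refine (norm_integral_le_of_norm_le ((poly_snd_int m).const_mul (C * (1 + ‖x‖) ^ m)) ?_).trans_eq
      (by rw [integral_const_mul]; ring)
    filter_upwards [tg_mem] with p hp
    exact (norm_bint_le B k hp).trans (hC x p hp)

theorem char_gam (t : Space n) :
    ∫ x, Complex.exp ((⟪x, t⟫ : ℝ) * Complex.I) ∂gam n = Complex.exp (-(‖t‖ : ℂ) ^ 2 / 2) := by
  rw [← charFun_apply, charFun_stdGaussian]

/-- At every correlation the mixed point is standard. -/
theorem map_bmix (B : Finset (Fin n)) {t : ℝ} (ht : t ∈ Ioo (0 : ℝ) 1) :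
    ((gam n).prod (gam n)).map (fun q : Space n × Space n => bmix B q.1 (t, q.2)) = gam n := by
  have hc : Continuous fun q : Space n × Space n => bmix B q.1 (t, q.2) := by
    unfold bmix; fun_prop
  refine Measure.ext_of_charFun (funext fun u => ?_)
  rw [charFun_apply, integral_map hc.aemeasurable (by fun_prop), charFun_stdGaussian]
  set s := Real.sqrt (1 - t ^ 2) with hs
  have e : ∀ q : Space n × Space n,
      ⟪bmix B q.1 (t, q.2), u⟫ = ⟪q.1, bder B t u⟫ + ⟪q.2, s • bproj B u⟫ := fun q => by
    rw [bmix_eq]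
    simp only [bder_apply, PiLp.inner_apply, ← Finset.sum_add_distrib, PiLp.add_apply,
      PiLp.smul_apply, bproj_coord, smul_eq_mul, RCLike.inner_apply, conj_trivial]
    refine Finset.sum_congr rfl fun k _ => ?_
    split_ifs <;> ring
  simp only [e, Complex.ofReal_add, add_mul, Complex.exp_add]
  rw [integral_prod_mul (fun x : Space n => Complex.exp (((⟪x, bder B t u⟫ : ℝ) : ℂ) * Complex.I))
    (fun z : Space n => Complex.exp (((⟪z, s • bproj B u⟫ : ℝ) : ℂ) * Complex.I)), char_gam,
    char_gam, ← Complex.exp_add]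
  have hn : ‖bder B t u‖ ^ 2 + ‖s • bproj B u‖ ^ 2 = ‖u‖ ^ 2 := by
    simp only [EuclideanSpace.real_norm_sq_eq, bder_apply, PiLp.add_apply, PiLp.smul_apply,
      bproj_coord, smul_eq_mul, ← Finset.sum_add_distrib]
    refine Finset.sum_congr rfl fun k _ => ?_
    have h0 : s ^ 2 = 1 - t ^ 2 := Real.sq_sqrt (by nlinarith [ht.1, ht.2])
    split_ifs
    · linear_combination u k ^ 2 * h0
    · ring
  congr 1
  rw [← add_div, ← neg_add]
  congr 2
  exact_mod_cast hn

end BlockAux

open SteinAux BlockAux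

/-- The resolvent keeps regularity. -/
theorem nice_blockRes (B : Finset (Fin n)) {G : Space n → ℝ} (hG : Nice G) :
    Nice (blockRes B G) := nice_bavg B 0 hG

/-- The resolvent keeps the gradient bound. -/
theorem blockRes_gradBound (B : Finset (Fin n)) {G : Space n → ℝ} (hG : Nice G) {L : ℝ}
    (hL : GradBound G L) : GradBound (blockRes B G) L := fun x => bavg_bound B 0 hG hL x

theorem nice_fderiv_blockRes {B : Finset (Fin n)} {G : Space n → ℝ} (hG : Nice G)
    (hG2 : ∀ j ∈ B, Nice fun y => fderiv ℝ G y (ev j)) {j : Fin n} (hj : j ∈ B) :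
    Nice fun x => fderiv ℝ (blockRes B G) x (ev j) := by
  rw [show (fun x => fderiv ℝ (blockRes B G) x (ev j))
    = bavg B 1 (fun y => fderiv ℝ G y (ev j)) from funext fun x => fderiv_bavg_ev 0 hG hj x]
  exact nice_bavg B 1 (hG2 j hj)

/-- The resolvent equation on the block. -/
theorem blockRes_eq {B : Finset (Fin n)} {G : Space n → ℝ} (hG : Nice G)
    (hG2 : ∀ j ∈ B, Nice fun y => fderiv ℝ G y (ev j)) (x : Space n) :
    blockRes B G x + ∑ j ∈ B, (x j * fderiv ℝ (blockRes B G) x (ev j)
      - fderiv ℝ (fun y => fderiv ℝ (blockRes B G) y (ev j)) x (ev j)) = G x := by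
  have := unit_prob
  have := tg_prob (d := n)
  set g1 : Fin n → Space n → ℝ := fun j y => fderiv ℝ G y (ev j) with hg1
  set g2 : Fin n → Space n → ℝ := fun j y => fderiv ℝ (g1 j) y (ev j) with hg2
  have e1 : ∀ j ∈ B, ∀ y, fderiv ℝ (blockRes B G) y (ev j) = bavg B 1 (g1 j) y :=
    fun j hj y => fderiv_bavg_ev 0 hG hj y
  have e2 : ∀ j ∈ B, fderiv ℝ (fun y => fderiv ℝ (blockRes B G) y (ev j)) x (ev j)
      = bavg B 2 (g2 j) x := fun j hj => by
    rw [funext (e1 j hj)]
    exact fderiv_bavg_ev 1 (hG2 j hj) hj x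
  set w : ℝ × Space n → Fin n → ℝ := fun p j =>
    p.1 / Real.sqrt (1 - p.1 ^ 2) * (p.1 * (p.2 j * g1 j (bmix B x p))) with hw
  have hwi : ∀ j ∈ B, Integrable (fun p => w p j) (tg n) := fun j hj => by
    obtain ⟨C, m, hC0, hC⟩ := bmix_grow B (hG2 j hj).grow
    have hb : Integrable (fun p : ℝ × Space n => p.1 / Real.sqrt (1 - p.1 ^ 2)
        * (C * (1 + ‖x‖) ^ m * (1 + ‖p.2‖) ^ (m + 1))) (tg n) :=
      Integrable.mul_prod weight_spec.1 ((int_poly (m + 1)).const_mul _)
    refine Integrable.mono' hb ?_ ?_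
    · exact ((measurable_fst.div (by fun_prop : Measurable fun p : ℝ × Space n =>
        Real.sqrt (1 - p.1 ^ 2))).mul ((continuous_fst.mul
          (((nice_coord j).cont.comp continuous_snd).mul
            ((hG2 j hj).cont.comp (continuous_bmix B x)))).measurable)).aestronglyMeasurable
    · filter_upwards [tg_mem] with p hp
      have h0 := div_nonneg hp.1.le (Real.sqrt_nonneg (1 - p.1 ^ 2))
      simp only [hw, norm_mul, Real.norm_eq_abs, abs_of_nonneg h0, abs_of_pos hp.1]
      refine mul_le_mul_of_nonneg_left ?_ h0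
      refine (mul_le_of_le_one_left (by positivity) hp.2.le).trans ?_
      refine (mul_le_mul ((P245.abs_coord_le _ j).trans (le_add_of_nonneg_left zero_le_one))
        (hC x p hp) (abs_nonneg _) (by positivity)).trans_eq ?_
      ring
  -- integration by parts in the fresh coordinates
  have ibp : ∀ j ∈ B, bavg B 2 (g2 j) x = ∫ p, w p j ∂tg n := fun j hj => by
    rw [bavg, integral_prod _ (bavg_int B 2 ((hG2 j hj).cont_deriv _) ((hG2 j hj).grow_deriv _) x),
      integral_prod _ (hwi j hj)]
    refine integral_congr_ae ?_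
    filter_upwards [ae_restrict_mem measurableSet_Ioo] with t ht
    simp only [hw]
    set s := Real.sqrt (1 - t ^ 2) with hs
    have hs0 : 0 < s := Real.sqrt_pos.2 (by nlinarith [ht.1, ht.2])
    set φ := fun z : Space n => g1 j (bmix B x (t, z)) with hφ
    have hd : ∀ z, HasFDerivAt φ ((fderiv ℝ (g1 j) (bmix B x (t, z))).comp (s • bproj B)) z :=
      fun z => by
      refine ((hG2 j hj).diff _).hasFDerivAt.comp z ?_
      simp only [bmix]
      exact ((bproj B).hasFDerivAt.const_smul s).const_add _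
    have hn : Nice φ := by
      obtain ⟨C, m, hC0, hC⟩ := bmix_grow B (hG2 j hj).2
      refine Nice.of_bound ((hG2 j hj).1.comp
        (show ContDiff ℝ 1 fun z => bmix B x (t, z) by
          simp only [bmix]; exact contDiff_const.add ((bproj B).contDiff.const_smul s)))
        (G := fun z => C * (1 + ‖x‖) ^ m * (1 + ‖z‖) ^ m)
        (grow_mul (grow_const _) (grow_pow (grow_add (grow_const 1) (grow_norm grow_id)) m))
        fun z => ?_
      rw [(hd z).fderiv]
      refine le_trans ?_ (hC x (t, z) ht)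
      refine ContinuousLinearMap.opNorm_le_bound _ (norm_nonneg _) fun v => ?_
      refine ((fderiv ℝ (g1 j) _).le_opNorm _).trans (mul_le_mul_of_nonneg_left ?_ (norm_nonneg _))
      show ‖s • bproj B v‖ ≤ ‖v‖
      rw [norm_smul, Real.norm_eq_abs, abs_of_pos hs0]
      exact (mul_le_of_le_one_left (norm_nonneg _) (Real.sqrt_le_one.2 (by nlinarith))).trans
        (norm_bproj_le B v)
    have hg := gStein hn (ev j)
    simp only [coord_inner, (hd _).fderiv, ContinuousLinearMap.comp_apply, smul_apply,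
      bproj_ev hj, map_smul, smul_eq_mul, integral_const_mul] at hg
    simp only [integral_const_mul]
    show _ = t / s * (t * ∫ z, z j * φ z ∂gam n)
    rw [hg]
    simp only [hg1]
    field_simp
  -- the fundamental theorem of calculus
  set A : ℝ × Space n → ℝ := fun p =>
    G (bmix B x p) + ∑ j ∈ B, (x j * (p.1 * g1 j (bmix B x p)) - w p j) with hA
  have i0 : Integrable (fun p => G (bmix B x p)) (tg n) := by
    simpa using bavg_int B 0 hG.cont hG.grow x
  have i1 : ∀ j ∈ B, Integrable (fun p : ℝ × Space n => p.1 * g1 j (bmix B x p)) (tg n) :=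
    fun j hj => by simpa using bavg_int B 1 (hG2 j hj).cont (hG2 j hj).grow x
  have isum : Integrable
      (fun p => ∑ j ∈ B, (x j * (p.1 * g1 j (bmix B x p)) - w p j)) (tg n) :=
    integrable_finsetSum _ fun j hj => ((i1 j hj).const_mul _).sub (hwi j hj)
  have hAi : Integrable A (tg n) := i0.add isum
  have key : ∀ᵐ z ∂gam n, ∫ t, A (t, z) ∂volume.restrict (Ioo (0 : ℝ) 1) = G x := by
    filter_upwards [hAi.prod_left_ae] with z hz
    have hd : ∀ t ∈ Ioo (0 : ℝ) 1,
        HasDerivAt (fun t : ℝ => t * G (bmix B x (t, z))) (A (t, z)) t := by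
      intro t ht
      have h0 : 0 < 1 - t ^ 2 := by nlinarith [ht.1, ht.2]
      have h1 : HasDerivAt (fun t : ℝ => bmix B x (t, z))
          (bproj B x + (-(t / Real.sqrt (1 - t ^ 2))) • bproj B z) t := by
        simp only [bmix]
        refine ((((hasDerivAt_id t).sub_const 1).smul_const (bproj B x)).const_add x |>.add
          ((((hasDerivAt_pow 2 t).const_sub 1).sqrt h0.ne').smul_const (bproj B z))).congr_deriv ?_
        have := (Real.sqrt_pos.2 h0).ne'
        rw [one_smul]
        congr 2
        field_simp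
        norm_num
      refine ((hasDerivAt_id t).mul ((hG.diff _).hasFDerivAt.comp_hasDerivAt t h1)).congr_deriv ?_
      simp only [hA, hw, id, one_mul, map_add, map_smul, smul_eq_mul, bproj_sum, map_sum,
        Finset.mul_sum, ← Finset.sum_add_distrib, Function.comp_apply, hg1]
      refine congrArg₂ _ rfl (Finset.sum_congr rfl fun j _ => ?_)
      ring
    have hc : ContinuousOn (fun t : ℝ => t * G (bmix B x (t, z))) (Icc 0 1) :=
      (continuous_id.mul
        (hG.cont.comp ((continuous_bmix B x).comp (by fun_prop)))).continuousOn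
    have := intervalIntegral.integral_eq_sub_of_hasDerivAt_of_le zero_le_one hc hd
      ((intervalIntegrable_iff_integrableOn_Ioc_of_le zero_le_one).2
        ((integrableOn_Ioc_iff_integrableOn_Ioo).2 hz))
    rw [intervalIntegral.integral_of_le zero_le_one, integral_Ioc_eq_integral_Ioo] at this
    simpa [bmix] using this
  have htot : ∫ p, A p ∂tg n = G x := by
    rw [integral_prod_symm A hAi, integral_congr_ae key, integral_const, probReal_univ, one_smul]
  rw [← htot]
  simp only [hA]
  rw [integral_add i0 isum,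
    integral_finsetSum B fun j hj => ((i1 j hj).const_mul (x j)).sub' (hwi j hj)]
  refine congrArg₂ _ (by simp [blockRes, bavg]) (Finset.sum_congr rfl fun j hj => ?_)
  rw [integral_sub ((i1 j hj).const_mul _) (hwi j hj), integral_const_mul, e2 j hj, ibp j hj,
    e1 j hj x]
  simp [bavg]

/-- The resolvent of a block applied to `⟪w, x⟫_B` is a weak divergence. -/
theorem isDiv_blockRes (B : Finset (Fin n)) {G : Space n → ℝ} {w : Space n → Space n}
    (hG : Nice G) (hG2 : ∀ j ∈ B, Nice fun y => fderiv ℝ G y (ev j))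
    (hw : ∀ j ∈ B, Nice fun x => w x j)
    (hw0 : ∀ j ∈ B, ∀ x, fderiv ℝ (fun y => w y j) x (ev j) = 0)
    (he : ∀ x, G x = ∑ j ∈ B, x j * w x j) :
    IsDiv (fun x => blockPart B w x - blockGrad B (blockRes B G) x) (blockRes B G) :=
  isDiv_resolvent B (fun _ hj => nice_fderiv_blockRes hG hG2 hj) hw hw0
    fun x => (blockRes_eq hG hG2 x).trans (he x)

/-- The resolvent contracts every moment. -/
theorem blockRes_moment (B : Finset (Fin n)) {G : Space n → ℝ} (hG : Nice G) (q : ℕ) :
    ∫ x, |blockRes B G x| ^ q ∂gam n ≤ ∫ x, |G x| ^ q ∂gam n := by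
  have := unit_prob
  have := tg_prob (d := n)
  set μt := volume.restrict (Ioo (0 : ℝ) 1) with hμt
  set H : Space n → ℝ := fun y => |G y| ^ q with hH
  have hHc : Continuous H := hG.cont.abs.pow q
  have hHg : Grow H := grow_pow (by simpa [Real.norm_eq_abs] using grow_norm hG.grow) q
  obtain ⟨C, m, hC0, hC⟩ := bmix_grow B hHg
  have hm : ∀ᵐ r ∂(gam n).prod (tg n), r.2.1 ∈ Ioo (0 : ℝ) 1 :=
    (Measure.quasiMeasurePreserving_snd (μ := gam n) (ν := tg n)).ae tg_mem
  have hi : Integrable (fun r : Space n × ℝ × Space n => H (bmix B r.1 r.2))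
      ((gam n).prod (tg n)) := by
    have hb : Integrable (fun r : Space n × ℝ × Space n =>
        C * (1 + ‖r.1‖) ^ m * (1 + ‖r.2.2‖) ^ m) ((gam n).prod (tg n)) :=
      Integrable.mul_prod ((int_poly m).const_mul C) (poly_snd_int m)
    refine Integrable.mono' hb
      (hHc.comp (by unfold bmix; fun_prop)).aestronglyMeasurable ?_
    filter_upwards [hm] with r hr
    exact hC r.1 r.2 hr
  have hpt : ∀ x, |blockRes B G x| ^ q ≤ ∫ p, H (bmix B x p) ∂tg n := fun x => by
    have i0 : Integrable (fun p => |G (bmix B x p)|) (tg n) := by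
      simpa using (bavg_int B 0 hG.cont hG.grow x).abs
    have iH : Integrable (fun p => H (bmix B x p)) (tg n) := by
      simpa using bavg_int B 0 hHc hHg x
    have h1 : |blockRes B G x| ≤ ∫ p, |G (bmix B x p)| ∂tg n := by
      simpa [blockRes, bavg] using
        abs_integral_le_integral_abs (μ := tg n) (f := fun p => G (bmix B x p))
    refine (pow_le_pow_left₀ (abs_nonneg _) h1 q).trans ?_
    exact (convexOn_pow q).map_integral_le (continuous_pow q).continuousOn isClosed_Ici
      (ae_of_all _ fun p => Set.mem_Ici.2 (abs_nonneg _)) i0 iH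
  refine (integral_mono_of_nonneg (ae_of_all _ fun x => by positivity) hi.integral_prod_left
    (ae_of_all _ hpt)).trans_eq ?_
  rw [integral_integral_swap hi]
  set A : ℝ × Space n × Space n → ℝ := fun r => H (bmix B r.2.1 (r.1, r.2.2)) with hA
  have e : ∫ p : ℝ × Space n, ∫ x, H (bmix B x p) ∂gam n ∂tg n
      = ∫ t, ∫ q : Space n × Space n, A (t, q) ∂(gam n).prod (gam n) ∂μt := by
    rw [integral_prod _ hi.integral_prod_right]
    refine integral_congr_ae ?_
    filter_upwards [ae_restrict_mem measurableSet_Ioo] with t ht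
    have hit : Integrable (fun q : Space n × Space n => A (t, q)) ((gam n).prod (gam n)) := by
      refine Integrable.mono' (Integrable.mul_prod ((int_poly m).const_mul C) (int_poly m))
        (hHc.comp (by unfold bmix; fun_prop)).aestronglyMeasurable (ae_of_all _ fun q => ?_)
      exact hC q.1 (t, q.2) ht
    exact (integral_prod_symm _ hit).symm
  refine e.trans ?_
  have hconst : ∀ᵐ t ∂μt, ∫ q : Space n × Space n, A (t, q) ∂(gam n).prod (gam n)
      = ∫ y, H y ∂gam n := by
    filter_upwards [ae_restrict_mem measurableSet_Ioo] with t ht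
    conv_rhs => rw [← map_bmix B ht]
    exact (integral_map (by unfold bmix; fun_prop : Continuous fun q : Space n × Space n =>
      bmix B q.1 (t, q.2)).aemeasurable hHc.aestronglyMeasurable).symm
  rw [integral_congr_ae hconst, integral_const, probReal_univ, one_smul]

end Vale.Agent.P347.Zero
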