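import Vale.Agent.P347.Zero.SamBasics
import Vale.Agent.P347.Zero.Contract

/-!
The moment bound of weighted sums and of a leg read from a block; pull-backs along a map of
indices, and the fact that only large dimensions matter.
-/

noncomputable section

open MeasureTheory ProbabilityTheory
open scoped RealInnerProductSpace NNReal

namespace Vale.Agent.P347.Zero

/-! ### Linear forms -/

theorem pg_real_id : PG fun t : ℝ => t := fun k =>
  ⟨contDiff_id, 1, 1, fun x => by
    rw [norm_iteratedFDeriv_eq_norm_iteratedDeriv, iteratedDeriv_fun_id, one_mul, pow_one]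
    have := abs_nonneg x
    split_ifs <;> simp only [norm_zero, norm_one, Real.norm_eq_abs] <;> linarith⟩

theorem pg_linear {E : Type} [NormedAddCommGroup E] [NormedSpace ℝ E] (φ : E →L[ℝ] ℝ) :
    PG fun x => φ x := pg_real_id.comp_clm φ

variable {S : Sys} {B I : Type} [Fintype B] [DecidableEq B] [Fintype I] [DecidableEq I]
  {κ φ θ : ℝ} {o : I}

/-! ### The bound of sums and of a leg read from a block -/

theorem Bd.sum {T : Fld (S.par ℕ) B I} (h : Bd θ T) {N : S.ι → ℕ} {w : S.ι → ℕ → ℝ}
    (hw : ∀ η : ℝ, 0 < η → S.Ev fun i => ∑ l ∈ Finset.range (N i), |w i l| ≤ S.dd i ^ η) :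
    Bd θ (sumF N w T) := fun η hη m =>
  (((h (η / 2) (half_pos hη) m).slice.and (hw (η / 2) (half_pos hη))).and S.ev_one_le).mono
    fun i ⟨⟨hi, hwi⟩, hd⟩ p => by
    set μ := gp B (S.dm i)
    have hi' : ∀ l, ∃ f : (B → Space (S.dm i)) → ℝ, Measurable f ∧
        (∀ x, 0 ≤ f x ∧ SplitB (f x) (T (i, l) p x : Ten (S.dm i) I)) ∧
        Integrable (fun x => f x ^ m) μ ∧ ∫ x, f x ^ m ∂μ ≤ (S.dd i ^ (η / 2 - θ)) ^ m :=
      fun l => hi l p
    choose f hf hs hint hb using hi'
    set W := ∑ l ∈ Finset.range (N i), |w i l| with hW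
    have hW0 : 0 ≤ W := Finset.sum_nonneg fun l _ => abs_nonneg _
    set F := fun x => ∑ l ∈ Finset.range (N i), |w i l| * f l x with hF
    have hF0 : ∀ x, 0 ≤ F x := fun x =>
      Finset.sum_nonneg fun l _ => mul_nonneg (abs_nonneg _) (hs l x).1
    have hFm : Measurable F := Finset.measurable_fun_sum _ fun l _ => (hf l).const_mul _
    refine ⟨F, hFm, fun x => ⟨hF0 x, ?_⟩, ?_⟩
    · intro A A' _ _ _ _ _ _ e
      set Tl : ℕ → Ten (S.dm i) I := fun l => T (i, l) p x
      suffices H : ∀ n, MatB (∑ l ∈ Finset.range n, |w i l| * f l x)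
          (fun (p' : A → Fin (S.dm i)) (q' : A' → Fin (S.dm i)) =>
            ∑ l ∈ Finset.range n, w i l * Tl l (glue e p' q')) by
        refine cast (congrArg (fun M => MatB (F x) M) (funext fun p' => funext fun q' => ?_)) (H (N i))
        exact (sumF_apply _ _ _ i p x _).symm
      intro n
      induction n with
      | zero => exact ⟨by simp, fun _ _ => by simp⟩
      | succ n ih =>
        simp only [Finset.sum_range_succ]
        exact ih.add (((hs n x).2 A A' e).smul (w i n))
    rcases m with _ | m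
    · simp
    have hle : ∀ x, F x ^ (m + 1) ≤ W ^ m * ∑ l ∈ Finset.range (N i), |w i l| * f l x ^ (m + 1) := by
      intro x
      rcases hW0.eq_or_lt with h0 | h0
      · have hz : ∀ l ∈ Finset.range (N i), |w i l| = 0 :=
          (Finset.sum_eq_zero_iff_of_nonneg fun l _ => abs_nonneg _).1 h0.symm
        have hFz : F x = 0 := Finset.sum_eq_zero fun l hl => by rw [hz l hl, zero_mul]
        rw [hFz, zero_pow (Nat.succ_ne_zero m)]
        exact mul_nonneg (pow_nonneg hW0 _) (Finset.sum_nonneg fun l _ =>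
          mul_nonneg (abs_nonneg _) (pow_nonneg (hs l x).1 _))
      · have := Real.pow_arith_mean_le_arith_mean_pow (Finset.range (N i))
          (fun l => |w i l| / W) (fun l => f l x) (fun l _ => by positivity)
          (by rw [← Finset.sum_div, div_self h0.ne']) (fun l _ => (hs l x).1) (m + 1)
        simp only [div_mul_eq_mul_div, ← Finset.sum_div] at this
        rw [div_pow, div_le_div_iff₀ (pow_pos h0 _) h0, pow_succ W] at this
        nlinarith [this]
    have hgi : Integrable (fun x => W ^ m * ∑ l ∈ Finset.range (N i), |w i l| * f l x ^ (m + 1)) μ :=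
      (integrable_finsetSum _ fun l _ => (hint l).const_mul _).const_mul _
    have hFi : Integrable (fun x => F x ^ (m + 1)) μ :=
      hgi.mono' (hFm.pow_const _).aestronglyMeasurable (ae_of_all _ fun x => by
        rw [Real.norm_of_nonneg (pow_nonneg (hF0 x) _)]; exact hle x)
    refine ⟨hFi, (integral_mono hFi hgi hle).trans ?_⟩
    rw [integral_const_mul, integral_finsetSum _ fun l _ => (hint l).const_mul _]
    simp only [integral_const_mul]
    set X := S.dd i ^ (η / 2 - θ)
    calc W ^ m * ∑ l ∈ Finset.range (N i), |w i l| * ∫ x, f l x ^ (m + 1) ∂μ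
        ≤ W ^ m * (W * X ^ (m + 1)) := by
          refine mul_le_mul_of_nonneg_left ?_ (pow_nonneg hW0 m)
          rw [hW, Finset.sum_mul]
          exact Finset.sum_le_sum fun l _ => mul_le_mul_of_nonneg_left (hb l) (abs_nonneg _)
      _ = (W * X) ^ (m + 1) := by rw [mul_pow]; ring
      _ ≤ (S.dd i ^ (η / 2) * X) ^ (m + 1) :=
          pow_le_pow_left₀ (mul_nonneg hW0 (Real.rpow_nonneg (by linarith) _))
            (mul_le_mul_of_nonneg_right hwi (Real.rpow_nonneg (by linarith) _)) _
      _ = _ := by rw [← Real.rpow_add (by linarith)]; ring_nf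

theorem optSplit_mp (d : ℕ) (B : Type) [Fintype B] :
    MeasurePreserving (fun x : Option B → Space d => ((fun b => x (some b)), x none))
      (gp (Option B) d) ((gp B d).prod (gam d)) := by
  have h : MeasurePreserving (MeasurableEquiv.piOptionEquivProd fun _ : Option B => Space d).symm
      ((gp B d).prod (gam d)) (gp (Option B) d) :=
    ⟨(MeasurableEquiv.piOptionEquivProd _).symm.measurable,
      Measure.pi_map_piOptionEquivProd fun _ : Option B => gam d⟩
  exact h.symm _

theorem Sm.legB {T : Fld S B (Option I)} (h : Sm T) : Sm (Zero.legB T) :=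
  sm_iff.2 fun i p idx => by
    set π : (Option B → Space (S.dm i)) →L[ℝ] (B → Space (S.dm i)) :=
      ContinuousLinearMap.pi fun b => ContinuousLinearMap.proj (some b)
    refine PG.sum (f := fun (c : Fin (S.dm i)) (x : Option B → Space (S.dm i)) =>
      T i p (fun b => x (some b)) (fun j => j.elim c idx) * x none c) Finset.univ fun c _ => ?_
    exact ((h.pg i p fun j => j.elim c idx).comp_clm π).mul
      (pg_linear ((EuclideanSpace.proj (𝕜 := ℝ) c).comp (ContinuousLinearMap.proj
        (φ := fun _ : Option B => Space (S.dm i)) none)))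

theorem Bd.legB {T : Fld S B (Option I)} (h : Bd θ T) (hT : Sm T) : Bd θ (Zero.legB T) := fun η hη m => by
  set n := Fintype.card I
  set q : ℕ := ⌈2 * (n : ℝ) / η⌉₊ + m + 1 with hq
  have hq0 : 0 < q := by omega
  have hnq : (n : ℝ) ≤ η / 4 * (2 * q : ℕ) := by
    have h1 := Nat.le_ceil (2 * (n : ℝ) / η)
    rw [div_le_iff₀ hη] at h1
    push_cast [hq]
    have h2 : (0 : ℝ) ≤ η * m := by positivity
    linarith
  set K : ℝ := 2 ^ n * Real.sqrt (2 * q) * 2 ^ Fintype.card (Option I) with hK
  have hK0 : 0 < K := by positivity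
  refine (((h (η / 4) (by linarith) (2 * q)).and S.ev_one_le).and
    ((S.ev_le_rpow (2 * K) (half_pos hη)).and (S.ev_le_rpow K (half_pos hη)))).mono
      fun i ⟨⟨hi, hd⟩, h2K, _⟩ p => ?_
  obtain ⟨f, hf, hs, hint, hb⟩ := hi p
  set μ := gp B (S.dm i)
  have hTm : Measurable fun x : B → Space (S.dm i) => T i p x := (hT.cont i p).measurable
  have hsn : Integrable (fun x => splitN (T i p x) ^ (2 * q)) μ := by
    refine (hint.const_mul ((2 ^ Fintype.card (Option I)) ^ (2 * q))).mono'
      ((continuous_splitN.measurable.comp hTm).pow_const _).aestronglyMeasurable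
      (ae_of_all _ fun x => ?_)
    rw [Real.norm_of_nonneg (pow_nonneg (splitN_nonneg _) _), ← mul_pow]
    exact pow_le_pow_left₀ (splitN_nonneg _) (splitN_le (hs x).1 (hs x).2) _
  obtain ⟨hgi, hgb⟩ := moment_splitN_ctrV_random (P := μ) hTm hq0 hsn
  set g : (Option B → Space (S.dm i)) → ℝ := fun x => splitN (Zero.legB T i p x) with hg
  have hgm : Measurable g := continuous_splitN.measurable.comp ((hT.legB).cont i p).measurable
  have hg0 : ∀ x, 0 ≤ g x := fun x => splitN_nonneg _
  refine ⟨g, hgm, fun x => ⟨hg0 x, splitB_splitN _⟩, ?_⟩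
  have hmp := optSplit_mp (S.dm i) B
  have hg2 : Integrable (fun x => g x ^ (2 * q)) (gp (Option B) (S.dm i)) :=
    hmp.integrable_comp_of_integrable hgi
  set X := K * S.dd i ^ (η / 2 - θ) with hX
  have hX0 : 0 < X := mul_pos hK0 (Real.rpow_pos_of_pos (by linarith) _)
  have hmom : ∫ x, g x ^ (2 * q) ∂gp (Option B) (S.dm i) ≤ X ^ (2 * q) := by
    have e1 : ∫ x, g x ^ (2 * q) ∂gp (Option B) (S.dm i)
        = ∫ r, splitN (ctrV (T i p r.1) r.2) ^ (2 * q) ∂μ.prod (gam (S.dm i)) := by
      rw [← hmp.map_eq, integral_map hmp.measurable.aemeasurable (by rw [hmp.map_eq]; exact hgi.1)]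
      rfl
    rw [e1]
    refine hgb.trans ?_
    have h3 : ∫ x, splitN (T i p x) ^ (2 * q) ∂μ
        ≤ (2 ^ Fintype.card (Option I)) ^ (2 * q) * (S.dd i ^ (η / 4 - θ)) ^ (2 * q) := by
      refine (integral_mono hsn (hint.const_mul _) fun x => ?_).trans
        ((integral_const_mul _ _).trans_le (mul_le_mul_of_nonneg_left hb (by positivity)))
      rw [← mul_pow]
      exact pow_le_pow_left₀ (splitN_nonneg _) (splitN_le (hs x).1 (hs x).2) _
    have h4 : S.dd i ^ n ≤ (S.dd i ^ (η / 4)) ^ (2 * q) := by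
      rw [← Real.rpow_natCast (S.dd i ^ (η / 4)), ← Real.rpow_mul (by linarith),
        ← Real.rpow_natCast (S.dd i) n]
      exact Real.rpow_le_rpow_of_exponent_le hd hnq
    refine (mul_le_mul (mul_le_mul_of_nonneg_left h4 (by positivity)) h3
      (integral_nonneg fun x => pow_nonneg (splitN_nonneg _) _) (by positivity)).trans (le_of_eq ?_)
    rw [hX, hK, show η / 2 - θ = η / 4 + (η / 4 - θ) by ring,
      Real.rpow_add (show (0 : ℝ) < S.dd i by linarith)]
    simp only [mul_pow]
    ring
  have hle : ∀ x, g x ^ m ≤ X ^ m * (1 + g x ^ (2 * q) / X ^ (2 * q)) := fun x => by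
    have hr : 0 ≤ g x / X := div_nonneg (hg0 x) hX0.le
    have h1 : (g x / X) ^ m ≤ 1 + (g x / X) ^ (2 * q) := by
      rcases le_total (g x / X) 1 with h | h
      · exact (pow_le_one₀ hr h).trans (le_add_of_nonneg_right (pow_nonneg hr _))
      · exact (pow_le_pow_right₀ h (by omega)).trans (le_add_of_nonneg_left zero_le_one)
    rw [div_pow, div_pow, div_le_iff₀ (pow_pos hX0 m)] at h1
    linarith
  have hR : Integrable (fun x => X ^ m * (1 + g x ^ (2 * q) / X ^ (2 * q)))
      (gp (Option B) (S.dm i)) := ((integrable_const _).add (hg2.div_const _)).const_mul _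
  have hgi' : Integrable (fun x => g x ^ m) (gp (Option B) (S.dm i)) :=
    hR.mono' (hgm.pow_const _).aestronglyMeasurable (ae_of_all _ fun x => by
      rw [Real.norm_of_nonneg (pow_nonneg (hg0 x) _)]; exact hle x)
  refine ⟨hgi', ?_⟩
  rcases m with _ | m
  · simp
  refine (integral_mono hgi' hR hle).trans ?_
  rw [integral_const_mul, integral_add (integrable_const _) (hg2.div_const _), integral_div,
    integral_const, probReal_univ, one_smul]
  have h5 := (div_le_one (pow_pos hX0 (2 * q))).2 hmom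
  calc X ^ (m + 1) * (1 + _) ≤ X ^ (m + 1) * 2 :=
        mul_le_mul_of_nonneg_left (by linarith) (by positivity)
    _ ≤ (2 * X) ^ (m + 1) := by
        refine le_trans (le_of_eq (mul_comm (X ^ (m + 1)) 2)) ?_
        refine le_trans ?_ (le_of_eq (mul_pow 2 X (m + 1)).symm)
        exact mul_le_mul_of_nonneg_right (le_self_pow₀ one_le_two (by omega)) (by positivity)
    _ ≤ _ := by
        refine pow_le_pow_left₀ (by positivity) ?_ _
        rw [hX, ← mul_assoc]
        refine (mul_le_mul_of_nonneg_right h2K (Real.rpow_nonneg (by linarith) _)).trans_eq ?_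
        rw [← Real.rpow_add (by linarith)]
        ring_nf

/-! ### Pull-backs along maps of indices -/

/-- The family along a map of indices, with the same keys. -/
def Sys.comap (S : Sys) {Q : Type} (f : Q → S.ι) : Sys where
  key := S.key
  kdm := S.kdm
  ι := Q
  pub x := S.pub (f x)
  og x := S.og (f x)
  wt x := S.wt (f x)
  one_le_wt x := S.one_le_wt (f x)
  og_lip x := S.og_lip (f x)

theorem Sys.Ev.comap {Q : Type} {P : S.ι → Prop} (h : S.Ev P) (f : Q → S.ι) :
    (S.comap f).Ev fun x => P (f x) :=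
  let ⟨d₀, hd⟩ := h
  ⟨d₀, fun x hx => hd (f x) hx⟩

/-- A field along a map of indices. -/
def pullF {Q : Type} (f : Q → S.ι) (T : Fld S B I) : Fld (S.comap f) B I := fun x p => T (f x) p

theorem Sm.pull {T : Fld S B I} (h : Sm T) {Q : Type} (f : Q → S.ι) : Sm (pullF f T) :=
  fun x p idx => h (f x) p idx

theorem Bd.pull {T : Fld S B I} (h : Bd θ T) {Q : Type} (f : Q → S.ι) : Bd θ (pullF f T) :=
  fun η hη m => (h η hη m).comap f

theorem Sam.pull {T : Fld S B I} (h : Sam κ φ θ o T) {Q : Type} (f : Q → S.ι) :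
    Sam κ φ θ o (pullF f T) := fun a ha ε hε => by
  obtain ⟨R, hq, hl, hin, hlaw⟩ := h a ha ε hε
  exact ⟨Run.of R.atK, hq.comap f, fun x => hl (f x),
    Run.lipIn_of fun η hη => (hin.lip hη).comap f, fun η hη => (hlaw η hη).comap f⟩

/-- From a subfamily that contains every large dimension. -/
theorem Bd.of_ev {T : Fld S B I} {P : S.ι → Prop} (hP : S.Ev P)
    (h : Bd θ (pullF (Subtype.val : {i // P i} → S.ι) T)) : Bd θ T := fun η hη m =>
  let ⟨a, ha⟩ := hP
  let ⟨b, hb⟩ := h η hη m
  ⟨max a b, fun i hi => hb ⟨i, ha i ((le_max_left a b).trans hi)⟩ ((le_max_right a b).trans hi)⟩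

/-- From a subfamily that contains every large dimension. -/
theorem Sam.of_ev {T : Fld S B I} {P : S.key → Prop} (hP : S.Ev fun i => P (S.pub i))
    (h : Sam κ φ θ o (pullF (Subtype.val : {i // P (S.pub i)} → S.ι) T)) :
    Sam κ φ θ o T := fun a ha ε hε => by
  classical
  obtain ⟨R, hq, hl, hin, hlaw⟩ := h a ha ε hε
  set F : ∀ k, Prog (S.kdm k) B I := fun k =>
    if P k then R.atK k else Prog.noise (S.kdm k) B I 1 with hF
  have hpos : ∀ i hi, F (S.pub i) = R.at ⟨i, hi⟩ := fun i hi => if_pos hi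
  have hneg : ∀ i, ¬ P (S.pub i) → F (S.pub i) = Prog.noise (S.dm i) B I 1 := fun i hi => if_neg hi
  have hFW : ∀ i, (F (S.pub i)).LipW (S.og i) := fun i => by
    by_cases hi : P (S.pub i)
    · rw [hpos i hi]; exact hl.lipW ⟨i, hi⟩
    · rw [hneg i hi]; exact Prog.noise_lipW 1 (S.og i)
  obtain ⟨a₀, ha₀⟩ := hP
  have lift : ∀ {Q : {i // P (S.pub i)} → Prop} {Q' : S.ι → Prop},
      (S.comap (Subtype.val : {i // P (S.pub i)} → S.ι)).Ev Q → (∀ i hi, Q ⟨i, hi⟩ → Q' i) → S.Ev Q' :=
    fun {Q Q'} hQ hQQ => let ⟨b, hb⟩ := hQ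
      ⟨max a₀ b, fun i hi => hQQ i (ha₀ i ((le_max_left a₀ b).trans hi))
        (hb ⟨i, _⟩ ((le_max_right a₀ b).trans hi))⟩
  refine ⟨Run.of F, lift hq fun i hi hx => ?_, hFW,
    Run.lipIn_of fun η hη => lift (hin.lip hη) fun i hi hx => ?_,
    Run.law_of_close fun η hη => lift (hlaw.close hl hη) fun i hi hx p => ?_⟩
  · show ((F (S.pub i)).q : ℝ) ≤ _
    rw [hpos i hi]
    exact hx
  · show (F (S.pub i)).Lip _ _
    rw [hpos i hi]
    exact hx
  · obtain ⟨e, he, hb, hc⟩ := hx p
    refine ⟨e, he, hb, fun x A => ?_⟩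
    show (F (S.pub i)).CloseAt _ _ _ _ _ _ _
    rw [hpos i hi]
    exact hc x A

end Vale.Agent.P347.Zero
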