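import Vale.Agent.P347.Zero.SamplerStep
import Vale.Agent.P347.Zero.RecPins
import Vale.Agent.P347.Zero.Prog

/-!
One level of the sampler: the point program at the end node, its noise topped up to the noise of the
channel, moves the centre as the channel does.
-/

noncomputable section

open MeasureTheory ProbabilityTheory Filter Topology Set Function
open scoped RealInnerProductSpace NNReal

namespace Vale.Agent.P347.Zero

variable {d : ℕ} {h : ℝ}

/-- A Lipschitz function of finitely many standard vectors is integrable. -/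
theorem integrable_lip_gp {ι : Type} [Fintype ι] {K : ℝ≥0} {f : (ι → Space d) → Space d}
    (hf : LipschitzWith K f) : Integrable f (gp ι d) := by
  refine ((integrable_const ‖f 0‖).add ((integrable_finsetSum Finset.univ fun j _ =>
    (measurePreserving_eval (fun _ : ι => gam d) j).integrable_comp_of_integrable
      integrable_norm_gam).const_mul K)).mono' hf.continuous.aestronglyMeasurable
    (ae_of_all _ fun ω => (norm_le_norm_add_norm_sub' _ (f 0)).trans (add_le_add le_rfl ?_))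
  refine (hf.norm_sub_le _ _).trans (mul_le_mul_of_nonneg_left ?_ K.2)
  rw [sub_zero]
  exact (pi_norm_le_iff_of_nonneg (Finset.sum_nonneg fun k _ => norm_nonneg _)).2 fun j =>
    Finset.single_le_sum (fun k _ => norm_nonneg (ω k)) (Finset.mem_univ j)

/-- With one leg the tensor is its vector. -/
theorem apT_vec {S : Sys} {B : Type} (Y : Fld S B Unit) (i : S.ι) (p : Space (S.dm i))
    (x : B → Space (S.dm i)) (A : Unit → Space (S.dm i)) : apT () (Y i p x) A = vecOf Y i p x := by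
  rw [apT, vecOf, ← (Equiv.funUnique Unit (Fin (S.dm i))).symm.sum_comp]
  refine Finset.sum_congr rfl fun c _ => ?_
  simp
  rfl

/-- The smoothed test of the channel at a point close to the flow has the mean of the test under
the channel law. -/
theorem chan_close (Q : Pot d h) (hh : h ≤ 1) {r a : ℝ} (hr : r ∈ Ioo (0 : ℝ) 1)
    (ha : a ∈ Icc (0 : ℝ) 1) (hra : r * a ∈ Ioo (-1 : ℝ) 1) {φ : Space d → ℝ}
    (hφ : LipschitzWith 1 φ) {Y : (Unit → Space d) → Space d} (hY : Continuous Y)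
    (hi : Integrable (fun z => ‖Y z - flow Q r (z ()) r‖) (gp Unit d)) :
    Integrable (fun z => ∫ e, φ (a • Y z + Real.sqrt (1 - a ^ 2) • e) ∂gam d) (gp Unit d) ∧
      |(∫ z, ∫ e, φ (a • Y z + Real.sqrt (1 - a ^ 2) • e) ∂gam d ∂gp Unit d)
          - ∫ y, φ y ∂mu (potR Q (r * a) hra)| ≤ ∫ z, ‖Y z - flow Q r (z ()) r‖ ∂gp Unit d := by
  set Φ : Space d → ℝ := fun y => ∫ e, φ (a • y + Real.sqrt (1 - a ^ 2) • e) ∂gam d with hΦ
  have hint : ∀ y, Integrable (fun e => φ (a • y + Real.sqrt (1 - a ^ 2) • e)) (gam d) := fun y =>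
    integrable_test hφ (integrable_gau _ _)
  have hΦl : ∀ x y, |Φ x - Φ y| ≤ ‖x - y‖ := fun x y => by
    rw [hΦ, ← integral_sub (hint x) (hint y), ← Real.norm_eq_abs]
    refine (norm_integral_le_of_norm_le (integrable_const ‖x - y‖) (ae_of_all _ fun e => ?_)).trans_eq
      (by simp)
    refine (test_one hφ _ _).trans ?_
    rw [add_sub_add_right_eq_sub, ← smul_sub, norm_smul, Real.norm_eq_abs, abs_of_nonneg ha.1]
    exact mul_le_of_le_one_left (norm_nonneg _) ha.2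
  have hΦL : LipschitzWith 1 Φ := lip_of_le fun x y => by
    rw [Real.norm_eq_abs, NNReal.coe_one, one_mul]; exact hΦl x y
  set R := (1 + r) / 2
  have hR : R ∈ Ioo (0 : ℝ) 1 :=
    ⟨by show 0 < (1 + r) / 2; linarith [hr.1], by show (1 + r) / 2 < 1; linarith [hr.2]⟩
  have hrR : r ∈ Ico 0 R := ⟨hr.1.le, by show r < (1 + r) / 2; linarith [hr.2]⟩
  have hrm : r ∈ Ioo (-1 : ℝ) 1 := ⟨by linarith [hr.1], hr.2⟩
  have hmp : MeasurePreserving (fun z : Unit → Space d => flow Q R (z ()) r) (gp Unit d)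
      (mu (potR Q r hrm)) :=
    (flow_mp hh hR hrR hrm).comp (measurePreserving_eval _ ())
  have heq : ∀ z : Unit → Space d, flow Q r (z ()) r = flow Q R (z ()) r :=
    fun z => flow_eq hh hr hR hrR.2.le (z ())
  simp only [heq] at hi ⊢
  have := mu_prob (potR Q r hrm)
  have hΦi : Integrable Φ (mu (potR Q r hrm)) := integrable_test hΦL (mu_int_norm _)
  have iB : Integrable (fun z : Unit → Space d => Φ (flow Q R (z ()) r)) (gp Unit d) :=
    (hmp.integrable_comp hΦi.aestronglyMeasurable).2 hΦi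
  have eB : ∫ z, Φ (flow Q R (z ()) r) ∂gp Unit d = ∫ y, φ y ∂mu (potR Q (r * a) hra) := by
    rw [← integral_map hmp.measurable.aemeasurable
      (by rw [hmp.map_eq]; exact hΦi.aestronglyMeasurable), hmp.map_eq, hΦ,
      channel_comp Q hrm ha hra hφ.continuous (C := |φ 0| + 1) fun y => ?_]
    have h1 := test_one hφ y 0
    rw [sub_zero] at h1
    nlinarith [norm_nonneg y, abs_nonneg (φ 0), abs_sub_abs_le_abs_sub (φ y) (φ 0)]
  have iA : Integrable (fun z => Φ (Y z)) (gp Unit d) :=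
    (iB.norm.add hi).mono' (hΦL.continuous.comp hY).aestronglyMeasurable (ae_of_all _ fun z => by
      simp only [Pi.add_apply, Real.norm_eq_abs]
      linarith [hΦl (Y z) (flow Q R (z ()) r),
        abs_sub_abs_le_abs_sub (Φ (Y z)) (Φ (flow Q R (z ()) r))])
  refine ⟨iA, ?_⟩
  show |(∫ z, Φ (Y z) ∂gp Unit d) - _| ≤ _
  rw [← eB, ← integral_sub iA iB, ← Real.norm_eq_abs]
  exact norm_integral_le_of_norm_le hi (ae_of_all _ fun z =>
    (Real.norm_eq_abs _).trans_le (hΦl _ _))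

/-- The seeds of one level. -/
theorem lev_seeds (n : ℕ) : MeasurePreserving
    (fun ω : ((Unit ⊕ Unit) ⊕ (Fin n ⊕ Unit)) → Space d =>
      ((fun j => ω (.inl (.inl j)), fun j => ω (.inl (.inr j))),
        fun j => ω (.inr (.inl j)), fun j => ω (.inr (.inr j))))
    (gp ((Unit ⊕ Unit) ⊕ (Fin n ⊕ Unit)) d)
    (((gp Unit d).prod (gp Unit d)).prod ((gp (Fin n) d).prod (gp Unit d))) :=
  ((measurePreserving_sumPiEquivProdPi fun _ : Unit ⊕ Unit => gam d).prod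
    (measurePreserving_sumPiEquivProdPi fun _ : Fin n ⊕ Unit => gam d)).comp
      (measurePreserving_sumPiEquivProdPi fun _ : (Unit ⊕ Unit) ⊕ (Fin n ⊕ Unit) => gam d)

/-- The level program. -/
def levF (Pr : Prog d Unit Unit) (σ ρ ca c₀ : ℝ) (G : Space d → Space d)
    (a : Space d × (((Unit ⊕ Unit) ⊕ (Fin Pr.sd ⊕ Unit)) → Space d)) : Space d :=
  a.1 + (σ * ρ) • (ca • Pr.F G (σ⁻¹ • a.1, fun j => a.2 (.inl (.inl j)),
    fun j => a.2 (.inl (.inr j)), fun j => a.2 (.inr (.inl j))) + c₀ • a.2 (.inr (.inr ())))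

theorem levF_comp (Pr : Prog d Unit Unit) (σ ρ ca c₀ : ℝ) :
    Computes Pr.q (levF Pr σ ρ ca c₀) :=
  (Pr.comp.comp (f := fun a : Space d × (((Unit ⊕ Unit) ⊕ (Fin Pr.sd ⊕ Unit)) → Space d) =>
    ((σ⁻¹ • a.1, fun j => a.2 (.inl (.inl j)), fun j => a.2 (.inl (.inr j)),
      fun j => a.2 (.inr (.inl j))) : Inp d Unit Unit Pr.sd)) (by fun_prop)).map
    (f := fun z => z.1.1 + (σ * ρ) • (ca • z.2 + c₀ • z.1.2 (.inr (.inr ())))) (by fun_prop)

theorem levF_lip {Pr : Prog d Unit Unit} {G : Space d → Space d} {K : ℝ} (hK : 0 ≤ K)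
    (hP : Pr.Lip G K) {σ ρ ca c₀ : ℝ} (hσ : 0 < σ) (hρ : |ρ| ≤ 1)
    (ω : ((Unit ⊕ Unit) ⊕ (Fin Pr.sd ⊕ Unit)) → Space d) (p p' : Space d) :
    ‖levF Pr σ ρ ca c₀ G (p, ω) - levF Pr σ ρ ca c₀ G (p', ω)‖ ≤ (1 + |ca| * K) * ‖p - p'‖ := by
  unfold levF
  rw [add_sub_add_comm, ← smul_sub, add_sub_add_right_eq_sub, ← smul_sub, add_mul, one_mul]
  refine (norm_add_le _ _).trans (add_le_add le_rfl ?_)
  rw [norm_smul, norm_smul, Real.norm_eq_abs, Real.norm_eq_abs, abs_mul, abs_of_pos hσ]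
  refine (mul_le_mul_of_nonneg_left (mul_le_mul_of_nonneg_left (hP _ _ _ _ _ _ _) (abs_nonneg ca))
    (mul_nonneg hσ.le (abs_nonneg ρ))).trans ?_
  simp only [dist3, sub_self, norm_zero, Finset.sum_const_zero, add_zero, ← smul_sub, norm_smul,
    Real.norm_eq_abs, abs_inv, abs_of_pos hσ]
  rw [show σ * |ρ| * (|ca| * (K * (σ⁻¹ * ‖p - p'‖))) = |ρ| * (|ca| * K * ‖p - p'‖) by field_simp]
  exact mul_le_of_le_one_left (by positivity) hρ

theorem levF_int {Pr : Prog d Unit Unit} {G : Space d → Space d} (hP : Pr.LipW G)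
    (σ ρ ca c₀ : ℝ) (p : Space d) :
    Integrable (fun ω => levF Pr σ ρ ca c₀ G (p, ω))
      (gp ((Unit ⊕ Unit) ⊕ (Fin Pr.sd ⊕ Unit)) d) := by
  obtain ⟨L, hL⟩ := hP
  have h := ((lipschitzWith_smul ca).comp (hL.comp ((LipschitzWith.const (σ⁻¹ • p)).prodMk
    ((lipschitz_reindex (d := d) fun j : Unit =>
        (Sum.inl (Sum.inl j) : (Unit ⊕ Unit) ⊕ (Fin Pr.sd ⊕ Unit))).prodMk
      ((lipschitz_reindex (d := d) fun j : Unit =>
        (Sum.inl (Sum.inr j) : (Unit ⊕ Unit) ⊕ (Fin Pr.sd ⊕ Unit))).prodMk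
      (lipschitz_reindex (d := d) fun j : Fin Pr.sd =>
        (Sum.inr (Sum.inl j) : (Unit ⊕ Unit) ⊕ (Fin Pr.sd ⊕ Unit)))))))).add
    ((lipschitzWith_smul c₀).comp (LipschitzWith.eval
      (α := fun _ : (Unit ⊕ Unit) ⊕ (Fin Pr.sd ⊕ Unit) => Space d) (.inr (.inr ()))))
  exact (integrable_const p).add ((integrable_lip_gp h).smul (σ * ρ))

/-- The centre moved by one level has the law of the channel. -/
theorem levF_close {Pr : Prog d Unit Unit} {G : Space d → Space d} (hP : Pr.LipW G) (Q : Pot d h)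
    (hh : h ≤ 1) {σ r a ca c₀ t : ℝ} (hσ : σ ∈ Ioc (0 : ℝ) 1) (hr : r ∈ Ioo (0 : ℝ) 1)
    (ha : a ∈ Icc (0 : ℝ) 1) (hra : r * a ∈ Ioo (-1 : ℝ) 1) (hca : |ca| ≤ 1) (ht : ca * t = a)
    (hc₀ : ca ^ 2 + c₀ ^ 2 = 1 - a ^ 2) (p : Space d) {Y : (Unit → Space d) → Space d}
    (hY : Continuous Y)
    (hYi : Integrable (fun z => ‖Y z - flow Q r (z ()) r‖) (gp Unit d))
    {e : (Unit → Space d) × (Unit → Space d) → ℝ} (he : Integrable e ((gp Unit d).prod (gp Unit d)))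
    (hlaw : ∀ x A (ψ : Space d → ℝ) (L : ℝ≥0), LipschitzWith L ψ →
      |(∫ ω, ψ (Pr.F G (p, x, A, ω)) ∂gp (Fin Pr.sd) d) - ∫ z, ψ (t • Y x + z) ∂gam d|
        ≤ e (x, A) * L) :
    Close (gp ((Unit ⊕ Unit) ⊕ (Fin Pr.sd ⊕ Unit)) d)
      (fun ω => levF Pr σ (r * a) ca c₀ G (σ • p, ω)) (mu (potR Q (r * a) hra))
      (fun y => σ • p + (σ * (r * a)) • y)
      ((∫ z, e z ∂(gp Unit d).prod (gp Unit d)) + ∫ z, ‖Y z - flow Q r (z ()) r‖ ∂gp Unit d) := by
  have := mu_prob (potR Q (r * a) hra)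
  have hX := levF_int hP σ (r * a) ca c₀ (σ • p)
  refine ⟨hX, (integrable_const (σ • p)).add ((mu_int_norm _).smul (σ * (r * a))), fun ψ hψ => ?_⟩
  set φ : Space d → ℝ := fun u => ψ (σ • p + (σ * (r * a)) • u) with hφdef
  have hφ : LipschitzWith 1 φ := lip_of_le fun u v => by
    rw [Real.norm_eq_abs, NNReal.coe_one, one_mul]
    refine (test_one hψ _ _).trans ?_
    rw [add_sub_add_left_eq_sub, ← smul_sub, norm_smul, Real.norm_eq_abs]
    refine mul_le_of_le_one_left (norm_nonneg _) ?_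
    rw [abs_mul, abs_of_pos hσ.1]
    exact mul_le_one₀ hσ.2 (abs_nonneg _) (abs_le.2 ⟨hra.1.le, hra.2.le⟩)
  set χ : Space d → ℝ := fun o => ∫ w, φ (ca • o + c₀ • w ()) ∂gp Unit d with hχ
  have hev := measurePreserving_eval (fun _ : Unit => gam d) ()
  have hχi : ∀ o, Integrable (fun w : Unit → Space d => φ (ca • o + c₀ • w ())) (gp Unit d) :=
    fun o => hev.integrable_comp_of_integrable (integrable_test hφ (integrable_gau (ca • o) c₀))
  have hχl : LipschitzWith 1 χ := lip_of_le fun u v => by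
    rw [NNReal.coe_one, one_mul, hχ, ← integral_sub (hχi u) (hχi v)]
    refine (norm_integral_le_of_norm_le (integrable_const ‖u - v‖) (ae_of_all _ fun w => ?_)).trans_eq
      (by simp)
    refine (test_one hφ _ _).trans ?_
    rw [add_sub_add_right_eq_sub, ← smul_sub, norm_smul, Real.norm_eq_abs]
    exact mul_le_of_le_one_left (norm_nonneg _) hca
  have hmid : ∀ x, ∫ ζ, χ (t • Y x + ζ) ∂gam d
      = ∫ e', φ (a • Y x + Real.sqrt (1 - a ^ 2) • e') ∂gam d := fun x => by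
    have e1 : ∀ ζ, χ (t • Y x + ζ) = ∫ e', φ (a • Y x + (ca • ζ + c₀ • e')) ∂gam d := fun ζ => by
      have h0 := integral_map (μ := gp Unit d) (φ := fun w : Unit → Space d => w ())
        (f := fun e' => φ (a • Y x + (ca • ζ + c₀ • e'))) hev.measurable.aemeasurable
        (hφ.continuous.comp (by fun_prop)).aestronglyMeasurable
      rw [hev.map_eq] at h0
      rw [h0]
      simp only [hχ, smul_add, smul_smul, ht, add_assoc]
    simp only [e1]
    have hc : Continuous fun u => φ (a • Y x + u) := hφ.continuous.comp (by fun_prop)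
    have hpi : Integrable (fun z : Space d × Space d => φ (a • Y x + (ca • z.1 + c₀ • z.2)))
        ((gam d).prod (gam d)) := integrable_test hφ ((integrable_const _).add
      ((((IsGaussian.integrable_id (μ := gam d)).smul ca).comp_fst _).add
        (((IsGaussian.integrable_id (μ := gam d)).smul c₀).comp_snd _)))
    rw [← integral_prod _ hpi, ← integral_map (φ := fun z : Space d × Space d => ca • z.1 + c₀ • z.2)
      (by fun_prop) hc.aestronglyMeasurable, gam_combine, hc₀,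
      integral_map (by fun_prop) hc.aestronglyMeasurable]
  obtain ⟨iΦ, bΦ⟩ := chan_close Q hh hr ha hra hφ hY hYi
  set n := Pr.sd
  set T : ((Unit → Space d) × (Unit → Space d)) × ((Fin n → Space d) × (Unit → Space d)) → ℝ :=
    fun z => φ (ca • Pr.F G (p, z.1.1, z.1.2, z.2.1) + c₀ • z.2.2 ()) with hT
  have hmp := lev_seeds (d := d) n
  have hTe : ∀ ω : ((Unit ⊕ Unit) ⊕ (Fin n ⊕ Unit)) → Space d,
      ψ (levF Pr σ (r * a) ca c₀ G (σ • p, ω)) = T ((fun j => ω (.inl (.inl j)),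
        fun j => ω (.inl (.inr j))), fun j => ω (.inr (.inl j)), fun j => ω (.inr (.inr j))) :=
    fun ω => by
      simp only [levF, hT, hφdef, inv_smul_smul₀ hσ.1.ne']
      rfl
  have hTm : AEStronglyMeasurable T
      (((gp Unit d).prod (gp Unit d)).prod ((gp (Fin n) d).prod (gp Unit d))) := by
    obtain ⟨L, hL⟩ := hP
    exact (hφ.continuous.comp (((hL.continuous.comp (by fun_prop)).const_smul ca).add
      (by fun_prop))).aestronglyMeasurable
  have hTi : Integrable T (((gp Unit d).prod (gp Unit d)).prod ((gp (Fin n) d).prod (gp Unit d))) := by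
    refine (hmp.integrable_comp hTm).1 ((integrable_test hψ hX).congr (ae_of_all _ fun ω => ?_))
    exact hTe ω
  have e2 : ∫ ω, ψ (levF Pr σ (r * a) ca c₀ G (σ • p, ω))
        ∂gp ((Unit ⊕ Unit) ⊕ (Fin n ⊕ Unit)) d
      = ∫ zA, ∫ ω, χ (Pr.F G (p, zA.1, zA.2, ω)) ∂gp (Fin n) d ∂(gp Unit d).prod (gp Unit d) := by
    simp only [hTe]
    rw [← integral_map hmp.measurable.aemeasurable (by rw [hmp.map_eq]; exact hTm), hmp.map_eq,
      integral_prod _ hTi]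
    exact integral_congr_ae (hTi.prod_right_ae.mono fun zA hzA => integral_prod _ hzA)
  have iL : Integrable (fun zA : (Unit → Space d) × (Unit → Space d) =>
      ∫ ω, χ (Pr.F G (p, zA.1, zA.2, ω)) ∂gp (Fin n) d) ((gp Unit d).prod (gp Unit d)) :=
    hTi.integral_prod_left.congr (hTi.prod_right_ae.mono fun zA hzA => integral_prod _ hzA)
  have hfst : ∫ zA : (Unit → Space d) × (Unit → Space d),
      (∫ e', φ (a • Y zA.1 + Real.sqrt (1 - a ^ 2) • e') ∂gam d) ∂(gp Unit d).prod (gp Unit d)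
      = ∫ z, ∫ e', φ (a • Y z + Real.sqrt (1 - a ^ 2) • e') ∂gam d ∂gp Unit d := by
    rw [integral_fun_fst (μ := gp Unit d) (ν := gp Unit d)
      fun z => ∫ e', φ (a • Y z + Real.sqrt (1 - a ^ 2) • e') ∂gam d, probReal_univ, one_smul]
  have h1 : |(∫ zA, ∫ ω, χ (Pr.F G (p, zA.1, zA.2, ω)) ∂gp (Fin n) d ∂(gp Unit d).prod (gp Unit d))
      - ∫ z, ∫ e', φ (a • Y z + Real.sqrt (1 - a ^ 2) • e') ∂gam d ∂gp Unit d|
      ≤ ∫ z, e z ∂(gp Unit d).prod (gp Unit d) := by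
    rw [← hfst, ← integral_sub iL (iΦ.comp_fst _), ← Real.norm_eq_abs]
    refine norm_integral_le_of_norm_le he (ae_of_all _ fun zA => ?_)
    have h2 := hlaw zA.1 zA.2 χ 1 hχl
    rwa [NNReal.coe_one, mul_one, hmid, ← Real.norm_eq_abs] at h2
  rw [e2]
  exact (abs_sub_le _ _ _).trans (add_le_add h1 bΦ)

variable {γ δv S α κp : ℝ}

/-- One level, in large dimension, from point programs of accuracy `κp`. -/
theorem level_ok (hγ : 0 < γ) (hδ : 0 < δv) (hS : δv < S) (hSα : S < 2 * α)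
    (hpts : PtsAll γ δv S α κp) (H : ℝ) {η : ℝ} (hη : 0 < η) :
    ∃ d₀ : ℕ, ∀ k : QK γ H, d₀ ≤ k.d →
      ∃ (q : ℕ) (ρ : ℝ) (hρ : ρ ∈ Ioo (-1 : ℝ) 1) (M : ℝ≥0),
        (q : ℝ) ≤ (k.d : ℝ) ^ η ∧ (k.d : ℝ) ^ (-δv) ≤ 1 - ρ ^ 2 ∧
          1 - ρ ^ 2 ≤ 2 * (k.d : ℝ) ^ (-δv) ∧ (M : ℝ) ≤ 2 * (k.d : ℝ) ^ η ∧
            LevOK k.d k.h q (k.σ ^ 2) ρ hρ M (2 * (k.d : ℝ) ^ (η - κp)) := by
  obtain ⟨G, ν, c, kk, d₁, hclose⟩ := endVec_close γ H hγ hδ hS κp
  obtain ⟨-, hruns, -⟩ := hpts hδ hS.le H 0 G ν c kk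
  obtain ⟨R, hcheap, hall, hlip, hlaw⟩ := hruns (η / 2) (half_pos hη)
  have hα : 0 < α := by linarith
  obtain ⟨d₂, h₂⟩ := hcheap
  obtain ⟨d₃, h₃⟩ := hlip.lip (half_pos hη)
  obtain ⟨d₄, h₄⟩ := hlaw η hη
  obtain ⟨d₅, h₅⟩ := eventually_atTop.1 (((tendsto_rpow_atTop (by linarith : 0 < 2 * α - S)).comp
    tendsto_natCast_atTop_atTop).eventually_ge_atTop (4 : ℝ))
  refine ⟨max (max d₁ d₂) (max d₃ (max d₄ d₅)), fun k hk => ?_⟩
  simp only [max_le_iff] at hk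
  obtain ⟨⟨k1, k2⟩, k3, k4, k5⟩ := hk
  have hd1 : (1 : ℝ) ≤ k.d := by exact_mod_cast le_trans one_le_two k.two_le
  have hd0 : (0 : ℝ) < k.d := by linarith
  set r := G.node k.d (G.last k.d)
  set a := chA δv S k.d 0
  obtain ⟨ha, hnge, hnle⟩ := chA_props hS.le k.two_le hδ 0
  have ha1 : a ^ 2 ≤ 1 := pow_le_one₀ (by linarith [ha.1]) ha.2
  have hlastv : 1 - r ^ 2 = (k.d : ℝ) ^ (-δv) := G.last_var k.d k.two_le
  have hr0 : (0 : ℝ) ≤ r ∧ r ≤ 1 := ⟨(G.node_mem _ _).1, (G.node_mem _ _).2⟩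
  have hvpos : 0 < (k.d : ℝ) ^ (-δv) := Real.rpow_pos_of_pos hd0 _
  have hv1 : (k.d : ℝ) ^ (-δv) ≤ 1 - (r * a) ^ 2 := hlastv ▸ var_le_mul ha
  have hρ : r * a ∈ Ioo (-1 : ℝ) 1 :=
    abs_lt.1 ((sq_lt_one_iff_abs_lt_one _).1 (by linarith))
  set ca := a * (k.d : ℝ) ^ (-α) with hca
  have hca0 : 0 ≤ ca := mul_nonneg (by linarith [ha.1]) (Real.rpow_nonneg hd0.le _)
  have hca1 : ca ≤ 1 := mul_le_one₀ ha.2 (Real.rpow_nonneg hd0.le _)
    (Real.rpow_le_one_of_one_le_of_nonpos hd1 (by linarith))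
  have hnoise : ca ^ 2 ≤ 1 - a ^ 2 := by
    refine le_trans ?_ hnge
    rw [hca, mul_pow, ← Real.rpow_natCast ((k.d : ℝ) ^ (-α)) 2, ← Real.rpow_mul hd0.le]
    refine (mul_le_of_le_one_left (Real.rpow_nonneg hd0.le _) ha1).trans ?_
    rw [le_div_iff₀ (by norm_num : (0 : ℝ) < 4),
      show -S = -α * ((2 : ℕ) : ℝ) + (2 * α - S) by push_cast; ring, Real.rpow_add hd0]
    exact mul_le_mul_of_nonneg_left (h₅ k.d k5) (Real.rpow_nonneg hd0.le _)
  set c₀ := Real.sqrt (1 - a ^ 2 - ca ^ 2) with hc₀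
  set n : NK γ H δv 0 S := gridNK G hδ hS.le (k, (G.last k.d, 0))
  set Pr : Prog k.d Unit Unit := R.atK n
  have hM : (0 : ℝ) ≤ 1 + (k.d : ℝ) ^ η := by positivity
  have hpot : ∀ P : Pot k.d k.h, (Pr.LipW P.g) ∧ Pr.Lip P.g ((k.d : ℝ) ^ (α + η)) := fun P => by
    set i : QI γ H × ℕ × ℕ := (⟨k, P⟩, G.last k.d, 0)
    refine ⟨hall.lipW i, fun p p' x x' A A' ω => ?_⟩
    refine (h₃ i k3 p p' x x' A A' ω).trans (le_of_eq ?_)
    show (k.d : ℝ) ^ (η / 2 - (-α - η / 2)) * dist3 p p' x x' A A' = _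
    rw [show η / 2 - (-α - η / 2) = α + η by ring]
  refine ⟨Pr.q, r * a, hρ, ⟨1 + (k.d : ℝ) ^ η, hM⟩, ?_, hv1, ?_, ?_,
    (Unit ⊕ Unit) ⊕ (Fin Pr.sd ⊕ Unit), inferInstance, levF Pr k.σ (r * a) ca c₀,
    levF_comp _ _ _ _ _, fun P ω p p' => ?_, fun P p => ?_⟩
  · have h0 : k.h ≥ 0 := by
      by_contra hc
      have h1 := k.le_h
      have h2 : (0 : ℝ) < (k.d : ℝ) ^ (-H) := Real.rpow_pos_of_pos hd0 _
      nlinarith [sq_nonneg k.σ]
    refine le_trans ?_ (Real.rpow_le_rpow_of_exponent_le hd1 (by linarith : η / 2 ≤ η))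
    exact h₂ ((⟨k, ⟨fun _ => 0, fun _ => 0, h0, fun x => by
      simpa using hasFDerivAt_const (0 : ℝ) x, contDiff_const,
      fun x y => by simpa using mul_nonneg h0 (norm_nonneg (x - y)), fun x y => by simp⟩⟩ :
        QI γ H), G.last k.d, 0) k2
  · rw [mul_pow]
    nlinarith [hlastv, hnle, hr0.1, hr0.2, pow_le_one₀ hr0.1 hr0.2 (n := 2)]
  · show 1 + (k.d : ℝ) ^ η ≤ _
    linarith [Real.one_le_rpow hd1 hη.le]
  · refine (levF_lip (Real.rpow_nonneg hd0.le _) (hpot P).2 k.σ_pos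
      (abs_le.2 ⟨hρ.1.le, hρ.2.le⟩) ω p p').trans (mul_le_mul_of_nonneg_right ?_ (norm_nonneg _))
    show _ ≤ 1 + (k.d : ℝ) ^ η
    rw [abs_of_nonneg hca0, add_le_add_iff_left, hca, mul_assoc, ← Real.rpow_add hd0,
      neg_add_cancel_left]
    exact mul_le_of_le_one_left (Real.rpow_nonneg hd0.le _) ha.2
  obtain ⟨p, rfl⟩ : ∃ u, p = k.σ • u := ⟨k.σ⁻¹ • p, (smul_inv_smul₀ k.σ_pos.ne' p).symm⟩
  rw [Real.sqrt_sq k.σ_pos.le]
  set i : QI γ H := ⟨k, P⟩
  obtain ⟨hre, hp⟩ := hclose 0 i k1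
  obtain ⟨hc, hint, hle⟩ := hp p
  obtain ⟨e, he, heb, hel⟩ := h₄ ((i, G.last k.d, 0) : QI γ H × ℕ × ℕ) k4 p
  have hh : i.hs ≤ 1 := i.hs_props.2.trans (Real.rpow_le_one_of_one_le_of_nonpos hd1 (by linarith))
  refine (levF_close (hpot P).1 (i.pot p) hh (t := (k.d : ℝ) ^ α) ⟨k.σ_pos, k.σ_le⟩ hre
    ⟨by linarith [ha.1], ha.2⟩ hρ (by rw [abs_of_nonneg hca0]; exact hca1) ?_ ?_ p hc hint he
    fun x A ψ L hψ => ?_).mono ?_
  · rw [hca, mul_assoc, ← Real.rpow_add hd0, neg_add_cancel, Real.rpow_zero, mul_one]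
  · rw [hc₀, Real.sq_sqrt (by linarith)]; ring
  · have := hel x A ψ L hψ
    erw [apT_vec] at this
    exact this
  · have h6 : (k.d : ℝ) ^ (-κp) ≤ (k.d : ℝ) ^ (η - κp) :=
      Real.rpow_le_rpow_of_exponent_le hd1 (by linarith)
    have hs : (1 : ℝ) ≤ Real.sqrt k.d := Real.one_le_sqrt.2 hd1
    have hN := norm_nonneg (P.g (k.σ • p))
    have hw : 1 + ‖P.g (k.σ • p)‖ ≤ cenW P (k.σ • p) := by unfold cenW; linarith
    have heb' : ∫ z, e z ∂(gp Unit k.d).prod (gp Unit k.d)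
        ≤ (k.d : ℝ) ^ (η - κp) * (1 + ‖P.g (k.σ • p)‖) := by
      refine heb.trans_eq ?_
      show (k.d : ℝ) ^ (η - κp) * (1 + (k.d : ℝ) ^ (-(0 : ℝ)) * ‖P.g (k.σ • p)‖) = _
      rw [neg_zero, Real.rpow_zero, one_mul]
    refine (add_le_add heb' (hle.trans (mul_le_mul_of_nonneg_right h6 (by
      show 0 ≤ 1 + ‖P.g (k.σ • p)‖; linarith)))).trans ?_
    rw [← two_mul, mul_assoc]
    exact mul_le_mul_of_nonneg_left
      (mul_le_mul_of_nonneg_left hw (Real.rpow_nonneg hd0.le _)) zero_le_two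

end Vale.Agent.P347.Zero
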