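import Vale.Agent.P347.Zero.Close
import Vale.Agent.P347.Zero.MeanAcc
import Vale.Agent.P347.Poincare
import Vale.Agent.P347.LocalChain
import Vale.Agent.P347.ExactDev

/-!
Composition along the levels of the sampler: a program that moves the centre as the channel does,
followed by a sampler of the narrower conditional law, samples the wider law.
-/

noncomputable section

open MeasureTheory ProbabilityTheory Filter Topology Set Function
open scoped RealInnerProductSpace NNReal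

namespace Vale.Agent.P347.Zero

variable {d : ℕ} {h : ℝ}

/-- The weight of a centre. -/
def cenW (P : Pot d h) (p : Space d) : ℝ := Real.sqrt d + ‖P.g p‖

theorem cenW_nonneg (P : Pot d h) (p : Space d) : 0 ≤ cenW P p := by unfold cenW; positivity

/-- From every centre, a program with at most `q` queries, `L`-Lipschitz in the centre, samples the
conditional law of variance `s` to within `E` times the weight. -/
def Smp (d : ℕ) (h : ℝ) (q : ℕ) (s : ℝ) (L : ℝ≥0) (E : ℝ) : Prop :=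
  ∃ (ι : Type) (_ : Fintype ι) (F : (Space d → Space d) → Space d × (ι → Space d) → Space d),
    Computes q F ∧
      (∀ (P : Pot d h) ω p p', ‖F P.g (p, ω) - F P.g (p', ω)‖ ≤ L * ‖p - p'‖) ∧
      ∀ (P : Pot d h) p, Close (gp ι d) (fun ω => F P.g (p, ω)) (mu (P.aff p (Real.sqrt s)))
        (fun ξ => p + Real.sqrt s • ξ) (E * cenW P p)

/-- From every centre, a program moves the centre as the channel of correlation `ρ` does. -/
def LevOK (d : ℕ) (h : ℝ) (q : ℕ) (s ρ : ℝ) (hρ : ρ ∈ Ioo (-1 : ℝ) 1) (M : ℝ≥0) (e : ℝ) : Prop :=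
  ∃ (ι : Type) (_ : Fintype ι) (F : (Space d → Space d) → Space d × (ι → Space d) → Space d),
    Computes q F ∧
      (∀ (P : Pot d h) ω p p', ‖F P.g (p, ω) - F P.g (p', ω)‖ ≤ M * ‖p - p'‖) ∧
      ∀ (P : Pot d h) p,
        Close (gp ι d) (fun ω => F P.g (p, ω)) (mu (potR (P.aff p (Real.sqrt s)) ρ hρ))
          (fun y => p + (Real.sqrt s * ρ) • y) (e * cenW P p)

/-- The first moment of a tilted law. -/
theorem mu_norm_mean {h : ℝ} (Q : Pot d h) (hh : h ≤ 1) :
    ∫ x, ‖x‖ ∂mu Q ≤ 2 * Real.sqrt d + ‖Q.g 0‖ := by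
  have := mu_prob Q
  have hi : Integrable (fun x : Space d => ‖x‖ ^ 2) (mu Q) :=
    mu_int (by fun_prop) ⟨1, 2, fun x => by
      rw [one_mul, norm_pow, norm_norm]
      exact pow_le_pow_left₀ (norm_nonneg x) (by linarith) 2⟩
  refine (int_le_of_sq (fun x => norm_nonneg x) hi (by positivity) ?_).2
  refine (momentMu d h Q hh).1.trans ?_
  have e : Real.sqrt d * Real.sqrt d = d := Real.mul_self_sqrt (Nat.cast_nonneg d)
  nlinarith [mul_nonneg (Real.sqrt_nonneg (d : ℝ)) (norm_nonneg (Q.g 0))]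

theorem hs_le {s : ℝ} (P : Pot d h) (hh : h ≤ 1) (hs : 0 ≤ s) (hs1 : s ≤ 1) :
    h * Real.sqrt s ^ 2 ≤ 1 := by
  rw [Real.sq_sqrt hs]
  exact (mul_le_of_le_one_right P.h_nonneg hs1).trans hh

theorem aff_grad_zero (P : Pot d h) (p : Space d) {s : ℝ} (hs1 : s ≤ 1) :
    ‖(P.aff p (Real.sqrt s)).g 0‖ ≤ ‖P.g p‖ := by
  show ‖Real.sqrt s • P.g (p + Real.sqrt s • 0)‖ ≤ _
  rw [smul_zero, add_zero, norm_smul, Real.norm_eq_abs, abs_of_nonneg (Real.sqrt_nonneg _)]
  exact mul_le_of_le_one_left (norm_nonneg _) (Real.sqrt_le_one.2 hs1)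

/-- Along the channel the norm keeps a first moment of the size of the weight. -/
theorem nu_norm_mean (P : Pot d h) (hh : h ≤ 1) {s ρ : ℝ} (hs : 0 ≤ s) (hs1 : s ≤ 1)
    (hρ : ρ ∈ Ioo (-1 : ℝ) 1) (p : Space d) :
    Integrable (fun y : Space d => ‖y‖) (mu (potR (P.aff p (Real.sqrt s)) ρ hρ)) ∧
      ∫ y, ‖y‖ ∂mu (potR (P.aff p (Real.sqrt s)) ρ hρ) ≤ 4 * cenW P p := by
  set Q := P.aff p (Real.sqrt s)
  have := mu_prob Q
  have hg : Grow fun x : Space d => ‖x‖ :=
    ⟨1, 1, fun x => by rw [norm_norm, pow_one, one_mul]; linarith⟩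
  refine ⟨mu_int (by fun_prop) hg, ?_⟩
  rw [← channel_law Q hρ measurable_norm hg]
  have hσ1 : Real.sqrt (1 - ρ ^ 2) ≤ 1 := Real.sqrt_le_one.2 (by linarith [sq_nonneg ρ])
  have hb : ∀ x, ∫ z, ‖ρ • x + Real.sqrt (1 - ρ ^ 2) • z‖ ∂gam d ≤ ‖x‖ + 2 * Real.sqrt d := by
    intro x
    refine (integral_mono ((integrable_gau (ρ • x) _).norm) ((integrable_const ‖x‖).add
      integrable_norm_gam) fun z => ?_).trans ?_
    · refine (norm_add_le _ _).trans (add_le_add ?_ ?_) <;> rw [norm_smul, Real.norm_eq_abs]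
      · exact mul_le_of_le_one_left (norm_nonneg _) (abs_le.2 ⟨hρ.1.le, hρ.2.le⟩)
      · exact mul_le_of_le_one_left (norm_nonneg _)
          (by rw [abs_of_nonneg (Real.sqrt_nonneg _)]; exact hσ1)
    · simp only [Pi.add_apply]
      rw [integral_add (integrable_const _) integrable_norm_gam, integral_const, probReal_univ,
        one_smul]
      exact add_le_add le_rfl (gam_norm_le_sqrt d)
  have hn : Integrable (fun x : Space d => ‖x‖) (mu Q) := mu_int (by fun_prop) hg
  refine (integral_mono_of_nonneg (ae_of_all _ fun x => integral_nonneg fun z => norm_nonneg _)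
    (hn.add (integrable_const (2 * Real.sqrt d))) (ae_of_all _ hb)).trans ?_
  simp only [Pi.add_apply]
  rw [integral_add hn (integrable_const _), integral_const, probReal_univ, one_smul]
  have := mu_norm_mean Q (hs_le P hh hs hs1)
  have := aff_grad_zero P p hs1
  unfold cenW
  linarith [norm_nonneg (P.g p)]

/-- The weight after one move of the centre. -/
theorem nu_cenW (P : Pot d h) (hh : h ≤ 1) {s ρ : ℝ} (hs : 0 ≤ s) (hs1 : s ≤ 1)
    (hρ : ρ ∈ Ioo (-1 : ℝ) 1) (p : Space d) :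
    Integrable (fun y => cenW P (p + (Real.sqrt s * ρ) • y))
        (mu (potR (P.aff p (Real.sqrt s)) ρ hρ)) ∧
      ∫ y, cenW P (p + (Real.sqrt s * ρ) • y) ∂mu (potR (P.aff p (Real.sqrt s)) ρ hρ)
        ≤ 5 * cenW P p := by
  have := mu_prob (potR (P.aff p (Real.sqrt s)) ρ hρ)
  obtain ⟨iN, bN⟩ := nu_norm_mean P hh hs hs1 hρ p
  have hb : ∀ y, cenW P (p + (Real.sqrt s * ρ) • y) ≤ cenW P p + ‖y‖ := fun y => by
    have h1 := norm_le_norm_add_norm_sub' (P.g (p + (Real.sqrt s * ρ) • y)) (P.g p)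
    have h2 := P.lip (p + (Real.sqrt s * ρ) • y) p
    have hc : |Real.sqrt s * ρ| ≤ 1 := by
      rw [abs_mul, abs_of_nonneg (Real.sqrt_nonneg _)]
      exact mul_le_one₀ (Real.sqrt_le_one.2 hs1) (abs_nonneg _) (abs_le.2 ⟨hρ.1.le, hρ.2.le⟩)
    rw [add_sub_cancel_left, norm_smul, Real.norm_eq_abs] at h2
    have h3 : h * (|Real.sqrt s * ρ| * ‖y‖) ≤ ‖y‖ :=
      (mul_le_of_le_one_left (mul_nonneg (abs_nonneg _) (norm_nonneg _)) hh).trans
        (mul_le_of_le_one_left (norm_nonneg _) hc)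
    unfold cenW
    linarith
  have hc : Continuous fun y => cenW P (p + (Real.sqrt s * ρ) • y) :=
    continuous_const.add (P.smooth.continuous.comp (by fun_prop)).norm
  have i2 := (integrable_const (cenW P p)).add iN
  have i1 : Integrable (fun y => cenW P (p + (Real.sqrt s * ρ) • y))
      (mu (potR (P.aff p (Real.sqrt s)) ρ hρ)) :=
    i2.mono' hc.aestronglyMeasurable (ae_of_all _ fun y => by
      rw [Real.norm_eq_abs, abs_of_nonneg (cenW_nonneg _ _)]; exact hb y)
  refine ⟨i1, (integral_mono i1 i2 hb).trans ?_⟩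
  simp only [Pi.add_apply]
  rw [integral_add (integrable_const _) iN, integral_const, probReal_univ, one_smul]
  linarith

/-- The bottom: the centre itself. -/
theorem smp_base (hh : h ≤ 1) {s : ℝ} (hs : 0 ≤ s) (hs1 : s ≤ 1) :
    Smp d h 0 s 1 (2 * Real.sqrt s) := by
  refine ⟨Empty, inferInstance, fun _ a => a.1, Computes.of_measurable measurable_fst,
    fun P ω p p' => by simp, fun P p => ?_⟩
  set Q := P.aff p (Real.sqrt s)
  have := mu_prob Q
  have hn : Integrable (fun x : Space d => ‖x‖) (mu Q) :=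
    mu_int (by fun_prop) ⟨1, 1, fun x => by rw [norm_norm, pow_one, one_mul]; linarith⟩
  have hY : Integrable (fun ξ : Space d => p + Real.sqrt s • ξ) (mu Q) :=
    (integrable_const p).add ((mu_int_norm Q).smul (Real.sqrt s))
  refine ⟨integrable_const p, hY, fun ψ hψ => ?_⟩
  simp only [integral_const, probReal_univ, one_smul]
  rw [abs_sub_comm]
  have hiψ := integrable_test hψ hY
  rw [show (∫ ξ, ψ (p + Real.sqrt s • ξ) ∂mu Q) - ψ p = ∫ ξ, (ψ (p + Real.sqrt s • ξ) - ψ p) ∂mu Q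
    by rw [integral_sub hiψ (integrable_const _), integral_const, probReal_univ, one_smul],
    ← Real.norm_eq_abs]
  refine (norm_integral_le_of_norm_le (hn.const_mul (Real.sqrt s)) (ae_of_all _ fun ξ => ?_)).trans ?_
  · refine (test_one hψ _ _).trans_eq ?_
    rw [add_sub_cancel_left, norm_smul, Real.norm_eq_abs, abs_of_nonneg (Real.sqrt_nonneg _)]
  · rw [integral_const_mul, mul_comm 2, mul_assoc]
    refine mul_le_mul_of_nonneg_left ((mu_norm_mean Q (hs_le P hh hs hs1)).trans ?_)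
      (Real.sqrt_nonneg _)
    have := aff_grad_zero P p hs1
    unfold cenW
    linarith [norm_nonneg (P.g p)]

/-- One level on top of a sampler of the narrower law. -/
theorem smp_step (hh : h ≤ 1) {s ρ : ℝ} (hs : 0 < s) (hs1 : s ≤ 1) (hρ : ρ ∈ Ioo (-1 : ℝ) 1)
    {q₁ q : ℕ} {M L : ℝ≥0} {e E : ℝ} (hE : 0 ≤ E) (hlev : LevOK d h q₁ s ρ hρ M e)
    (hsmp : Smp d h q (s * (1 - ρ ^ 2)) L E) : Smp d h (q₁ + q) s (L * M) (L * e + 5 * E) := by
  obtain ⟨ι, _, F₁, hc₁, hl₁, he₁⟩ := hlev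
  obtain ⟨κ, _, F₂, hc₂, hl₂, he₂⟩ := hsmp
  refine ⟨ι ⊕ κ, inferInstance,
    fun G a => F₂ G (F₁ G (a.1, fun j => a.2 (.inl j)), fun j => a.2 (.inr j)), ?_, ?_, ?_⟩
  · exact (hc₁.comp (f := fun a : Space d × (ι ⊕ κ → Space d) => (a.1, fun j => a.2 (.inl j)))
      (by fun_prop)).bind (hc₂.comp (f := fun z : (Space d × (ι ⊕ κ → Space d)) × Space d =>
        (z.2, fun j => z.1.2 (.inr j))) (by fun_prop))
  · intro P ω p p'
    refine (hl₂ P _ _ _).trans ?_
    rw [NNReal.coe_mul, mul_assoc]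
    exact mul_le_mul_of_nonneg_left (hl₁ P _ p p') L.2
  intro P p
  set σ := Real.sqrt s
  set Q := P.aff p σ
  set ν := mu (potR Q ρ hρ)
  have := mu_prob Q
  have := mu_prob (potR Q ρ hρ)
  set v := 1 - ρ ^ 2 with hv
  have hv0 : 0 < v := var_pos hρ
  have hGm : Measurable P.g := P.smooth.continuous.measurable
  have h1 := he₁ P p
  have hb := h1.bind (K := fun a (ω' : κ → Space d) => F₂ P.g (a, ω')) (R := gp κ d) (L := L)
    ((hc₂.measurable hGm).comp (f := fun z : Space d × (κ → Space d) => (z.1, z.2)) (by fun_prop))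
    (fun ω' a b => hl₂ P ω' a b) (he₂ P 0).intX
  refine ((hb.trans (R := mu Q) (Z := fun ξ => p + σ • ξ) (e' := 5 * E * cenW P p) ?_).comp_left
    (measurePreserving_sumPiEquivProdPi fun _ : ι ⊕ κ => gam d)).mono (le_of_eq (by ring))
  have hY : Integrable (fun ξ : Space d => p + σ • ξ) (mu Q) :=
    (integrable_const p).add ((mu_int_norm Q).smul σ)
  refine ⟨hb.intY, hY, fun ψ hψ => ?_⟩
  set H : Space d → ℝ := fun a => ∫ ω', ψ (F₂ P.g (a, ω')) ∂gp κ d with hH
  have iH : ∀ a, Integrable (fun ω' => ψ (F₂ P.g (a, ω'))) (gp κ d) := fun a =>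
    integrable_test hψ (he₂ P a).intX
  have hHl : ∀ a b, |H a - H b| ≤ L * ‖a - b‖ := fun a b => by
    rw [hH, ← integral_sub (iH a) (iH b), ← Real.norm_eq_abs]
    refine (norm_integral_le_of_norm_le (integrable_const (L * ‖a - b‖)) (ae_of_all _ fun ω' => ?_)).trans_eq
      (by simp)
    exact (test_one hψ _ _).trans (hl₂ P ω' a b)
  set f : Space d → ℝ := fun x => ψ (p + σ • x) with hf
  have hfl : ∀ x, |f x| ≤ |ψ p| + ‖x‖ := fun x => by
    have h2 := test_one hψ (p + σ • x) p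
    rw [add_sub_cancel_left, norm_smul, Real.norm_eq_abs, abs_of_nonneg (Real.sqrt_nonneg _)] at h2
    have := abs_sub_abs_le_abs_sub (f x) (ψ p)
    have := mul_le_of_le_one_left (norm_nonneg x) (Real.sqrt_le_one.2 hs1)
    linarith
  have hfm : Measurable f := (hψ.continuous.comp (by fun_prop)).measurable
  have hfg : Grow f := ⟨|ψ p| + 1, 1, fun x => by
    rw [pow_one, Real.norm_eq_abs]
    nlinarith [hfl x, norm_nonneg x, abs_nonneg (ψ p)]⟩
  set T : Space d → ℝ := fun y => post Q v f (ρ • y) with hT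
  have hTm : Measurable T :=
    ((postDeriv poincareMu d _ Q v hv0 f hfm hfg).1.continuous.comp (by fun_prop)).measurable
  have hTH : ∀ y, |H (p + (σ * ρ) • y) - T y| ≤ E * cenW P (p + (σ * ρ) • y) := fun y => by
    have e1 : T y = post P (s * v) ψ (p + (σ * ρ) • y) := by
      rw [hT]
      show post (P.aff p σ) v (fun x => ψ (p + σ • x)) (ρ • y) = _
      rw [Loc.post_aff P p (ρ • y) (Real.sqrt_nonneg _) hv0.le ψ, Real.sq_sqrt hs.le, smul_smul]
    rw [e1]
    exact (he₂ P _).le ψ hψ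
  obtain ⟨iW, bW⟩ := nu_cenW P hh hs.le hs1 hρ p
  have hg0 := cenW_nonneg P p
  have hgT : Grow T := ⟨|H p| + L + E * (cenW P p + 1), 1, fun y => by
    rw [pow_one, Real.norm_eq_abs]
    have a1 := hTH y
    have a2 := hHl (p + (σ * ρ) • y) p
    have a3 := abs_sub_abs_le_abs_sub (T y) (H (p + (σ * ρ) • y))
    have a4 := abs_sub_abs_le_abs_sub (H (p + (σ * ρ) • y)) (H p)
    have hc : |σ * ρ| ≤ 1 := by
      rw [abs_mul, abs_of_nonneg (Real.sqrt_nonneg _)]
      exact mul_le_one₀ (Real.sqrt_le_one.2 hs1) (abs_nonneg _) (abs_le.2 ⟨hρ.1.le, hρ.2.le⟩)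
    have a5 : ‖(σ * ρ) • y‖ ≤ ‖y‖ := by
      rw [norm_smul, Real.norm_eq_abs]; exact mul_le_of_le_one_left (norm_nonneg _) hc
    have a6 : cenW P (p + (σ * ρ) • y) ≤ cenW P p + ‖y‖ := by
      have b1 := norm_le_norm_add_norm_sub' (P.g (p + (σ * ρ) • y)) (P.g p)
      have b2 := P.lip (p + (σ * ρ) • y) p
      rw [add_sub_cancel_left] at b2
      have b3 := mul_le_of_le_one_left (norm_nonneg ((σ * ρ) • y)) hh
      unfold cenW
      linarith
    rw [add_sub_cancel_left] at a2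
    rw [abs_sub_comm] at a1
    have := mul_le_mul_of_nonneg_left a6 hE
    have := mul_le_mul_of_nonneg_left a5 L.2
    nlinarith [norm_nonneg y, abs_nonneg (H p), L.2, mul_nonneg hE hg0,
      mul_nonneg (mul_nonneg hE hg0) (norm_nonneg y)]⟩
  have iT : Integrable T ν := mu_int hTm hgT
  have hpid : ∫ ξ, f ξ ∂mu Q = ∫ y, T y ∂ν := by
    rw [← channel_law Q hρ hTm hgT]
    have hp := posteriorId _ _ Q ρ (Real.sqrt v) (Real.sqrt_pos.2 hv0).ne' (fun _ x => f x)
      (hfm.comp measurable_snd) ⟨|ψ p| + 1, 1, fun u x => by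
        rw [pow_one]
        nlinarith [hfl x, norm_nonneg u, norm_nonneg x, abs_nonneg (ψ p)]⟩
    rw [Real.sq_sqrt hv0.le, show ρ ^ 2 + v = 1 by rw [hv]; ring, div_one, div_one] at hp
    simp only [integral_const, probReal_univ, one_smul] at hp
    exact hp
  have iHc : Integrable (fun y => H (p + (σ * ρ) • y)) ν :=
    integrable_test (lip_of_le fun a b => (Real.norm_eq_abs _).trans_le (hHl a b)) h1.intY
  have key : (∫ z : Space d × (κ → Space d), ψ (F₂ P.g (p + (σ * ρ) • z.1, z.2)) ∂ν.prod (gp κ d))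
      = ∫ y, H (p + (σ * ρ) • y) ∂ν :=
    integral_prod _ (integrable_test hψ hb.intY)
  rw [key, show ∫ ξ, ψ (p + σ • ξ) ∂mu Q = ∫ y, T y ∂ν from hpid, ← integral_sub iHc iT,
    ← Real.norm_eq_abs]
  refine (norm_integral_le_of_norm_le (iW.const_mul E) (ae_of_all _ fun y =>
    (Real.norm_eq_abs _).trans_le (hTH y))).trans ?_
  rw [integral_const_mul]
  exact (mul_le_mul_of_nonneg_left bW hE).trans_eq (by ring)

end Vale.Agent.P347.Zero
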