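import Mathlib

/-!
Series indexed by lists, with the product that makes prepending an index a derivation (the algebra
of moments and cumulants), and the bound on the bilinear pairings of a product.
-/

noncomputable section

open Finset

namespace Vale.Agent.P347.Zero.Ser

variable {ι κ : Type}

/-- The derivative by `i`. -/
def sh (f : List ι → ℝ) (i : ι) : List ι → ℝ := fun l => f (i :: l)

@[simp] theorem sh_apply (f : List ι → ℝ) (i : ι) (l : List ι) : sh f i l = f (i :: l) := rfl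

/-- The product. -/
def cv : (List ι → ℝ) → (List ι → ℝ) → List ι → ℝ
  | f, g, [] => f [] * g []
  | f, g, i :: l => cv (sh f i) g l + cv f (sh g i) l

/-- The unit. -/
def unit : List ι → ℝ
  | [] => 1
  | _ :: _ => 0

@[simp] theorem cv_nil (f g : List ι → ℝ) : cv f g [] = f [] * g [] := rfl

theorem cv_cons (f g : List ι → ℝ) (i : ι) (l : List ι) :
    cv f g (i :: l) = cv (sh f i) g l + cv f (sh g i) l := rfl

@[simp] theorem unit_nil : unit ([] : List ι) = 1 := rfl

@[simp] theorem unit_cons (i : ι) (l : List ι) : unit (i :: l) = 0 := rfl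

theorem sh_unit (i : ι) : sh (unit : List ι → ℝ) i = 0 := rfl

theorem cv_comm : ∀ (l : List ι) (f g : List ι → ℝ), cv f g l = cv g f l
  | [], f, g => mul_comm _ _
  | i :: l, f, g => by rw [cv_cons, cv_cons, cv_comm l (sh f i), cv_comm l f, add_comm]

theorem cv_add_left : ∀ (l : List ι) (f f' g : List ι → ℝ),
    cv (f + f') g l = cv f g l + cv f' g l
  | [], f, f', g => add_mul _ _ _
  | i :: l, f, f', g => by
    rw [cv_cons, cv_cons, cv_cons, show sh (f + f') i = sh f i + sh f' i from rfl,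
      cv_add_left l, cv_add_left l]
    ring

theorem cv_smul_left : ∀ (l : List ι) (c : ℝ) (f g : List ι → ℝ),
    cv (c • f) g l = c * cv f g l
  | [], c, f, g => mul_assoc _ _ _
  | i :: l, c, f, g => by
    rw [cv_cons, cv_cons, show sh (c • f) i = c • sh f i from rfl, cv_smul_left l, cv_smul_left l]
    ring

theorem cv_zero_left (l : List ι) (g : List ι → ℝ) : cv 0 g l = 0 := by
  simpa using cv_smul_left l 0 0 g

theorem cv_sub_left (l : List ι) (f f' g : List ι → ℝ) :
    cv (f - f') g l = cv f g l - cv f' g l := by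
  rw [sub_eq_add_neg, cv_add_left, show -f' = (-1 : ℝ) • f' by simp, cv_smul_left]
  ring

theorem cv_add_right (l : List ι) (f g g' : List ι → ℝ) :
    cv f (g + g') l = cv f g l + cv f g' l := by
  rw [cv_comm, cv_add_left, cv_comm l g, cv_comm l g']

theorem cv_smul_right (l : List ι) (c : ℝ) (f g : List ι → ℝ) :
    cv f (c • g) l = c * cv f g l := by
  rw [cv_comm, cv_smul_left, cv_comm]

theorem cv_zero_right (l : List ι) (f : List ι → ℝ) : cv f 0 l = 0 := by
  rw [cv_comm, cv_zero_left]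

theorem cv_sub_right (l : List ι) (f g g' : List ι → ℝ) :
    cv f (g - g') l = cv f g l - cv f g' l := by
  rw [cv_comm, cv_sub_left, cv_comm l g, cv_comm l g']

theorem cv_assoc : ∀ (l : List ι) (f g k : List ι → ℝ), cv (cv f g) k l = cv f (cv g k) l
  | [], f, g, k => by simp [mul_assoc]
  | i :: l, f, g, k => by
    have e1 : sh (cv f g) i = cv (sh f i) g + cv f (sh g i) := rfl
    have e2 : sh (cv g k) i = cv (sh g i) k + cv g (sh k i) := rfl
    rw [cv_cons, cv_cons, e1, e2, cv_add_left, cv_add_right, cv_assoc l, cv_assoc l, cv_assoc l]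
    ring

theorem cv_unit_left : ∀ (l : List ι) (g : List ι → ℝ), cv unit g l = g l
  | [], g => by simp
  | i :: l, g => by rw [cv_cons, sh_unit, cv_zero_left, cv_unit_left l]; simp

theorem cv_unit_right (l : List ι) (f : List ι → ℝ) : cv f unit l = f l := by
  rw [cv_comm, cv_unit_left]

theorem cv_congr : ∀ (l : List ι) (f f' g g' : List ι → ℝ),
    (∀ l', l'.length ≤ l.length → f l' = f' l') → (∀ l', l'.length ≤ l.length → g l' = g' l') →
      cv f g l = cv f' g' l
  | [], f, f', g, g', hf, hg => by simp [hf [] le_rfl, hg [] le_rfl]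
  | i :: l, f, f', g, g', hf, hg => by
    rw [cv_cons, cv_cons]
    congr 1
    · exact cv_congr l _ _ _ _ (fun l' h => hf _ (by simpa using h))
        fun l' h => hg _ (by simp; omega)
    · exact cv_congr l _ _ _ _ (fun l' h => hf _ (by simp; omega))
        fun l' h => hg _ (by simpa using h)

theorem cv_left_comm (l : List ι) (f g k : List ι → ℝ) :
    cv f (cv g k) l = cv g (cv f k) l := by
  rw [← cv_assoc, cv_congr l (cv f g) (cv g f) k k (fun l' _ => cv_comm l' _ _) (fun _ _ => rfl),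
    cv_assoc]

/-- A factor without constant term lowers the length seen by the other factor. -/
theorem cv_eq_zero : ∀ (l : List ι) (f g : List ι → ℝ), f [] = 0 →
    (∀ l', l'.length < l.length → g l' = 0) → cv f g l = 0
  | [], f, g, hf, _ => by simp [hf]
  | i :: l, f, g, hf, hg => by
    rw [cv_cons, cv_eq_zero l f (sh g i) hf fun l' h => hg _ (by simpa using h), add_zero,
      cv_congr l (sh f i) (sh f i) g 0 (fun _ _ => rfl)
        fun l' h => hg l' (by simp; omega), cv_zero_right]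

/-- Pulling back along a map of indices. -/
theorem cv_map (u : κ → ι) : ∀ (l : List κ) (f g : List ι → ℝ),
    cv f g (l.map u) = cv (fun m => f (m.map u)) (fun m => g (m.map u)) l
  | [], f, g => rfl
  | i :: l, f, g => by
    rw [List.map_cons, cv_cons, cv_cons, cv_map u l, cv_map u l]
    rfl

/-- Scaling by the length. -/
def scale (t : ℝ) (f : List ι → ℝ) : List ι → ℝ := fun l => t ^ l.length * f l

theorem cv_scale (t : ℝ) : ∀ (l : List ι) (f g : List ι → ℝ),
    cv (scale t f) (scale t g) l = t ^ l.length * cv f g l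
  | [], f, g => by simp [scale]
  | i :: l, f, g => by
    have e : ∀ f : List ι → ℝ, sh (scale t f) i = t • scale t (sh f i) := fun f => by
      funext m; simp [scale, pow_succ]; ring
    rw [cv_cons, cv_cons, e, e, cv_smul_left, cv_smul_right, cv_scale t l, cv_scale t l]
    simp [pow_succ]
    ring

/-- Invariance under permutations. -/
def Symm (f : List ι → ℝ) : Prop := ∀ l l' : List ι, l.Perm l' → f l = f l'

theorem Symm.sh {f : List ι → ℝ} (hf : Symm f) (i : ι) : Symm (Ser.sh f i) :=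
  fun _ _ h => hf _ _ (h.cons i)

theorem cv_perm {l l' : List ι} (h : l.Perm l') :
    ∀ f g : List ι → ℝ, Symm f → Symm g → cv f g l = cv f g l' := by
  induction h with
  | nil => intros; rfl
  | cons i _ ih =>
    intro f g hf hg
    rw [cv_cons, cv_cons, ih _ _ (hf.sh i) hg, ih _ _ hf (hg.sh i)]
  | swap i j l =>
    intro f g hf hg
    have e : ∀ f : List ι → ℝ, Symm f → Ser.sh (Ser.sh f i) j = Ser.sh (Ser.sh f j) i := fun f hf =>
      funext fun m => hf _ _ (List.Perm.swap j i m)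
    simp only [cv_cons]
    rw [e f hf, e g hg]
    ring
  | trans _ _ ih1 ih2 => intro f g hf hg; rw [ih1 f g hf hg, ih2 f g hf hg]

theorem Symm.cv {f g : List ι → ℝ} (hf : Symm f) (hg : Symm g) : Symm (Ser.cv f g) :=
  fun _ _ h => cv_perm h f g hf hg

/-! ### The inverse -/

/-- Approximation of the inverse. -/
def invN (M : List ι → ℝ) : ℕ → List ι → ℝ
  | _, [] => 1
  | 0, _ :: _ => 0
  | n + 1, i :: l => -cv (sh M i) (cv (invN M n) (invN M n)) l

/-- The inverse of a series with constant term one. -/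
def inv (M : List ι → ℝ) (l : List ι) : ℝ := invN M l.length l

theorem invN_eq (M : List ι → ℝ) : ∀ (m n : ℕ) (l : List ι), l.length ≤ m → l.length ≤ n →
    invN M m l = invN M n l
  | m, n, [], _, _ => by cases m <;> cases n <;> rfl
  | 0, _, _ :: _, h, _ => by simp at h
  | _ + 1, 0, _ :: _, _, h => by simp at h
  | m + 1, n + 1, i :: l, hm, hn => by
    simp only [List.length_cons, Nat.add_le_add_iff_right] at hm hn
    show -cv (sh M i) (cv (invN M m) (invN M m)) l = -cv (sh M i) (cv (invN M n) (invN M n)) l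
    congr 1
    refine cv_congr l _ _ _ _ (fun _ _ => rfl) fun l' h => ?_
    exact cv_congr l' _ _ _ _ (fun l'' h' => invN_eq M m n l'' (by omega) (by omega))
      fun l'' h' => invN_eq M m n l'' (by omega) (by omega)

@[simp] theorem inv_nil (M : List ι → ℝ) : inv M [] = 1 := rfl

theorem sh_inv (M : List ι → ℝ) (i : ι) :
    sh (inv M) i = -cv (sh M i) (cv (inv M) (inv M)) := by
  funext l
  show -cv (sh M i) (cv (invN M l.length) (invN M l.length)) l = _
  simp only [Pi.neg_apply, neg_inj]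
  refine cv_congr l _ _ _ _ (fun _ _ => rfl) fun l' h => ?_
  exact cv_congr l' _ _ _ _ (fun l'' h' => invN_eq M _ _ l'' (by omega) le_rfl)
    fun l'' h' => invN_eq M _ _ l'' (by omega) le_rfl

theorem cv_inv {M : List ι → ℝ} (hM : M [] = 1) : cv M (inv M) = unit := by
  suffices h : ∀ (n : ℕ) (l : List ι), l.length ≤ n → cv M (inv M) l = unit l from
    funext fun l => h _ l le_rfl
  intro n
  induction n with
  | zero =>
    intro l hl
    rw [List.eq_nil_of_length_eq_zero (Nat.le_zero.1 hl)]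
    simp [hM]
  | succ n ih =>
    rintro (_ | ⟨i, l⟩) hl
    · simp [hM]
    · simp only [List.length_cons, Nat.add_le_add_iff_right] at hl
      rw [cv_cons, sh_inv, show -cv (sh M i) (cv (inv M) (inv M)) =
          (-1 : ℝ) • cv (sh M i) (cv (inv M) (inv M)) by simp, cv_smul_right, unit_cons]
      have h1 : cv M (cv (sh M i) (cv (inv M) (inv M))) l
          = cv (sh M i) (cv (cv M (inv M)) (inv M)) l := by
        rw [← cv_assoc, cv_congr l (cv M (sh M i)) (cv (sh M i) M) _ (cv (inv M) (inv M))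
          (fun l' _ => cv_comm l' _ _) (fun _ _ => rfl), cv_assoc]
        exact cv_congr l _ _ _ _ (fun _ _ => rfl) fun l' _ => (cv_assoc l' _ _ _).symm
      have h2 : cv (sh M i) (cv (cv M (inv M)) (inv M)) l = cv (sh M i) (inv M) l := by
        refine cv_congr l _ _ _ _ (fun _ _ => rfl) fun l' h => ?_
        exact (cv_congr l' _ unit _ _ (fun l'' h' => ih l'' (by omega)) fun _ _ => rfl).trans
          (cv_unit_left l' _)
      rw [h1, h2]
      ring

theorem inv_unique {M c : List ι → ℝ} (hM : M [] = 1) (h : cv M c = unit) : c = inv M := by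
  funext l
  calc c l = cv (cv M (inv M)) c l := by rw [cv_inv hM, cv_unit_left]
    _ = cv (cv (inv M) M) c l :=
      cv_congr l _ _ _ _ (fun l' _ => cv_comm l' _ _) fun _ _ => rfl
    _ = inv M l := by rw [cv_assoc, h, cv_unit_right]

theorem Symm.inv {M : List ι → ℝ} (hs : Symm M) : Symm (Ser.inv M) := by
  classical
  suffices h : ∀ (n : ℕ) (l l' : List ι), l.length ≤ n → l.Perm l' →
      Ser.inv M l = Ser.inv M l' from fun l l' h' => h _ l l' le_rfl h'
  intro n
  induction n with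
  | zero =>
    intro l l' hl h
    rw [List.eq_nil_of_length_eq_zero (Nat.le_zero.1 hl)] at h ⊢
    rw [List.nil_perm.1 h]
  | succ n ih =>
    set T : List ι → ℝ := fun m => if m.length ≤ n then Ser.inv M m else 0
    have hT : Symm T := fun m m' h => by
      simp only [T, h.length_eq]
      split_ifs with q
      · exact ih m m' (h.length_eq ▸ q) h
      · rfl
    intro l l' hl h
    induction h with
    | nil => rfl
    | cons i hp _ =>
      rename_i l1 l2
      simp only [List.length_cons, Nat.add_le_add_iff_right] at hl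
      have e : ∀ m : List ι, m.length ≤ n →
          Ser.inv M (i :: m) = -Ser.cv (Ser.sh M i) (Ser.cv T T) m := fun m hm => by
        rw [← sh_apply (Ser.inv M), sh_inv, Pi.neg_apply, neg_inj]
        refine cv_congr m _ _ _ _ (fun _ _ => rfl) fun m' h' => ?_
        exact cv_congr m' _ _ _ _ (fun m'' h'' => (if_pos (by omega)).symm)
          fun m'' h'' => (if_pos (by omega)).symm
      rw [e _ hl, e _ (hp.length_eq ▸ hl), cv_perm hp _ _ (hs.sh i) (hT.cv hT)]
    | swap i j m =>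
      set c := Ser.inv M
      have e : ∀ i j : ι, c (j :: i :: m) = -Ser.cv (Ser.sh (Ser.sh M j) i) (Ser.cv c c) m
          + 2 * Ser.cv (Ser.sh M j) (Ser.cv (Ser.sh M i) (Ser.cv c (Ser.cv c c))) m := by
        intro i j
        have h1 : c (j :: i :: m) = -Ser.cv (Ser.sh M j) (Ser.cv c c) (i :: m) := by
          rw [← sh_apply c, sh_inv]; rfl
        have h2 : Ser.sh (Ser.cv c c) i = (-2 : ℝ) • Ser.cv (Ser.sh M i) (Ser.cv c (Ser.cv c c)) := by
          funext m'
          rw [sh_apply, cv_cons, cv_comm m' c, ← two_mul, sh_inv,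
            show -Ser.cv (Ser.sh M i) (Ser.cv c c) = (-1 : ℝ) • Ser.cv (Ser.sh M i) (Ser.cv c c) by
              simp, cv_smul_left, Pi.smul_apply, smul_eq_mul, cv_assoc,
            cv_congr m' _ _ (Ser.cv (Ser.cv c c) c) (Ser.cv c (Ser.cv c c)) (fun _ _ => rfl)
              fun m'' _ => cv_assoc m'' _ _ _]
          ring
        rw [h1, cv_cons, h2, cv_smul_right]
        ring
      rw [e i j, e j i, show Ser.sh (Ser.sh M j) i = Ser.sh (Ser.sh M i) j from
        funext fun m' => hs _ _ (List.Perm.swap i j m')]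
      rw [cv_left_comm m (Ser.sh M j)]
    | trans h1 _ ih1 ih2 => exact (ih1 hl).trans (ih2 (h1.length_eq ▸ hl))

/-! ### Two colours -/

/-- The series supported on the left colour. -/
def lft : (List ι → ℝ) → List (ι ⊕ ι) → ℝ
  | f, [] => f []
  | f, Sum.inl i :: l => lft (sh f i) l
  | _, Sum.inr _ :: _ => 0

/-- The series supported on the right colour. -/
def rgt : (List ι → ℝ) → List (ι ⊕ ι) → ℝ
  | f, [] => f []
  | _, Sum.inl _ :: _ => 0
  | f, Sum.inr i :: l => rgt (sh f i) l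

/-- Forgetting the colours. -/
def unc (f : List ι → ℝ) : List (ι ⊕ ι) → ℝ := fun l => f (l.map (Sum.elim id id))

theorem lft_zero : ∀ l : List (ι ⊕ ι), lft (0 : List ι → ℝ) l = 0
  | [] => rfl
  | Sum.inl _ :: l => lft_zero l
  | Sum.inr _ :: _ => rfl

theorem lft_add : ∀ (l : List (ι ⊕ ι)) (f g : List ι → ℝ), lft (f + g) l = lft f l + lft g l
  | [], _, _ => rfl
  | Sum.inl i :: l, f, g => lft_add l (sh f i) (sh g i)
  | Sum.inr _ :: _, _, _ => (add_zero 0).symm

theorem lft_smul : ∀ (l : List (ι ⊕ ι)) (c : ℝ) (f : List ι → ℝ), lft (c • f) l = c * lft f l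
  | [], _, _ => rfl
  | Sum.inl i :: l, c, f => lft_smul l c (sh f i)
  | Sum.inr _ :: _, c, _ => (mul_zero c).symm

theorem lft_sub (l : List (ι ⊕ ι)) (f g : List ι → ℝ) : lft (f - g) l = lft f l - lft g l := by
  rw [sub_eq_add_neg, show -g = (-1 : ℝ) • g by simp, lft_add, lft_smul]
  ring

theorem sh_lft_inr (f : List ι → ℝ) (i : ι) : sh (lft f) (Sum.inr i) = 0 := rfl

theorem sh_rgt_inl (f : List ι → ℝ) (i : ι) : sh (rgt f) (Sum.inl i) = 0 := rfl

theorem sh_lft_inl (f : List ι → ℝ) (i : ι) : sh (lft f) (Sum.inl i) = lft (sh f i) := rfl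

theorem sh_rgt_inr (f : List ι → ℝ) (i : ι) : sh (rgt f) (Sum.inr i) = rgt (sh f i) := rfl

theorem rgt_zero : ∀ l : List (ι ⊕ ι), rgt (0 : List ι → ℝ) l = 0
  | [] => rfl
  | Sum.inl _ :: _ => rfl
  | Sum.inr _ :: l => rgt_zero l

theorem rgt_add : ∀ (l : List (ι ⊕ ι)) (f g : List ι → ℝ), rgt (f + g) l = rgt f l + rgt g l
  | [], _, _ => rfl
  | Sum.inl _ :: _, _, _ => (add_zero 0).symm
  | Sum.inr i :: l, f, g => rgt_add l (sh f i) (sh g i)

theorem rgt_smul : ∀ (l : List (ι ⊕ ι)) (c : ℝ) (f : List ι → ℝ), rgt (c • f) l = c * rgt f l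
  | [], _, _ => rfl
  | Sum.inl _ :: _, c, _ => (mul_zero c).symm
  | Sum.inr i :: l, c, f => rgt_smul l c (sh f i)

theorem lft_cv : ∀ (l : List (ι ⊕ ι)) (f g : List ι → ℝ), lft (cv f g) l = cv (lft f) (lft g) l
  | [], _, _ => rfl
  | Sum.inl i :: l, f, g => by
    show lft (cv (sh f i) g + cv f (sh g i)) l = _
    rw [lft_add, lft_cv l, lft_cv l]; rfl
  | Sum.inr i :: l, f, g => by
    rw [cv_cons, sh_lft_inr, sh_lft_inr, cv_zero_left, cv_zero_right, add_zero]; rfl

theorem rgt_cv : ∀ (l : List (ι ⊕ ι)) (f g : List ι → ℝ), rgt (cv f g) l = cv (rgt f) (rgt g) l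
  | [], _, _ => rfl
  | Sum.inl i :: l, f, g => by
    rw [cv_cons, sh_rgt_inl, sh_rgt_inl, cv_zero_left, cv_zero_right, add_zero]; rfl
  | Sum.inr i :: l, f, g => by
    show rgt (cv (sh f i) g + cv f (sh g i)) l = _
    rw [rgt_add, rgt_cv l, rgt_cv l]; rfl

/-- The value of a two-coloured product on a sorted list. -/
theorem cv_lft_rgt : ∀ (u w : List ι) (f g : List ι → ℝ),
    cv (lft f) (rgt g) (u.map Sum.inl ++ w.map Sum.inr) = f u * g w
  | [], [], f, g => rfl
  | [], j :: w, f, g => by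
    rw [List.map_nil, List.nil_append, List.map_cons, cv_cons, sh_lft_inr, cv_zero_left,
      sh_rgt_inr, zero_add]
    simpa using cv_lft_rgt [] w f (sh g j)
  | i :: u, w, f, g => by
    rw [List.map_cons, List.cons_append, cv_cons, sh_rgt_inl, cv_zero_right, sh_lft_inl, add_zero,
      cv_lft_rgt u w (sh f i) g]
    rfl

theorem lft_sorted : ∀ (u w : List ι) (f : List ι → ℝ),
    lft f (u.map Sum.inl ++ w.map Sum.inr) = if w = [] then f u else 0
  | [], [], _ => rfl
  | [], _ :: _, _ => rfl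
  | i :: u, w, f => lft_sorted u w (sh f i)

theorem unc_sorted (u w : List ι) (f : List ι → ℝ) :
    unc f (u.map Sum.inl ++ w.map Sum.inr) = f (u ++ w) := by
  simp [unc, Function.comp_def]

/-! ### Pairings -/

variable [Fintype ι] {α β α₁ α₂ β₁ β₂ : Type}
  [Fintype α] [Fintype β] [Fintype α₁] [Fintype α₂] [Fintype β₁] [Fintype β₂]

/-- The Euclidean norm of an array. -/
def nrm {A : Type} [Fintype A] (x : A → ℝ) : ℝ := Real.sqrt (∑ a, x a ^ 2)

theorem nrm_nonneg {A : Type} [Fintype A] (x : A → ℝ) : 0 ≤ nrm x := Real.sqrt_nonneg _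

theorem nrm_sq {A : Type} [Fintype A] (x : A → ℝ) : nrm x ^ 2 = ∑ a, x a ^ 2 :=
  Real.sq_sqrt (Finset.sum_nonneg fun _ _ => sq_nonneg _)

theorem nrm_equiv {A B : Type} [Fintype A] [Fintype B] (e : A ≃ B) (x : B → ℝ) :
    nrm (fun a => x (e a)) = nrm x := by
  rw [nrm, nrm, e.sum_comp fun b => x b ^ 2]

/-- The sorted list of a pair of tuples. -/
def srt {p q : ℕ} (u : Fin p → ι) (w : Fin q → ι) : List (ι ⊕ ι) :=
  (List.ofFn u).map Sum.inl ++ (List.ofFn w).map Sum.inr

/-- The bilinear pairing of a family of two-coloured series at `p` left and `q` right legs. -/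
def pair (f : α → β → List (ι ⊕ ι) → ℝ) (p q : ℕ) (x : α × (Fin p → ι) → ℝ)
    (y : β × (Fin q → ι) → ℝ) : ℝ :=
  ∑ a, ∑ b, x a * y b * f a.1 b.1 (srt a.2 b.2)

/-- The bound on all pairings at `p` and `q` legs. -/
def Bd (f : α → β → List (ι ⊕ ι) → ℝ) (C : ℝ) (p q : ℕ) : Prop :=
  ∀ x y, |pair f p q x y| ≤ C * nrm x * nrm y

theorem kron {C D : ℝ} (hC : 0 ≤ C) (hD : 0 ≤ D) (A : α₁ → β₁ → ℝ) (B : α₂ → β₂ → ℝ)
    (hA : ∀ x y, |∑ a, ∑ b, x a * y b * A a b| ≤ C * nrm x * nrm y)
    (hB : ∀ x y, |∑ a, ∑ b, x a * y b * B a b| ≤ D * nrm x * nrm y)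
    (x : α₁ × α₂ → ℝ) (y : β₁ × β₂ → ℝ) :
    |∑ a, ∑ b, x a * y b * (A a.1 b.1 * B a.2 b.2)| ≤ C * D * nrm x * nrm y := by
  let w : α₁ → β₂ → ℝ := fun a b => ∑ a', x (a, a') * B a' b
  have hw : ∀ a, ∑ b, w a b ^ 2 ≤ D ^ 2 * ∑ a', x (a, a') ^ 2 := by
    intro a
    have h1 := hB (fun a' => x (a, a')) (w a)
    have h2 : ∑ a', ∑ b, x (a, a') * w a b * B a' b = ∑ b, w a b ^ 2 := by
      rw [Finset.sum_comm]
      refine Finset.sum_congr rfl fun b _ => ?_
      simp only [w, sq, Finset.sum_mul, Finset.mul_sum]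
      rw [Finset.sum_comm]
      exact Finset.sum_congr rfl fun a'' _ => Finset.sum_congr rfl fun a' _ => by ring
    rw [h2, abs_of_nonneg (Finset.sum_nonneg fun b _ => sq_nonneg _)] at h1
    rw [← nrm_sq (w a), ← nrm_sq fun a' => x (a, a'), ← mul_pow]
    rw [← nrm_sq (w a)] at h1
    refine pow_le_pow_left₀ (nrm_nonneg _) ?_ 2
    rcases (nrm_nonneg (w a)).eq_or_lt' with h | h
    · rw [h]; exact mul_nonneg hD (nrm_nonneg _)
    · exact le_of_mul_le_mul_right (by linarith [sq (nrm (w a))]) h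
  have h3 : ∑ a, ∑ b, x a * y b * (A a.1 b.1 * B a.2 b.2)
      = ∑ b₂, ∑ a₁, ∑ b₁, w a₁ b₂ * y (b₁, b₂) * A a₁ b₁ := by
    simp only [w, Fintype.sum_prod_type, Finset.sum_mul]
    rw [Finset.sum_comm (γ := α₁)]
    conv_rhs => rw [Finset.sum_comm]
    rw [Finset.sum_comm]
    refine Finset.sum_congr rfl fun a₁ _ => ?_
    conv_rhs => rw [Finset.sum_comm]
    rw [Finset.sum_comm]
    refine Finset.sum_congr rfl fun b₁ _ => ?_
    rw [Finset.sum_comm]
    exact Finset.sum_congr rfl fun b₂ _ => Finset.sum_congr rfl fun a₂ _ => by ring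
  rw [h3]
  refine (Finset.abs_sum_le_sum_abs _ _).trans ?_
  refine (Finset.sum_le_sum fun b₂ _ => hA (fun a => w a b₂) fun b => y (b, b₂)).trans ?_
  simp only [mul_assoc, ← Finset.mul_sum]
  refine mul_le_mul_of_nonneg_left ?_ hC
  refine (Real.sum_sqrt_mul_sqrt_le _ (fun b => Finset.sum_nonneg fun a _ => sq_nonneg _)
    fun b => Finset.sum_nonneg fun a _ => sq_nonneg _).trans ?_
  rw [← mul_assoc]
  refine mul_le_mul ?_ (le_of_eq ?_) (Real.sqrt_nonneg _) (mul_nonneg hD (nrm_nonneg _))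
  · rw [← Real.sqrt_sq hD, nrm, ← Real.sqrt_mul (sq_nonneg D), Finset.sum_comm]
    refine Real.sqrt_le_sqrt ?_
    rw [Fintype.sum_prod_type, Finset.mul_sum]
    exact Finset.sum_le_sum fun a _ => hw a
  · rw [nrm, Fintype.sum_prod_type, Finset.sum_comm]

omit [Fintype ι] in
theorem srt_cons_left {p q : ℕ} (i : ι) (u : Fin p → ι) (w : Fin q → ι) :
    srt (Fin.cons i u) w = Sum.inl i :: srt u w := by simp [srt, List.ofFn_succ]

omit [Fintype ι] in
theorem srt_cons_right {q : ℕ} (u : Fin 0 → ι) (i : ι) (w : Fin q → ι) :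
    srt u (Fin.cons i w) = Sum.inr i :: srt u w := by simp [srt, List.ofFn_succ]

/-- Absorbing the first left leg into the index of the family. -/
def eL (α : Type) (p : ℕ) : (α × ι) × (Fin p → ι) ≃ α × (Fin (p + 1) → ι) :=
  (Equiv.prodAssoc _ _ _).trans (Equiv.prodCongr (Equiv.refl α) (Fin.consEquiv fun _ => ι))

theorem pair_succ_left (f : α → β → List (ι ⊕ ι) → ℝ) (p q : ℕ) (x : α × (Fin (p + 1) → ι) → ℝ)
    (y : β × (Fin q → ι) → ℝ) :
    pair f (p + 1) q x y = pair (fun (a : α × ι) b => sh (f a.1 b) (Sum.inl a.2)) p q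
      (fun a => x (eL α p a)) y := by
  rw [pair, pair, ← (eL (ι := ι) α p).sum_comp]
  refine Finset.sum_congr rfl fun a _ => Finset.sum_congr rfl fun b _ => ?_
  simp [eL, srt_cons_left, Fin.consEquiv]

theorem pair_succ_right (f : α → β → List (ι ⊕ ι) → ℝ) (q : ℕ) (x : α × (Fin 0 → ι) → ℝ)
    (y : β × (Fin (q + 1) → ι) → ℝ) :
    pair f 0 (q + 1) x y = pair (fun a (b : β × ι) => sh (f a b.1) (Sum.inr b.2)) 0 q x
      (fun b => y (eL β q b)) := by
  rw [pair, pair]
  refine Finset.sum_congr rfl fun a _ => ?_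
  rw [← (eL (ι := ι) β q).sum_comp]
  refine Finset.sum_congr rfl fun b _ => ?_
  simp [eL, srt_cons_right, Fin.consEquiv]

theorem Bd.shiftL {f : α → β → List (ι ⊕ ι) → ℝ} {C : ℝ} {p q : ℕ} (h : Bd f C (p + 1) q) :
    Bd (fun (a : α × ι) b => sh (f a.1 b) (Sum.inl a.2)) C p q := fun x y => by
  have h1 := h (fun a => x ((eL α p).symm a)) y
  rw [pair_succ_left, nrm_equiv (eL (ι := ι) α p).symm x] at h1
  simpa using h1

theorem Bd.shiftR {f : α → β → List (ι ⊕ ι) → ℝ} {C : ℝ} {q : ℕ} (h : Bd f C 0 (q + 1)) :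
    Bd (fun a (b : β × ι) => sh (f a b.1) (Sum.inr b.2)) C 0 q := fun x y => by
  have h1 := h x (fun b => y ((eL β q).symm b))
  rw [pair_succ_right, nrm_equiv (eL (ι := ι) β q).symm y] at h1
  simpa using h1

/-- The pairings of a product. -/
theorem Bd.cv : ∀ (p q : ℕ) {α₁ α₂ β₁ β₂ : Type} [Fintype α₁] [Fintype α₂] [Fintype β₁]
    [Fintype β₂] (f : α₁ → β₁ → List (ι ⊕ ι) → ℝ) (g : α₂ → β₂ → List (ι ⊕ ι) → ℝ) (C D : ℝ),
    0 ≤ C → 0 ≤ D → (∀ a b, a ≤ p → b ≤ q → Bd f C a b) → (∀ a b, a ≤ p → b ≤ q → Bd g D a b) →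
      Bd (fun (a : α₁ × α₂) (b : β₁ × β₂) => Ser.cv (f a.1 b.1) (g a.2 b.2)) (2 ^ (p + q) * C * D) p q
  | 0, 0, α₁, α₂, β₁, β₂, _, _, _, _, f, g, C, D, hC, hD, hf, hg => by
    intro x y
    let e : ∀ A : Type, A ≃ A × (Fin 0 → ι) := fun A => (Equiv.prodUnique A (Fin 0 → ι)).symm
    have conv : ∀ {A B : Type} [Fintype A] [Fintype B] (F : A → B → List (ι ⊕ ι) → ℝ) (K : ℝ),
        Bd F K 0 0 → ∀ x y, |∑ a, ∑ b, x a * y b * F a b []| ≤ K * nrm x * nrm y := by
      intro A B _ _ F K hF x' y'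
      have h1 := hF (fun a => x' a.1) (fun b => y' b.1)
      have h2 : ∀ (A : Type) [Fintype A] (x' : A → ℝ),
          nrm (fun a : A × (Fin 0 → ι) => x' a.1) = nrm x' := fun A _ x' => by
        rw [← nrm_equiv (e A)]; rfl
      rw [h2, h2, pair, ← (e A).sum_comp] at h1
      simp only [← (e B).sum_comp] at h1
      simpa [e, srt] using h1
    rw [pair, ← (e _).sum_comp]
    simp only [← (e (β₁ × β₂)).sum_comp, ← nrm_equiv (e (α₁ × α₂)) x,
      ← nrm_equiv (e (β₁ × β₂)) y]
    simpa [e, srt] using kron hC hD (fun a b => f a b []) (fun a b => g a b [])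
      (conv f C (hf 0 0 le_rfl le_rfl)) (conv g D (hg 0 0 le_rfl le_rfl))
      (fun a => x (e _ a)) (fun b => y (e _ b))
  | 0, q + 1, α₁, α₂, β₁, β₂, _, _, _, _, f, g, C, D, hC, hD, hf, hg => by
    intro x y
    rw [pair_succ_right]
    have h1 := Bd.cv 0 q (fun a (b : β₁ × ι) => sh (f a b.1) (Sum.inr b.2)) g C D hC hD
      (fun a b ha hb => by
        obtain rfl := Nat.le_zero.1 ha
        exact Bd.shiftR (hf 0 (b + 1) le_rfl (by omega)))
      (fun a b ha hb => hg a b ha (by omega))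
    have h2 := Bd.cv 0 q f (fun a (b : β₂ × ι) => sh (g a b.1) (Sum.inr b.2)) C D hC hD
      (fun a b ha hb => hf a b ha (by omega))
      (fun a b ha hb => by
        obtain rfl := Nat.le_zero.1 ha
        exact Bd.shiftR (hg 0 (b + 1) le_rfl (by omega)))
    let e1 : ((β₁ × ι) × β₂) × (Fin q → ι) ≃ (β₁ × β₂) × (Fin (q + 1) → ι) :=
      (Equiv.prodCongr ⟨fun b => ((b.1.1, b.2), b.1.2), fun b => ((b.1.1, b.2), b.1.2),
        fun _ => rfl, fun _ => rfl⟩ (Equiv.refl _)).trans (eL (β₁ × β₂) q)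
    let e2 : (β₁ × (β₂ × ι)) × (Fin q → ι) ≃ (β₁ × β₂) × (Fin (q + 1) → ι) :=
      (Equiv.prodCongr (Equiv.prodAssoc β₁ β₂ ι).symm (Equiv.refl _)).trans (eL (β₁ × β₂) q)
    have g1 := h1 x (fun b => y (e1 b))
    have g2 := h2 x (fun b => y (e2 b))
    rw [nrm_equiv e1 y] at g1
    rw [nrm_equiv e2 y] at g2
    refine le_trans (le_of_eq ?_) ((abs_add_le _ _).trans (le_trans (add_le_add g1 g2) (le_of_eq ?_)))
    · congr 1
      simp only [pair, Fintype.sum_prod_type, cv_cons, sh_apply, mul_add, Finset.sum_add_distrib,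
        e1, e2, eL, Equiv.trans_apply, Equiv.prodCongr_apply, Equiv.coe_refl, Prod.map, id]
      congr 1
      refine Finset.sum_congr rfl fun a _ => Finset.sum_congr rfl fun b _ =>
        Finset.sum_congr rfl fun c _ => Finset.sum_congr rfl fun b₁ _ => ?_
      rw [Finset.sum_comm]
      rfl
    · ring
  | p + 1, q, α₁, α₂, β₁, β₂, _, _, _, _, f, g, C, D, hC, hD, hf, hg => by
    intro x y
    rw [pair_succ_left]
    have h1 := Bd.cv p q (fun (a : α₁ × ι) b => sh (f a.1 b) (Sum.inl a.2)) g C D hC hD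
      (fun a b ha hb => Bd.shiftL (hf (a + 1) b (by omega) hb))
      (fun a b ha hb => hg a b (by omega) hb)
    have h2 := Bd.cv p q f (fun (a : α₂ × ι) b => sh (g a.1 b) (Sum.inl a.2)) C D hC hD
      (fun a b ha hb => hf a b (by omega) hb)
      (fun a b ha hb => Bd.shiftL (hg (a + 1) b (by omega) hb))
    let e1 : ((α₁ × ι) × α₂) × (Fin p → ι) ≃ (α₁ × α₂) × (Fin (p + 1) → ι) :=
      (Equiv.prodCongr ⟨fun b => ((b.1.1, b.2), b.1.2), fun b => ((b.1.1, b.2), b.1.2),
        fun _ => rfl, fun _ => rfl⟩ (Equiv.refl _)).trans (eL (α₁ × α₂) p)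
    let e2 : (α₁ × (α₂ × ι)) × (Fin p → ι) ≃ (α₁ × α₂) × (Fin (p + 1) → ι) :=
      (Equiv.prodCongr (Equiv.prodAssoc α₁ α₂ ι).symm (Equiv.refl _)).trans (eL (α₁ × α₂) p)
    have g1 := h1 (fun a => x (e1 a)) y
    have g2 := h2 (fun a => x (e2 a)) y
    rw [nrm_equiv e1 x] at g1
    rw [nrm_equiv e2 x] at g2
    refine le_trans (le_of_eq ?_) ((abs_add_le _ _).trans (le_trans (add_le_add g1 g2) (le_of_eq ?_)))
    · congr 1
      simp only [pair, Fintype.sum_prod_type, cv_cons, sh_apply, mul_add, Finset.sum_add_distrib,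
        e1, e2, eL, Equiv.trans_apply, Equiv.prodCongr_apply, Equiv.coe_refl, Prod.map, id]
      congr 1
      refine Finset.sum_congr rfl fun a _ => ?_
      rw [Finset.sum_comm]
      rfl
    · rw [show p + 1 + q = p + q + 1 by omega, pow_succ]; ring

end Vale.Agent.P347.Zero.Ser
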