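import Vale.Agent.P347.Basics

/-!
Gaussian series of matrices: the trace moments of `∑ k, g k • A k` by Stein's identity, and the
dilation to operator norms of non-symmetric series. The norm of a matrix is its operator norm on
Euclidean spaces.
-/

noncomputable section

open MeasureTheory Matrix Filter Topology
open scoped Matrix.Norms.L2Operator RealInnerProductSpace Nat

namespace Vale.Agent.P347.Zero

variable {n : ℕ} {ι κ : Type*} [Fintype ι] [DecidableEq ι] [Fintype κ] [DecidableEq κ]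

/-- The series with coefficients `g`. -/
def ser (A : Fin n → Matrix ι κ ℝ) (g : Space n) : Matrix ι κ ℝ := ∑ k, g k • A k

omit [Fintype ι] [DecidableEq ι] in
theorem isHermitian_of_isSymm {X : Matrix ι ι ℝ} (hX : X.IsSymm) : X.IsHermitian := by
  rw [IsHermitian, conjTranspose_eq_transpose_of_trivial]; exact hX

omit [Fintype ι] [DecidableEq ι] in
theorem ser_isSymm {A : Fin n → Matrix ι ι ℝ} (hA : ∀ k, (A k).IsSymm) (g : Space n) :
    (ser A g).IsSymm := by
  simp only [IsSymm, ser, transpose_sum, transpose_smul]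
  exact Finset.sum_congr rfl fun k _ => by rw [hA k]

/-! ### The eigenbasis -/

/-- Conjugation by a unitary matrix preserves the trace. -/
theorem trace_conj_unitary (U : unitaryGroup ι ℝ) (M : Matrix ι ι ℝ) :
    (Unitary.conjStarAlgAut ℝ (Matrix ι ι ℝ) U M).trace = M.trace := by
  rw [Unitary.conjStarAlgAut_apply, trace_mul_cycle, Unitary.coe_star_mul_self, one_mul]

/-- In its eigenbasis a symmetric matrix is diagonal. -/
theorem exists_diag {X : Matrix ι ι ℝ} (hX : X.IsSymm) :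
    ∃ (U : unitaryGroup ι ℝ) (l : ι → ℝ),
      X = Unitary.conjStarAlgAut ℝ (Matrix ι ι ℝ) U (diagonal l) := by
  refine ⟨(isHermitian_of_isSymm hX).eigenvectorUnitary, (isHermitian_of_isSymm hX).eigenvalues, ?_⟩
  have h := (isHermitian_of_isSymm hX).spectral_theorem
  simpa using h

theorem trace_pow_conj (U : unitaryGroup ι ℝ) (l : ι → ℝ) (m : ℕ) :
    (Unitary.conjStarAlgAut ℝ (Matrix ι ι ℝ) U (diagonal l) ^ m).trace = ∑ a, l a ^ m := by
  rw [← map_pow, trace_conj_unitary, diagonal_pow, trace_diagonal]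
  rfl

theorem trace_even_pow_nonneg {X : Matrix ι ι ℝ} (hX : X.IsSymm) {m : ℕ} (hm : Even m) :
    0 ≤ (X ^ m).trace := by
  obtain ⟨U, l, rfl⟩ := exists_diag hX
  rw [trace_pow_conj]
  exact Finset.sum_nonneg fun a _ => hm.pow_nonneg _

/-- `tr (A X^j A X^l) ≤ tr (A² X^(j+l))` for symmetric matrices and `j + l` even. -/
theorem trace_sandwich {A X : Matrix ι ι ℝ} (hA : A.IsSymm) (hX : X.IsSymm) {j l : ℕ}
    (hjl : Even (j + l)) :
    (A * X ^ j * A * X ^ l).trace ≤ (A * A * X ^ (j + l)).trace := by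
  obtain ⟨U, e, rfl⟩ := exists_diag hX
  set cj := Unitary.conjStarAlgAut ℝ (Matrix ι ι ℝ) U
  set B := cj.symm A with hB
  have eA : A = cj B := by rw [hB, cj.apply_symm_apply]
  have hBs : B.IsSymm := by
    rw [IsSymm, ← conjTranspose_eq_transpose_of_trivial, ← star_eq_conjTranspose, hB, ← map_star,
      star_eq_conjTranspose, conjTranspose_eq_transpose_of_trivial, hA]
  simp only [eA, ← map_pow, ← map_mul, cj, trace_conj_unitary, diagonal_pow]
  have e1 : (B * diagonal (e ^ j) * B * diagonal (e ^ l)).trace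
      = ∑ a, ∑ b, B a b ^ 2 * (e b ^ j * e a ^ l) := by
    rw [trace]
    refine Finset.sum_congr rfl fun a _ => ?_
    rw [diag_apply, mul_diagonal, Matrix.mul_apply, Finset.sum_mul]
    refine Finset.sum_congr rfl fun b _ => ?_
    rw [mul_diagonal, hBs.apply a b, Pi.pow_apply, Pi.pow_apply]
    ring
  have e2 : (B * B * diagonal (e ^ (j + l))).trace = ∑ a, ∑ b, B a b ^ 2 * e a ^ (j + l) := by
    rw [trace]
    refine Finset.sum_congr rfl fun a _ => ?_
    rw [diag_apply, mul_diagonal, Matrix.mul_apply, Finset.sum_mul]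
    refine Finset.sum_congr rfl fun b _ => ?_
    rw [hBs.apply a b, Pi.pow_apply]
    ring
  rw [e1, e2]
  have key : ∀ a b, B a b ^ 2 * (e b ^ j * e a ^ l) + B a b ^ 2 * (e a ^ j * e b ^ l)
      ≤ B a b ^ 2 * e a ^ (j + l) + B a b ^ 2 * e b ^ (j + l) := fun a b => by
    rw [← mul_add, ← mul_add]
    refine mul_le_mul_of_nonneg_left ?_ (sq_nonneg _)
    have h1 : 0 ≤ (|e a| ^ j - |e b| ^ j) * (|e a| ^ l - |e b| ^ l) := by
      rcases le_total |e a| |e b| with h | h
      · exact mul_nonneg_of_nonpos_of_nonpos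
          (by linarith [pow_le_pow_left₀ (abs_nonneg _) h j])
          (by linarith [pow_le_pow_left₀ (abs_nonneg _) h l])
      · exact mul_nonneg (by linarith [pow_le_pow_left₀ (abs_nonneg _) h j])
          (by linarith [pow_le_pow_left₀ (abs_nonneg _) h l])
    have h2 := le_abs_self (e b ^ j * e a ^ l)
    have h3 := le_abs_self (e a ^ j * e b ^ l)
    rw [abs_mul, abs_pow, abs_pow] at h2 h3
    have h4 : ∀ c, |e c| ^ j * |e c| ^ l = e c ^ (j + l) := fun c => by
      rw [← pow_add, hjl.pow_abs]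
    linarith [h4 a, h4 b]
  have s1 : ∀ F : ι → ι → ℝ,
      ∑ a, ∑ b, B a b ^ 2 * F a b = ∑ a, ∑ b, B a b ^ 2 * F b a := fun F => by
    rw [Finset.sum_comm]
    exact Finset.sum_congr rfl fun a _ => Finset.sum_congr rfl fun b _ => by rw [hBs.apply a b]
  have h := Finset.sum_le_sum fun a (_ : a ∈ Finset.univ) =>
    Finset.sum_le_sum fun b (_ : b ∈ Finset.univ) => key a b
  simp only [Finset.sum_add_distrib] at h
  rw [← s1 (fun a b => e b ^ j * e a ^ l), ← s1 (fun a b => e a ^ (j + l))] at h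
  linarith

/-- `tr (V X^m) ≤ σ² tr X^m` for `m` even when the quadratic form of `V` is at most `σ²`. -/
theorem trace_mul_pow_le {V X : Matrix ι ι ℝ} {c : ℝ} (hV : ∀ v, v ⬝ᵥ V *ᵥ v ≤ c * (v ⬝ᵥ v))
    (hX : X.IsSymm) {m : ℕ} (hm : Even m) :
    (V * X ^ m).trace ≤ c * (X ^ m).trace := by
  obtain ⟨U, e, rfl⟩ := exists_diag hX
  rw [trace_pow_conj, Finset.mul_sum, ← map_pow, diagonal_pow, Unitary.conjStarAlgAut_apply,
    ← mul_assoc, trace_mul_comm, ← mul_assoc, ← mul_assoc, trace]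
  refine Finset.sum_le_sum fun a _ => ?_
  rw [diag_apply, mul_diagonal, Pi.pow_apply]
  refine mul_le_mul_of_nonneg_right ?_ (hm.pow_nonneg _)
  have h := hV ((U : Matrix ι ι ℝ) *ᵥ Pi.single a 1)
  have e1 : ((star (U : Matrix ι ι ℝ)) * V * U) a a
      = ((U : Matrix ι ι ℝ) *ᵥ Pi.single a 1) ⬝ᵥ V *ᵥ (U : Matrix ι ι ℝ) *ᵥ Pi.single a 1 := by
    rw [mul_assoc, Matrix.mul_apply, mulVec_single_one, dotProduct]
    refine Finset.sum_congr rfl fun j _ => ?_
    simp [mulVec, dotProduct, Matrix.mul_apply]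
  have e2 : ((U : Matrix ι ι ℝ) *ᵥ Pi.single a 1) ⬝ᵥ (U : Matrix ι ι ℝ) *ᵥ Pi.single a 1 = 1 := by
    have h0 := congrFun (congrFun (Unitary.coe_star_mul_self U) a) a
    rw [Matrix.mul_apply, one_apply_eq] at h0
    simpa [dotProduct, star_eq_conjTranspose] using h0
  rw [e2, mul_one] at h
  rwa [e1]

/-! ### The moment recursion -/

theorem abs_trace_le (M : Matrix ι ι ℝ) : |M.trace| ≤ Fintype.card ι * ‖M‖ := by
  refine (Finset.abs_sum_le_sum_abs _ _).trans ?_
  refine (Finset.sum_le_sum (g := fun _ => ‖M‖) fun a _ => ?_).trans_eq (by simp)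
  have h := M.l2_opNorm_mulVec (EuclideanSpace.single a 1)
  rw [PiLp.norm_single, norm_one, mul_one] at h
  refine le_trans ?_ h
  refine le_trans (le_of_eq ?_) (PiLp.norm_apply_le _ a)
  simp

theorem norm_one_le : ‖(1 : Matrix ι ι ℝ)‖ ≤ 1 := by
  rw [cstar_norm_def, map_one]; exact ContinuousLinearMap.norm_id_le

theorem norm_pow_le_pow (M : Matrix ι ι ℝ) : ∀ m : ℕ, ‖M ^ m‖ ≤ ‖M‖ ^ m
  | 0 => by simpa using norm_one_le
  | m + 1 => by
    rw [pow_succ, pow_succ]
    exact (norm_mul_le _ _).trans (mul_le_mul_of_nonneg_right (norm_pow_le_pow M m) (norm_nonneg _))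

omit [DecidableEq ι] in
theorem norm_ser_le (A : Fin n → Matrix ι κ ℝ) (g : Space n) :
    ‖ser A g‖ ≤ (∑ k, ‖A k‖) * ‖g‖ := by
  refine (norm_sum_le _ _).trans ?_
  rw [Finset.sum_mul]
  refine Finset.sum_le_sum fun k _ => ?_
  rw [norm_smul, mul_comm]
  exact mul_le_mul_of_nonneg_left (PiLp.norm_apply_le g k) (norm_nonneg _)

theorem tame_of_poly {F : Space n → ℝ} {C : ℝ} {m : ℕ} (h : ∀ g, |F g| ≤ C * ‖g‖ ^ m) : Tame F := by
  refine ⟨|C|, m, fun g => (h g).trans ?_⟩
  refine mul_le_mul (le_abs_self C) ((pow_le_pow_left₀ (norm_nonneg g) (by linarith) m).trans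
    (poly_le_exp m _ (norm_nonneg g))) (by positivity) (abs_nonneg C)

theorem tame_trace (A : Fin n → Matrix ι ι ℝ) (M N : Matrix ι ι ℝ) (j l : ℕ) :
    Tame fun g => (M * ser A g ^ j * N * ser A g ^ l).trace := by
  refine tame_of_poly (C := Fintype.card ι * (‖M‖ * ‖N‖ * (∑ k, ‖A k‖) ^ (j + l))) (m := j + l)
    fun g => (abs_trace_le _).trans ?_
  rw [mul_assoc (Fintype.card ι : ℝ)]
  refine mul_le_mul_of_nonneg_left ?_ (Nat.cast_nonneg _)
  have h : ∀ i, ‖ser A g ^ i‖ ≤ ((∑ k, ‖A k‖) * ‖g‖) ^ i := fun i =>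
    (norm_pow_le_pow _ i).trans (pow_le_pow_left₀ (norm_nonneg _) (norm_ser_le A g) i)
  calc ‖M * ser A g ^ j * N * ser A g ^ l‖
      ≤ ‖M‖ * ‖ser A g ^ j‖ * ‖N‖ * ‖ser A g ^ l‖ :=
        (norm_mul_le _ _).trans (mul_le_mul_of_nonneg_right
          ((norm_mul_le _ _).trans (mul_le_mul_of_nonneg_right (norm_mul_le _ _) (norm_nonneg _)))
          (norm_nonneg _))
    _ ≤ ‖M‖ * ((∑ k, ‖A k‖) * ‖g‖) ^ j * ‖N‖ * ((∑ k, ‖A k‖) * ‖g‖) ^ l := by
        gcongr <;> exact h _
    _ = _ := by rw [mul_pow, mul_pow, pow_add, pow_add]; ring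

omit [Fintype ι] [DecidableEq ι] [Fintype κ] [DecidableEq κ] in
theorem continuous_ser (A : Fin n → Matrix ι κ ℝ) : Continuous (ser A) := by
  unfold ser; fun_prop

theorem integrable_trace_pow (A : Fin n → Matrix ι ι ℝ) (m : ℕ) :
    Integrable (fun g => (ser A g ^ m).trace) (gam n) := by
  have h := tame_trace A 1 1 m 0
  simp only [one_mul, mul_one, pow_zero] at h
  have := continuous_ser A
  exact P245.Tame.integrable h (by fun_prop)

/-- Stein's identity for the trace of a power. -/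
theorem integral_trace_succ (A : Fin n → Matrix ι ι ℝ) (m : ℕ) :
    ∫ g, (ser A g ^ (m + 2)).trace ∂gam n
      = ∑ k, ∑ i ∈ Finset.range (m + 1),
          ∫ g, (A k * ser A g ^ (m - i) * A k * ser A g ^ i).trace ∂gam n := by
  have hc := continuous_ser A
  let T : Matrix ι ι ℝ →L[ℝ] ℝ := LinearMap.toContinuousLinearMap (traceLinearMap ι ℝ ℝ)
  have hT : ∀ k, Tame fun g => (A k * ser A g ^ (m + 1)).trace := fun k => by
    simpa only [mul_one, pow_zero] using tame_trace A (A k) 1 (m + 1) 0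
  have hT' : ∀ k, Tame fun g =>
      ∑ i ∈ Finset.range (m + 1), (A k * ser A g ^ (m - i) * A k * ser A g ^ i).trace := fun k => by
    refine Finset.sum_induction
      (fun i g => (A k * ser A g ^ (m - i) * A k * ser A g ^ i).trace) Tame ?_ ?_
      (fun i _ => tame_trace A _ _ _ _) |> fun h => by simpa only [Finset.sum_fn] using h
    · rintro F G ⟨C, c, hF⟩ ⟨D, e, hG⟩
      refine ⟨|C| + |D|, max c e, fun x => (abs_add_le _ _).trans ?_⟩
      rw [add_mul]
      exact add_le_add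
        ((hF x).trans (mul_le_mul (le_abs_self _) (Real.exp_le_exp.2
          (mul_le_mul_of_nonneg_right (le_max_left _ _) (norm_nonneg _))) (Real.exp_pos _).le
          (abs_nonneg _)))
        ((hG x).trans (mul_le_mul (le_abs_self _) (Real.exp_le_exp.2
          (mul_le_mul_of_nonneg_right (le_max_right _ _) (norm_nonneg _))) (Real.exp_pos _).le
          (abs_nonneg _)))
    · exact ⟨0, 0, fun x => by simp⟩
  have hst : ∀ k, ∫ g, g k * (A k * ser A g ^ (m + 1)).trace ∂gam n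
      = ∫ g, ∑ i ∈ Finset.range (m + 1),
          (A k * ser A g ^ (m - i) * A k * ser A g ^ i).trace ∂gam n := by
    intro k
    refine P245.stein (n := n) k ?_ (fun g => ?_) (by fun_prop) (hT k) (hT' k)
    · have hd : Differentiable ℝ (ser A) := by unfold ser; fun_prop
      exact T.differentiable.comp ((differentiable_const (A k)).mul (hd.pow (m + 1)))
    · have h0 : ∀ s : ℝ, ser A (g + s • P245.ev k) = ser A g + s • A k := fun s => by
        simp [ser, add_smul, Finset.sum_add_distrib, mul_ite, ite_smul]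
      have h1 : HasDerivAt (fun s : ℝ => ser A g + s • A k) (A k) 0 := by
        simpa using ((hasDerivAt_id (0 : ℝ)).smul_const (A k)).const_add (ser A g)
      have h2 := T.hasFDerivAt.comp_hasDerivAt (0 : ℝ) ((h1.fun_pow' (m + 1)).const_mul (A k))
      simp only [zero_smul, add_zero, Nat.pred_succ, Finset.mul_sum, map_sum] at h2
      simpa [h0, T, Function.comp_def, mul_assoc] using h2
  calc ∫ g, (ser A g ^ (m + 2)).trace ∂gam n
      = ∫ g, ∑ k, g k * (A k * ser A g ^ (m + 1)).trace ∂gam n :=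
        integral_congr_ae (ae_of_all _ fun g => by
          beta_reduce
          rw [pow_succ' _ (m + 1)]
          conv_lhs => rw [ser, Finset.sum_mul, trace_sum]
          refine Finset.sum_congr rfl fun k _ => ?_
          rw [smul_mul_assoc, trace_smul, smul_eq_mul]
          rfl)
    _ = ∑ k, ∫ g, g k * (A k * ser A g ^ (m + 1)).trace ∂gam n :=
        integral_finsetSum _ fun k _ => P245.Tame.integrable
          (P245.Tame.mul_norm (hT k) fun g => P245.abs_coord_le g k) (by fun_prop)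
    _ = _ := by
        refine Finset.sum_congr rfl fun k _ => ?_
        rw [hst k]
        exact integral_finsetSum _ fun i _ =>
          P245.Tame.integrable (tame_trace A _ _ _ _) (by fun_prop)

/-- The trace moments of a symmetric Gaussian series. -/
theorem trace_moment {A : Fin n → Matrix ι ι ℝ} (hA : ∀ k, (A k).IsSymm) {c : ℝ}
    (hV : ∀ v, v ⬝ᵥ (∑ k, A k * A k) *ᵥ v ≤ c * (v ⬝ᵥ v)) (hc : 0 ≤ c) (p : ℕ) :
    ∫ g, (ser A g ^ (2 * p)).trace ∂gam n
      ≤ ((2 * p - 1)‼ : ℕ) * c ^ p * Fintype.card ι := by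
  induction p with
  | zero => simp
  | succ p ih =>
    have hce := continuous_ser A
    have hi : ∀ k i, Integrable
        (fun g => (A k * ser A g ^ (2 * p - i) * A k * ser A g ^ i).trace) (gam n) := fun k i =>
      P245.Tame.integrable (tame_trace A _ _ _ _) (by fun_prop)
    have h1 : ∫ g, (ser A g ^ (2 * p + 2)).trace ∂gam n
        ≤ (2 * p + 1 : ℕ) * c * ∫ g, (ser A g ^ (2 * p)).trace ∂gam n := by
      rw [integral_trace_succ, ← integral_const_mul]
      simp only [← integral_finsetSum _ fun i _ => hi _ i]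
      rw [← integral_finsetSum _ fun k _ => integrable_finsetSum _ fun i _ => hi k i]
      refine integral_mono (integrable_finsetSum _ fun k _ => integrable_finsetSum _ fun i _ =>
        hi k i) ((integrable_trace_pow A _).const_mul _) fun g => ?_
      have h2 : ∀ k, ∑ i ∈ Finset.range (2 * p + 1),
          (A k * ser A g ^ (2 * p - i) * A k * ser A g ^ i).trace
          ≤ (2 * p + 1 : ℕ) * (A k * A k * ser A g ^ (2 * p)).trace := fun k => by
        refine (Finset.sum_le_card_nsmul _ _ (A k * A k * ser A g ^ (2 * p)).trace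
          fun i hi' => ?_).trans_eq (by simp)
        rw [Finset.mem_range] at hi'
        have h := trace_sandwich (hA k) (ser_isSymm hA g) (j := 2 * p - i) (l := i)
          ⟨p, by omega⟩
        rwa [show 2 * p - i + i = 2 * p by omega] at h
      refine (Finset.sum_le_sum fun k _ => h2 k).trans ?_
      rw [← Finset.mul_sum, ← trace_sum, ← Finset.sum_mul, mul_assoc ((2 * p + 1 : ℕ) : ℝ)]
      exact mul_le_mul_of_nonneg_left (trace_mul_pow_le hV (ser_isSymm hA g) ⟨p, by omega⟩)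
        (Nat.cast_nonneg _)
    rw [show 2 * (p + 1) = 2 * p + 2 by ring]
    refine h1.trans ?_
    rw [show 2 * p + 2 - 1 = 2 * p + 1 by omega, Nat.doubleFactorial_add_one, Nat.cast_mul,
      pow_succ]
    refine (mul_le_mul_of_nonneg_left ih (by positivity)).trans_eq ?_
    ring

/-! ### Norms and dilation -/

/-- The quadratic form is at most the norm. -/
theorem dot_le_norm (V : Matrix ι ι ℝ) (v : ι → ℝ) : v ⬝ᵥ V *ᵥ v ≤ ‖V‖ * (v ⬝ᵥ v) := by
  set x : EuclideanSpace ℝ ι := WithLp.toLp 2 v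
  have h1 := real_inner_le_norm x (toEuclideanCLM (𝕜 := ℝ) V x)
  have h2 : ⟪x, toEuclideanCLM (𝕜 := ℝ) V x⟫ = v ⬝ᵥ V *ᵥ v := by
    simp [x, EuclideanSpace.inner_eq_star_dotProduct, dotProduct_comm]
  have h3 : ‖x‖ * ‖x‖ = v ⬝ᵥ v := by
    rw [← real_inner_self_eq_norm_mul_norm, EuclideanSpace.inner_eq_star_dotProduct]
    simp [x]
  rw [h2] at h1
  refine h1.trans ((mul_le_mul_of_nonneg_left ((toEuclideanCLM (𝕜 := ℝ) V).le_opNorm x)
    (norm_nonneg x)).trans_eq ?_)
  rw [← h3, ← cstar_norm_def]; ring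

/-- The trace of an even power dominates the norm. -/
theorem norm_pow_le_trace {X : Matrix ι ι ℝ} (hX : X.PosSemidef) {p : ℕ} (hp : 0 < p) :
    ‖X‖ ^ p ≤ (X ^ p).trace := by
  have hH := hX.isHermitian
  set l := hH.eigenvalues with hl
  have hs : X = Unitary.conjStarAlgAut ℝ (Matrix ι ι ℝ) hH.eigenvectorUnitary (diagonal l) := by
    simpa [hl] using hH.spectral_theorem
  have hl0 : ∀ a, 0 ≤ l a := fun a => hX.eigenvalues_nonneg a
  have hn : ‖X‖ = ‖l‖ := by
    rw [hs, Unitary.conjStarAlgAut_apply, ← Unitary.coe_star, CStarRing.norm_mul_coe_unitary,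
      CStarRing.norm_coe_unitary_mul, l2_opNorm_diagonal]
  rw [hn, hs, trace_pow_conj]
  rcases isEmpty_or_nonempty ι with h | h
  · have : l = 0 := Subsingleton.elim _ _
    simp [this, hp.ne']
  · obtain ⟨a, -, ha⟩ := Finset.exists_max_image Finset.univ l Finset.univ_nonempty
    have h1 : ‖l‖ ≤ l a := (pi_norm_le_iff_of_nonneg (hl0 a)).2 fun b => by
      rw [Real.norm_eq_abs, abs_of_nonneg (hl0 b)]; exact ha b (Finset.mem_univ b)
    exact (pow_le_pow_left₀ (norm_nonneg _) h1 p).trans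
      (Finset.single_le_sum (f := fun b => l b ^ p) (fun b _ => pow_nonneg (hl0 b) p)
        (Finset.mem_univ a))

/-- Operator norm moments of a Gaussian series of rectangular matrices. -/
theorem norm_moment_rect (B : Fin n → Matrix ι κ ℝ) {σ : ℝ}
    (h1 : ‖∑ k, B k * (B k)ᵀ‖ ≤ σ ^ 2) (h2 : ‖∑ k, (B k)ᵀ * B k‖ ≤ σ ^ 2) {p : ℕ} (hp : 0 < p) :
    ∫ g, ‖ser B g‖ ^ (2 * p) ∂gam n
      ≤ ((2 * p - 1)‼ : ℕ) * σ ^ (2 * p) * ((Fintype.card ι + Fintype.card κ : ℕ) / 2 : ℝ) := by
  set A : Fin n → Matrix (ι ⊕ κ) (ι ⊕ κ) ℝ := fun k => fromBlocks 0 (B k) (B k)ᵀ 0 with hA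
  have hAs : ∀ k, (A k).IsSymm := fun k => by
    simp [hA, IsSymm, fromBlocks_transpose]
  have hser : ∀ g, ser A g = fromBlocks 0 (ser B g) (ser B g)ᵀ 0 := fun g => by
    ext (i | i) (j | j) <;> simp [ser, hA, Matrix.sum_apply]
  have hV : ∀ v, v ⬝ᵥ (∑ k, A k * A k) *ᵥ v ≤ σ ^ 2 * (v ⬝ᵥ v) := by
    intro v
    have e : ∑ k, A k * A k
        = fromBlocks (∑ k, B k * (B k)ᵀ) 0 0 (∑ k, (B k)ᵀ * B k) := by
      ext (i | i) (j | j) <;> simp [hA, fromBlocks_multiply, Matrix.sum_apply]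
    have es : ∀ w : ι ⊕ κ → ℝ, v ⬝ᵥ w = (v ∘ Sum.inl) ⬝ᵥ (w ∘ Sum.inl)
        + (v ∘ Sum.inr) ⬝ᵥ (w ∘ Sum.inr) := fun w => by
      simp [dotProduct, Fintype.sum_sum_type]
    rw [e, es, es, fromBlocks_mulVec, mul_add]
    simp only [zero_mulVec, add_zero, zero_add, Sum.elim_comp_inl, Sum.elim_comp_inr]
    exact add_le_add
      ((dot_le_norm _ _).trans (mul_le_mul_of_nonneg_right h1 (Finset.sum_nonneg fun i _ =>
        mul_self_nonneg _)))
      ((dot_le_norm _ _).trans (mul_le_mul_of_nonneg_right h2 (Finset.sum_nonneg fun i _ =>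
        mul_self_nonneg _)))
  have hm := trace_moment hAs hV (sq_nonneg σ) p
  rw [Fintype.card_sum, ← pow_mul] at hm
  have hpt : ∀ g, 2 * ‖ser B g‖ ^ (2 * p) ≤ (ser A g ^ (2 * p)).trace := by
    intro g
    set M := ser B g
    rw [hser g, pow_mul (fromBlocks _ _ _ _), sq (fromBlocks _ _ _ _), fromBlocks_multiply]
    simp only [Matrix.zero_mul, Matrix.mul_zero, zero_add, add_zero]
    rw [fromBlocks_diagonal_pow, trace, Fintype.sum_sum_type, two_mul]
    simp only [diag_apply, fromBlocks_apply₁₁, fromBlocks_apply₂₂]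
    have e1 : ‖M‖ ^ (2 * p) = ‖Mᵀ * M‖ ^ p := by
      rw [← conjTranspose_eq_transpose_of_trivial, l2_opNorm_conjTranspose_mul_self, pow_mul, sq]
    have e2 : ‖M‖ ^ (2 * p) = ‖M * Mᵀ‖ ^ p := by
      have h := l2_opNorm_conjTranspose_mul_self Mᴴ
      rw [conjTranspose_conjTranspose, l2_opNorm_conjTranspose] at h
      rw [← conjTranspose_eq_transpose_of_trivial, h, pow_mul, sq]
    refine add_le_add ?_ ?_
    · rw [e2]
      exact norm_pow_le_trace (by simpa [conjTranspose_eq_transpose_of_trivial] using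
        posSemidef_self_mul_conjTranspose M) hp
    · rw [e1]
      exact norm_pow_le_trace (by simpa [conjTranspose_eq_transpose_of_trivial] using
        posSemidef_conjTranspose_mul_self M) hp
  have hi : Integrable (fun g => ‖ser B g‖ ^ (2 * p)) (gam n) := by
    have := continuous_ser B
    refine P245.Tame.integrable
      (tame_of_poly (C := (∑ k, ‖B k‖) ^ (2 * p)) (m := 2 * p) fun g => ?_)
      (by fun_prop)
    rw [abs_of_nonneg (by positivity), ← mul_pow]
    exact pow_le_pow_left₀ (norm_nonneg _) (norm_ser_le B g) _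
  have h3 := integral_mono (hi.const_mul 2) (integrable_trace_pow A _) hpt
  rw [integral_const_mul] at h3
  linarith

/-- Operator norm moments of a Gaussian series of square matrices. -/
theorem norm_moment {d : ℕ} (B : Fin n → Matrix (Fin d) (Fin d) ℝ) {σ : ℝ}
    (h1 : ‖∑ k, B k * (B k)ᵀ‖ ≤ σ ^ 2) (h2 : ‖∑ k, (B k)ᵀ * B k‖ ≤ σ ^ 2) {p : ℕ} (hp : 0 < p) :
    ∫ g, ‖ser B g‖ ^ (2 * p) ∂gam n ≤ ((2 * p - 1)‼ : ℕ) * σ ^ (2 * p) * d := by
  refine (norm_moment_rect B h1 h2 hp).trans_eq ?_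
  rw [Fintype.card_fin]; push_cast; ring

theorem doubleFactorial_le (p : ℕ) : ((2 * p - 1)‼ : ℕ) ≤ (2 * p) ^ p := by
  induction p with
  | zero => simp
  | succ p ih =>
    rw [show 2 * (p + 1) - 1 = 2 * p + 1 by omega, Nat.doubleFactorial_add_one, pow_succ']
    exact Nat.mul_le_mul (by omega) (ih.trans (Nat.pow_le_pow_left (by omega) p))

/-- The `L^(2p)` norm of the operator norm of a Gaussian series. -/
theorem norm_moment_root {d : ℕ} (B : Fin n → Matrix (Fin d) (Fin d) ℝ) {σ : ℝ} (hσ : 0 ≤ σ)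
    (h1 : ‖∑ k, B k * (B k)ᵀ‖ ≤ σ ^ 2) (h2 : ‖∑ k, (B k)ᵀ * B k‖ ≤ σ ^ 2) {p : ℕ} (hp : 0 < p) :
    (∫ g, ‖ser B g‖ ^ (2 * p) ∂gam n) ^ (1 / (2 * p) : ℝ)
      ≤ √(2 * p) * (d : ℝ) ^ (1 / (2 * p) : ℝ) * σ := by
  have h := (norm_moment B h1 h2 hp).trans (mul_le_mul_of_nonneg_right (mul_le_mul_of_nonneg_right
    (by exact_mod_cast doubleFactorial_le p : (((2 * p - 1)‼ : ℕ) : ℝ) ≤ (2 * (p : ℝ)) ^ p)
    (by positivity)) (Nat.cast_nonneg d))
  refine (Real.rpow_le_rpow (integral_nonneg fun g => by positivity) h (by positivity)).trans_eq ?_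
  have h0 : (0 : ℝ) ≤ 2 * p := by positivity
  rw [Real.mul_rpow (by positivity) (Nat.cast_nonneg d),
    Real.mul_rpow (by positivity) (by positivity)]
  have e : (1 / (2 * p) : ℝ) = (((2 * p : ℕ) : ℝ))⁻¹ := by push_cast; ring
  rw [mul_right_comm]
  congr 1
  · congr 1
    rw [← Real.sq_sqrt h0, ← pow_mul, Real.sq_sqrt h0, e,
      Real.pow_rpow_inv_natCast (Real.sqrt_nonneg _) (by omega)]
  · rw [e, Real.pow_rpow_inv_natCast hσ (by omega)]

/-- `norm_moment` for continuous linear maps of Euclidean space. -/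
theorem norm_moment_clm {d : ℕ} (T : Fin n → (Space d →L[ℝ] Space d)) {σ : ℝ}
    (h1 : ‖∑ k, T k * star (T k)‖ ≤ σ ^ 2) (h2 : ‖∑ k, star (T k) * T k‖ ≤ σ ^ 2) {p : ℕ}
    (hp : 0 < p) :
    ∫ g, ‖∑ k, g k • T k‖ ^ (2 * p) ∂gam n ≤ ((2 * p - 1)‼ : ℕ) * σ ^ (2 * p) * d := by
  set Φ := toEuclideanCLM (n := Fin d) (𝕜 := ℝ)
  have hn : ∀ M : Matrix (Fin d) (Fin d) ℝ, ‖Φ M‖ = ‖M‖ := fun M => (cstar_norm_def M).symm
  have hT : ∀ M : Matrix (Fin d) (Fin d) ℝ, Mᵀ = star M := fun M => by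
    rw [star_eq_conjTranspose, conjTranspose_eq_transpose_of_trivial]
  refine le_of_eq_of_le ?_ (norm_moment (fun k => Φ.symm (T k)) (σ := σ) ?_ ?_ hp)
  · refine integral_congr_ae (ae_of_all _ fun g => ?_)
    simp [← hn, ser, map_sum]
  · simpa [← hn, hT, map_sum, map_star] using h1
  · simpa [← hn, hT, map_sum, map_star] using h2

end Vale.Agent.P347.Zero
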