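import Vale.Agent.P347.Zero.Tensor

/-!
The posterior mean of the gradient as a function of the pair (variance, centre): joint smoothness on
positive variances, the heat identity of the unnormalised averages and the viscous Burgers equation.
-/

noncomputable section

open MeasureTheory Filter Topology Set
open scoped RealInnerProductSpace ContDiff

namespace Vale.Agent.P347.Zero

variable {d : ℕ} {h : ℝ}

/-- Positive variances. -/
def posV (d : ℕ) : Set (ℝ × Space d) := {q | 0 < q.1}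

theorem isOpen_posV : IsOpen (posV d) := isOpen_lt continuous_const continuous_fst

/-- The unnormalised heat kernel. -/
def kern (q : ℝ × Space d) (x : Space d) : ℝ := Real.exp (-(‖x - q.2‖ ^ 2 / (2 * q.1)))

/-- The unnormalised Gaussian average. -/
def Jk (G : Space d → ℝ) (q : ℝ × Space d) : ℝ := ∫ x, G x * kern q x

theorem integrable_expo {b : ℝ} (hb : 0 < b) (c : ℝ) :
    Integrable fun x : Space d => Real.exp (c * ‖x‖) * Real.exp (-b * ‖x‖ ^ 2) := by
  have h0 : Integrable fun x : Space d => Real.exp (-(b / 2) * ‖x‖ ^ 2) := by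
    by_contra hc
    have := GaussianFourier.integral_rexp_neg_mul_sq_norm (V := Space d) (show 0 < b / 2 by linarith)
    rw [integral_undef hc] at this
    exact absurd this.symm (by positivity)
  refine Integrable.mono' (h0.const_mul (Real.exp (c ^ 2 / (2 * b)))) (by fun_prop)
    (ae_of_all _ fun x => ?_)
  rw [Real.norm_eq_abs, abs_of_pos (by positivity), ← Real.exp_add, ← Real.exp_add]
  refine Real.exp_le_exp.2 ?_
  have := sq_nonneg (b * ‖x‖ - c)
  have e : c ^ 2 / (2 * b) * (2 * b) = c ^ 2 := div_mul_cancel₀ _ (by positivity)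
  nlinarith

theorem kern_le {q q₀ : ℝ × Space d} (h1 : q₀.1 / 2 < q.1) (h2 : q.1 < 2 * q₀.1)
    (h3 : ‖q.2‖ ≤ ‖q₀.2‖ + q₀.1) (h0 : 0 < q₀.1) (x : Space d) :
    kern q x ≤ Real.exp ((‖q₀.2‖ + q₀.1) ^ 2 / (4 * q₀.1)) *
      Real.exp (-(1 / (8 * q₀.1)) * ‖x‖ ^ 2) := by
  rw [kern, ← Real.exp_add]
  refine Real.exp_le_exp.2 ?_
  have ha : ‖x - q.2‖ ^ 2 / (4 * q₀.1) ≤ ‖x - q.2‖ ^ 2 / (2 * q.1) :=
    div_le_div_of_nonneg_left (sq_nonneg _) (by linarith) (by linarith)
  have hb : ‖x‖ ^ 2 / 2 ≤ ‖x - q.2‖ ^ 2 + ‖q.2‖ ^ 2 := by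
    have := norm_add_le (x - q.2) q.2
    rw [sub_add_cancel] at this
    nlinarith [sq_nonneg (‖x - q.2‖ - ‖q.2‖), norm_nonneg x]
  have hc : ‖q.2‖ ^ 2 ≤ (‖q₀.2‖ + q₀.1) ^ 2 := pow_le_pow_left₀ (norm_nonneg _) h3 2
  have hd : ‖x‖ ^ 2 / 2 / (4 * q₀.1) ≤
      ‖x - q.2‖ ^ 2 / (4 * q₀.1) + (‖q₀.2‖ + q₀.1) ^ 2 / (4 * q₀.1) := by
    rw [← add_div]
    exact div_le_div_of_nonneg_right (by linarith) (by linarith)
  have he : ‖x‖ ^ 2 / 2 / (4 * q₀.1) = 1 / (8 * q₀.1) * ‖x‖ ^ 2 := by field_simp; ring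
  linarith

theorem tame_kern {G : Space d → ℝ} (hm : Measurable G) (hG : Tame G) {q : ℝ × Space d}
    (hq : 0 < q.1) : Integrable fun x => G x * kern q x := by
  obtain ⟨A, c, hA⟩ := hG
  refine Integrable.mono' ((integrable_expo (show 0 < 1 / (8 * q.1) by positivity) c).const_mul
    (|A| * Real.exp ((‖q.2‖ + q.1) ^ 2 / (4 * q.1))))
    ((hm.mul (by unfold kern; fun_prop)).aestronglyMeasurable) (ae_of_all _ fun x => ?_)
  have hk := kern_le (q := q) (q₀ := q) (by linarith) (by linarith) (by linarith) hq x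
  rw [Real.norm_eq_abs, abs_mul, abs_of_pos (show 0 < kern q x from Real.exp_pos _)]
  refine (mul_le_mul ((hA x).trans (mul_le_mul_of_nonneg_right (le_abs_self A) (Real.exp_pos _).le))
    hk (Real.exp_pos _).le (by positivity)).trans_eq ?_
  ring

/-- The derivative of the kernel in (variance, centre). -/
def kern' (q : ℝ × Space d) (x : Space d) : ℝ × Space d →L[ℝ] ℝ :=
  kern q x • ((‖x - q.2‖ ^ 2 / (2 * q.1 ^ 2)) • ContinuousLinearMap.fst ℝ ℝ (Space d) +
    (q.1⁻¹) • (innerSL ℝ (x - q.2)).comp (ContinuousLinearMap.snd ℝ ℝ (Space d)))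

theorem hasFDerivAt_kern {q : ℝ × Space d} (hq : 0 < q.1) (x : Space d) :
    HasFDerivAt (fun p => kern p x) (kern' q x) q := by
  have h1 : HasFDerivAt (fun p : ℝ × Space d => ‖x - p.2‖ ^ 2) _ q :=
    (hasFDerivAt_snd.const_sub x).norm_sq
  have h2 : HasFDerivAt (fun p : ℝ × Space d => 2 * p.1) _ q := (hasFDerivAt_fst (𝕜 := ℝ) (p := q)).const_mul 2
  have h3 := (h1.fun_mul ((hasDerivAt_inv (show (2 * q.1) ≠ 0 by positivity)).comp_hasFDerivAt q
    h2)).neg.exp
  simp only [Function.comp_apply, ← div_eq_mul_inv] at h3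
  refine h3.congr_fderiv ?_
  refine ContinuousLinearMap.ext fun v => ?_
  simp [kern', kern]
  field_simp
  ring

theorem hasFDerivAt_Jk {G : Space d → ℝ} (hm : Measurable G) (hG : Tame G) {q : ℝ × Space d}
    (hq : 0 < q.1) :
    HasFDerivAt (Jk G) (∫ x, G x • kern' q x) q ∧ Integrable fun x => G x • kern' q x := by
  obtain ⟨A, c, hA⟩ := hG
  set v := q.1 with hv
  set E := Real.exp ((‖q.2‖ + v) ^ 2 / (4 * v)) with hE
  set R := ‖q.2‖ + v with hR
  set M := 2 / v ^ 2 + 2 / v with hM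
  have hR0 : 0 ≤ R := by positivity
  set bound := fun x : Space d => |A| * E * (M * (1 + R) ^ 2) *
    (Real.exp ((c + 2) * ‖x‖) * Real.exp (-(1 / (8 * v)) * ‖x‖ ^ 2)) with hbd
  have hbound : ∀ x, ∀ p ∈ Metric.ball q (v / 2), ‖G x • kern' p x‖ ≤ bound x := by
    intro x p hp
    rw [Metric.mem_ball, Prod.dist_eq, max_lt_iff, dist_eq_norm, dist_eq_norm, Real.norm_eq_abs,
      abs_lt] at hp
    have hp1 : v / 2 < p.1 := by linarith [hp.1.1]
    have hp2 : p.1 < 2 * v := by linarith [hp.1.2]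
    have hp3 : ‖p.2‖ ≤ R := by linarith [norm_le_norm_add_norm_sub' p.2 q.2]
    have hk := kern_le hp1 hp2 hp3 hq x
    rw [norm_smul, kern', norm_smul, Real.norm_eq_abs, Real.norm_eq_abs,
      abs_of_pos (show 0 < kern p x from Real.exp_pos _)]
    have hd : ‖x - p.2‖ ≤ (1 + R) * Real.exp ‖x‖ := by
      have := norm_sub_le x p.2
      nlinarith [Real.add_one_le_exp ‖x‖, norm_nonneg x]
    have hop : ‖(‖x - p.2‖ ^ 2 / (2 * p.1 ^ 2)) • ContinuousLinearMap.fst ℝ ℝ (Space d) +
        (p.1⁻¹) • (innerSL ℝ (x - p.2)).comp (ContinuousLinearMap.snd ℝ ℝ (Space d))‖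
        ≤ M * (1 + R) ^ 2 * Real.exp (2 * ‖x‖) := by
      refine (norm_add_le _ _).trans ?_
      have hpp : 0 < p.1 := by linarith
      rw [norm_smul, norm_smul, Real.norm_eq_abs, Real.norm_eq_abs,
        abs_of_nonneg (by positivity), abs_of_pos (inv_pos.2 hpp), hM, add_mul, add_mul]
      have hfst : ‖ContinuousLinearMap.fst ℝ ℝ (Space d)‖ ≤ 1 :=
        ContinuousLinearMap.norm_fst_le ..
      have hsnd : ‖ContinuousLinearMap.snd ℝ ℝ (Space d)‖ ≤ 1 :=
        ContinuousLinearMap.norm_snd_le ..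
      have hsq : ‖x - p.2‖ ^ 2 ≤ (1 + R) ^ 2 * Real.exp (2 * ‖x‖) := by
        refine (pow_le_pow_left₀ (norm_nonneg _) hd 2).trans_eq ?_
        rw [mul_pow, ← Real.exp_nat_mul]; norm_num
      have h1 : ‖x - p.2‖ ≤ (1 + R) ^ 2 * Real.exp (2 * ‖x‖) := by
        refine hd.trans (mul_le_mul (by nlinarith) (Real.exp_le_exp.2 (by
          linarith [norm_nonneg x])) (Real.exp_pos _).le (by positivity))
      refine add_le_add ?_ ?_
      · refine (mul_le_of_le_one_right (by positivity) hfst).trans ?_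
        rw [mul_assoc, show 2 / v ^ 2 = 1 / (2 * (v / 2) ^ 2) by field_simp, div_mul_eq_mul_div,
          one_mul]
        exact div_le_div₀ (by positivity) hsq (by positivity)
          (by nlinarith)
      · refine (mul_le_mul_of_nonneg_left ((ContinuousLinearMap.opNorm_comp_le _ _).trans
          (mul_le_of_le_one_right (norm_nonneg _) hsnd)) (by positivity)).trans ?_
        rw [innerSL_apply_norm, mul_assoc, show (2 / v) = (v / 2)⁻¹ by rw [inv_div]]
        exact mul_le_mul ((inv_le_inv₀ hpp (by linarith)).2 hp1.le) h1 (norm_nonneg _) (by positivity)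
    refine (mul_le_mul ((hA x).trans (mul_le_mul_of_nonneg_right (le_abs_self A)
      (Real.exp_pos _).le)) (mul_le_mul hk hop (norm_nonneg _) (by positivity))
      (mul_nonneg (Real.exp_pos _).le (norm_nonneg _)) (by positivity)).trans_eq ?_
    simp only [hbd, hE, hR, hv]
    rw [add_mul c 2 ‖x‖, Real.exp_add]
    ring
  have hint : Integrable bound := (integrable_expo (by positivity) _).const_mul _
  have hmeas : AEStronglyMeasurable (fun x => G x • kern' q x) volume :=
    hm.aestronglyMeasurable.smul (by unfold kern' kern; fun_prop :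
      Continuous fun x => kern' q x).aestronglyMeasurable
  have hball : Metric.ball q (v / 2) ∈ 𝓝 q := Metric.ball_mem_nhds _ (by positivity)
  refine ⟨hasFDerivAt_integral_of_dominated_of_fderiv_le (F := fun p x => G x * kern p x)
    (bound := bound) hball
    (Eventually.of_forall fun p => (hm.mul (by unfold kern; fun_prop)).aestronglyMeasurable)
    (tame_kern hm ⟨A, c, hA⟩ hq) hmeas (ae_of_all _ hbound) hint (ae_of_all _ fun x p hp => ?_),
    hint.mono' hmeas (ae_of_all _ fun x => hbound x q (Metric.mem_ball_self (by positivity)))⟩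
  rw [Metric.mem_ball, Prod.dist_eq, max_lt_iff, dist_eq_norm, Real.norm_eq_abs, abs_lt] at hp
  exact (hasFDerivAt_kern (by linarith [hp.1.1]) x).const_mul (G x)

theorem fderiv_Jk {G : Space d → ℝ} (hm : Measurable G) (hG : Tame G) {q : ℝ × Space d}
    (hq : 0 < q.1) (t : ℝ) (e : Space d) :
    fderiv ℝ (Jk G) q (t, e) = t * (2 * q.1 ^ 2)⁻¹ *
        ((∑ i, Jk (fun x => G x * (x i * x i)) q) - 2 * (∑ i, q.2 i * Jk (fun x => G x * x i) q)
          + ‖q.2‖ ^ 2 * Jk G q)
      + q.1⁻¹ * ((∑ i, e i * Jk (fun x => G x * x i) q) - ⟪q.2, e⟫ * Jk G q) := by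
  have i0 := tame_kern hm hG hq
  have i1 : ∀ i, Integrable fun x => G x * x i * kern q x := fun i =>
    tame_kern (hm.mul (by fun_prop)) (tame_mul hG (tame_of_grow (grow_coord i))) hq
  have i2 : ∀ i, Integrable fun x => G x * (x i * x i) * kern q x := fun i =>
    tame_kern (hm.mul (by fun_prop))
      (tame_mul hG (tame_of_grow (grow_mul (grow_coord i) (grow_coord i)))) hq
  obtain ⟨hD, hI⟩ := hasFDerivAt_Jk hm hG hq
  rw [hD.fderiv, ContinuousLinearMap.integral_apply hI]
  simp only [Jk]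
  have j2 : Integrable fun x => ∑ i, G x * (x i * x i) * kern q x :=
    integrable_finsetSum _ fun i _ => i2 i
  have j1 : ∀ w : Space d, Integrable fun x => ∑ i, w i * (G x * x i * kern q x) := fun w =>
    integrable_finsetSum _ fun i _ => (i1 i).const_mul _
  have k1 : ∀ w : Space d,
      ∫ x, ∑ i, w i * (G x * x i * kern q x) = ∑ i, w i * ∫ x, G x * x i * kern q x := fun w => by
    rw [integral_finsetSum _ fun i _ => (i1 i).const_mul _]
    simp only [integral_const_mul]
  have ja : Integrable fun x => ∑ i, G x * (x i * x i) * kern q x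
      - 2 * ∑ i, q.2 i * (G x * x i * kern q x) := j2.sub ((j1 q.2).const_mul 2)
  have jb : Integrable fun x => ∑ i, G x * (x i * x i) * kern q x
      - 2 * ∑ i, q.2 i * (G x * x i * kern q x) + ‖q.2‖ ^ 2 * (G x * kern q x) :=
    ja.add (i0.const_mul _)
  have jc : Integrable fun x => ∑ i, e i * (G x * x i * kern q x) - ⟪q.2, e⟫ * (G x * kern q x) :=
    (j1 e).sub (i0.const_mul _)
  rw [← integral_finsetSum _ fun i _ => i2 i, ← k1, ← k1, ← integral_const_mul 2,
    ← integral_const_mul (‖q.2‖ ^ 2), ← integral_sub j2 ((j1 q.2).const_mul 2),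
    ← integral_add ja (i0.const_mul _), ← integral_const_mul ⟪q.2, e⟫,
    ← integral_sub (j1 e) (i0.const_mul _), ← integral_const_mul, ← integral_const_mul,
    ← integral_add (jb.const_mul _) (jc.const_mul _)]
  refine integral_congr_ae (ae_of_all _ fun x => ?_)
  have e1 : ‖x - q.2‖ ^ 2 = ∑ i, x i * x i - 2 * ∑ i, q.2 i * x i + ‖q.2‖ ^ 2 := by
    rw [norm_sub_sq_real, EuclideanSpace.real_norm_sq_eq x, PiLp.inner_apply]
    simp [sq, mul_comm]
  have e2 : ⟪x - q.2, e⟫ = ∑ i, e i * x i - ⟪q.2, e⟫ := by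
    rw [inner_sub_left, PiLp.inner_apply]
    simp [mul_comm]
  have f2 : ∑ i, G x * (x i * x i) * kern q x = G x * kern q x * ∑ i, x i * x i := by
    rw [Finset.mul_sum]; exact Finset.sum_congr rfl fun i _ => by ring
  have f1 : ∀ w : Space d,
      ∑ i, w i * (G x * x i * kern q x) = G x * kern q x * ∑ i, w i * x i := fun w => by
    rw [Finset.mul_sum]; exact Finset.sum_congr rfl fun i _ => by ring
  simp only [f2, f1, kern', ContinuousLinearMap.smul_apply, ContinuousLinearMap.add_apply,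
    ContinuousLinearMap.comp_apply, ContinuousLinearMap.coe_fst', ContinuousLinearMap.coe_snd',
    innerSL_apply_apply, smul_eq_mul, e1, e2]
  ring

theorem contDiffOn_Jk : ∀ (k : ℕ) {G : Space d → ℝ}, Measurable G → Tame G →
    ContDiffOn ℝ k (Jk G) (posV d) := by
  intro k
  induction k with
  | zero =>
    exact fun hm hG => contDiffOn_zero.2 fun q hq =>
      (hasFDerivAt_Jk hm hG hq).1.continuousAt.continuousWithinAt
  | succ k ih =>
    intro G hm hG
    rw [Nat.cast_succ, contDiffOn_succ_iff_fderiv_of_isOpen isOpen_posV]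
    refine ⟨fun q hq => (hasFDerivAt_Jk hm hG hq).1.differentiableAt.differentiableWithinAt,
      fun h => absurd h (by simp), contDiffOn_clm_apply.2 fun w => ?_⟩
    refine ContDiffOn.congr ?_ fun q hq => fderiv_Jk hm hG hq w.1 w.2
    have c2 : ∀ i, ContDiffOn ℝ k (Jk fun x => G x * (x i * x i)) (posV d) := fun i =>
      ih (hm.mul (by fun_prop)) (tame_mul hG (tame_of_grow (grow_mul (grow_coord i) (grow_coord i))))
    have c1 : ∀ i, ContDiffOn ℝ k (Jk fun x => G x * x i) (posV d) := fun i =>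
      ih (hm.mul (by fun_prop)) (tame_mul hG (tame_of_grow (grow_coord i)))
    have c0 := ih hm hG
    have cv : ContDiffOn ℝ k (fun q : ℝ × Space d => (2 * q.1 ^ 2)⁻¹) (posV d) :=
      (contDiffOn_const.mul (contDiffOn_fst.pow 2)).inv fun q (hq : 0 < q.1) => by positivity
    have cu : ContDiffOn ℝ k (fun q : ℝ × Space d => q.1⁻¹) (posV d) :=
      contDiffOn_fst.inv fun q (hq : 0 < q.1) => hq.ne'
    have ci : ∀ i, ContDiffOn ℝ k (fun q : ℝ × Space d => q.2 i) (posV d) := fun i =>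
      ((EuclideanSpace.proj (𝕜 := ℝ) i).contDiff.comp contDiff_snd).contDiffOn
    exact (((contDiffOn_const.mul cv).mul (((ContDiffOn.sum fun i _ => c2 i).sub
      (contDiffOn_const.mul (ContDiffOn.sum fun i _ => (ci i).mul (c1 i)))).add
        ((contDiffOn_snd.norm_sq ℝ).mul c0)))).add
      (cu.mul ((ContDiffOn.sum fun i _ => contDiffOn_const.mul (c1 i)).sub
        ((contDiffOn_snd.inner ℝ contDiffOn_const).mul c0)))

end Vale.Agent.P347.Zero
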