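import Vale.Agent.P347.Zero.DriftFl
import Vale.Agent.P347.Zero.TrajReg

/-!
The bound on every derivative along the flow, with the class generated by block A.
-/

noncomputable section

open MeasureTheory Filter Topology Set
open scoped RealInnerProductSpace ContDiff

namespace Vale.Agent.P347.Zero

/-- The `n`-th derivative of the drift along the flow has squared mean at most
`C (d + 1 + ‖g 0‖²) (1 - r²)^(-2n)` under the law of the channel. -/
theorem drift_flow_sq (n : ℕ) : ∃ C : ℝ, 0 ≤ C ∧ ∀ (d : ℕ) (h : ℝ) (P : Pot d h), h ≤ 1 →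
    ∀ r : ℝ, ∀ hr : r ∈ Ioo (-1 : ℝ) 1,
      ∫ y, hsT (drN n (cmpF Uf) d h P (r, y)) ∂mu (potR P r hr)
        ≤ C * siz P * ((1 - r ^ 2)⁻¹) ^ (2 * n) := by
  obtain ⟨C, hC, hb⟩ := (drift_flow_bound fl_Kf n).2
  refine ⟨C, hC, fun d h P hh r hr => ((hb d h P hh r hr).2).trans_eq ?_⟩
  rw [wgt, ← pow_mul, mul_comm (2 * n) 2, pow_mul, inv_pow, Real.sq_sqrt (var_pos hr).le]

end Vale.Agent.P347.Zero
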