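import Vale.Agent.P347.Zero.Burgers
import Vale.Agent.P347.ChainContract

/-!
The law of the channel `r x + √(1 - r²) z` as a tilted Gaussian, and the first derivative of the
drift: symmetric, monotone, bounded by `h`.
-/

noncomputable section

open MeasureTheory Filter Topology Set
open scoped RealInnerProductSpace ContDiff

namespace Vale.Agent.P347.Zero

variable {d : ℕ} {h : ℝ}

/-- The drift as a vector. -/
def driftV (P : Pot d h) (q : ℝ × Space d) : Space d :=
  (EuclideanSpace.equiv (Fin d) ℝ).symm fun i => drift P i q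

theorem driftV_apply (P : Pot d h) (q : ℝ × Space d) (i : Fin d) : driftV P q i = drift P i q := rfl

theorem inner_driftV (P : Pot d h) {v : ℝ} (w a : Space d) :
    ⟪w, driftV P (v, a)⟫ = post P v (fun x => ⟪w, P.g x⟫) a := by
  have i1 : ∀ i, Integrable (fun x => P.g (a + Real.sqrt v • x) i) (mu (P.aff a (Real.sqrt v))) :=
    fun i => mu_int ((measurable_gcoord P i).comp (by fun_prop))
      (grow_comp (grow_gcoord P i) a _)
  simp only [post, PiLp.inner_apply, RCLike.inner_apply, conj_trivial, driftV_apply, drift]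
  rw [integral_finsetSum _ fun i _ => (i1 i).mul_const _]
  exact Finset.sum_congr rfl fun i _ => (integral_mul_const _ _).symm

theorem contDiff_driftV (P : Pot d h) {v : ℝ} (hv : 0 < v) (k : ℕ) :
    ContDiff ℝ k fun a => driftV P (v, a) :=
  contDiff_euclidean.2 fun i =>
    (contDiffOn_drift P i k).comp_contDiff (contDiff_const.prodMk contDiff_id) fun _ => hv

/-- The covariance form of the derivative. -/
theorem inner_fderiv_driftV (P : Pot d h) {v : ℝ} (hv : 0 < v) (a e w : Space d) :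
    ⟪w, fderiv ℝ (fun b => driftV P (v, b)) a e⟫ =
      cov (mu (P.aff a (Real.sqrt v))) (fun ξ => ⟪w, P.g (a + Real.sqrt v • ξ)⟫) (fun ξ => ⟪e, ξ⟫)
        / Real.sqrt v := by
  have hd : DifferentiableAt ℝ (fun b => driftV P (v, b)) a :=
    ((contDiff_driftV P hv 1).differentiable (by simp)).differentiableAt
  have h1 : fderiv ℝ (fun b => ⟪w, driftV P (v, b)⟫) a e
      = ⟪w, fderiv ℝ (fun b => driftV P (v, b)) a e⟫ := by
    rw [fderiv_inner_apply ℝ (differentiableAt_const w) hd]
    simp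
  rw [← h1, funext fun b => inner_driftV P w b]
  refine (postDeriv poincareMu d h P v hv _ (by
    have := P.smooth.continuous; fun_prop) ?_).2.1 a e
  exact ⟨‖w‖ * (‖P.g 0‖ + h), 1, fun x => by
    have := P.norm_g_le x
    have := norm_nonneg (P.g 0)
    have := norm_nonneg x
    rw [pow_one, Real.norm_eq_abs]
    refine (abs_real_inner_le_norm w (P.g x)).trans ?_
    rw [mul_assoc]
    refine mul_le_mul_of_nonneg_left ?_ (norm_nonneg w)
    nlinarith [P.h_nonneg]⟩

theorem gradBound_inner_g (P : Pot d h) (a w : Space d) (s : ℝ) :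
    GradBound (fun ξ => ⟪w, P.g (a + s • ξ)⟫) (‖w‖ * (h * |s|)) := fun x => by
  have h0 := P.h_nonneg
  refine norm_fderiv_le_of_lipschitz ℝ (C := ⟨‖w‖ * (h * |s|), by positivity⟩)
    (LipschitzWith.of_dist_le_mul fun y z => ?_)
  rw [dist_eq_norm, dist_eq_norm, Real.norm_eq_abs, ← inner_sub_right]
  refine (abs_real_inner_le_norm _ _).trans ?_
  show ‖w‖ * ‖P.g (a + s • y) - P.g (a + s • z)‖ ≤ ‖w‖ * (h * |s|) * ‖y - z‖
  rw [mul_assoc]
  refine mul_le_mul_of_nonneg_left ?_ (norm_nonneg w)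
  refine (P.lip _ _).trans_eq ?_
  rw [add_sub_add_left_eq_sub, ← smul_sub, norm_smul, Real.norm_eq_abs]
  ring

theorem gradBound_inner (e : Space d) : GradBound (fun ξ : Space d => ⟪e, ξ⟫) ‖e‖ := fun x => by
  have h1 : HasFDerivAt (fun ξ : Space d => ⟪e, ξ⟫) (innerSL ℝ e) x := (innerSL ℝ e).hasFDerivAt
  rw [h1.fderiv, innerSL_apply_norm]

/-- The derivative of the drift is bounded by `h`. -/
theorem norm_fderiv_driftV (P : Pot d h) {v : ℝ} (hv : 0 < v) (a : Space d) :
    ‖fderiv ℝ (fun b => driftV P (v, b)) a‖ ≤ h := by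
  have h0 := P.h_nonneg
  refine ContinuousLinearMap.opNorm_le_bound _ h0 fun e => ?_
  set u := fderiv ℝ (fun b => driftV P (v, b)) a e with hu
  have hs : 0 < Real.sqrt v := Real.sqrt_pos.2 hv
  set Q := P.aff a (Real.sqrt v)
  have hc : ContDiff ℝ 1 fun ξ => ⟪u, P.g (a + Real.sqrt v • ξ)⟫ :=
    contDiff_const.inner ℝ (P.smooth.comp (by fun_prop))
  have hgu := gradBound_inner_g P a u (Real.sqrt v)
  rw [abs_of_pos hs] at hgu
  have key : ‖u‖ ^ 2 ≤ ‖u‖ * (h * ‖e‖) := by
    rw [← real_inner_self_eq_norm_sq]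
    nth_rw 2 [hu]
    rw [inner_fderiv_driftV P hv a e u, div_le_iff₀ hs]
    refine (le_abs_self _).trans ((abs_cov_le Q hc.continuous.measurable
      (grow_of_fderiv hc ⟨_, 0, fun x => by simpa using hgu x⟩) (by fun_prop)
      (grow_inner e)).trans ?_)
    refine (Real.sqrt_le_sqrt (mul_le_mul (var_le_of_gradBound poincareMu Q hc hgu)
      (var_le_of_gradBound poincareMu Q (innerSL ℝ e).contDiff (gradBound_inner e))
      (var_nonneg _ _) (sq_nonneg _))).trans ?_
    rw [← mul_pow, Real.sqrt_sq (by positivity)]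
    exact le_of_eq (by ring)
  rcases (norm_nonneg u).lt_or_eq with hp | hp
  · exact le_of_mul_le_mul_left (by rw [← sq]; exact key) hp
  · rw [← hp]; positivity

/-- Stein's identity makes the derivative monotone. -/
theorem inner_fderiv_driftV_nonneg (P : Pot d h) {v : ℝ} (hv : 0 < v) (a e : Space d) :
    0 ≤ ⟪e, fderiv ℝ (fun b => driftV P (v, b)) a e⟫ := by
  rw [inner_fderiv_driftV P hv a e e]
  refine div_nonneg ?_ (Real.sqrt_nonneg _)
  set s := Real.sqrt v with hs
  have hs0 : 0 < s := Real.sqrt_pos.2 hv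
  set Q := P.aff a s with hQ
  have := mu_prob Q
  have hgm : Measurable fun ξ => ⟪e, P.g (a + s • ξ)⟫ := by
    have := P.smooth.continuous; fun_prop
  have hgg : Grow fun ξ => ⟪e, P.g (a + s • ξ)⟫ :=
    grow_of_fderiv (contDiff_const.inner ℝ (P.smooth.comp (by fun_prop)))
      ⟨_, 0, fun x => by simpa using gradBound_inner_g P a e s x⟩
  have hem : Measurable fun ξ : Space d => ⟪e, ξ⟫ := by fun_prop
  have hec : ∀ x : Space d, fderiv ℝ (fun ξ : Space d => ⟪e, ξ⟫) x e = ‖e‖ ^ 2 := fun x => by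
    have h1 : HasFDerivAt (fun ξ : Space d => ⟪e, ξ⟫) (innerSL ℝ e) x := (innerSL ℝ e).hasFDerivAt
    rw [h1.fderiv]
    simp [real_inner_self_eq_norm_sq]
  have hfg : Grow fun x : Space d => fderiv ℝ (fun ξ : Space d => ⟪e, ξ⟫) x :=
    ⟨‖e‖, 0, fun x => by simpa using gradBound_inner e x⟩
  have s1 := steinMu d _ Q (fun ξ => ⟪e, ξ⟫) e (innerSL ℝ e).contDiff hfg
  have s0 := steinMu d _ Q (fun _ => (1 : ℝ)) e contDiff_const ⟨0, 0, fun x => by simp⟩
  simp only [hec, integral_const, probReal_univ, one_smul] at s1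
  have i1 : Integrable (fun ξ => ⟪e, ξ⟫ * ⟪e, ξ⟫) (mu Q) :=
    mu_int (hem.mul hem) (grow_mul (grow_inner e) (grow_inner e))
  have i2 : Integrable (fun ξ => ⟪e, P.g (a + s • ξ)⟫ * ⟪e, ξ⟫) (mu Q) :=
    mu_int (hgm.mul hem) (grow_mul hgg (grow_inner e))
  have i3 : Integrable (fun ξ => ⟪e, ξ⟫) (mu Q) := mu_int hem (grow_inner e)
  have i4 : Integrable (fun ξ => ⟪e, P.g (a + s • ξ)⟫) (mu Q) := mu_int hgm hgg
  have e1 : ∀ x, ⟪e, x + Q.g x⟫ * ⟪e, x⟫ = ⟪e, x⟫ * ⟪e, x⟫ + s * (⟪e, P.g (a + s • x)⟫ * ⟪e, x⟫) :=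
    fun x => by simp only [hQ, Pot.aff, inner_add_right, real_inner_smul_right]; ring
  have e0 : ∀ x, ⟪e, x + Q.g x⟫ * 1 = ⟪e, x⟫ + s * ⟪e, P.g (a + s • x)⟫ :=
    fun x => by simp only [hQ, Pot.aff, inner_add_right, real_inner_smul_right]; ring
  simp only [e1] at s1
  simp only [e0, fderiv_fun_const, Pi.zero_apply, zero_apply, integral_zero] at s0
  rw [integral_add i1 (i2.const_mul s), integral_const_mul] at s1
  rw [integral_add i3 (i4.const_mul s), integral_const_mul] at s0
  have hv1 := var_le_of_gradBound poincareMu Q (innerSL ℝ e).contDiff (gradBound_inner e)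
  have hvar : var (mu Q) (fun ξ => ⟪e, ξ⟫) = cov (mu Q) (fun ξ => ⟪e, ξ⟫) fun ξ => ⟪e, ξ⟫ := by
    simp only [var, cov, sq]
  change var (mu Q) (fun ξ => ⟪e, ξ⟫) ≤ ‖e‖ ^ 2 at hv1
  rw [hvar, cov_eq Q hem (grow_inner e) hem (grow_inner e)] at hv1
  rw [cov_eq Q hgm hgg hem (grow_inner e)]
  set B := ∫ ξ, ⟪e, ξ⟫ ∂mu Q
  have : 0 ≤ s * ((∫ ξ, ⟪e, P.g (a + s • ξ)⟫ * ⟪e, ξ⟫ ∂mu Q) - (∫ ξ, ⟪e, P.g (a + s • ξ)⟫ ∂mu Q) * B) := by
    have h2 : s * (∫ ξ, ⟪e, P.g (a + s • ξ)⟫ ∂mu Q) = -B := by linarith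
    have h5 : s * ((∫ ξ, ⟪e, P.g (a + s • ξ)⟫ * ⟪e, ξ⟫ ∂mu Q)
        - (∫ ξ, ⟪e, P.g (a + s • ξ)⟫ ∂mu Q) * B)
        = ‖e‖ ^ 2 - ((∫ ξ, ⟪e, ξ⟫ * ⟪e, ξ⟫ ∂mu Q) - B * B) := by
      linear_combination s1 - B * h2
    rw [h5]
    linarith
  exact nonneg_of_mul_nonneg_right this hs0

/-- The derivative is symmetric. -/
theorem drift_symm (P : Pot d h) {q : ℝ × Space d} (hq : 0 < q.1) (b c : Fin d) :
    pD c (drift P b) q = pD b (drift P c) q := by
  set Z := Jk (dens P) with hZ
  have hz : 0 < Z q := Jk_dens_pos P hq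
  have hsm : ContDiffOn ℝ 2 Z (posV d) :=
    contDiffOn_Jk 2 (continuous_dens P).measurable (tame_dens P)
  have hZd : DifferentiableAt ℝ Z q := (hsm.differentiableOn two_ne_zero).differentiableAt
    (isOpen_posV.mem_nhds hq)
  have hfd : DifferentiableAt ℝ (fderiv ℝ Z) q :=
    ((hsm.fderiv_of_isOpen isOpen_posV (m := 1) le_rfl).differentiableOn
      one_ne_zero).differentiableAt (isOpen_posV.mem_nhds hq)
  have hU : ∀ i, DifferentiableAt ℝ (drift P i) q := fun i =>
    ((contDiffOn_drift P i 1).differentiableOn (by simp)).differentiableAt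
      (isOpen_posV.mem_nhds hq)
  have h2 : ∀ i j, pD j (pD i Z) q = -(pD j (drift P i) q * Z q + drift P i q * pD j Z q) := by
    intro i j
    have he : pD i Z =ᶠ[𝓝 q] fun p => -(drift P i p * Z p) :=
      Filter.eventuallyEq_of_mem (isOpen_posV.mem_nhds hq) fun p hp => pD_logZ P hp i
    show fderiv ℝ (pD i Z) q (0, ev j) = _
    rw [he.fderiv_eq, ((hU i).hasFDerivAt.fun_mul hZd.hasFDerivAt).fun_neg.fderiv]
    simp [pD]
    ring
  have h3 : pD c (pD b Z) q = pD b (pD c Z) q := by
    have e : ∀ u v : ℝ × Space d, fderiv ℝ (fun p => fderiv ℝ Z p v) q u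
        = fderiv ℝ (fderiv ℝ Z) q u v := fun u v => by
      rw [fderiv_clm_apply hfd (differentiableAt_const v)]
      simp
    show fderiv ℝ (fun p => fderiv ℝ Z p _) q _ = fderiv ℝ (fun p => fderiv ℝ Z p _) q _
    rw [e, e]
    exact (hsm.contDiffAt (isOpen_posV.mem_nhds hq)).isSymmSndFDerivAt (by simp) _ _
  rw [h2 b c, h2 c b, pD_logZ P hq c, pD_logZ P hq b] at h3
  have : (pD c (drift P b) q - pD b (drift P c) q) * Z q = 0 := by linarith
  have := (mul_eq_zero.1 this).resolve_right hz.ne'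
  linarith

theorem hasFDerivAt_driftV_symm (P : Pot d h) {v : ℝ} (hv : 0 < v) (a : Space d) (e w : Space d) :
    ⟪w, fderiv ℝ (fun b => driftV P (v, b)) a e⟫ = ⟪e, fderiv ℝ (fun b => driftV P (v, b)) a w⟫ := by
  have hd : DifferentiableAt ℝ (fun b => driftV P (v, b)) a :=
    ((contDiff_driftV P hv 1).differentiable (by simp)).differentiableAt
  have hi : ∀ i x, fderiv ℝ (fun b => driftV P (v, b)) a x i
      = fderiv ℝ (drift P i) (v, a) (0, x) := fun i x => by
    have h1 : HasFDerivAt (fun b => drift P i (v, b)) _ a :=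
      (((contDiffOn_drift P i 1).differentiableOn (by simp)).differentiableAt
        (isOpen_posV.mem_nhds (show 0 < (v, a).1 from hv))).hasFDerivAt.comp a
          ((hasFDerivAt_const v a).prodMk (hasFDerivAt_id a))
    have h2 : HasFDerivAt (fun b => driftV P (v, b) i) _ a :=
      (EuclideanSpace.proj (𝕜 := ℝ) i).hasFDerivAt.comp a hd.hasFDerivAt
    exact DFunLike.congr_fun (h2.unique h1) x
  have hex : ∀ i (x : Space d), fderiv ℝ (drift P i) (v, a) (0, x)
      = ∑ c, x c * pD c (drift P i) (v, a) := fun i x => by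
    conv_lhs => rw [show (0, x) = ∑ c, x c • ((0 : ℝ), ev c) by
      refine Prod.ext ?_ ?_
      · simp [Prod.fst_sum]
      · rw [Prod.snd_sum]
        simpa using ((EuclideanSpace.basisFun (Fin d) ℝ).sum_repr x).symm]
    rw [map_sum]
    refine Finset.sum_congr rfl fun c _ => ?_
    rw [map_smul, smul_eq_mul]
    rfl
  simp only [PiLp.inner_apply, RCLike.inner_apply, conj_trivial, hi, hex, Finset.sum_mul]
  rw [Finset.sum_comm]
  refine Finset.sum_congr rfl fun c _ => Finset.sum_congr rfl fun i _ => ?_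
  rw [drift_symm P (show 0 < (v, a).1 from hv) i c]
  ring

/-! ### The law of the channel -/

theorem var_pos {r : ℝ} (hr : r ∈ Ioo (-1 : ℝ) 1) : 0 < 1 - r ^ 2 := by nlinarith [hr.1, hr.2]

/-- The potential of the law of the channel. -/
def potR (P : Pot d h) (r : ℝ) (hr : r ∈ Ioo (-1 : ℝ) 1) : Pot d h where
  W y := -Real.log (Jk (dens P) (1 - r ^ 2, r • y))
  g y := r • driftV P (1 - r ^ 2, r • y)
  h_nonneg := P.h_nonneg
  grad y := by
    have hq : (0 : ℝ) < (1 - r ^ 2, r • y).1 := var_pos hr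
    have hz := Jk_dens_pos P hq
    have h1 : HasFDerivAt (fun z : Space d => (1 - r ^ 2, r • z)) _ y :=
      (hasFDerivAt_const (1 - r ^ 2) y).prodMk ((hasFDerivAt_id (𝕜 := ℝ) y).const_smul r)
    have h0 := HasFDerivAt.comp (g := Jk (dens P)) (f := fun z : Space d => (1 - r ^ 2, r • z)) y
      (differentiableAt_Jk (continuous_dens P).measurable (tame_dens P) hq).hasFDerivAt h1
    have h2 : HasFDerivAt (fun z : Space d => -Real.log (Jk (dens P) (1 - r ^ 2, r • z))) _ y :=
      (h0.log (show (Jk (dens P) ∘ fun z : Space d => (1 - r ^ 2, r • z)) y ≠ 0 from hz.ne')).neg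
    refine h2.congr_fderiv (ContinuousLinearMap.ext fun e => ?_)
    have hex : ((0 : ℝ), r • e) = ∑ c, (r * e c) • ((0 : ℝ), ev c) := by
      refine Prod.ext ?_ ?_
      · simp [Prod.fst_sum]
      · rw [Prod.snd_sum]
        simp only [Prod.smul_snd, mul_smul, ← Finset.smul_sum]
        simpa using congrArg (r • ·) ((EuclideanSpace.basisFun (Fin d) ℝ).sum_repr e).symm
    show -((Jk (dens P) (1 - r ^ 2, r • y))⁻¹ * fderiv ℝ (Jk (dens P)) (1 - r ^ 2, r • y)
      ((0 : ℝ), r • e)) = ⟪r • driftV P (1 - r ^ 2, r • y), e⟫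
    rw [hex, map_sum]
    simp only [map_smul, smul_eq_mul, PiLp.inner_apply, RCLike.inner_apply, conj_trivial,
      PiLp.smul_apply, driftV_apply, Finset.mul_sum, ← Finset.sum_neg_distrib]
    refine Finset.sum_congr rfl fun c _ => ?_
    rw [show fderiv ℝ (Jk (dens P)) (1 - r ^ 2, r • y) (0, ev c)
      = pD c (Jk (dens P)) (1 - r ^ 2, r • y) from rfl, pD_logZ P hq c]
    field_simp
  smooth := by
    have := (contDiff_driftV P (var_pos hr) 1).comp
      (show ContDiff ℝ 1 fun y : Space d => r • y by fun_prop)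
    exact this.const_smul r
  lip x y := by
    have h0 := P.h_nonneg
    have hlip := convex_univ.norm_image_sub_le_of_norm_fderiv_le
      (fun z _ => ((contDiff_driftV P (var_pos hr) 1).differentiable (by simp)) z)
      (fun z _ => norm_fderiv_driftV P (var_pos hr) z) (mem_univ (r • y)) (mem_univ (r • x))
    rw [← smul_sub, norm_smul, Real.norm_eq_abs]
    rw [← smul_sub, norm_smul, Real.norm_eq_abs] at hlip
    refine (mul_le_mul_of_nonneg_left hlip (abs_nonneg r)).trans ?_
    have : |r| * |r| ≤ 1 := by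
      rw [abs_mul_abs_self]; nlinarith [hr.1, hr.2]
    calc |r| * (h * (|r| * ‖x - y‖)) = |r| * |r| * (h * ‖x - y‖) := by ring
      _ ≤ 1 * (h * ‖x - y‖) := mul_le_mul_of_nonneg_right this (mul_nonneg h0 (norm_nonneg _))
      _ = h * ‖x - y‖ := one_mul _
  mono x y := by
    set f : ℝ → ℝ := fun t => ⟪driftV P (1 - r ^ 2, r • y + t • (r • x - r • y)), r • x - r • y⟫
    have hf : ∀ t, HasDerivAt f ⟪fderiv ℝ (fun b => driftV P (1 - r ^ 2, b))
        (r • y + t • (r • x - r • y)) (r • x - r • y), r • x - r • y⟫ t := by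
      intro t
      have h1 : HasDerivAt (fun t : ℝ => r • y + t • (r • x - r • y)) (r • x - r • y) t := by
        simpa using ((hasDerivAt_id t).smul_const (r • x - r • y)).const_add (r • y)
      have h2 : HasDerivAt (fun t : ℝ => driftV P (1 - r ^ 2, r • y + t • (r • x - r • y))) _ t :=
        (((contDiff_driftV P (var_pos hr) 1).differentiable (by simp))
          _).hasFDerivAt.comp_hasDerivAt t h1
      simpa using h2.inner ℝ (hasDerivAt_const t (r • x - r • y))
    have hmono : Monotone f := monotone_of_hasDerivAt_nonneg hf fun t => by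
      rw [real_inner_comm]; exact inner_fderiv_driftV_nonneg P (var_pos hr) _ _
    have := hmono (show (0 : ℝ) ≤ 1 by norm_num)
    simp only [f, zero_smul, add_zero, one_smul, add_sub_cancel] at this
    rw [← smul_sub, real_inner_smul_left, ← real_inner_smul_right, smul_sub, inner_sub_left]
    linarith

/-- The channel has the law `mu (potR P r)`, up to the normalisation. -/
theorem channel_law (P : Pot d h) {r : ℝ} (hr : r ∈ Ioo (-1 : ℝ) 1) {f : Space d → ℝ}
    (hf : Measurable f) (hfg : Grow f) :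
    ∫ x, ∫ z, f (r • x + Real.sqrt (1 - r ^ 2) • z) ∂gam d ∂mu P
      = ∫ y, f y ∂mu (potR P r hr) := by
  set s := Real.sqrt (1 - r ^ 2) with hs
  have hs0 : 0 < s := Real.sqrt_pos.2 (var_pos hr)
  have hrs : r ^ 2 + s ^ 2 = 1 := by rw [hs, Real.sq_sqrt (var_pos hr).le]; ring
  have main : ∀ {F : Space d → ℝ}, Measurable F → Grow F →
      ∫ x, dens P x * ∫ z, F (r • x + s • z) ∂gam d ∂gam d
        = ∫ u, F u * sm s (dens P) (r • u) ∂gam d := by
    intro F hF hFg
    have hT := rot_preserves (d := d) (p := r) (σ := -1) hs0.le hrs (Or.inr rfl)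
    set T : Space d × Space d → Space d × Space d :=
      fun q => (r • q.1 + s • q.2, (-1 : ℝ) • (-s • q.1 + r • q.2))
    have hT' : MeasurePreserving T ((gam d).prod (gam d)) ((gam d).prod (gam d)) := hT
    set H : Space d × Space d → ℝ := fun q => dens P q.1 * F (r • q.1 + s • q.2) with hH
    have hHm : Measurable H :=
      ((continuous_dens P).measurable.comp measurable_fst).mul (hF.comp (by fun_prop))
    have hHi : Integrable H ((gam d).prod (gam d)) := by
      obtain ⟨A, a, hA⟩ := tame_dens P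
      obtain ⟨B, b, hB⟩ := tame_of_grow hFg
      refine Integrable.mono' ((((P245.integrable_exp_norm (n := d) (a + |b|)).const_mul
        (|A| * |B|)).mul_prod (P245.integrable_exp_norm (n := d) |b|)))
        hHm.aestronglyMeasurable (ae_of_all _ fun q => ?_)
      rw [hH, Real.norm_eq_abs, abs_mul]
      have hn : b * ‖r • q.1 + s • q.2‖ ≤ |b| * ‖q.1‖ + |b| * ‖q.2‖ := by
        refine (mul_le_mul_of_nonneg_right (le_abs_self b) (norm_nonneg _)).trans ?_
        rw [← mul_add]
        refine mul_le_mul_of_nonneg_left ((norm_add_le _ _).trans ?_) (abs_nonneg b)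
        rw [norm_smul, norm_smul, Real.norm_eq_abs, Real.norm_eq_abs]
        refine add_le_add (mul_le_of_le_one_left (norm_nonneg _) ?_)
          (mul_le_of_le_one_left (norm_nonneg _) ?_)
        · exact abs_le.2 ⟨hr.1.le, hr.2.le⟩
        · rw [abs_of_pos hs0]; nlinarith [sq_nonneg r]
      refine (mul_le_mul ((hA _).trans (mul_le_mul_of_nonneg_right (le_abs_self A)
        (Real.exp_pos _).le)) ((hB _).trans (mul_le_mul (le_abs_self B) (Real.exp_le_exp.2 hn)
          (Real.exp_pos _).le (abs_nonneg B))) (abs_nonneg _) (by positivity)).trans_eq ?_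
      rw [Real.exp_add, add_mul, Real.exp_add]
      ring
    have e1 : ∫ x, dens P x * ∫ z, F (r • x + s • z) ∂gam d ∂gam d
        = ∫ q, H q ∂(gam d).prod (gam d) := by
      rw [integral_prod H hHi]
      exact integral_congr_ae (ae_of_all _ fun x => (integral_const_mul _ _).symm)
    have e2 : ∀ q : Space d × Space d, H (T q) = F q.1 * dens P (r • q.1 + s • q.2) := fun q => by
      have : r • (r • q.1 + s • q.2) + s • ((-1 : ℝ) • (-s • q.1 + r • q.2)) = q.1 := by
        simp only [smul_add, smul_smul]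
        calc (r * r) • q.1 + (r * s) • q.2 + ((s * (-1 * -s)) • q.1 + (s * (-1 * r)) • q.2)
            = (r * r + s * (-1 * -s)) • q.1 + (r * s + s * (-1 * r)) • q.2 := by
              rw [add_smul, add_smul]; abel
          _ = q.1 := by
              rw [show r * r + s * (-1 * -s) = 1 by linear_combination hrs,
                show r * s + s * (-1 * r) = 0 by ring, one_smul, zero_smul, add_zero]
      simp only [hH, T, this]
      ring
    have hHT : Integrable (fun q => H (T q)) ((gam d).prod (gam d)) :=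
      (hT'.integrable_comp hHm.aestronglyMeasurable).2 hHi
    have e3 : ∫ q, H q ∂(gam d).prod (gam d) = ∫ q, H (T q) ∂(gam d).prod (gam d) := by
      have := integral_map (μ := (gam d).prod (gam d)) hT'.measurable.aemeasurable
        (f := H) hHm.aestronglyMeasurable
      rwa [hT'.map_eq] at this
    rw [e1, e3, integral_prod _ hHT]
    refine integral_congr_ae (ae_of_all _ fun u => ?_)
    show ∫ w, H (T (u, w)) ∂gam d = _
    simp only [e2, integral_const_mul]
    rfl
  set k := (√(2 * Real.pi))⁻¹ ^ d * ((Real.sqrt (1 - r ^ 2))⁻¹) ^ d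
  have hk : 0 < k := by positivity
  have hd : ∀ y, sm s (dens P) (r • y) = k * dens (potR P r hr) y := fun y => by
    rw [hs, sm_eq_Jk _ (var_pos hr)]
    simp only [dens, potR, neg_neg]
    rw [Real.exp_log (Jk_dens_pos P (var_pos hr))]
  have m1 := main hf hfg
  have m2 := main (F := fun _ => (1 : ℝ)) measurable_const ⟨1, 0, fun x => by simp⟩
  simp only [hd, integral_const, probReal_univ, one_smul, mul_one, one_mul, mul_left_comm _ k,
    integral_const_mul] at m1 m2
  rw [mu_integral, mu_integral, m1, m2, mul_div_mul_left _ _ hk.ne']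
  congr 1
  exact integral_congr_ae (ae_of_all _ fun y => mul_comm _ _)

end Vale.Agent.P347.Zero
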