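import Vale.Agent.P347.Zero.FamCalc
import Vale.Agent.P347.Zero.TrajPot

/-!
Scalar rules along the flow `dy/dr = -u(1 - r², r y)`: the derivative along the flow commutes with
the divergence of the channel law up to one insertion of the derivative of the drift.
-/

noncomputable section

open Filter Topology Set
open scoped RealInnerProductSpace ContDiff

namespace Vale.Agent.P347.Zero

variable {d : ℕ} {h : ℝ}

/-- Correlations in `(-1, 1)`. -/
def domR (d : ℕ) : Set (ℝ × Space d) := {q | q.1 ∈ Ioo (-1 : ℝ) 1}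

theorem isOpen_domR : IsOpen (domR d) := isOpen_Ioo.preimage continuous_fst

/-- From (correlation, point) to (variance, centre). -/
def chan (q : ℝ × Space d) : ℝ × Space d := (1 - q.1 ^ 2, q.1 • q.2)

theorem chan_pos {q : ℝ × Space d} (hq : q ∈ domR d) : 0 < (chan q).1 := var_pos hq

/-- Smooth of every order on the correlations in `(-1, 1)`. -/
def RSm (f : ℝ × Space d → ℝ) : Prop := ∀ k : ℕ, ContDiffOn ℝ k f (domR d)

theorem RSm.diff {f : ℝ × Space d → ℝ} (hf : RSm f) {q : ℝ × Space d} (hq : q ∈ domR d) :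
    DifferentiableAt ℝ f q :=
  ((hf 1).differentiableOn (by simp)).differentiableAt (isOpen_domR.mem_nhds hq)

theorem RSm.wD {f : ℝ × Space d → ℝ} (hf : RSm f) (w : ℝ × Space d) : RSm (Zero.wD w f) :=
  fun k => ((hf (k + 1)).fderiv_of_isOpen isOpen_domR (by norm_cast)).clm_apply contDiffOn_const

theorem RSm.pD {f : ℝ × Space d → ℝ} (hf : RSm f) (c : Fin d) : RSm (Zero.pD c f) := hf.wD _

theorem RSm.tD {f : ℝ × Space d → ℝ} (hf : RSm f) : RSm (Zero.tD f) := hf.wD _

theorem RSm.add {f g : ℝ × Space d → ℝ} (hf : RSm f) (hg : RSm g) : RSm fun q => f q + g q :=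
  fun k => (hf k).add (hg k)

theorem RSm.mul {f g : ℝ × Space d → ℝ} (hf : RSm f) (hg : RSm g) : RSm fun q => f q * g q :=
  fun k => (hf k).mul (hg k)

theorem RSm.neg {f : ℝ × Space d → ℝ} (hf : RSm f) : RSm fun q => -f q := fun k => (hf k).neg

theorem RSm.sum {ι : Type} [Fintype ι] {f : ι → ℝ × Space d → ℝ} (hf : ∀ i, RSm (f i)) :
    RSm fun q => ∑ i, f i q := fun k => ContDiffOn.sum fun i _ => hf i k

theorem RSm.congr {f g : ℝ × Space d → ℝ} (hf : RSm f)
    (he : ∀ q ∈ domR d, g q = f q) : RSm g := fun k => (hf k).congr fun q hq => he q hq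

theorem rsm_fst : RSm fun q : ℝ × Space d => q.1 := fun _ => contDiff_fst.contDiffOn

theorem rsm_const (a : ℝ) : RSm fun _ : ℝ × Space d => a := fun _ => contDiffOn_const

theorem rsm_coord (c : Fin d) : RSm fun q : ℝ × Space d => q.2 c :=
  fun _ => ((EuclideanSpace.proj (𝕜 := ℝ) c).contDiff.comp contDiff_snd).contDiffOn

theorem contDiff_chan (k : ℕ∞ω) : ContDiff ℝ k (chan : ℝ × Space d → ℝ × Space d) := by
  unfold chan; fun_prop

theorem CSm.chan {f : ℝ × Space d → ℝ} (hf : CSm f) : RSm fun q => f (Zero.chan q) :=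
  fun k => (hf k).comp (contDiff_chan k).contDiffOn fun _ hq => chan_pos hq

theorem rwD_congr {f g : ℝ × Space d → ℝ} (he : ∀ q ∈ domR d, f q = g q)
    {q : ℝ × Space d} (hq : q ∈ domR d) (w : ℝ × Space d) : wD w f q = wD w g q := by
  rw [wD, wD, (Filter.eventuallyEq_of_mem (isOpen_domR.mem_nhds hq) fun p hp => he p hp).fderiv_eq]

theorem rwD_add {f g : ℝ × Space d → ℝ} (hf : RSm f) (hg : RSm g) {q : ℝ × Space d}
    (hq : q ∈ domR d) (w : ℝ × Space d) :
    wD w (fun p => f p + g p) q = wD w f q + wD w g q := by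
  rw [wD, ((hf.diff hq).hasFDerivAt.fun_add (hg.diff hq).hasFDerivAt).fderiv]
  rfl

theorem rwD_neg {f : ℝ × Space d → ℝ} (hf : RSm f) {q : ℝ × Space d} (hq : q ∈ domR d)
    (w : ℝ × Space d) : wD w (fun p => -f p) q = -wD w f q := by
  rw [wD, (hf.diff hq).hasFDerivAt.fun_neg.fderiv]
  rfl

theorem rwD_mul {f g : ℝ × Space d → ℝ} (hf : RSm f) (hg : RSm g) {q : ℝ × Space d}
    (hq : q ∈ domR d) (w : ℝ × Space d) :
    wD w (fun p => f p * g p) q = wD w f q * g q + f q * wD w g q := by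
  rw [wD, ((hf.diff hq).hasFDerivAt.fun_mul (hg.diff hq).hasFDerivAt).fderiv]
  simp [wD]
  ring

theorem rwD_sum {ι : Type} [Fintype ι] {f : ι → ℝ × Space d → ℝ} (hf : ∀ i, RSm (f i))
    {q : ℝ × Space d} (hq : q ∈ domR d) (w : ℝ × Space d) :
    wD w (fun p => ∑ i, f i p) q = ∑ i, wD w (f i) q := by
  rw [wD, (HasFDerivAt.fun_sum fun i _ => ((hf i).diff hq).hasFDerivAt).fderiv]
  simp [wD]

theorem rwD_comm {f : ℝ × Space d → ℝ} (hf : RSm f) {q : ℝ × Space d} (hq : q ∈ domR d)
    (w w' : ℝ × Space d) : wD w (wD w' f) q = wD w' (wD w f) q := by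
  have hd : DifferentiableAt ℝ (fderiv ℝ f) q :=
    (((hf 2).fderiv_of_isOpen isOpen_domR (m := 1) le_rfl).differentiableOn
      one_ne_zero).differentiableAt (isOpen_domR.mem_nhds hq)
  have e : ∀ u v, wD u (wD v f) q = fderiv ℝ (fderiv ℝ f) q u v := fun u v => by
    show fderiv ℝ (fun p => fderiv ℝ f p v) q u = _
    rw [fderiv_clm_apply hd (differentiableAt_const v)]
    simp
  rw [e, e]
  exact ((hf 2).contDiffAt (isOpen_domR.mem_nhds hq)).isSymmSndFDerivAt (by simp) w w'

theorem wD_expand {f : ℝ × Space d → ℝ} (q : ℝ × Space d) (t : ℝ) (x : Space d) :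
    wD (t, x) f q = t * tD f q + ∑ c, x c * pD c f q := by
  have e : (t, x) = t • ((1 : ℝ), (0 : Space d)) + ∑ c, x c • ((0 : ℝ), ev c) := by
    refine Prod.ext ?_ ?_
    · simp [Prod.fst_sum]
    · rw [Prod.snd_add, Prod.snd_sum]
      simpa using ((EuclideanSpace.basisFun (Fin d) ℝ).sum_repr x).symm
  rw [wD, e, map_add, map_sum, map_smul, smul_eq_mul]
  exact congrArg _ (Finset.sum_congr rfl fun c _ => map_smul _ _ _)

/-! ### Derivative along the flow -/

/-- The drift at the channel point. -/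
def uR (P : Pot d h) (c : Fin d) (q : ℝ × Space d) : ℝ := drift P c (chan q)

/-- The derivative of the drift at the channel point. -/
def kR (P : Pot d h) (a c : Fin d) (q : ℝ × Space d) : ℝ := pD a (drift P c) (chan q)

theorem rsm_uR (P : Pot d h) (c : Fin d) : RSm (uR P c) := (csm_drift P c).chan

theorem rsm_kR (P : Pot d h) (a c : Fin d) : RSm (kR P a c) := ((csm_drift P c).pD a).chan

theorem kR_symm (P : Pot d h) (a c : Fin d) {q : ℝ × Space d} (hq : q ∈ domR d) :
    kR P a c q = kR P c a q := drift_symm P (chan_pos hq) c a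

/-- The derivative along the flow. -/
def drS (P : Pot d h) (f : ℝ × Space d → ℝ) (q : ℝ × Space d) : ℝ :=
  tD f q - ∑ c, uR P c q * pD c f q

/-- The divergence of the channel law. -/
def dlS (P : Pot d h) (S : Fin d → ℝ × Space d → ℝ) (q : ℝ × Space d) : ℝ :=
  ∑ a, (-pD a (S a) q + (q.2 a + q.1 * uR P a q) * S a q)

theorem RSm.drS {f : ℝ × Space d → ℝ} (hf : RSm f) (P : Pot d h) : RSm (Zero.drS P f) := fun k =>
  (hf.tD k).sub ((RSm.sum fun c => (rsm_uR P c).mul (hf.pD c)) k)

theorem RSm.dlS {S : Fin d → ℝ × Space d → ℝ} (hS : ∀ a, RSm (S a)) (P : Pot d h) :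
    RSm (Zero.dlS P S) :=
  RSm.sum fun a => ((hS a).pD a).neg.add (((rsm_coord a).add (rsm_fst.mul (rsm_uR P a))).mul (hS a))

theorem drS_congr (P : Pot d h) {f g : ℝ × Space d → ℝ} (he : ∀ q ∈ domR d, f q = g q)
    {q : ℝ × Space d} (hq : q ∈ domR d) : drS P f q = drS P g q := by
  simp only [drS, tD, pD]
  rw [(Filter.eventuallyEq_of_mem (isOpen_domR.mem_nhds hq) fun p hp => he p hp).fderiv_eq]

theorem drS_add (P : Pot d h) {f g : ℝ × Space d → ℝ} (hf : RSm f) (hg : RSm g)
    {q : ℝ × Space d} (hq : q ∈ domR d) :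
    drS P (fun p => f p + g p) q = drS P f q + drS P g q := by
  have h1 : ∀ w, fderiv ℝ (fun p => f p + g p) q w = fderiv ℝ f q w + fderiv ℝ g q w :=
    fun w => rwD_add hf hg hq w
  simp only [drS, tD, pD, h1, mul_add, Finset.sum_add_distrib]
  ring

theorem drS_neg (P : Pot d h) {f : ℝ × Space d → ℝ} (hf : RSm f)
    {q : ℝ × Space d} (hq : q ∈ domR d) : drS P (fun p => -f p) q = -drS P f q := by
  have h1 : ∀ w, fderiv ℝ (fun p => -f p) q w = -fderiv ℝ f q w := fun w => rwD_neg hf hq w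
  simp only [drS, tD, pD, h1, mul_neg, Finset.sum_neg_distrib]
  ring

theorem drS_mul (P : Pot d h) {f g : ℝ × Space d → ℝ} (hf : RSm f) (hg : RSm g)
    {q : ℝ × Space d} (hq : q ∈ domR d) :
    drS P (fun p => f p * g p) q = drS P f q * g q + f q * drS P g q := by
  have h1 : ∀ w, fderiv ℝ (fun p => f p * g p) q w = fderiv ℝ f q w * g q + f q * fderiv ℝ g q w :=
    fun w => rwD_mul hf hg hq w
  simp only [drS, tD, pD, h1, mul_add, Finset.sum_add_distrib, ← mul_assoc, ← Finset.sum_mul]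
  simp only [mul_comm (uR P _ q) (f q), mul_assoc (f q), ← Finset.mul_sum]
  ring

theorem drS_sum (P : Pot d h) {ι : Type} [Fintype ι] {f : ι → ℝ × Space d → ℝ}
    (hf : ∀ i, RSm (f i)) {q : ℝ × Space d} (hq : q ∈ domR d) :
    drS P (fun p => ∑ i, f i p) q = ∑ i, drS P (f i) q := by
  have h1 : ∀ w, fderiv ℝ (fun p => ∑ i, f i p) q w = ∑ i, fderiv ℝ (f i) q w := fun w =>
    rwD_sum hf hq w
  simp only [drS, tD, pD, h1, Finset.mul_sum, Finset.sum_sub_distrib]
  rw [Finset.sum_comm (f := fun c i => uR P c q * fderiv ℝ (f i) q (0, ev c))]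

theorem hasFDerivAt_chan (q : ℝ × Space d) :
    HasFDerivAt chan (((-(2 * q.1)) • ContinuousLinearMap.fst ℝ ℝ (Space d)).prod
      (q.1 • ContinuousLinearMap.snd ℝ ℝ (Space d) +
        (ContinuousLinearMap.fst ℝ ℝ (Space d)).smulRight q.2)) q := by
  have h1 : HasFDerivAt (fun p : ℝ × Space d => 1 - p.1 ^ 2)
      ((-(2 * q.1)) • ContinuousLinearMap.fst ℝ ℝ (Space d)) q := by
    refine (((hasFDerivAt_fst (𝕜 := ℝ) (p := q)).pow 2).const_sub 1).congr_fderiv ?_
    ext v <;> simp
  exact h1.prodMk ((hasFDerivAt_fst (𝕜 := ℝ) (p := q)).fun_smul hasFDerivAt_snd)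

theorem wD_chan {f : ℝ × Space d → ℝ} (hf : CSm f) {q : ℝ × Space d} (hq : q ∈ domR d) (t : ℝ)
    (x : Space d) : wD (t, x) (fun p => f (chan p)) q
      = -(2 * q.1) * t * tD f (chan q) + ∑ c, (q.1 * x c + t * q.2 c) * pD c f (chan q) := by
  have h1 := HasFDerivAt.comp (g := f) (f := chan) q (hf.diff (chan_pos hq)).hasFDerivAt
    (hasFDerivAt_chan q)
  rw [wD, show fderiv ℝ (fun p => f (chan p)) q = _ from h1.fderiv]
  have := wD_expand (f := f) (chan q) (-(2 * q.1) * t) (q.1 • x + t • q.2)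
  simp only [wD, PiLp.add_apply, PiLp.smul_apply, smul_eq_mul] at this
  simpa using this

theorem pD_chan {f : ℝ × Space d → ℝ} (hf : CSm f) {q : ℝ × Space d} (hq : q ∈ domR d) (c : Fin d) :
    pD c (fun p => f (chan p)) q = q.1 * pD c f (chan q) := by
  rw [show pD c (fun p => f (chan p)) q = wD (0, ev c) (fun p => f (chan p)) q from rfl,
    wD_chan hf hq]
  simp [EuclideanSpace.single_apply]

/-- The derivative along the flow of a function of (variance, centre). -/
theorem drS_chan (P : Pot d h) {f : ℝ × Space d → ℝ} (hf : CSm f) {q : ℝ × Space d}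
    (hq : q ∈ domR d) :
    drS P (fun p => f (chan p)) q
      = dlS P (fun c p => pD c f (chan p)) q + 2 * q.1 * bopS P f (chan q) := by
  have ht : tD (fun p => f (chan p)) q
      = -(2 * q.1) * tD f (chan q) + ∑ c, q.2 c * pD c f (chan q) := by
    rw [show tD (fun p => f (chan p)) q = wD (1, 0) (fun p => f (chan p)) q from rfl, wD_chan hf hq]
    simp
  simp only [drS, ht, dlS, bopS, lapA, pD_chan hf hq, fun c => pD_chan (hf.pD c) hq c, uR,
    Finset.sum_add_distrib, add_mul, Finset.sum_neg_distrib, mul_assoc, ← Finset.mul_sum]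
  simp only [mul_left_comm (drift P _ (chan q)) q.1, ← Finset.mul_sum]
  ring

theorem drS_uR (P : Pot d h) (a : Fin d) {q : ℝ × Space d} (hq : q ∈ domR d) :
    drS P (uR P a) q = dlS P (fun b p => kR P b a p) q := by
  rw [show uR P a = fun p => drift P a (chan p) from rfl, drS_chan P (csm_drift P a) hq]
  have : bopS P (drift P a) (chan q) = 0 := by
    simp only [bopS, burgers P _ (chan_pos hq)]; ring
  rw [this, mul_zero, add_zero]
  rfl

theorem pD_uR (P : Pot d h) (a c : Fin d) {q : ℝ × Space d} (hq : q ∈ domR d) :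
    pD c (uR P a) q = q.1 * kR P c a q := pD_chan (csm_drift P a) hq c

theorem pD_fst (c : Fin d) (q : ℝ × Space d) : pD c (fun p : ℝ × Space d => p.1) q = 0 := by
  rw [pD, (hasFDerivAt_fst (𝕜 := ℝ) (p := q)).fderiv]
  rfl

theorem pD_coord (c a : Fin d) (q : ℝ × Space d) :
    pD c (fun p : ℝ × Space d => p.2 a) q = if a = c then 1 else 0 := by
  have h2 : HasFDerivAt (fun p : ℝ × Space d => p.2 a)
      ((EuclideanSpace.proj (𝕜 := ℝ) a).comp (ContinuousLinearMap.snd ℝ ℝ (Space d))) q :=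
    (EuclideanSpace.proj (𝕜 := ℝ) a).hasFDerivAt.comp q hasFDerivAt_snd
  rw [pD, h2.fderiv]
  simp [EuclideanSpace.single_apply]

theorem drS_fst (P : Pot d h) (q : ℝ × Space d) : drS P (fun p : ℝ × Space d => p.1) q = 1 := by
  simp only [drS, pD_fst, mul_zero, Finset.sum_const_zero, sub_zero]
  rw [tD, (hasFDerivAt_fst (𝕜 := ℝ) (p := q)).fderiv]
  rfl

theorem drS_coord (P : Pot d h) (a : Fin d) (q : ℝ × Space d) :
    drS P (fun p : ℝ × Space d => p.2 a) q = -uR P a q := by
  have h2 : HasFDerivAt (fun p : ℝ × Space d => p.2 a)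
      ((EuclideanSpace.proj (𝕜 := ℝ) a).comp (ContinuousLinearMap.snd ℝ ℝ (Space d))) q :=
    (EuclideanSpace.proj (𝕜 := ℝ) a).hasFDerivAt.comp q hasFDerivAt_snd
  simp only [drS, pD_coord, mul_ite, mul_one, mul_zero, Finset.sum_ite_eq, Finset.mem_univ, if_true]
  rw [tD, h2.fderiv]
  simp

/-- The derivative along the flow against a derivative in the point. -/
theorem drS_pD (P : Pot d h) {f : ℝ × Space d → ℝ} (hf : RSm f) (c : Fin d) {q : ℝ × Space d}
    (hq : q ∈ domR d) :
    drS P (pD c f) q = pD c (drS P f) q + q.1 * ∑ b, kR P c b q * pD b f q := by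
  have hu : RSm fun p => ∑ b, uR P b p * pD b f p := RSm.sum fun b => (rsm_uR P b).mul (hf.pD b)
  have e : pD c (drS P f) q = pD c (tD f) q
      - ∑ b, (q.1 * kR P c b q * pD b f q + uR P b q * pD c (pD b f) q) := by
    show wD (0, ev c) (drS P f) q = _
    rw [show drS P f = fun p => tD f p + -∑ b, uR P b p * pD b f p from
      funext fun p => sub_eq_add_neg _ _]
    rw [rwD_add hf.tD hu.neg hq, rwD_neg hu hq,
      rwD_sum (fun b => (rsm_uR P b).mul (hf.pD b)) hq]
    simp only [fun b => rwD_mul (rsm_uR P b) (hf.pD b) hq (0, ev c)]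
    simp only [show ∀ b, wD (0, ev c) (uR P b) q = q.1 * kR P c b q from fun b => pD_uR P b c hq,
      ← sub_eq_add_neg]
    rfl
  have h1 : pD c (tD f) q = tD (pD c f) q := rwD_comm hf hq _ _
  have h3 : ∀ b, pD c (pD b f) q = pD b (pD c f) q := fun b => rwD_comm hf hq _ _
  rw [e, h1]
  simp only [drS, h3, Finset.sum_add_distrib, mul_assoc, ← Finset.mul_sum]
  ring

/-- The product with a divergence. -/
theorem dlS_mul (P : Pot d h) {S : Fin d → ℝ × Space d → ℝ} (hS : ∀ a, RSm (S a))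
    {g : ℝ × Space d → ℝ} (hg : RSm g) {q : ℝ × Space d} (hq : q ∈ domR d) :
    dlS P S q * g q = dlS P (fun a p => S a p * g p) q + ∑ a, S a q * pD a g q := by
  simp only [dlS, Finset.sum_mul, ← Finset.sum_add_distrib]
  refine Finset.sum_congr rfl fun a _ => ?_
  rw [show pD a (fun p => S a p * g p) q = pD a (S a) q * g q + S a q * pD a g q from
    rwD_mul (hS a) hg hq _]
  ring

/-- The commutation of the flow with the divergence. -/
theorem drS_dlS (P : Pot d h) {S : Fin d → ℝ × Space d → ℝ} (hS : ∀ a, RSm (S a))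
    {q : ℝ × Space d} (hq : q ∈ domR d) :
    drS P (dlS P S) q
      = dlS P (fun a p => drS P (S a) p + p.1 * ∑ c, kR P a c p * S c p) q := by
  have hA : ∀ a, RSm fun p => p.2 a + p.1 * uR P a p := fun a =>
    (rsm_coord a).add (rsm_fst.mul (rsm_uR P a))
  have hL : drS P (dlS P S) q = ∑ a, (-(pD a (drS P (S a)) q + q.1 * ∑ b, kR P a b q * pD b (S a) q)
      + (q.1 * dlS P (fun b p => kR P b a p) q * S a q
        + (q.2 a + q.1 * uR P a q) * drS P (S a) q)) := by
    rw [show dlS P S = fun p => ∑ a, (-pD a (S a) p + (p.2 a + p.1 * uR P a p) * S a p) from rfl,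
      drS_sum P (fun a => ((hS a).pD a).neg.add ((hA a).mul (hS a))) hq]
    refine Finset.sum_congr rfl fun a _ => ?_
    rw [drS_add P ((hS a).pD a).neg ((hA a).mul (hS a)) hq, drS_neg P ((hS a).pD a) hq,
      drS_pD P (hS a) a hq, drS_mul P (hA a) (hS a) hq,
      drS_add P (rsm_coord a) (rsm_fst.mul (rsm_uR P a)) hq, drS_mul P rsm_fst (rsm_uR P a) hq,
      drS_coord, drS_fst, drS_uR P a hq]
    ring
  have hT : ∀ a, RSm fun p => ∑ c, kR P a c p * S c p := fun a =>
    RSm.sum fun c => (rsm_kR P a c).mul (hS c)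
  have hR : dlS P (fun a p => drS P (S a) p + p.1 * ∑ c, kR P a c p * S c p) q
      = ∑ a, (-(pD a (drS P (S a)) q
          + q.1 * ∑ c, (pD a (kR P a c) q * S c q + kR P a c q * pD a (S c) q))
        + (q.2 a + q.1 * uR P a q) * (drS P (S a) q + q.1 * ∑ c, kR P a c q * S c q)) := by
    simp only [dlS]
    refine Finset.sum_congr rfl fun a _ => ?_
    congr 1
    show -wD (0, ev a) (fun p => drS P (S a) p + p.1 * ∑ c, kR P a c p * S c p) q = _
    rw [rwD_add ((hS a).drS P) (rsm_fst.mul (hT a)) hq, rwD_mul rsm_fst (hT a) hq,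
      rwD_sum (fun c => (rsm_kR P a c).mul (hS c)) hq]
    simp only [fun c => rwD_mul (rsm_kR P a c) (hS c) hq (0, ev a),
      show wD (0, ev a) (fun p : ℝ × Space d => p.1) q = 0 from pD_fst a q, zero_mul, zero_add]
    rfl
  rw [hL, hR]
  have hs : ∑ a, ∑ b, kR P a b q * pD b (S a) q = ∑ a, ∑ c, kR P a c q * pD a (S c) q := by
    rw [Finset.sum_comm]
    exact Finset.sum_congr rfl fun a _ => Finset.sum_congr rfl fun c _ => by rw [kR_symm P c a hq]
  have hd : ∑ a, dlS P (fun b p => kR P b a p) q * S a q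
      = -(∑ a, ∑ c, pD a (kR P a c) q * S c q)
        + ∑ a, (q.2 a + q.1 * uR P a q) * ∑ c, kR P a c q * S c q := by
    simp only [dlS, Finset.sum_mul, Finset.mul_sum, ← Finset.sum_neg_distrib,
      ← Finset.sum_add_distrib]
    rw [Finset.sum_comm]
    exact Finset.sum_congr rfl fun b _ => Finset.sum_congr rfl fun a _ => by ring
  simp only [neg_add, mul_add, Finset.sum_add_distrib, Finset.sum_neg_distrib, mul_assoc,
    mul_left_comm _ q.1 (Finset.sum _ _), ← Finset.mul_sum]
  rw [hs, hd]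
  ring

/-- The derivative in the point against the divergence. -/
theorem pD_dlS (P : Pot d h) {S : Fin d → ℝ × Space d → ℝ} (hS : ∀ a, RSm (S a)) (c : Fin d)
    {q : ℝ × Space d} (hq : q ∈ domR d) :
    pD c (dlS P S) q = dlS P (fun a p => pD c (S a) p) q
      + (S c q + q.1 * q.1 * ∑ a, kR P c a q * S a q) := by
  have hA : ∀ a, RSm fun p => p.2 a + p.1 * uR P a p := fun a =>
    (rsm_coord a).add (rsm_fst.mul (rsm_uR P a))
  show wD (0, ev c) (fun p => ∑ a, (-pD a (S a) p + (p.2 a + p.1 * uR P a p) * S a p)) q = _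
  rw [rwD_sum (fun a => ((hS a).pD a).neg.add ((hA a).mul (hS a))) hq]
  have e : ∀ a, wD (0, ev c) (fun p => -pD a (S a) p + (p.2 a + p.1 * uR P a p) * S a p) q
      = (-pD a (pD c (S a)) q + (q.2 a + q.1 * uR P a q) * pD c (S a) q)
        + ((if a = c then S a q else 0) + q.1 * q.1 * (kR P c a q * S a q)) := fun a => by
    rw [rwD_add ((hS a).pD a).neg ((hA a).mul (hS a)) hq, rwD_neg ((hS a).pD a) hq,
      rwD_mul (hA a) (hS a) hq, rwD_add (rsm_coord a) (rsm_fst.mul (rsm_uR P a)) hq,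
      rwD_mul rsm_fst (rsm_uR P a) hq,
      show wD (0, ev c) (fun p : ℝ × Space d => p.2 a) q = if a = c then 1 else 0 from pD_coord c a q,
      show wD (0, ev c) (fun p : ℝ × Space d => p.1) q = 0 from pD_fst c q,
      show wD (0, ev c) (uR P a) q = q.1 * kR P c a q from pD_uR P a c hq,
      show wD (0, ev c) (pD a (S a)) q = pD a (pD c (S a)) q from rwD_comm (hS a) hq _ _]
    show _ + (_ * S a q + _ * pD c (S a) q) = _
    split_ifs <;> ring
  simp only [e, Finset.sum_add_distrib, Finset.sum_ite_eq', Finset.mem_univ, if_true,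
    ← Finset.mul_sum, dlS]

end Vale.Agent.P347.Zero
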