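import Vale.Agent.P347.Zero.Good
import Vale.Agent.P347.Zero.TrajCalc

/-!
Tensor fields along the flow: the divergence, the insertion of the drift derivative and the rules
that express the derivative along the flow inside this class.
-/

noncomputable section

open Filter Topology Set
open scoped RealInnerProductSpace ContDiff

namespace Vale.Agent.P347.Zero

variable {I J A B G : Type} [Fintype I] [DecidableEq I] [Fintype J] [DecidableEq J]
  [Fintype A] [DecidableEq A] [Fintype B] [DecidableEq B] [Fintype G] [DecidableEq G]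

/-- The drift, as a family. -/
def Uf : Fam Unit := fun _ _ P q i => drift P (i ()) q

/-- A family read at the channel point. -/
def cmpF (F : Fam I) : Fam I := fun d h P q => F d h P (chan q)

/-- The derivative along the flow, entry by entry. -/
def drF (F : Fam I) : Fam I := fun d h P q i => drS P (fun p => F d h P p i) q

/-- The divergence in the leg `none`. -/
def dlF (S : Fam (Option I)) : Fam I :=
  fun d h P q i => dlS P (fun c p => S d h P p fun o => o.elim c i) q

/-- Multiplication by the correlation. -/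
def rF (F : Fam I) : Fam I := fun d h P q i => q.1 * F d h P q i

/-- The derivative of the drift inserted in the leg `none`. -/
def insK (S : Fam (Option I)) : Fam (Option I) :=
  reF (optU I).symm (ctrF (reF (optU Unit) (cmpF Kf)) (reF (optU I) S))

/-- The first two legs exchanged. -/
def swO (I : Type) : Option (Option I) ≃ Option (Option I) where
  toFun o := o.elim (some none) fun o' => o'.elim none fun k => some (some k)
  invFun o := o.elim (some none) fun o' => o'.elim none fun k => some (some k)
  left_inv o := by rcases o with _ | _ | k <;> rfl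
  right_inv o := by rcases o with _ | _ | k <;> rfl

/-- Smooth on the correlations in `(-1, 1)`, entry by entry. -/
def RSmF (F : Fam I) : Prop := ∀ d h (P : Pot d h) (i : I → Fin d), RSm fun q => F d h P q i

/-- Equality on the correlations in `(-1, 1)`. -/
def EqR (F H : Fam I) : Prop :=
  ∀ d h (P : Pot d h), ∀ q ∈ domR d, F d h P q = H d h P q

theorem EqR.symm {F H : Fam I} (he : EqR F H) : EqR H F := fun d h P q hq => (he d h P q hq).symm

theorem RSmF.congr {F H : Fam I} (hF : RSmF F) (he : EqR F H) : RSmF H :=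
  fun d h P i => (hF d h P i).congr fun q hq => by rw [he d h P q hq]

theorem RSmF.add {F H : Fam I} (hF : RSmF F) (hH : RSmF H) : RSmF (addFam F H) :=
  fun d h P i => (hF d h P i).add (hH d h P i)

theorem RSmF.relabel {F : Fam I} (hF : RSmF F) (e : I ≃ J) : RSmF (reF e F) :=
  fun d h P _ => hF d h P _

theorem RSmF.ctrF {F : Fam (A ⊕ G)} {H : Fam (G ⊕ B)} (hF : RSmF F) (hH : RSmF H) :
    RSmF (Zero.ctrF F H) :=
  fun d h P _ => RSm.sum fun _ => (hF d h P _).mul (hH d h P _)

theorem RSmF.dA {F : Fam I} (hF : RSmF F) : RSmF (Zero.dA F) := fun d h P _ => (hF d h P _).pD _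

theorem RSmF.drF {F : Fam I} (hF : RSmF F) : RSmF (Zero.drF F) :=
  fun d h P _ => (hF d h P _).drS P

theorem RSmF.dlF {S : Fam (Option I)} (hS : RSmF S) : RSmF (Zero.dlF S) :=
  fun d h P _ => RSm.dlS (fun _ => hS d h P _) P

theorem RSmF.rF {F : Fam I} (hF : RSmF F) : RSmF (Zero.rF F) :=
  fun d h P i => rsm_fst.mul (hF d h P i)

theorem SmF.cmpF {F : Fam I} (hF : SmF F) : RSmF (Zero.cmpF F) := fun d h P i => (hF d h P i).chan

theorem sm_Uf : SmF Uf := fun _ _ P _ => csm_drift P _

theorem RSmF.insK {S : Fam (Option I)} (hS : RSmF S) : RSmF (Zero.insK S) :=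
  (((sm_Kf.relabel (optU Unit)).cmpF).ctrF (hS.relabel (optU I))).relabel _

theorem dA_Uf : dA Uf = Kf := rfl

theorem insK_apply (S : Fam (Option I)) (d : ℕ) (h : ℝ) (P : Pot d h) (q : ℝ × Space d)
    (i : Option I → Fin d) :
    insK S d h P q i =
      ∑ b, kR P (i none) b q * S d h P q fun o => o.elim b fun k => i (some k) := by
  simp only [insK, reF, reT, ctrF, ctr, cmpF]
  rw [← (Equiv.funUnique Unit (Fin d)).symm.sum_comp]
  refine Finset.sum_congr rfl fun b _ => ?_
  congr 1
  congr 1
  funext o
  rcases o with _ | k <;> rfl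

/-! ### Equalities -/

theorem EqR.dA {F H : Fam I} (he : EqR F H) : EqR (Zero.dA F) (Zero.dA H) :=
  fun d h P q hq => funext fun i => rwD_congr (fun p hp => by rw [he d h P p hp]) hq _

theorem EqR.drF {F H : Fam I} (he : EqR F H) : EqR (Zero.drF F) (Zero.drF H) :=
  fun d h P q hq => funext fun i => drS_congr P (fun p hp => by rw [he d h P p hp]) hq

theorem dA_addR {F H : Fam I} (hF : RSmF F) (hH : RSmF H) :
    EqR (dA (addFam F H)) (addFam (dA F) (dA H)) :=
  fun d h P _ hq => funext fun _ => rwD_add (hF d h P _) (hH d h P _) hq _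

theorem drF_addF {F H : Fam I} (hF : RSmF F) (hH : RSmF H) :
    EqR (drF (addFam F H)) (addFam (drF F) (drF H)) :=
  fun d h P _ hq => funext fun i => drS_add P (hF d h P i) (hH d h P i) hq

theorem drF_reF (e : I ≃ J) (F : Fam I) : drF (reF e F) = reF e (drF F) := rfl

theorem dA_rF {F : Fam I} (hF : RSmF F) : EqR (dA (rF F)) (rF (dA F)) := by
  intro d h P q hq
  funext i
  show wD (0, ev (i none)) (fun p => p.1 * F d h P p _) q = q.1 * _
  rw [rwD_mul rsm_fst (hF d h P _) hq,
    show wD (0, ev (i none)) (fun p : ℝ × Space d => p.1) q = 0 from pD_fst _ q, zero_mul, zero_add]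
  rfl

theorem drF_rF {F : Fam I} (hF : RSmF F) : EqR (drF (rF F)) (addFam F (rF (drF F))) := by
  intro d h P q hq
  funext i
  show drS P (fun p => p.1 * F d h P p i) q = _
  rw [drS_mul P rsm_fst (hF d h P i) hq, drS_fst, one_mul]
  rfl

theorem dA_cmpF {F : Fam I} (hF : SmF F) : EqR (dA (cmpF F)) (rF (cmpF (dA F))) :=
  fun d h P _ hq => funext fun _ => pD_chan (hF d h P _) hq _

theorem drF_cmpF {F : Fam I} (hF : SmF F) :
    EqR (drF (cmpF F))
      (addFam (dlF (cmpF (dA F))) (rF (addFam (cmpF (bop F)) (cmpF (bop F))))) := by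
  intro d h P q hq
  funext i
  show drS P (fun p => F d h P (chan p) i) q = _
  rw [drS_chan P (hF d h P i) hq]
  show _ = dlF (cmpF (dA F)) d h P q i
    + q.1 * (bopS P (fun p => F d h P p i) (chan q) + bopS P (fun p => F d h P p i) (chan q))
  rw [show 2 * q.1 * bopS P (fun p => F d h P p i) (chan q) = q.1 *
    (bopS P (fun p => F d h P p i) (chan q) + bopS P (fun p => F d h P p i) (chan q)) by ring]
  rfl

theorem drF_cmp_Uf : EqR (drF (cmpF Uf)) (dlF (cmpF Kf)) :=
  fun _ _ P _ hq => funext fun i => drS_uR P (i ()) hq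

theorem drF_dA {F : Fam I} (hF : RSmF F) :
    EqR (drF (dA F)) (addFam (dA (drF F)) (rF (insK (dA F)))) := by
  intro d h P q hq
  funext i
  show drS P (pD (i none) fun p => F d h P p fun k => i (some k)) q = _
  rw [drS_pD P (hF d h P _) _ hq]
  show _ = dA (drF F) d h P q i + q.1 * insK (dA F) d h P q i
  rw [insK_apply]
  rfl

theorem drF_dlF {S : Fam (Option I)} (hS : RSmF S) :
    EqR (drF (dlF S)) (dlF (addFam (drF S) (rF (insK S)))) := by
  intro d h P q hq
  funext i
  show drS P (dlS P fun c p => S d h P p fun o => o.elim c i) q = _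
  rw [drS_dlS P (fun _ => hS d h P _) hq]
  show _ = dlS P (fun c p => drS P (fun p' => S d h P p' fun o => o.elim c i) p
    + p.1 * insK S d h P p fun o => o.elim c i) q
  simp only [insK_apply, Option.elim_none, Option.elim_some]

theorem dA_dlF {S : Fam (Option I)} (hS : RSmF S) :
    EqR (dA (dlF S)) (addFam (dlF (reF (swO I) (dA S))) (addFam S (rF (rF (insK S))))) := by
  intro d h P q hq
  funext i
  show pD (i none) (dlS P fun c p => S d h P p fun o => o.elim c fun k => i (some k)) q = _
  rw [pD_dlS P (fun _ => hS d h P _) _ hq]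
  show _ = dlF (reF (swO I) (dA S)) d h P q i + (S d h P q i + q.1 * (q.1 * insK S d h P q i))
  rw [insK_apply]
  congr 1
  · refine congrArg (fun T => dlS P T q) (funext fun c => funext fun p => ?_)
    show pD _ _ p = pD _ _ p
    congr 1
    funext p'; congr 1; funext o; rcases o with _ | k <;> rfl
  · congr 1
    · congr 1; funext o; rcases o with _ | k <;> rfl
    · ring

theorem dA_ctrR {F : Fam (A ⊕ G)} {H : Fam (G ⊕ B)} (hF : RSmF F) (hH : RSmF H) :
    EqR (dA (ctrF F H))
      (addFam (reF (optL A B).symm (ctrF (reF (optL A G) (dA F)) H))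
        (reF (optR A B).symm (ctrF F (reF (optR G B) (dA H))))) := by
  intro d h P q hq
  funext i
  show wD (0, ev (i none)) (fun p => ∑ c : G → Fin d, F d h P p _ * H d h P p _) q = _
  rw [rwD_sum (fun c => (hF d h P _).mul (hH d h P _)) hq]
  simp only [addFam, reF, reT, ctrF, ctr, ← Finset.sum_add_distrib]
  refine Finset.sum_congr rfl fun c _ => ?_
  rw [rwD_mul (hF d h P _) (hH d h P _) hq]
  congr 1
  · congr 1
    show pD _ _ q = pD _ _ q
    congr 1
    funext p; congr 1; funext j; rcases j with a | g <;> rfl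
  · congr 1
    show pD _ _ q = pD _ _ q
    congr 1
    funext p; congr 1; funext j; rcases j with g | b <;> rfl

theorem drF_ctrF {F : Fam (A ⊕ G)} {H : Fam (G ⊕ B)} (hF : RSmF F) (hH : RSmF H) :
    EqR (drF (ctrF F H)) (addFam (ctrF (drF F) H) (ctrF F (drF H))) := by
  intro d h P q hq
  funext i
  show drS P (fun p => ∑ c : G → Fin d, F d h P p _ * H d h P p _) q = _
  rw [drS_sum P (fun c => (hF d h P _).mul (hH d h P _)) hq]
  simp only [addFam, ctrF, ctr, drF, ← Finset.sum_add_distrib]
  exact Finset.sum_congr rfl fun c _ => drS_mul P (hF d h P _) (hH d h P _) hq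

theorem ctrF_addF (F F' : Fam (A ⊕ G)) (H : Fam (G ⊕ B)) :
    ctrF (addFam F F') H = addFam (ctrF F H) (ctrF F' H) := by
  funext d h P q i
  simp only [ctrF, ctr, addFam, add_mul, Finset.sum_add_distrib]

theorem ctrF_rF (F : Fam (A ⊕ G)) (H : Fam (G ⊕ B)) : ctrF (rF F) H = rF (ctrF F H) := by
  funext d h P q i
  simp only [ctrF, ctr, rF, mul_assoc, Finset.mul_sum]

theorem ctrF_dlF {S : Fam (Option (A ⊕ G))} {H : Fam (G ⊕ B)} (hS : RSmF S) (hH : RSmF H) :
    EqR (ctrF (dlF S) H)
      (addFam (dlF (reF (optL A B).symm (ctrF (reF (optL A G) S) H)))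
        (ctrF (reF (optR A G) S) (reF (optL G B) (dA H)))) := by
  intro d h P q hq
  funext i
  show ∑ c : G → Fin d, dlS P (fun a p => S d h P p fun o => o.elim a _) q * H d h P q _ = _
  simp only [dlS_mul P (fun _ => hS d h P _) (hH d h P _) hq, Finset.sum_add_distrib]
  show _ = dlF (reF (optL A B).symm (ctrF (reF (optL A G) S) H)) d h P q i
    + (ctrF (reF (optR A G) S) (reF (optL G B) (dA H))) d h P q i
  congr 1
  · show _ = dlS P (fun a p => reT (optL A B).symm (ctr _ _) fun o => o.elim a i) q
    simp only [dlS, reT, ctr]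
    rw [Finset.sum_comm]
    refine Finset.sum_congr rfl fun a _ => ?_
    rw [show pD a (fun p => ∑ c : G → Fin d, _ * _) q = _ from
      rwD_sum (fun c => (((hS.relabel (optL A G)) d h P) _).mul (hH d h P _)) hq _]
    rw [Finset.sum_add_distrib, Finset.sum_neg_distrib, Finset.mul_sum]
    congr 1
    · congr 1
      refine Finset.sum_congr rfl fun c _ => ?_
      show pD _ _ q = pD _ _ q
      congr 1
      funext p
      simp only [reF, reT]
      congr 1
      congr 1; funext o; rcases o with _ | x | g <;> rfl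
    · refine Finset.sum_congr rfl fun c _ => ?_
      congr 1
      simp only [reF, reT]
      congr 1
      congr 1; funext o; rcases o with _ | x | g <;> rfl
  · simp only [ctrF, ctr]
    rw [Finset.sum_comm, ← Fintype.sum_prod_type' (f := fun b c => _ * _)]
    rw [← Equiv.sum_comp (Equiv.piOptionEquivProd (β := fun _ : Option G => Fin d)).symm]
    refine Finset.sum_congr rfl fun bc _ => ?_
    congr 1
    · show _ = S d h P q _
      congr 1; funext j; rcases j with _ | a | g <;> rfl
    · show pD _ _ q = pD _ _ q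
      congr 1
      funext p; congr 1; funext j; rcases j with g | b <;> rfl

end Vale.Agent.P347.Zero
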