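import Vale.Agent.P347.Zero.VertexCalc

/-!
At one node: the derivative tensor of the drift, applied to standard inputs, against the weighted
averages of the drift at shifted points, in mean over the blocks and the inputs.
-/

noncomputable section

open MeasureTheory ProbabilityTheory
open scoped RealInnerProductSpace

namespace Vale.Agent.P347.Zero

namespace Vtx

variable {d : ℕ} {h : ℝ} {C : Type} [Fintype C] {k : ℕ}

/-- The blocks of the point, the noise and the inputs. -/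
abbrev Om (d : ℕ) (C : Type) (k : ℕ) := C ⊕ (Unit ⊕ Fin k) → Space d

/-- The three parts put together. -/
def mk3 (x : C → Space d) (e : Space d) (A : Fin k → Space d) : Om d C k :=
  Sum.elim x (Sum.elim (fun _ => e) A)

/-- The three parts. -/
def split3 (ω : Om d C k) : (C → Space d) × (Space d × (Fin k → Space d)) :=
  (fun l => ω (.inl l), ω (.inr (.inl ())), fun i => ω (.inr (.inr i)))

omit [Fintype C] in
theorem mk3_split3 (ω : Om d C k) :
    mk3 (split3 ω).1 (split3 ω).2.1 (split3 ω).2.2 = ω := by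
  funext l
  rcases l with l | ⟨⟩ | i <;> rfl

theorem split3_mp : MeasurePreserving (split3 (d := d) (C := C) (k := k))
    (gp (C ⊕ (Unit ⊕ Fin k)) d) ((gp C d).prod ((gam d).prod (gp (Fin k) d))) := by
  have h1 := Loc.gp_split (d := d) (f := (Sum.inl : C → C ⊕ (Unit ⊕ Fin k)))
    (g := (Sum.inr : Unit ⊕ Fin k → C ⊕ (Unit ⊕ Fin k))) Sum.inl_injective Sum.inr_injective
    fun a b => Sum.inl_ne_inr
  have h2 := Loc.gp_cons (d := d) (i := (Sum.inl () : Unit ⊕ Fin k))
    (g := (Sum.inr : Fin k → Unit ⊕ Fin k)) Sum.inr_injective fun b => Sum.inl_ne_inr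
  exact ((MeasurePreserving.id (gp C d)).prod h2).comp h1

/-- An integral over all parts is iterated. -/
theorem int3 {F : Om d C k → ℝ} (hF : CG F) :
    ∫ ω, F ω ∂gp (C ⊕ (Unit ⊕ Fin k)) d
      = ∫ x, ∫ e, ∫ A, F (mk3 x e A) ∂gp (Fin k) d ∂gam d ∂gp C d := by
  set G : (C → Space d) × (Space d × (Fin k → Space d)) → ℝ :=
    fun q => F (mk3 q.1 q.2.1 q.2.2) with hG
  have hmk : Continuous fun q : (C → Space d) × (Space d × (Fin k → Space d)) =>
      mk3 q.1 q.2.1 q.2.2 :=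
    continuous_pi fun l => by
      rcases l with l | ⟨⟩ | i <;> simp only [mk3, Sum.elim_inl, Sum.elim_inr] <;> fun_prop
  have hGc : Continuous G := hF.1.comp hmk
  have e : (fun ω => G (split3 ω)) = F := funext fun ω => congrArg F (mk3_split3 ω)
  have hmp := split3_mp (d := d) (C := C) (k := k)
  have hGi : Integrable G ((gp C d).prod ((gam d).prod (gp (Fin k) d))) := by
    refine (hmp.integrable_comp hGc.aestronglyMeasurable).1 ?_
    rw [show G ∘ split3 = F from e]
    exact hF.gp_int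
  conv_lhs => rw [← e]
  rw [Loc.mp_integral hmp hGc.aestronglyMeasurable, integral_prod _ hGi]
  refine integral_congr_ae ((hGi.prod_right_ae).mono fun x hx => ?_)
  exact integral_prod _ hx

/-- The average of the drift at the channel of the point with noise a combination of the blocks and
of one more vector. -/
def nodeV (P : Pot d h) (v p q : ℝ) (y : (C → Space d) → Space d) (c₀ : ℝ)
    (c : Unit ⊕ Fin k → ℝ) (ω : Om d C k) : Space d :=
  ∫ z, driftV P (v, p • y (fun l => ω (.inl l)) + q • (c₀ • z + ∑ l, c l • ω (.inr l))) ∂gam d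

variable (P : Pot d h) {v : ℝ} (hv : 0 < v) {y : (C → Space d) → Space d} (hy : CG y)

include hv hy in
theorem cg_nodeV (p q c₀ : ℝ) (c : Unit ⊕ Fin k → ℝ) : CG (nodeV P v p q y c₀ c) := by
  refine CG.avg (Φ := fun a : Om d C k × Space d => driftV P (v,
    p • y (fun l => a.1 (.inl l)) + q • (c₀ • a.2 + ∑ l, c l • a.1 (.inr l)))) ?_
  refine (cg_driftV P hv).comp (((hy.comp ?_).const_smul p).add ((CG.add ?_ (CG.sum _ fun l _ => ?_)).const_smul q))
  · exact CG.clm (ContinuousLinearMap.pi fun l => (ContinuousLinearMap.proj (Sum.inl l)).comp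
      (ContinuousLinearMap.fst ℝ (Om d C k) (Space d)))
  · exact (CG.clm (ContinuousLinearMap.snd ℝ (Om d C k) (Space d))).const_smul c₀
  · exact (CG.clm ((ContinuousLinearMap.proj (Sum.inr l)).comp
      (ContinuousLinearMap.fst ℝ (Om d C k) (Space d)))).const_smul (c l)

/-- The smoothed tensor. -/
def ptT (P : Pot d h) (v p q : ℝ) (y : (C → Space d) → Space d) (r : ℝ) (x : C → Space d)
    (e : Space d) : Ten d (Option (Fin k)) :=
  fun idx => Pt r (fun e' => driftT P v k (p • y x + q • e') idx) e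

variable (k) in
/-- The deviation. -/
def devV (P : Pot d h) (v p q u s : ℝ) (y : (C → Space d) → Space d) {m₁ m₂ : ℕ}
    (b r : Fin m₁ → ℝ) (b' : Fin m₂ → ℝ) (c : Fin m₂ → Fin k → ℝ) (ω : Om d C k) : Space d :=
  u ^ k • apTv (driftT P v k (p • y (fun l => ω (.inl l)) + q • ω (.inr (.inl ()))))
      (fun i => ω (.inr (.inr i)))
    - ∑ l, ∑ l', (b l * b' l' / (s * Real.sqrt (1 - r l ^ 2)) ^ k) •
        nodeV P v p q y (Real.sqrt (1 - r l ^ 2) * Real.sqrt (1 - ∑ i, c l' i ^ 2))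
          (Sum.elim (fun _ => r l) fun i => Real.sqrt (1 - r l ^ 2) * c l' i) ω

theorem norm_sq_coord (X : Space d) : ‖X‖ ^ 2 = ∑ i, X i ^ 2 := EuclideanSpace.real_norm_sq_eq X

/-- The smoothing error of the tensor. -/
def smDev (P : Pot d h) (v p q : ℝ) (y : (C → Space d) → Space d) {m : ℕ} (b r : Fin m → ℝ)
    (x : C → Space d) (e : Space d) : Ten d (Option (Fin k)) :=
  fun idx => driftT P v k (p • y x + q • e) idx - ∑ l, b l * ptT P v p q y (r l) x e idx

/-- The smoothing error applied to the inputs. -/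
def smVec (P : Pot d h) (v p q : ℝ) (y : (C → Space d) → Space d) {m : ℕ} (b r : Fin m → ℝ)
    (ω : Om d C k) : Space d :=
  apTv (smDev P v p q y b r (fun l => ω (.inl l)) (ω (.inr (.inl ())))) fun i => ω (.inr (.inr i))

/-- The gate error at one correlation. -/
def gateVec (P : Pot d h) (v p q : ℝ) (y : (C → Space d) → Space d) (r : ℝ) {m : ℕ}
    (b : Fin m → ℝ) (c : Fin m → Fin k → ℝ) (ω : Om d C k) : Space d :=
  (q * Real.sqrt (1 - r ^ 2)) ^ k • apTv (ptT P v p q y r (fun l => ω (.inl l)) (ω (.inr (.inl ()))))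
      (fun i => ω (.inr (.inr i)))
    - ∑ l, b l • nodeV P v p q y (Real.sqrt (1 - r ^ 2) * Real.sqrt (1 - ∑ i, c l i ^ 2))
        (Sum.elim (fun _ => r) fun i => Real.sqrt (1 - r ^ 2) * c l i) ω

theorem cg_pair (x : C → Space d) : CG fun e : Space d => ((x, e) : (C → Space d) × Space d) := by
  refine ⟨by fun_prop, ‖x‖ + 1, 1, by positivity, fun e => ?_⟩
  rw [pow_one, Prod.norm_def]
  rcases max_choice ‖x‖ ‖e‖ with e' | e' <;> simp only [e'] <;>
    nlinarith [norm_nonneg x, norm_nonneg e, mul_nonneg (norm_nonneg x) (norm_nonneg e)]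

include hv hy in
theorem cg_ptT (hk : 1 ≤ k) (p q r : ℝ) (idx : Option (Fin k) → Fin d) :
    CG fun a : (C → Space d) × Space d => ptT P v p q y r a.1 a.2 idx := by
  refine CG.avg (Φ := fun a : ((C → Space d) × Space d) × Space d =>
    driftT P v k (p • y a.1.1 + q • (r • a.1.2 + Real.sqrt (1 - r ^ 2) • a.2)) idx) ?_
  exact (cg_driftT P hv hk idx).comp
    (((hy.comp (CG.clm ((ContinuousLinearMap.fst ℝ (C → Space d) (Space d)).comp
        (ContinuousLinearMap.fst ℝ ((C → Space d) × Space d) (Space d))))).const_smul p).add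
      ((((CG.clm ((ContinuousLinearMap.snd ℝ (C → Space d) (Space d)).comp
        (ContinuousLinearMap.fst ℝ ((C → Space d) × Space d) (Space d)))).const_smul r).add
        ((CG.clm (ContinuousLinearMap.snd ℝ ((C → Space d) × Space d) (Space d))).const_smul
          (Real.sqrt (1 - r ^ 2)))).const_smul q))

include hv hy in
theorem cg_smDev (hk : 1 ≤ k) (p q : ℝ) {m : ℕ} (b r : Fin m → ℝ)
    (idx : Option (Fin k) → Fin d) :
    CG fun a : (C → Space d) × Space d => smDev P v p q y b r a.1 a.2 idx :=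
  ((cg_driftT P hv hk idx).comp
      (((hy.comp (CG.clm (ContinuousLinearMap.fst ℝ (C → Space d) (Space d)))).const_smul p).add
        ((CG.clm (ContinuousLinearMap.snd ℝ (C → Space d) (Space d))).const_smul q))).sub
    (CG.sum _ fun l _ => (CG.const (b l)).mul (cg_ptT P hv hy hk p q (r l) idx))

theorem cg_apTv {U : (C → Space d) → Space d → Ten d (Option (Fin k))}
    (hU : ∀ idx, CG fun a : (C → Space d) × Space d => U a.1 a.2 idx) :
    CG fun ω : Om d C k => apTv (U (fun l => ω (.inl l)) (ω (.inr (.inl ()))))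
      fun i => ω (.inr (.inr i)) := by
  have e : (fun ω : Om d C k => apTv (U (fun l => ω (.inl l)) (ω (.inr (.inl ()))))
      fun i => ω (.inr (.inr i))) = fun ω => ∑ i : Fin d, (∑ w : Fin k → Fin d,
        (∏ l, ω (.inr (.inr l)) (w l)) *
          U (fun l => ω (.inl l)) (ω (.inr (.inl ()))) fun o => o.elim i w) • ev i := by
    funext ω
    refine ((EuclideanSpace.basisFun (Fin d) ℝ).sum_repr _).symm.trans ?_
    exact Finset.sum_congr rfl fun i _ => by simp [apTv_coord]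
  rw [e]
  refine CG.sum _ fun i _ => (CG.sum _ fun w _ => (CG.prod _ fun l _ =>
    (CG.coord (w l)).comp (CG.clm (ContinuousLinearMap.proj (Sum.inr (Sum.inr l)) :
      Om d C k →L[ℝ] Space d))).mul ?_).smul (CG.const (ev i))
  exact (hU _).comp (CG.clm (ContinuousLinearMap.prod (ContinuousLinearMap.pi fun l =>
    (ContinuousLinearMap.proj (Sum.inl l) : Om d C k →L[ℝ] Space d))
    (ContinuousLinearMap.proj (Sum.inr (Sum.inl ())))))

include hv hy in
theorem cg_smVec (hk : 1 ≤ k) (p q : ℝ) {m : ℕ} (b r : Fin m → ℝ) :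
    CG (smVec (k := k) P v p q y b r) :=
  cg_apTv (cg_smDev P hv hy hk p q b r)

include hv hy in
theorem cg_gateVec (hk : 1 ≤ k) (p q r : ℝ) {m : ℕ} (b : Fin m → ℝ) (c : Fin m → Fin k → ℝ) :
    CG (gateVec P v p q y r b c) :=
  ((cg_apTv (cg_ptT P hv hy hk p q r)).const_smul _).sub
    (CG.sum _ fun l _ => (cg_nodeV P hv hy p q _ _).const_smul (b l))

include hv hy in
theorem smooth_part (hk : 1 ≤ k) (p q : ℝ) {m₁ : ℕ} (b r : Fin m₁ → ℝ) {ε₁ : ℝ} (N : ℕ)
    (hS : ∀ f : Space d → ℝ, Smooth f →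
      ∫ x, ((∑ l, b l * Pt (r l) f x) - f x) ^ 2 ∂gam d ≤ ε₁ ^ 2 *
        ∑ m ∈ Finset.range (2 * N + 1),
          ∫ x, ∑ w : Fin m → Fin d, iteratedFDeriv ℝ m f x (fun j => ev (w j)) ^ 2 ∂gam d)
    {K : ℝ} (hK : ∀ m ≤ 2 * N, ∀ a, q ^ (2 * m) * hsT (driftT P v (k + m) a) ≤ K) :
    ∫ ω, ‖smVec (k := k) P v p q y b r ω‖ ^ 2 ∂gp (C ⊕ (Unit ⊕ Fin k)) d
      ≤ ε₁ ^ 2 * ((2 * N + 1 : ℕ) * K) := by
  rw [int3 (cg_smVec P hv hy hk p q b r).norm.sq]
  have e1 : ∀ x e, ∫ a, ‖smVec P v p q y b r (mk3 x e a)‖ ^ 2 ∂gp (Fin k) d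
      = hsT (smDev (k := k) P v p q y b r x e) := fun x e => by
    simp only [smVec, mk3, Sum.elim_inl, Sum.elim_inr]
    exact (apTv_sq _).2
  simp only [e1]
  refine (integral_mono_of_nonneg (ae_of_all _ fun x => integral_nonneg fun e => hsT_nonneg _)
    (integrable_const (ε₁ ^ 2 * ((2 * N + 1 : ℕ) * K))) (ae_of_all _ fun x => ?_)).trans_eq
    (by simp)
  have ci : ∀ idx, Integrable (fun e => smDev (k := k) P v p q y b r x e idx ^ 2) (gam d) :=
    fun idx => ((cg_smDev P hv hy hk p q b r idx).comp (cg_pair x)).sq.gam_int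
  simp only [hsT]
  rw [integral_finsetSum _ fun idx _ => ci idx]
  set f : (Option (Fin k) → Fin d) → Space d → ℝ :=
    fun idx e => driftT P v k (p • y x + q • e) idx with hf
  have hfs : ∀ idx, Smooth (f idx) := fun idx => smooth_entry P hv k idx (p • y x) q
  refine (Finset.sum_le_sum fun idx _ => (le_of_eq ?_).trans (hS (f idx) (hfs idx))).trans ?_
  · refine integral_congr_ae (ae_of_all _ fun e => ?_)
    show (f idx e - ∑ l, b l * ptT P v p q y (r l) x e idx) ^ 2 = _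
    rw [← neg_sq, neg_sub]
    rfl
  rw [← Finset.mul_sum, Finset.sum_comm]
  refine mul_le_mul_of_nonneg_left ?_ (sq_nonneg _)
  refine (Finset.sum_le_sum fun m hm => (?_ : _ ≤ K)).trans_eq (by simp)
  have hd : ∀ idx (w : Fin m → Fin d),
      CG fun e => iteratedFDeriv ℝ m (f idx) e fun j => ev (w j) := by
    intro idx w
    have e : (fun e => iteratedFDeriv ℝ m (f idx) e fun j => ev (w j)) = fun e =>
        q ^ m * iteratedFDeriv ℝ m (fun a => driftT P v k a idx) (p • y x + q • e)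
          fun j => ev (w j) :=
      funext fun e => iter_aff (contDiff_driftT P hv m k idx) _ q e _
    rw [e]
    obtain ⟨C', -, hb⟩ := hs_driftT_le P hv (j := k + m) (by omega)
    refine (CG.const _).mul (CG.of_bound
      (((ContinuousMultilinearMap.apply ℝ (fun _ : Fin m => Space d) ℝ fun j => ev (w j)).continuous.comp
        ((contDiff_driftT P hv m k idx).continuous_iteratedFDeriv le_rfl)).comp (by fun_prop))
      fun e => Real.abs_le_sqrt ((sq_entry_le P hv idx w _).trans (hb _)))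
  have hi : ∀ idx, Integrable
      (fun e => ∑ w : Fin m → Fin d, iteratedFDeriv ℝ m (f idx) e (fun j => ev (w j)) ^ 2)
      (gam d) :=
    fun idx => integrable_finsetSum _ fun w _ => (hd idx w).sq.gam_int
  rw [← integral_finsetSum _ fun idx _ => hi idx]
  refine (integral_mono (integrable_finsetSum _ fun idx _ => hi idx) (integrable_const K)
    fun e => ?_).trans_eq (by simp)
  refine le_trans (le_of_eq ?_) (hK m (by simp at hm; omega) (p • y x + q • e))
  rw [← sum_iter_sq P hv m k, Finset.mul_sum]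
  refine Finset.sum_congr rfl fun idx _ => ?_
  rw [Finset.mul_sum]
  refine Finset.sum_congr rfl fun w _ => ?_
  rw [hf]
  simp only
  rw [iter_aff (contDiff_driftT P hv m k idx), mul_pow, ← pow_mul, mul_comm m 2]

include hv hy in
/-- At fixed point and noise the gates extract the derivative. -/
theorem gate_fibre (hk : 1 ≤ k) (p q r : ℝ) {m : ℕ} (b : Fin m → ℝ) (c : Fin m → Fin k → ℝ)
    {ε₂ : ℝ}
    (hG : ∀ f : Space d → ℝ, Smooth f →
      ∫ A, ((∑ l, b l * ∫ z, f ((∑ i, c l i • A i) +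
            Real.sqrt (1 - ∑ i, c l i ^ 2) • z) ∂gam d)
          - ∫ z, iteratedFDeriv ℝ k f z A ∂gam d) ^ 2 ∂gp (Fin k) d
        ≤ ε₂ ^ 2 * ∫ x, f x ^ 2 ∂gam d)
    (x : C → Space d) (e : Space d) :
    ∫ a, ‖gateVec P v p q y r b c (mk3 x e a)‖ ^ 2 ∂gp (Fin k) d
      ≤ ε₂ ^ 2 * ∫ z, ‖driftV P
          (v, p • y x + (q * r) • e + (q * Real.sqrt (1 - r ^ 2)) • z)‖ ^ 2 ∂gam d := by
  set c₁ := Real.sqrt (1 - r ^ 2) with hc₁
  set σ := q * c₁ with hσ
  set b₁ := p • y x + (q * r) • e with hb₁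
  set f : Fin d → Space d → ℝ :=
    fun i z => driftT P v 0 (b₁ + σ • z) fun o => o.elim i Fin.elim0 with hf
  have hfs : ∀ i, Smooth (f i) := fun i => smooth_entry P hv 0 _ b₁ σ
  have hfv : ∀ i z, f i z = driftV P (v, b₁ + σ • z) i := fun i z => by
    simp only [hf, driftT_zero, Option.elim_none]
  have cF : CG fun z => driftV P (v, b₁ + σ • z) :=
    (cg_driftV P hv).comp ((CG.const b₁).add (CG.clm (σ • ContinuousLinearMap.id ℝ (Space d))))
  have hpt : ∀ (i : Fin d) (a : Fin k → Space d), gateVec P v p q y r b c (mk3 x e a) i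
      = (∫ z, iteratedFDeriv ℝ k (f i) z a ∂gam d)
        - ∑ l, b l * ∫ z, f i ((∑ j, c l j • a j)
            + Real.sqrt (1 - ∑ j, c l j ^ 2) • z) ∂gam d := by
    intro i a
    simp only [gateVec, PiLp.sub_apply, PiLp.smul_apply, smul_eq_mul, WithLp.ofLp_sum,
      Finset.sum_apply, apTv_coord]
    congr 1
    · simp only [hf, iter_drift_apply P hv, Finset.mul_sum]
      rw [integral_finsetSum]
      · refine Finset.sum_congr rfl fun w _ => ?_
        rw [integral_const_mul, integral_const_mul, ← hc₁, ← hσ]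
        refine congrArg (σ ^ k * ·) (congrArg ((∏ i, a i (w i)) * ·)
          (integral_congr_ae (ae_of_all _ fun z => ?_)))
        show driftT P v k (p • y x + q • (r • e + c₁ • z)) _ = _
        rw [show p • y x + q • (r • e + c₁ • z) = b₁ + σ • z by rw [hb₁, hσ]; module]
      · exact fun w _ => (((cg_driftT P hv hk _).comp ((CG.const b₁).add
          (CG.clm (σ • ContinuousLinearMap.id ℝ (Space d))))).gam_int.const_mul _).const_mul _
    · refine Finset.sum_congr rfl fun l _ => congrArg (b l * ·) ?_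
      simp only [nodeV]
      have hint : Integrable (fun z => driftV P (v, p • y (fun j => mk3 x e a (.inl j))
          + q • ((c₁ * Real.sqrt (1 - ∑ j, c l j ^ 2)) • z + ∑ j,
            Sum.elim (fun _ => r) (fun j => c₁ * c l j) j • mk3 x e a (.inr j)))) (gam d) :=
        ((cg_driftV P hv).comp ((CG.const _).add
          ((((CG.clm (ContinuousLinearMap.id ℝ (Space d))).const_smul _).add
            (CG.const _)).const_smul q))).gam_int
      refine (((EuclideanSpace.proj i : Space d →L[ℝ] ℝ).integral_comp_comm hint).symm).trans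
        (integral_congr_ae (ae_of_all _ fun z => ?_))
      simp only [hfv, PiLp.proj_apply, mk3, Sum.elim_inl, Sum.elim_inr, Fintype.sum_sum_type,
        Finset.univ_unique, Finset.sum_singleton, hb₁, hσ, smul_add, Finset.smul_sum, smul_smul]
      rw [show q * c₁ * Real.sqrt (1 - ∑ j, c l j ^ 2)
        = q * (c₁ * Real.sqrt (1 - ∑ j, c l j ^ 2)) by ring]
      simp only [mul_assoc]
      refine congrArg (fun U => (driftV P (v, U)).ofLp i) ?_
      abel
  have hm : CG fun a : Fin k → Space d => mk3 (C := C) x e a := by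
    refine ⟨continuous_pi fun j => by
      rcases j with j | ⟨⟩ | j <;> simp only [mk3, Sum.elim_inl, Sum.elim_inr] <;> fun_prop,
      ‖x‖ + ‖e‖ + 1, 1, by positivity, fun a => ?_⟩
    rw [pow_one]
    refine (pi_norm_le_iff_of_nonneg (by positivity)).2 fun j => ?_
    have hxe : 0 ≤ (‖x‖ + ‖e‖) * ‖a‖ := by positivity
    rcases j with j | ⟨⟩ | j
    · have := norm_le_pi_norm x j
      simp only [mk3, Sum.elim_inl]; nlinarith [norm_nonneg e, norm_nonneg a]
    · simp only [mk3, Sum.elim_inl, Sum.elim_inr]; nlinarith [norm_nonneg x, norm_nonneg a]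
    · have := norm_le_pi_norm a j
      simp only [mk3, Sum.elim_inr]; nlinarith [norm_nonneg e, norm_nonneg x]
  have hXi : ∀ i, Integrable (fun a => gateVec P v p q y r b c (mk3 x e a) i ^ 2) (gp (Fin k) d) :=
    fun i => (((CG.coord i).comp (cg_gateVec P hv hy hk p q r b c)).comp hm).sq.gp_int
  simp only [norm_sq_coord]
  rw [integral_finsetSum _ fun i _ => hXi i]
  refine (Finset.sum_le_sum fun i _ => (le_of_eq ?_).trans (hG (f i) (hfs i))).trans_eq ?_
  · refine integral_congr_ae (ae_of_all _ fun a => ?_)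
    simp only [hpt i a]
    ring
  rw [← Finset.mul_sum]
  simp only [hfv]
  rw [← integral_finsetSum _ fun i _ => ((CG.coord i).comp cF).sq.gam_int]

include hv hy in
theorem gate_part (hk : 1 ≤ k) {p q r : ℝ} (hp : |p| ≤ 1) (hq : |q| ≤ 1) (hr : r ^ 2 ≤ 1)
    {m : ℕ} (b : Fin m → ℝ) (c : Fin m → Fin k → ℝ) {ε₂ : ℝ}
    (hG : ∀ f : Space d → ℝ, Smooth f →
      ∫ A, ((∑ l, b l * ∫ z, f ((∑ i, c l i • A i) +
            Real.sqrt (1 - ∑ i, c l i ^ 2) • z) ∂gam d)
          - ∫ z, iteratedFDeriv ℝ k f z A ∂gam d) ^ 2 ∂gp (Fin k) d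
        ≤ ε₂ ^ 2 * ∫ x, f x ^ 2 ∂gam d) :
    ∫ ω, ‖gateVec P v p q y r b c ω‖ ^ 2 ∂gp (C ⊕ (Unit ⊕ Fin k)) d
      ≤ ε₂ ^ 2 * (4 * (‖driftV P (v, 0)‖ ^ 2 + h ^ 2 * ((∫ x, ‖y x‖ ^ 2 ∂gp C d) + 2 * d))) := by
  set G0 := ‖driftV P (v, 0)‖
  have h0 := P.h_nonneg
  have hy2 : Integrable (fun x => ‖y x‖ ^ 2) (gp C d) := hy.norm.sq.gp_int
  have hz2 : Integrable (fun z : Space d => ‖z‖ ^ 2) (gam d) :=
    (CG.clm (ContinuousLinearMap.id ℝ (Space d))).norm.sq.gam_int
  have hr1 : |r| ≤ 1 := by rw [← sq_le_one_iff_abs_le_one]; exact hr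
  have hc1 : Real.sqrt (1 - r ^ 2) ≤ 1 := Real.sqrt_le_one.2 (by nlinarith [sq_nonneg r])
  rw [int3 (cg_gateVec P hv hy hk p q r b c).norm.sq]
  set U : (C → Space d) → Space d → ℝ := fun x e =>
    ε₂ ^ 2 * (4 * (G0 ^ 2 + h ^ 2 * (‖y x‖ ^ 2 + (‖e‖ ^ 2 + d)))) with hU
  have hUi : ∀ x, Integrable (U x) (gam d) := fun x =>
    (((integrable_const (G0 ^ 2)).add (((integrable_const (‖y x‖ ^ 2)).add
      (hz2.add (integrable_const (d : ℝ)))).const_mul (h ^ 2))).const_mul 4).const_mul (ε₂ ^ 2)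
  have hUe : ∀ x, ∫ e, U x e ∂gam d
      = ε₂ ^ 2 * (4 * (G0 ^ 2 + h ^ 2 * (‖y x‖ ^ 2 + 2 * d))) := fun x => by
    have e0 : U x = fun e => ε₂ ^ 2 * (4 * (G0 ^ 2 + h ^ 2 * (‖y x‖ ^ 2 + d)))
        + ε₂ ^ 2 * (4 * h ^ 2) * ‖e‖ ^ 2 := funext fun e => by simp only [hU]; ring
    rw [e0, integral_add (integrable_const _) (hz2.const_mul _), integral_const,
      integral_const_mul, Loc.gam_sq, probReal_univ, one_smul]
    ring
  have hOi : Integrable
      (fun x => ε₂ ^ 2 * (4 * (G0 ^ 2 + h ^ 2 * (‖y x‖ ^ 2 + 2 * d)))) (gp C d) :=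
    (((integrable_const (G0 ^ 2)).add
      ((hy2.add (integrable_const (2 * d : ℝ))).const_mul (h ^ 2))).const_mul 4).const_mul (ε₂ ^ 2)
  refine (integral_mono_of_nonneg (ae_of_all _ fun x => integral_nonneg fun e =>
    integral_nonneg fun a => sq_nonneg _) hOi (ae_of_all _ fun x => ?_)).trans_eq ?_
  · refine (integral_mono_of_nonneg (ae_of_all _ fun e => integral_nonneg fun a => sq_nonneg _)
      (hUi x) (ae_of_all _ fun e => ?_)).trans_eq (hUe x)
    refine (gate_fibre P hv hy hk p q r b c hG x e).trans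
      (mul_le_mul_of_nonneg_left ?_ (sq_nonneg _))
    have hub : Integrable
        (fun z => 4 * (G0 ^ 2 + h ^ 2 * (‖y x‖ ^ 2 + (‖e‖ ^ 2 + ‖z‖ ^ 2)))) (gam d) :=
      ((integrable_const (G0 ^ 2)).add (((integrable_const (‖y x‖ ^ 2)).add
        ((integrable_const (‖e‖ ^ 2)).add hz2)).const_mul (h ^ 2))).const_mul 4
    refine (integral_mono_of_nonneg (ae_of_all _ fun z => sq_nonneg _) hub
      (ae_of_all _ fun z => ?_)).trans_eq ?_
    · have h1 : ‖p • y x + (q * r) • e + (q * Real.sqrt (1 - r ^ 2)) • z‖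
          ≤ ‖y x‖ + ‖e‖ + ‖z‖ := by
        refine (norm_add₃_le).trans (add_le_add (add_le_add ?_ ?_) ?_) <;>
          rw [norm_smul, Real.norm_eq_abs] <;> refine mul_le_of_le_one_left (norm_nonneg _) ?_
        · exact hp
        · rw [abs_mul]; exact mul_le_one₀ hq (abs_nonneg _) hr1
        · rw [abs_mul, abs_of_nonneg (Real.sqrt_nonneg _)]
          exact mul_le_one₀ hq (Real.sqrt_nonneg _) hc1
      refine (pow_le_pow_left₀ (norm_nonneg _) ((norm_driftV_le P hv _).trans (add_le_add le_rfl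
        (mul_le_mul_of_nonneg_left h1 h0))) 2).trans ?_
      nlinarith [sq_nonneg (G0 - h * ‖y x‖), sq_nonneg (G0 - h * ‖e‖), sq_nonneg (G0 - h * ‖z‖),
        sq_nonneg (h * ‖y x‖ - h * ‖e‖), sq_nonneg (h * ‖y x‖ - h * ‖z‖),
        sq_nonneg (h * ‖e‖ - h * ‖z‖)]
    · rw [show (fun z : Space d => 4 * (G0 ^ 2 + h ^ 2 * (‖y x‖ ^ 2 + (‖e‖ ^ 2 + ‖z‖ ^ 2))))
        = fun z => 4 * (G0 ^ 2 + h ^ 2 * (‖y x‖ ^ 2 + ‖e‖ ^ 2)) + 4 * h ^ 2 * ‖z‖ ^ 2 from
        funext fun z => by ring, integral_add (integrable_const _) (hz2.const_mul _),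
        integral_const, integral_const_mul, Loc.gam_sq, probReal_univ, one_smul]
      ring
  · rw [show (fun x => ε₂ ^ 2 * (4 * (G0 ^ 2 + h ^ 2 * (‖y x‖ ^ 2 + 2 * (d : ℝ)))))
      = fun x => ε₂ ^ 2 * (4 * (G0 ^ 2 + h ^ 2 * (2 * d))) + ε₂ ^ 2 * (4 * h ^ 2) * ‖y x‖ ^ 2
      from funext fun x => by ring, integral_add (integrable_const _) (hy2.const_mul _),
      integral_const, integral_const_mul, probReal_univ, one_smul]
    ring

omit [Fintype C] in
/-- The deviation is the smoothing error plus the gate errors. -/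
theorem devV_eq {p q u s : ℝ} (hqs : q = u * s) (hs : s ≠ 0) {m₁ m₂ : ℕ} (b r : Fin m₁ → ℝ)
    (hr : ∀ l, r l ^ 2 < 1) (b' : Fin m₂ → ℝ) (c : Fin m₂ → Fin k → ℝ) (ω : Om d C k) :
    devV k P v p q u s y b r b' c ω = u ^ k • smVec P v p q y b r ω
      + ∑ l, (b l / (s * Real.sqrt (1 - r l ^ 2)) ^ k) • gateVec P v p q y (r l) b' c ω := by
  have h1 : smVec (k := k) P v p q y b r ω
      = apTv (driftT P v k (p • y (fun l => ω (.inl l)) + q • ω (.inr (.inl ()))))
          (fun i => ω (.inr (.inr i)))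
        - ∑ l, b l • apTv (ptT P v p q y (r l) (fun l => ω (.inl l)) (ω (.inr (.inl ()))))
          (fun i => ω (.inr (.inr i))) := by
    ext i
    simp only [smVec, smDev, apTv_coord, PiLp.sub_apply, WithLp.ofLp_sum, Finset.sum_apply,
      PiLp.smul_apply, smul_eq_mul, mul_sub, Finset.sum_sub_distrib, Finset.mul_sum]
    congr 1
    rw [Finset.sum_comm]
    exact Finset.sum_congr rfl fun l _ => Finset.sum_congr rfl fun w _ => by ring
  have h2 : ∀ l, b l / (s * Real.sqrt (1 - r l ^ 2)) ^ k * (q * Real.sqrt (1 - r l ^ 2)) ^ k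
      = u ^ k * b l := fun l => by
    rw [hqs, mul_assoc u s, mul_pow u]
    have : (s * Real.sqrt (1 - r l ^ 2)) ^ k ≠ 0 :=
      pow_ne_zero _ (mul_ne_zero hs (Real.sqrt_pos.2 (by linarith [hr l])).ne')
    field_simp
  simp only [devV, gateVec, h1, smul_sub, Finset.smul_sum, smul_smul, h2,
    Finset.sum_sub_distrib, div_mul_eq_mul_div]
  abel

include hv hy in
theorem approx (hk : 1 ≤ k) {p q u s : ℝ} (hqs : q = u * s) (hs : s ≠ 0) (hp : |p| ≤ 1)
    (hq : |q| ≤ 1) {m₁ m₂ : ℕ} (b r : Fin m₁ → ℝ) (hr : ∀ l, r l ^ 2 < 1) (b' : Fin m₂ → ℝ)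
    (c : Fin m₂ → Fin k → ℝ) {ε₁ ε₂ : ℝ} (N : ℕ)
    (hS : ∀ f : Space d → ℝ, Smooth f →
      ∫ x, ((∑ l, b l * Pt (r l) f x) - f x) ^ 2 ∂gam d ≤ ε₁ ^ 2 *
        ∑ m ∈ Finset.range (2 * N + 1),
          ∫ x, ∑ w : Fin m → Fin d, iteratedFDeriv ℝ m f x (fun j => ev (w j)) ^ 2 ∂gam d)
    (hG : ∀ f : Space d → ℝ, Smooth f →
      ∫ A, ((∑ l, b' l * ∫ z, f ((∑ i, c l i • A i) +
            Real.sqrt (1 - ∑ i, c l i ^ 2) • z) ∂gam d)
          - ∫ z, iteratedFDeriv ℝ k f z A ∂gam d) ^ 2 ∂gp (Fin k) d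
        ≤ ε₂ ^ 2 * ∫ x, f x ^ 2 ∂gam d)
    {K : ℝ} (hK : ∀ m ≤ 2 * N, ∀ a, q ^ (2 * m) * hsT (driftT P v (k + m) a) ≤ K) :
    Integrable (fun ω => ‖devV k P v p q u s y b r b' c ω‖) (gp (C ⊕ (Unit ⊕ Fin k)) d) ∧
      ∫ ω, ‖devV k P v p q u s y b r b' c ω‖ ∂gp (C ⊕ (Unit ⊕ Fin k)) d
        ≤ |u ^ k| * Real.sqrt (ε₁ ^ 2 * ((2 * N + 1 : ℕ) * K))
          + ∑ l, |b l / (s * Real.sqrt (1 - r l ^ 2)) ^ k| * Real.sqrt (ε₂ ^ 2 *
              (4 * (‖driftV P (v, 0)‖ ^ 2 + h ^ 2 * ((∫ x, ‖y x‖ ^ 2 ∂gp C d) + 2 * d)))) := by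
  set B : Fin m₁ → ℝ := fun l => b l / (s * Real.sqrt (1 - r l ^ 2)) ^ k
  have cS := cg_smVec P hv hy hk p q b r
  have cX := fun l => cg_gateVec P hv hy hk p q (r l) b' c
  obtain ⟨i₀, n₀⟩ := int_norm_le cS.1.aestronglyMeasurable cS.norm.sq.gp_int
    (smooth_part P hv hy hk p q b r N hS hK)
  have il := fun l => int_norm_le (cX l).1.aestronglyMeasurable (cX l).norm.sq.gp_int
    (gate_part P hv hy hk hp hq (hr l).le b' c hG)
  have hle : ∀ ω, ‖devV k P v p q u s y b r b' c ω‖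
      ≤ |u ^ k| * ‖smVec P v p q y b r ω‖ + ∑ l, |B l| * ‖gateVec P v p q y (r l) b' c ω‖ :=
    fun ω => by
    rw [devV_eq P hqs hs b r hr b' c ω]
    refine (norm_add_le _ _).trans (add_le_add (by rw [norm_smul, Real.norm_eq_abs]) ?_)
    exact (norm_sum_le _ _).trans
      (Finset.sum_le_sum fun l _ => by rw [norm_smul, Real.norm_eq_abs])
  have cdev : CG (devV k P v p q u s y b r b' c) := by
    rw [show devV k P v p q u s y b r b' c = _ from funext (devV_eq P hqs hs b r hr b' c)]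
    exact (cS.const_smul _).add (CG.sum _ fun l _ => (cX l).const_smul _)
  have hsum := integrable_finsetSum Finset.univ fun l _ => (il l).1.const_mul |B l|
  refine ⟨cdev.norm.gp_int,
    (integral_mono cdev.norm.gp_int ((i₀.const_mul _).add hsum) hle).trans ?_⟩
  simp only [Pi.add_apply]
  rw [integral_add (i₀.const_mul _) hsum, integral_const_mul,
    integral_finsetSum _ fun l _ => (il l).1.const_mul _]
  simp only [integral_const_mul]
  exact add_le_add (mul_le_mul_of_nonneg_left n₀ (abs_nonneg _))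
    (Finset.sum_le_sum fun l _ => mul_le_mul_of_nonneg_left (il l).2 (abs_nonneg _))

end Vtx

end Vale.Agent.P347.Zero
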