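import Vale.Agent.P347.Zero.VertexPins
import Vale.Agent.P347.Zero.TrajReg
import Vale.Agent.P347.Zero.Drift
import Vale.Agent.P347.LocalTools
import Vale.Agent.P347.Zero.Apply

/-!
Tools for the vertices: continuous functions of polynomial growth under Gaussian averages, the
derivatives of the entries of the drift tensors along affine maps, and derivatives applied to
vectors.
-/

noncomputable section

open MeasureTheory ProbabilityTheory Filter Topology
open scoped RealInnerProductSpace

namespace Vale.Agent.P347.Zero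

namespace Vtx

/-! ### Continuous functions of polynomial growth -/

/-- Continuous, of polynomial growth. -/
def CG {E F : Type} [NormedAddCommGroup E] [NormedAddCommGroup F] (f : E → F) : Prop :=
  Continuous f ∧ ∃ (c : ℝ) (n : ℕ), 0 ≤ c ∧ ∀ x, ‖f x‖ ≤ c * (1 + ‖x‖) ^ n

section CG

variable {E E' F G : Type} [NormedAddCommGroup E] [NormedSpace ℝ E] [NormedAddCommGroup E']
  [NormedSpace ℝ E'] [NormedAddCommGroup F] [NormedSpace ℝ F] [NormedAddCommGroup G]
  [NormedSpace ℝ G] {f g : E → F}

theorem pow_up {c : ℝ} {n n' : ℕ} (hc : 0 ≤ c) (hn : n ≤ n') (x : E) :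
    c * (1 + ‖x‖) ^ n ≤ c * (1 + ‖x‖) ^ n' :=
  mul_le_mul_of_nonneg_left (pow_le_pow_right₀ (le_add_of_nonneg_right (norm_nonneg x)) hn) hc

theorem CG.const (a : F) : CG fun _ : E => a :=
  ⟨continuous_const, ‖a‖, 0, norm_nonneg a, fun _ => by simp⟩

theorem CG.clm (φ : E →L[ℝ] F) : CG fun x => φ x :=
  ⟨φ.continuous, ‖φ‖, 1, norm_nonneg φ, fun x => (φ.le_opNorm x).trans
    (mul_le_mul_of_nonneg_left (by rw [pow_one]; linarith) (norm_nonneg φ))⟩

theorem CG.add (hf : CG f) (hg : CG g) : CG fun x => f x + g x := by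
  obtain ⟨h1, c, n, hc0, hc⟩ := hf
  obtain ⟨h2, c', n', hc0', hc'⟩ := hg
  refine ⟨h1.add h2, c + c', max n n', add_nonneg hc0 hc0', fun x => ?_⟩
  rw [add_mul]
  exact (norm_add_le _ _).trans (add_le_add ((hc x).trans (pow_up hc0 (le_max_left _ _) x))
    ((hc' x).trans (pow_up hc0' (le_max_right _ _) x)))

theorem CG.neg (hf : CG f) : CG fun x => -f x := by
  obtain ⟨h1, c, n, hc0, hc⟩ := hf
  exact ⟨h1.neg, c, n, hc0, fun x => (norm_neg _).trans_le (hc x)⟩

theorem CG.sub (hf : CG f) (hg : CG g) : CG fun x => f x - g x := by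
  simpa only [sub_eq_add_neg] using hf.add hg.neg

theorem CG.sum {α : Type} (s : Finset α) {f : α → E → F} (hf : ∀ a ∈ s, CG (f a)) :
    CG fun x => ∑ a ∈ s, f a x := by
  classical
  induction s using Finset.induction_on with
  | empty => simpa using CG.const (E := E) (0 : F)
  | insert a s ha ih =>
    simp only [Finset.sum_insert ha]
    exact (hf a (Finset.mem_insert_self a s)).add
      (ih fun b hb => hf b (Finset.mem_insert_of_mem hb))

theorem CG.smul {w : E → ℝ} (hw : CG w) (hf : CG f) : CG fun x => w x • f x := by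
  obtain ⟨h1, c, n, hc0, hc⟩ := hw
  obtain ⟨h2, c', n', hc0', hc'⟩ := hf
  refine ⟨h1.smul h2, c * c', n + n', mul_nonneg hc0 hc0', fun x => ?_⟩
  rw [norm_smul, pow_add, mul_mul_mul_comm]
  exact mul_le_mul (hc x) (hc' x) (norm_nonneg _) (mul_nonneg hc0 (by positivity))

theorem CG.mul {u w : E → ℝ} (hu : CG u) (hw : CG w) : CG fun x => u x * w x := hu.smul hw

theorem CG.prod {α : Type} (s : Finset α) {f : α → E → ℝ} (hf : ∀ a ∈ s, CG (f a)) :
    CG fun x => ∏ a ∈ s, f a x := by
  classical
  induction s using Finset.induction_on with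
  | empty => simpa using CG.const (E := E) (1 : ℝ)
  | insert a s ha ih =>
    simp only [Finset.prod_insert ha]
    exact (hf a (Finset.mem_insert_self a s)).mul
      (ih fun b hb => hf b (Finset.mem_insert_of_mem hb))

theorem CG.const_smul (hf : CG f) (a : ℝ) : CG fun x => a • f x := (CG.const a).smul hf

theorem CG.norm (hf : CG f) : CG fun x => ‖f x‖ := by
  obtain ⟨h1, c, n, hc0, hc⟩ := hf
  exact ⟨h1.norm, c, n, hc0, fun x => by rw [norm_norm]; exact hc x⟩

theorem CG.sq {w : E → ℝ} (hw : CG w) : CG fun x => w x ^ 2 := by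
  simpa only [_root_.sq] using hw.mul hw

theorem CG.comp {h : F → G} (hh : CG h) (hf : CG f) : CG fun x => h (f x) := by
  obtain ⟨h1, c, n, hc0, hc⟩ := hh
  obtain ⟨h2, c', n', hc0', hc'⟩ := hf
  refine ⟨h1.comp h2, c * (1 + c') ^ n, n' * n, mul_nonneg hc0 (by positivity), fun x => ?_⟩
  refine (hc (f x)).trans ?_
  rw [mul_assoc, pow_mul, ← mul_pow]
  refine mul_le_mul_of_nonneg_left (pow_le_pow_left₀ (by positivity) ?_ n) hc0
  have hX : (1 : ℝ) ≤ (1 + ‖x‖) ^ n' := one_le_pow₀ (le_add_of_nonneg_right (norm_nonneg x))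
  nlinarith [hc' x]

theorem CG.of_bound (hc : Continuous f) {c : ℝ} (h : ∀ x, ‖f x‖ ≤ c) : CG f :=
  ⟨hc, c, 0, (norm_nonneg _).trans (h 0), fun x => by simpa using h x⟩

end CG

variable {d : ℕ} {ι : Type} [Fintype ι]

theorem powInt (k : ℕ) : Integrable (fun z : Space d => (1 + ‖z‖) ^ k) (gam d) :=
  Zero.gam_int (by fun_prop) ⟨1, k, fun z => by
    rw [one_mul, Real.norm_of_nonneg (by positivity)]⟩

theorem CG.gam_int {F : Type} [NormedAddCommGroup F] [NormedSpace ℝ F] {f : Space d → F}
    (h : CG f) : Integrable f (gam d) := by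
  obtain ⟨hc, c, n, _, hb⟩ := h
  exact ((powInt n).const_mul c).mono' hc.aestronglyMeasurable (ae_of_all _ hb)

theorem CG.gp_int {F : Type} [NormedAddCommGroup F] [NormedSpace ℝ F] {f : (ι → Space d) → F}
    (h : CG f) : Integrable f (gp ι d) := by
  rw [integrable_gp_iff]
  exact (h.comp (CG.clm (emb ι d).toContinuousLinearMap)).gam_int

/-- An average over a Gaussian vector keeps continuity and polynomial growth. -/
theorem CG.avg {E F : Type} [NormedAddCommGroup E] [NormedSpace ℝ E] [NormedAddCommGroup F]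
    [NormedSpace ℝ F] {Φ : E × Space d → F} (h : CG Φ) :
    CG fun x => ∫ z, Φ (x, z) ∂gam d := by
  obtain ⟨hc, c, n, hc0, hb⟩ := h
  have hb' : ∀ x z, ‖Φ (x, z)‖ ≤ c * (1 + ‖x‖) ^ n * (1 + ‖z‖) ^ n := fun x z => by
    refine (hb (x, z)).trans ?_
    rw [mul_assoc, ← mul_pow]
    refine mul_le_mul_of_nonneg_left (pow_le_pow_left₀ (by positivity) ?_ n) hc0
    rw [Prod.norm_def]
    rcases max_choice ‖x‖ ‖z‖ with e | e <;> simp only [e] <;>
      nlinarith [norm_nonneg x, norm_nonneg z, mul_nonneg (norm_nonneg x) (norm_nonneg z)]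
  have hz : ∀ x, Continuous fun z => Φ (x, z) := fun x => hc.comp (Continuous.prodMk_right x)
  refine ⟨continuous_iff_continuousAt.2 fun x₀ => ?_,
    c * ∫ z, (1 + ‖z‖) ^ n ∂gam d, n, mul_nonneg hc0 (integral_nonneg fun z => by positivity),
    fun x => ?_⟩
  · refine continuousAt_of_dominated (F := fun x z => Φ (x, z))
      (bound := fun z => c * (2 + ‖x₀‖) ^ n * (1 + ‖z‖) ^ n)
      (Eventually.of_forall fun x => (hz x).aestronglyMeasurable) ?_
      ((powInt n).const_mul _)
      (ae_of_all _ fun z => (hc.comp (Continuous.prodMk_left z)).continuousAt)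
    filter_upwards [Metric.ball_mem_nhds x₀ one_pos] with x hx
    refine ae_of_all _ fun z => (hb' x z).trans ?_
    refine mul_le_mul_of_nonneg_right (mul_le_mul_of_nonneg_left
      (pow_le_pow_left₀ (by positivity) ?_ n) hc0) (by positivity)
    rw [Metric.mem_ball, dist_eq_norm] at hx
    linarith [norm_le_norm_add_norm_sub' x x₀]
  · refine (norm_integral_le_of_norm_le ((powInt n).const_mul (c * (1 + ‖x‖) ^ n))
      (ae_of_all _ (hb' x))).trans_eq ?_
    rw [integral_const_mul]
    ring

theorem CG.coord (i : Fin d) : CG fun x : Space d => x i :=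
  CG.clm (EuclideanSpace.proj i : Space d →L[ℝ] ℝ)

/-- The first moment is at most the root of the second. -/
theorem int_norm_le {α F : Type} [MeasurableSpace α] {μ : Measure α} [IsProbabilityMeasure μ]
    [NormedAddCommGroup F] {X : α → F} {B : ℝ} (hm : AEStronglyMeasurable X μ)
    (h2 : Integrable (fun a => ‖X a‖ ^ 2) μ) (hB : ∫ a, ‖X a‖ ^ 2 ∂μ ≤ B) :
    Integrable (fun a => ‖X a‖) μ ∧ ∫ a, ‖X a‖ ∂μ ≤ Real.sqrt B := by
  have hi : Integrable (fun a => ‖X a‖) μ :=
    ((integrable_const 1).add h2).mono' hm.norm (ae_of_all _ fun a => by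
      rw [Real.norm_of_nonneg (norm_nonneg _), Pi.add_apply]
      nlinarith [sq_nonneg (‖X a‖ - 1), norm_nonneg (X a)])
  refine ⟨hi, Real.le_sqrt_of_sq_le (le_trans ?_ hB)⟩
  set m := ∫ a, ‖X a‖ ∂μ
  have h0 : 0 ≤ ∫ a, (‖X a‖ - m) ^ 2 ∂μ := integral_nonneg fun a => sq_nonneg _
  have e : (∫ a, (‖X a‖ - m) ^ 2 ∂μ) = (∫ a, ‖X a‖ ^ 2 ∂μ) - m ^ 2 := by
    simp only [show ∀ a, (‖X a‖ - m) ^ 2 = ‖X a‖ ^ 2 - 2 * m * ‖X a‖ + m ^ 2 from fun a => by ring]
    have h3 : Integrable (fun a => ‖X a‖ ^ 2 - 2 * m * ‖X a‖) μ := h2.sub (hi.const_mul _)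
    rw [integral_add h3 (integrable_const _), integral_sub h2 (hi.const_mul _), integral_const_mul,
      integral_const, probReal_univ, one_smul]
    ring
  linarith

/-! ### Derivatives along affine maps -/

theorem iter_aff {m : ℕ} {φ : Space d → ℝ} (hφ : ContDiff ℝ m φ) (b : Space d) (σ : ℝ)
    (z : Space d) (w : Fin m → Space d) :
    iteratedFDeriv ℝ m (fun e => φ (b + σ • e)) z w
      = σ ^ m * iteratedFDeriv ℝ m φ (b + σ • z) w := by
  set T : Space d →L[ℝ] Space d := σ • ContinuousLinearMap.id ℝ (Space d)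
  have e : (fun e => φ (b + σ • e)) = (fun y => φ (b + y)) ∘ T := rfl
  have hc : ContDiff ℝ m fun y => φ (b + y) := hφ.comp (by fun_prop)
  rw [e, T.iteratedFDeriv_comp_right hc z le_rfl, iteratedFDeriv_comp_add_left]
  simp only [ContinuousMultilinearMap.compContinuousLinearMap_apply, T, smul_apply,
    ContinuousLinearMap.id_apply]
  rw [ContinuousMultilinearMap.map_smul_univ, Finset.prod_const, Finset.card_univ, Fintype.card_fin,
    smul_eq_mul]

theorem iter_expand {k : ℕ} (M : ContinuousMultilinearMap ℝ (fun _ : Fin k => Space d) ℝ)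
    (A : Fin k → Space d) :
    M A = ∑ w : Fin k → Fin d, (∏ l, A l (w l)) * M fun l => ev (w l) := by
  classical
  have e : A = fun l => ∑ c, A l c • ev c := funext fun l =>
    ((EuclideanSpace.basisFun (Fin d) ℝ).sum_repr (A l)).symm.trans
      (Finset.sum_congr rfl fun c _ => by simp)
  conv_lhs => rw [e]
  rw [ContinuousMultilinearMap.map_sum]
  refine Finset.sum_congr rfl fun w _ => ?_
  rw [ContinuousMultilinearMap.map_smul_univ, smul_eq_mul]

theorem multi_norm_le {k : ℕ} (M : ContinuousMultilinearMap ℝ (fun _ : Fin k => Space d) ℝ) :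
    ‖M‖ ≤ ∑ w : Fin k → Fin d, |M fun l => ev (w l)| := by
  classical
  refine ContinuousMultilinearMap.opNorm_le_bound (Finset.sum_nonneg fun w _ => abs_nonneg _)
    fun A => ?_
  rw [iter_expand M A, Finset.sum_mul, Real.norm_eq_abs]
  refine (Finset.abs_sum_le_sum_abs _ _).trans (Finset.sum_le_sum fun w _ => ?_)
  rw [abs_mul, Finset.abs_prod, mul_comm]
  exact mul_le_mul_of_nonneg_left (Finset.prod_le_prod (fun l _ => abs_nonneg _)
    fun l _ => P245.abs_coord_le (A l) (w l)) (abs_nonneg _)

/-! ### The drift tensors -/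

variable {h : ℝ} (P : Pot d h) {v : ℝ} (hv : 0 < v)

/-- The indices of the next order. -/
def consIdx (d k : ℕ) : Fin d × (Option (Fin k) → Fin d) ≃ (Option (Fin (k + 1)) → Fin d) where
  toFun p o := o.elim (p.2 none) (Fin.cons p.1 fun l => p.2 (some l))
  invFun idx := (idx (some 0), fun o => o.elim (idx none) fun l => idx (some l.succ))
  left_inv p := by
    refine Prod.ext rfl (funext fun o => ?_)
    rcases o with _ | l <;> simp
  right_inv idx := by
    funext o
    rcases o with _ | l
    · rfl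
    · induction l using Fin.cases <;> simp

include hv in
/-- The squares of all derivatives of all entries are those of a higher tensor. -/
theorem sum_iter_sq : ∀ (m k : ℕ) (a : Space d),
    ∑ idx : Option (Fin k) → Fin d, ∑ w : Fin m → Fin d,
        iteratedFDeriv ℝ m (fun b => driftT P v k b idx) a (fun l => ev (w l)) ^ 2
      = hsT (driftT P v (k + m) a)
  | 0, k, a => by simp [hsT]
  | m + 1, k, a => by
    have e : k + (m + 1) = k + 1 + m := by omega
    rw [show hsT (driftT P v (k + (m + 1)) a) = hsT (driftT P v (k + 1 + m) a) by rw [e],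
      ← sum_iter_sq m (k + 1) a, ← (consIdx d k).sum_comp (M := ℝ), Fintype.sum_prod_type]
    conv_rhs => rw [Finset.sum_comm]
    refine Finset.sum_congr rfl fun idx _ => ?_
    rw [← (Fin.snocEquiv fun _ : Fin (m + 1) => Fin d).sum_comp (M := ℝ), Fintype.sum_prod_type]
    refine Finset.sum_congr rfl fun c _ => Finset.sum_congr rfl fun w _ => ?_
    have hF : (fun b => fderiv ℝ (fun b' => driftT P v k b' idx) b (ev c))
        = fun b => driftT P v (k + 1) b (consIdx d k (c, idx)) :=
      funext fun b => fderiv_driftT P hv k b idx c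
    rw [iteratedFDeriv_succ_apply_right]
    simp only [Fin.snocEquiv, Equiv.coe_fn_mk, Fin.snoc_last]
    rw [← iteratedFDeriv_clm_apply_const_apply
      ((contDiff_driftT P hv (m + 1) k idx).fderiv_right (m := (m : WithTop ℕ∞)) (by simp)) le_rfl]
    rw [hF]
    congr 2
    funext l
    simp [Fin.init]

include hv in
/-- The bound on the squares of all entries at the order `k` and `m` more derivatives. -/
theorem hs_driftT_le {j : ℕ} (hj : 1 ≤ j) : ∃ C : ℝ, 0 ≤ C ∧ ∀ a,
    hsT (driftT P v j a) ≤ (d : ℝ) * C ^ 2 := by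
  obtain ⟨C, hC, hb⟩ := drift_splitB j
  have : Nonempty (Fin j) := ⟨⟨0, hj⟩⟩
  exact ⟨C * h * v ^ (-((j : ℝ) - 1) / 2),
    mul_nonneg (mul_nonneg hC P.h_nonneg) (Real.rpow_nonneg hv.le _), fun a => by
    simpa using hsT_le_of_split (A := Unit) (hb d h P v hv a)
      ((Equiv.sumComm Unit (Fin j)).trans (Equiv.optionEquivSumPUnit (Fin j)).symm)⟩

include hv in
theorem sq_entry_le {m k : ℕ} (idx : Option (Fin k) → Fin d) (w : Fin m → Fin d) (a : Space d) :
    iteratedFDeriv ℝ m (fun b => driftT P v k b idx) a (fun l => ev (w l)) ^ 2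
      ≤ hsT (driftT P v (k + m) a) := by
  rw [← sum_iter_sq P hv m k a]
  refine le_trans ?_ (Finset.single_le_sum (f := fun idx : Option (Fin k) → Fin d =>
    ∑ w : Fin m → Fin d, iteratedFDeriv ℝ m (fun b => driftT P v k b idx) a (fun l => ev (w l)) ^ 2)
    (fun i _ => Finset.sum_nonneg fun w _ => sq_nonneg _) (Finset.mem_univ idx))
  exact Finset.single_le_sum (f := fun w : Fin m → Fin d =>
    iteratedFDeriv ℝ m (fun b => driftT P v k b idx) a (fun l => ev (w l)) ^ 2)
    (fun i _ => sq_nonneg _) (Finset.mem_univ w)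

theorem driftT_zero (a : Space d) (idx : Option (Fin 0) → Fin d) :
    driftT P v 0 a idx = driftV P (v, a) (idx none) := by
  simp [driftT, driftV_apply, drift]

include hv in
theorem norm_driftV_le (a : Space d) :
    ‖driftV P (v, a)‖ ≤ ‖driftV P (v, 0)‖ + h * ‖a‖ := by
  have h2 := norm_driftV_sub P hv a 0
  rw [sub_zero] at h2
  linarith [norm_le_norm_add_norm_sub' (driftV P (v, a)) (driftV P (v, 0))]

include hv in
theorem cg_driftV : CG fun a => driftV P (v, a) :=
  ⟨(contDiff_driftV P hv 1).continuous, ‖driftV P (v, 0)‖ + h, 1,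
    add_nonneg (norm_nonneg _) P.h_nonneg, fun a => (norm_driftV_le P hv a).trans (by
      nlinarith [norm_nonneg a, norm_nonneg (driftV P (v, 0)), P.h_nonneg,
        mul_nonneg (norm_nonneg (driftV P (v, 0))) (norm_nonneg a)])⟩

include hv in
theorem cg_driftT {k : ℕ} (hk : 1 ≤ k) (idx : Option (Fin k) → Fin d) :
    CG fun a => driftT P v k a idx := by
  obtain ⟨C, hC, hb⟩ := hs_driftT_le P hv hk
  refine CG.of_bound (contDiff_driftT P hv 0 k idx).continuous fun a =>
    Real.abs_le_sqrt (le_trans ?_ (hb a))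
  exact Finset.single_le_sum (f := fun i => driftT P v k a i ^ 2) (fun i _ => sq_nonneg _)
    (Finset.mem_univ idx)

include hv in
/-- The entries along an affine map are smooth. -/
theorem smooth_entry (k : ℕ) (idx : Option (Fin k) → Fin d) (b : Space d) (σ : ℝ) :
    Smooth fun e => driftT P v k (b + σ • e) idx := by
  intro m
  refine ⟨(contDiff_driftT P hv m k idx).comp (by fun_prop), ?_⟩
  rcases Nat.eq_zero_or_pos (k + m) with h0 | h0
  · obtain ⟨rfl, rfl⟩ : k = 0 ∧ m = 0 := by omega
    obtain ⟨_, c, n, hc0, hc⟩ :=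
      (cg_driftV P hv).comp ((CG.const b).add (CG.clm (σ • ContinuousLinearMap.id ℝ (Space d))))
    refine ⟨c, n, fun e => ?_⟩
    rw [norm_iteratedFDeriv_zero, driftT_zero, Real.norm_eq_abs]
    exact (P245.abs_coord_le _ _).trans (hc e)
  · obtain ⟨C, hC, hb⟩ := hs_driftT_le P hv h0
    refine ⟨∑ _w : Fin m → Fin d, |σ| ^ m * Real.sqrt ((d : ℝ) * C ^ 2), 0, fun e => ?_⟩
    rw [pow_zero, mul_one]
    refine (multi_norm_le _).trans (Finset.sum_le_sum fun w _ => ?_)
    rw [iter_aff (contDiff_driftT P hv m k idx) b σ e, abs_mul, abs_pow]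
    exact mul_le_mul_of_nonneg_left
      (Real.abs_le_sqrt ((sq_entry_le P hv idx w _).trans (hb _))) (by positivity)

include hv in
/-- The derivative of the drift along an affine map, applied to vectors. -/
theorem iter_drift_apply (k : ℕ) (b : Space d) (σ : ℝ) (z : Space d) (i : Fin d)
    (A : Fin k → Space d) :
    iteratedFDeriv ℝ k (fun e => driftT P v 0 (b + σ • e) fun o => o.elim i Fin.elim0) z A
      = σ ^ k * ∑ w : Fin k → Fin d,
          (∏ l, A l (w l)) * driftT P v k (b + σ • z) fun o => o.elim i w := by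
  have e : (fun e => driftT P v 0 (b + σ • e) fun o => o.elim i Fin.elim0)
      = fun e => post P v (fun x => P.g x i) (b + σ • e) := funext fun e => by simp [driftT]
  rw [e, iter_aff (contDiff_post P hv (measurable_gcoord P i) (grow_gcoord P i) k) b σ z,
    iter_expand]
  rfl

/-- The tensor applied to inputs at its derivative legs. -/
def apTv {k : ℕ} (T : Ten d (Option (Fin k))) (A : Fin k → Space d) : Space d :=
  apT none T fun o => o.elim 0 A

theorem apT_none {k : ℕ} (T : Ten d (Option (Fin k))) (A : Option (Fin k) → Space d) :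
    apT none T A = apTv T fun l => A (some l) := by
  simp only [apTv, apT]
  refine Finset.sum_congr rfl fun idx _ => ?_
  congr 2
  refine Finset.prod_congr rfl fun o ho => ?_
  rcases o with _ | l
  · exact absurd rfl (Finset.ne_of_mem_erase ho)
  · rfl

theorem apTv_coord {k : ℕ} (T : Ten d (Option (Fin k))) (A : Fin k → Space d) (i : Fin d) :
    apTv T A i = ∑ w : Fin k → Fin d, (∏ l, A l (w l)) * T fun o => o.elim i w := by
  classical
  have hs : (Finset.univ : Finset (Option (Fin k))).erase none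
      = Finset.univ.map Function.Embedding.some := by
    ext o; cases o <;> simp
  simp only [apTv, apT, WithLp.ofLp_sum, Finset.sum_apply, hs, Finset.prod_map]
  rw [← (Equiv.piOptionEquivProd (β := fun _ : Option (Fin k) => Fin d)).symm.sum_comp,
    Fintype.sum_prod_type, Finset.sum_eq_single i]
  · refine Finset.sum_congr rfl fun w _ => ?_
    have he : ((Equiv.piOptionEquivProd (β := fun _ : Option (Fin k) => Fin d)).symm (i, w))
        = fun o => o.elim i w := by
      funext o; cases o <;> rfl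
    rw [he]
    simp [ev, mul_comm]
  · intro c _ hc
    refine Finset.sum_eq_zero fun w _ => ?_
    simp [Equiv.piOptionEquivProd, ev, Ne.symm hc]
  · simp

theorem apTv_sq {k : ℕ} (T : Ten d (Option (Fin k))) :
    Integrable (fun A => ‖apTv T A‖ ^ 2) (gp (Fin k) d) ∧
      ∫ A, ‖apTv T A‖ ^ 2 ∂gp (Fin k) d = hsT T := by
  have hmp := Loc.gp_comp (d := d) (Option.some_injective (Fin k))
  have h := apT_sq none T
  simp only [apT_none] at h
  have hc : Continuous fun A : Fin k → Space d => ‖apTv T A‖ ^ 2 :=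
    (continuous_apT none (T := fun _ => T) continuous_const
      (A := fun A o => Option.elim o 0 A) (continuous_pi fun o => by
        cases o with
        | none => exact continuous_const
        | some l => exact continuous_apply l)).norm.pow 2
  refine ⟨(hmp.integrable_comp hc.aestronglyMeasurable).1 h.1, ?_⟩
  rw [← h.2]
  exact (Loc.mp_integral hmp hc.aestronglyMeasurable).symm

end Vtx

end Vale.Agent.P347.Zero
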