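import Vale.Agent.P347.Zero.SamBasics

/-!
Programs of a vertex: a weighted sum of programs read at permuted blocks and inputs, topped up to
unit noise.
-/

noncomputable section

open MeasureTheory ProbabilityTheory Set
open scoped RealInnerProductSpace NNReal

namespace Vale.Agent.P347.Zero

namespace Vtx

/-! ### Finite sums of programs -/

section FSum

variable {d : ℕ} {B I : Type} [Fintype B] [Fintype I] {X : Type} [Fintype X]

theorem sum_rangeF {M : Type} [AddCommMonoid M] (F : X → M) (z : M) :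
    ∑ l ∈ Finset.range (Fintype.card X),
        (if h : l < Fintype.card X then F ((Fintype.equivFin X).symm ⟨l, h⟩) else z)
      = ∑ x, F x := by
  rw [Finset.sum_range, ← (Fintype.equivFin X).symm.sum_comp]
  exact Finset.sum_congr rfl fun i _ => dif_pos i.2

/-- The sum of finitely many programs. -/
def fsum (P : X → Prog d B I) : Prog d B I :=
  Prog.sum (fun l => if h : l < Fintype.card X then P ((Fintype.equivFin X).symm ⟨l, h⟩)
    else Prog.noise d B I 0) (Fintype.card X)

theorem fsum_q (P : X → Prog d B I) : (fsum P).q = ∑ x, (P x).q := by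
  rw [fsum, Prog.sum_q, ← sum_rangeF (fun x => (P x).q) 0]
  refine Finset.sum_congr rfl fun l hl => ?_
  rw [dif_pos (Finset.mem_range.1 hl), dif_pos (Finset.mem_range.1 hl)]

theorem fsum_lip {P : X → Prog d B I} {G : Space d → Space d} {K : X → ℝ}
    (h : ∀ x, (P x).Lip G (K x)) : (fsum P).Lip G (∑ x, K x) := by
  rw [← sum_rangeF K 0]
  refine Prog.sum_lip _ fun l hl => ?_
  rw [dif_pos hl, dif_pos hl]
  exact h _

theorem fsum_lipW {P : X → Prog d B I} {G : Space d → Space d} (h : ∀ x, (P x).LipW G) :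
    (fsum P).LipW G :=
  Prog.sum_lipW _ fun l hl => by rw [dif_pos hl]; exact h _

theorem fsum_close {P : X → Prog d B I} {G : Space d → Space d} {p : Space d} {x : B → Space d}
    {A : I → Space d} {v : X → Space d} {s e : X → ℝ}
    (h : ∀ y, (P y).CloseAt G p x A (v y) (s y) (e y)) :
    (fsum P).CloseAt G p x A (∑ y, v y) (Real.sqrt (∑ y, s y ^ 2)) (∑ y, e y) := by
  rw [← sum_rangeF v 0, ← sum_rangeF e 0, ← sum_rangeF (fun y => s y ^ 2) 0]
  have hsq : ∀ l, ((if h : l < Fintype.card X then s ((Fintype.equivFin X).symm ⟨l, h⟩) else 0) ^ 2)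
      = if h : l < Fintype.card X then s ((Fintype.equivFin X).symm ⟨l, h⟩) ^ 2 else 0 := fun l => by
    split_ifs <;> simp
  simp only [← hsq]
  refine Prog.sum_close _ fun l hl => ?_
  rw [dif_pos hl, dif_pos hl, dif_pos hl, dif_pos hl]
  exact h _

end FSum

/-! ### The inputs of the averaged values -/

/-- The blocks and inputs of an averaged value among those of the vertex. -/
def inPerm (C : Type) (k : ℕ) : (C ⊕ (Unit ⊕ Fin k)) ⊕ Unit ≃ (C ⊕ Unit) ⊕ Option (Fin k) where
  toFun := Sum.elim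
    (Sum.elim (fun c => .inl (.inl c)) (Sum.elim (fun _ => .inl (.inr ())) fun i => .inr (some i)))
    fun _ => .inr none
  invFun := Sum.elim
    (Sum.elim (fun c => .inl (.inl c)) fun _ => .inl (.inr (.inl ())))
    fun o => o.elim (.inr ()) fun i => .inl (.inr (.inr i))
  left_inv z := by rcases z with (c | ⟨⟩ | i) | ⟨⟩ <;> rfl
  right_inv z := by rcases z with (c | ⟨⟩) | (_ | i) <;> rfl

theorem apT_unit {d : ℕ} (T : Ten d Unit) (A : Unit → Space d) :
    apT () T A = ∑ c, T (fun _ => c) • ev c := by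
  rw [apT, ← (Equiv.funUnique Unit (Fin d)).symm.sum_comp]
  refine Finset.sum_congr rfl fun c _ => ?_
  have hc : (Equiv.funUnique Unit (Fin d)).symm c = fun _ => c := rfl
  simp [hc]

/-- A weighted sum of realised values, topped up: if it misses the target by little in mean, it
realises the target. -/
theorem run_comb {S : Sys} {B B' I I' X : Type} [Fintype B] [DecidableEq B] [Fintype B']
    [DecidableEq B'] [Fintype I] [DecidableEq I] [Fintype I'] [DecidableEq I'] [Fintype X]
    (σ : B ⊕ I ≃ B' ⊕ I') (o : I) (o' : I') (T : Fld S B' I') (U : X → Fld S B I)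
    (w : S.key → X → ℝ) {κ a a₁ g g' ε ε' : ℝ} (hε : ε' < ε) (hg : g ≤ g')
    (R : X → Run S B I) (hq : ∀ x, (R x).Cheap ε') (hl : ∀ x, (R x).LipAll)
    (hin : ∀ x, (R x).LipIn g') (hlaw : ∀ x, (R x).Law κ a₁ o (U x))
    (hw : S.Ev fun i => ∑ x, |w (S.pub i) x| ≤ 1)
    (hdiff : ∀ η : ℝ, 0 < η → S.Ev fun i => ∀ p,
      ∃ δ : (B' → Space (S.dm i)) × (I' → Space (S.dm i)) → ℝ,
        Integrable δ ((gp B' (S.dm i)).prod (gp I' (S.dm i))) ∧
          ∫ z, δ z ∂(gp B' (S.dm i)).prod (gp I' (S.dm i)) ≤ S.dd i ^ (η - κ) * S.wt i p ∧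
          ∀ y A, ‖(∑ x, w (S.pub i) x • S.dd i ^ a₁ •
              apT o (U x i p (permIO σ (y, A)).1) (permIO σ (y, A)).2)
            - S.dd i ^ a • apT o' (T i p y) A‖ ≤ δ (y, A)) :
    ∃ P : Run S B' I', P.Cheap ε ∧ P.LipAll ∧ P.LipIn g ∧ P.Law κ a o' T := by
  classical
  set top : S.key → ℝ := fun n => Real.sqrt (max 0 (1 - ∑ x, w n x ^ 2))
  refine ⟨Run.of fun n => (fsum fun x => (((R x).atK n).comap (permIO σ)).smul (w n x)).add
      (Prog.noise (S.kdm n) B' I' (top n)), ?_, fun i => ?_, Run.lipIn_of fun η hη => ?_,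
    Run.law_of_close fun η hη => ?_⟩
  · choose d₀ hd₀ using hq
    have hev : S.Ev fun i => ∀ x, ((R x).q i : ℝ) ≤ S.dd i ^ ε' :=
      ⟨Finset.univ.sup d₀, fun i hi x => hd₀ x i ((Finset.le_sup (Finset.mem_univ x)).trans hi)⟩
    refine ((S.ev_le_rpow (Fintype.card X) (sub_pos.2 hε)).and
      (S.ev_one_le.and hev)).mono fun i ⟨h2, hd, h1⟩ => ?_
    show (((fsum fun x => (((R x).atK (S.pub i)).comap (permIO σ)).smul (w (S.pub i) x)).q + 0 : ℕ)
      : ℝ) ≤ _
    rw [add_zero, fsum_q, Nat.cast_sum]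
    refine (Finset.sum_le_sum fun x _ => h1 x).trans ?_
    rw [Finset.sum_const, Finset.card_univ, nsmul_eq_mul]
    refine (mul_le_mul_of_nonneg_right h2 (Real.rpow_nonneg (Nat.cast_nonneg _) _)).trans_eq ?_
    rw [← Real.rpow_add (by linarith), sub_add_cancel]
  · exact Prog.add_lipW (fsum_lipW fun x => Prog.smul_lipW
      (Prog.comap_lipW ((hl x).lipW i) _) _) (Prog.noise_lipW _ _)
  · choose d₀ hd₀ using fun x => (hin x).lip hη
    have hev : S.Ev fun i => ∀ x, ((R x).at i).Lip (S.og i) (S.dd i ^ (η - g')) :=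
      ⟨Finset.univ.sup d₀, fun i hi x => hd₀ x i ((Finset.le_sup (Finset.mem_univ x)).trans hi)⟩
    refine ((hev.and hw).and S.ev_one_le).mono fun i ⟨⟨h1, h2⟩, hd⟩ => ?_
    refine (Prog.add_lip (fsum_lip fun x => Prog.smul_lip (Prog.comap_lip
      (Real.rpow_nonneg (by linarith) _) (h1 x) (permIO σ) le_rfl
      fun z => by rw [permIO_norm, one_mul]) (w (S.pub i) x)) (Prog.noise_lip _ _)).mono ?_
    rw [add_zero, mul_one, ← Finset.sum_mul]
    exact (mul_le_of_le_one_left (Real.rpow_nonneg (by linarith) _) h2).trans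
      (Real.rpow_le_rpow_of_exponent_le hd (by linarith))
  · choose d₀ hd₀ using fun x => (hlaw x).close (hl x) (half_pos hη)
    have hev : S.Ev fun i => ∀ x p, ∃ e : (B → Space (S.dm i)) × (I → Space (S.dm i)) → ℝ,
        Integrable e ((gp B (S.dm i)).prod (gp I (S.dm i))) ∧
          ∫ z, e z ∂(gp B (S.dm i)).prod (gp I (S.dm i)) ≤ S.dd i ^ (η / 2 - κ) * S.wt i p ∧
          ∀ y A, ((R x).at i).CloseAt (S.og i) p y A
            (S.dd i ^ a₁ • apT o (U x i p y) A) 1 (e (y, A)) :=
      ⟨Finset.univ.sup d₀, fun i hi x => hd₀ x i ((Finset.le_sup (Finset.mem_univ x)).trans hi)⟩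
    refine (((hev.and hw).and (hdiff (η / 2) (half_pos hη))).and
      (S.ev_one_le.and (S.ev_le_rpow 2 (half_pos hη)))).mono
        fun i ⟨⟨⟨h1, h2⟩, h3⟩, hd, h2d⟩ p => ?_
    choose e he hb hc using fun x => h1 x p
    obtain ⟨δ, hδ, hδb, hδc⟩ := h3 p
    have hmp : MeasurePreserving (permIO (d := S.dm i) σ)
        ((gp B' (S.dm i)).prod (gp I' (S.dm i))) ((gp B (S.dm i)).prod (gp I (S.dm i))) :=
      permIO_mp σ
    have hei : ∀ x, Integrable (fun z => |w (S.pub i) x| * e x (permIO σ z))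
        ((gp B' (S.dm i)).prod (gp I' (S.dm i))) :=
      fun x => (hmp.integrable_comp_of_integrable (he x)).const_mul _
    refine ⟨fun z => (∑ x, |w (S.pub i) x| * e x (permIO σ z)) + δ z,
      (integrable_finsetSum _ fun x _ => hei x).add hδ, ?_, fun y A => ?_⟩
    · rw [integral_add (integrable_finsetSum _ fun x _ => hei x) hδ,
        integral_finsetSum _ fun x _ => hei x]
      simp only [integral_const_mul]
      have ei : ∀ x, ∫ z, e x (permIO σ z) ∂(gp B' (S.dm i)).prod (gp I' (S.dm i))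
          ≤ S.dd i ^ (η / 2 - κ) * S.wt i p := fun x => by
        refine (le_of_eq ?_).trans (hb x)
        conv_rhs => rw [← hmp.map_eq]
        rw [integral_map hmp.measurable.aemeasurable]
        rw [hmp.map_eq]
        exact (he x).1
      refine (add_le_add ((Finset.sum_le_sum fun x _ => mul_le_mul_of_nonneg_left (ei x)
        (abs_nonneg _)).trans ((Finset.sum_mul _ _ _).symm.trans_le (mul_le_of_le_one_left
          (mul_nonneg (Real.rpow_nonneg (by linarith) _) (S.wt_nonneg i p)) h2))) hδb).trans ?_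
      rw [← add_mul, ← two_mul]
      refine mul_le_mul_of_nonneg_right ?_ (S.wt_nonneg i p)
      refine (mul_le_mul_of_nonneg_right h2d (Real.rpow_nonneg (Nat.cast_nonneg _) _)).trans_eq ?_
      rw [← Real.rpow_add (by linarith)]
      ring_nf
    have hterm := fsum_close (P := fun x => (((R x).atK (S.pub i)).comap (permIO σ)).smul (w (S.pub i) x))
      fun x => Prog.smul_close
        (Prog.comap_close (permIO σ) (hc x (permIO σ (y, A)).1 (permIO σ (y, A)).2)) (w (S.pub i) x)
    have hall := Prog.add_close hterm (Prog.noise_close (top (S.pub i)) (S.og i) p y A)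
    have hw2 : ∑ x, w (S.pub i) x ^ 2 ≤ 1 := by
      refine le_trans (Finset.sum_le_sum fun x _ => ?_) h2
      rw [← sq_abs, sq]
      exact mul_le_of_le_one_left (abs_nonneg _)
        ((Finset.single_le_sum (f := fun l => |w (S.pub i) l|) (fun l _ => abs_nonneg _)
          (Finset.mem_univ x)).trans h2)
    have hone : Real.sqrt (Real.sqrt (∑ x, (w (S.pub i) x * 1) ^ 2) ^ 2 + top (S.pub i) ^ 2) = 1 := by
      simp only [mul_one, top]
      rw [Real.sq_sqrt (Finset.sum_nonneg fun _ _ => sq_nonneg _), Real.sq_sqrt (le_max_left _ _),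
        max_eq_right (by linarith), add_sub_cancel, Real.sqrt_one]
    rw [hone] at hall
    refine (hall.trans (Close.gauss_shift _ (S.dd i ^ a • apT o' (T i p y) A) 1 1)).mono ?_
    rw [sub_self, abs_zero, zero_mul, add_zero, add_zero, add_zero]
    exact add_le_add le_rfl (hδc y A)

end Vtx

end Vale.Agent.P347.Zero
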