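import Vale.Agent.P347.Zero.VtxBasic
import Vale.Agent.P347.Zero.SamBd
import Vale.Agent.P347.Zero.Apply

/-!
The derivatives of the drift at a node with noise a combination of several standard blocks, as
substitutions into the vertices, and their derivatives in the private block.
-/

noncomputable section

open MeasureTheory ProbabilityTheory
open scoped RealInnerProductSpace NNReal

namespace Vale.Agent.P347.Zero

namespace Vtx

variable {γ H B δv b S : ℝ} {C K : Type} [Fintype C] [DecidableEq C] [Fintype K] [DecidableEq K]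
  {J : Type} {f : J → NI γ H δv b S}

/-- The rows of the substitution: the point keeps its blocks, the noise is the combination. -/
def subM (c₀ : ℝ) (c : K → ℝ) : C ⊕ Unit → Unit ⊕ (C ⊕ K) → ℝ
  | .inl l, .inr (.inl l') => if l = l' then 1 else 0
  | .inr _, .inl _ => c₀
  | .inr _, .inr (.inr l) => c l
  | _, _ => 0

omit [DecidableEq K] in
theorem subM_orth {c₀ : ℝ} {c : K → ℝ} (h : c₀ ^ 2 + ∑ l, c l ^ 2 = 1) (x y : C ⊕ Unit) :
    ∑ z : Unit ⊕ (C ⊕ K), subM c₀ c x z * subM c₀ c y z = if x = y then 1 else 0 := by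
  rcases x with x | ⟨⟩ <;> rcases y with y | ⟨⟩ <;>
    simp [Fintype.sum_sum_type, subM, ← sq, eq_comm, h]

omit [Fintype C] [Fintype K] [DecidableEq K] in
theorem subM_abs {c₀ : ℝ} {c : K → ℝ} (h0 : |c₀| ≤ 1) (h : ∀ l, |c l| ≤ 1) (x : C ⊕ Unit)
    (z : Unit ⊕ (C ⊕ K)) : |subM c₀ c x z| ≤ 1 := by
  rcases x with x | ⟨⟩ <;> rcases z with z | z | z <;> simp only [subM]
  · simp
  · split_ifs <;> simp
  · simp
  · exact h0
  · simp
  · exact h z

/-- The vertex at the substituted noise. -/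
def nodeFld (k : ℕ) (Y : Fld (NQ B f) C Unit) (c₀ : NK γ H δv b S → ℝ) (c : NK γ H δv b S → K → ℝ) :
    Fld (NQ B f) (Unit ⊕ (C ⊕ K)) (Option (Fin k)) :=
  subB (fun j => mixB ((NQ B f).dm j) (subM (c₀ (f j).pub) (c (f j).pub))) (vtx k Y)

theorem mix_inl (d : ℕ) (c₀ : ℝ) (c : K → ℝ) (x : Unit ⊕ (C ⊕ K) → Space d) (l : C) :
    mixB d (subM c₀ c) x (.inl l) = x (.inr (.inl l)) := by
  simp [mixB_apply, Fintype.sum_sum_type, subM]

omit [DecidableEq K] in
theorem mix_inr (d : ℕ) (c₀ : ℝ) (c : K → ℝ) (x : Unit ⊕ (C ⊕ K) → Space d) :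
    mixB d (subM (C := C) c₀ c) x (.inr ())
      = c₀ • x (.inl ()) + ∑ l, c l • x (.inr (.inr l)) := by
  simp [mixB_apply, Fintype.sum_sum_type, subM]

theorem mix_single (d : ℕ) (c₀ : ℝ) (c : K → ℝ) (v : Space d) :
    mixB d (subM (C := C) c₀ c) (Pi.single (.inl ()) v) = c₀ • Pi.single (.inr ()) v := by
  funext l
  rcases l with l | u
  · simp [mix_inl]
  · obtain rfl : u = () := rfl
    rw [mix_inr]
    simp

/-- The relabelling of the single leg. -/
def oneLeg : Option (Fin 0) ≃ Unit where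
  toFun _ := ()
  invFun _ := none
  left_inv o := by rcases o with _ | i <;> [rfl; exact i.elim0]
  right_inv _ := rfl

theorem valFld_eq (Y : Fld (NQ B f) C Unit) (c₀ : NK γ H δv b S → ℝ) (c : NK γ H δv b S → K → ℝ) :
    valFld Y c₀ c = reL oneLeg (nodeFld 0 Y c₀ c) := by
  funext (j : J) p x idx
  show _ = vtx 0 Y j p (mixB _ (subM (c₀ (f j).pub) (c (f j).pub)) x) (idx ∘ oneLeg)
  simp only [vtx, valFld, pow_zero, one_mul, mix_inl, mix_inr]
  congr 2
  funext o
  rcases o with _ | i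
  · rfl
  · exact i.elim0

theorem nodeFld_sm (k : ℕ) {Y : Fld (NQ B f) C Unit} (hY : Sm Y) (c₀ : NK γ H δv b S → ℝ) (c : NK γ H δv b S → K → ℝ)
    : Sm (nodeFld k Y c₀ c) :=
  (vtx_sm k hY).subB _

/-- The derivative in the private block. -/
theorem dB_nodeFld (k : ℕ) {Y : Fld (NQ B f) C Unit} (hY : Sm Y) (c₀ : NK γ H δv b S → ℝ) (c : NK γ H δv b S → K → ℝ) :
    dB (.inl ()) (nodeFld k Y c₀ c)
      = smulF (fun j : J => c₀ (f j).pub * Real.sqrt (1 - (f j).a ^ 2))
          (reL (shiftO k) (nodeFld (k + 1) Y c₀ c)) := by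
  funext (j : J) p x idx
  set ψ := mixB ((NQ B f).dm j) (subM (C := C) (c₀ (f j).pub) (c (f j).pub))
  set g : (C ⊕ Unit → Space ((NQ B f).dm j)) → ℝ :=
    fun y => vtx k Y j p y fun o => idx (some o)
  have hd : DifferentiableAt ℝ g (ψ x) :=
    ((vtx_sm k hY j p (fun o => idx (some o)) 1).1.differentiable (by norm_num)) _
  show fderiv ℝ (g ∘ ψ) x (Pi.single (.inl ()) (ev (idx none))) = _
  rw [fderiv_comp x hd ψ.differentiableAt, ψ.fderiv, ContinuousLinearMap.comp_apply, mix_single,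
    map_smul, smul_eq_mul]
  show c₀ (f j).pub * dB (.inr ()) (vtx k Y) j p (ψ x) idx = _
  rw [dB_vtx k hY]
  show c₀ (f j).pub * (Real.sqrt (1 - (f j).a ^ 2) * _) = c₀ (f j).pub * Real.sqrt (1 - (f j).a ^ 2) * _
  rw [mul_assoc]
  rfl

end Vtx

end Vale.Agent.P347.Zero
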